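import Vale.Agent.P022K.PM.Co4

/-!
# P022K / PM / Co5: the two dimensional eigenspaces of the coefficient field (helper4)
-/

namespace Vale.Agent.P022K.PM

set_option linter.unusedSectionVars false

open Matrix Module TensorProduct

variable {n E K : Type} [Fintype n] [DecidableEq n] [Field E] [Algebra ℚ E] [Field K] [CharZero K]

/-- the rows of `Q` are a basis of the eigenspace of `μ` -/
structure Fm (r : E →ₐ[ℚ] Matrix n n ℚ) (μ : E →+* K) (Q : Matrix (Fin 2) n K) : Prop where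
  eig : ∀ a, Q * (r a).map ((↑) : ℚ → K) = μ a • Q
  spn : ∀ x : n → K, (∀ a, x ᵥ* (r a).map (↑) = μ a • x) → ∃ c, x = c ᵥ* Q
  ind : ∀ c, c ᵥ* Q = 0 → c = 0

namespace Fm

variable {r : E →ₐ[ℚ] Matrix n n ℚ} {μ : E →+* K} {Q : Matrix (Fin 2) n K} (F : Fm r μ Q)

include F

theorem unq {m : Type} {ρ ρ' : Matrix m (Fin 2) K} (h : ρ * Q = ρ' * Q) : ρ = ρ' := by
  funext i
  exact sub_eq_zero.1 (F.ind _ (by rw [sub_vecMul]; exact sub_eq_zero.2 (congrFun h i)))

theorem fac {m : Type} {X : Matrix m n K} (h : ∀ a, X * (r a).map ((↑) : ℚ → K) = μ a • X) :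
    ∃ P : Matrix m (Fin 2) K, X = P * Q := by
  choose c hc using fun i => F.spn (X i) fun a => congrFun (h a) i
  exact ⟨Matrix.of c, funext hc⟩

theorem ex {u : Matrix n n K} (h : ∀ a, u * (r a).map (↑) = (r a).map (↑) * u) :
    ∃ ρ : Matrix (Fin 2) (Fin 2) K, Q * u = ρ * Q := F.fac fun a => by
  rw [Matrix.mul_assoc, h, ← Matrix.mul_assoc, F.eig, Matrix.smul_mul]

variable [FiniteDimensional ℚ E] {J : Matrix n n ℚ} (H : Sy r J)

include H

theorem idem : ∃ P : Matrix n (Fin 2) K, Q * P = 1 ∧ (P * Q)ᵀ * J.map (↑) = J.map (↑) * (P * Q) ∧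
    P * Q ∈ Submodule.span K (Set.range fun a => (r a).map ((↑) : ℚ → K)) := by
  have : CharZero E := algebraRat.charZero E
  obtain ⟨t, h1, h2⟩ := (Algebra.FormallyUnramified.iff_exists_tensorProduct (R := ℚ) (S := E)).1
    (Algebra.FormallyUnramified.of_isSeparable ℚ E)
  let ρ : E →ₐ[ℚ] Matrix n n K := (Algebra.ofId ℚ K).mapMatrix.comp r
  let ν : E →ₐ[ℚ] Matrix n n K := ((algebraMap K _).comp μ).toRatAlgHom
  let Φ := Algebra.TensorProduct.lift ν ρ fun a b => Algebra.commutes (μ a) (ρ b)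
  have e : ∀ a b, Φ (a ⊗ₜ b) = μ a • (r b).map (↑) := fun a b =>
    (Algebra.TensorProduct.lift_tmul _ _ _ a b).trans (Algebra.smul_def (μ a) (ρ b)).symm
  have h3 : ∀ x, Q * Φ x = μ (Algebra.TensorProduct.lmul' ℚ x) • Q ∧
      (Φ x)ᵀ * J.map (↑) = J.map (↑) * Φ x ∧
      Φ x ∈ Submodule.span K (Set.range fun a => (r a).map ((↑) : ℚ → K)) := fun x => by
    induction x with
    | zero => simp
    | tmul a b =>
      rw [e]
      refine ⟨by rw [Matrix.mul_smul, F.eig, smul_smul]; simp, ?_,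
        Submodule.smul_mem _ _ (Submodule.subset_span ⟨b, rfl⟩)⟩
      rw [transpose_smul, smul_mul_assoc, mul_smul_comm]
      exact congrArg _ ((Matrix.map_mul (f := Rat.castHom K)).symm.trans
        ((congrArg (fun x : Matrix n n ℚ => x.map _) (H.adj b)).trans Matrix.map_mul))
    | add x y a b =>
      simp only [map_add, Matrix.mul_add, transpose_add, add_mul, add_smul, a.1, a.2.1, b.1, b.2.1]
      exact ⟨trivial, trivial, add_mem a.2.2 b.2.2⟩
  obtain ⟨P, hP⟩ := F.fac (X := Φ t) fun a => by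
    have := congrArg Φ ((mul_comm _ _).trans (h1 a))
    rw [map_mul, map_sub, e, e, map_zero, mul_sub, sub_eq_zero] at this
    simpa using this
  obtain ⟨h4, h5, h6⟩ := h3 t
  rw [h2, map_one, one_smul] at h4
  rw [hP] at h4 h5 h6
  exact ⟨P, F.unq (by rw [Matrix.mul_assoc, h4, Matrix.one_mul]), h5, h6⟩

theorem det {u : Matrix n n K} {q : K} (h0 : q ≠ 0) (hq : uᵀ * J.map (↑) * u = q • J.map (↑))
    {ρ : Matrix (Fin 2) (Fin 2) K} (h : Q * u = ρ * Q) : ρ.det = q := by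
  obtain ⟨P, h1, h2, -⟩ := F.idem H
  have h3 : IsUnit (J.map ((↑) : ℚ → K)).det :=
    ((Rat.castHom K).map_det J) ▸ H.unit.map (Rat.castHom K)
  have h4 : (J.map ((↑) : ℚ → K))ᵀ = -J.map (↑) := by
    rw [← transpose_map, H.alt]; ext; simp
  generalize J.map ((↑) : ℚ → K) = J' at *
  have h5 : J'⁻¹ᵀ = -J'⁻¹ := by
    rw [transpose_nonsing_inv, h4]
    exact inv_eq_left_inv (by rw [neg_mul_neg, nonsing_inv_mul _ h3])
  have h6 : u * J'⁻¹ * uᵀ = q • J'⁻¹ := by
    have : u * (q⁻¹ • (J'⁻¹ * uᵀ * J')) = 1 := mul_eq_one_comm.1 (by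
      rw [smul_mul_assoc, mul_assoc, mul_assoc, ← mul_assoc uᵀ, hq, mul_smul_comm,
        nonsing_inv_mul _ h3, inv_smul_smul₀ h0])
    rw [mul_smul_comm, inv_smul_eq_iff₀ h0, ← mul_assoc, ← mul_assoc] at this
    rw [← mul_nonsing_inv_cancel_right J' (u * J'⁻¹ * uᵀ) h3, this, smul_mul_assoc, one_mul]
  have h7 : ρ * (Q * J'⁻¹ * Qᵀ) * ρᵀ = q • (Q * J'⁻¹ * Qᵀ) := by
    rw [← Matrix.mul_assoc, ← Matrix.mul_assoc, ← h, Matrix.mul_assoc _ Qᵀ, ← transpose_mul, ← h,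
      transpose_mul, ← Matrix.smul_mul, ← Matrix.mul_smul, ← h6]
    simp only [Matrix.mul_assoc]
  have h8 : (Q * J'⁻¹ * Qᵀ)ᵀ = -(Q * J'⁻¹ * Qᵀ) := by
    rw [transpose_mul, transpose_mul, transpose_transpose, h5]
    simp [Matrix.mul_assoc]
  have h9 : Q * J'⁻¹ * Qᵀ ≠ 0 := fun e => by
    have : Q * (J'⁻¹ * ((P * Q)ᵀ * J')) * P = 0 := by
      rw [transpose_mul, ← Matrix.mul_assoc, ← Matrix.mul_assoc, ← Matrix.mul_assoc, e]
      simp
    rw [h2, nonsing_inv_mul_cancel_left _ _ h3, ← Matrix.mul_assoc, h1, Matrix.one_mul, h1] at this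
    exact one_ne_zero this
  generalize Q * J'⁻¹ * Qᵀ = G at *
  have g0 : G 0 0 = 0 := self_eq_neg.1 (congrFun (congrFun h8 0) 0)
  have g1 : G 1 1 = 0 := self_eq_neg.1 (congrFun (congrFun h8 1) 1)
  have g2 : G 1 0 = -G 0 1 := congrFun (congrFun h8 0) 1
  have g3 : G 0 1 ≠ 0 := fun e => h9 (by
    ext i j
    fin_cases i <;> fin_cases j <;> simp [g0, g1, g2, e])
  have := congrFun (congrFun h7 0) 1
  simp only [mul_apply, Fin.sum_univ_two, transpose_apply, g0, g1, g2, Matrix.smul_apply,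
    smul_eq_mul] at this
  rw [det_fin_two]
  exact mul_right_cancel₀ g3 (by linear_combination this)

theorem trace {u : Matrix n n K} {q : K} (h0 : q ≠ 0) (hq : uᵀ * J.map (↑) * u = q • J.map (↑))
    {ρ : Matrix (Fin 2) (Fin 2) K} (h : Q * u = ρ * Q) {a : E}
    (ha : u * u + q • 1 = (r a).map (↑) * u) : ρ.trace = μ a := by
  have h1 := F.det H h0 hq h
  have h2 : ρ * ρ + q • 1 = μ a • ρ := F.unq (by
    rw [Matrix.add_mul, Matrix.mul_assoc, ← h, ← Matrix.mul_assoc, ← h, Matrix.smul_mul,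
      Matrix.smul_mul, ← h, ← Matrix.smul_mul (μ a), ← F.eig, Matrix.mul_assoc, Matrix.mul_assoc, ← ha]
    simp [Matrix.mul_add])
  have a0 := congrFun (congrFun h2 0) 0
  have a1 := congrFun (congrFun h2 0) 1
  simp only [Matrix.add_apply, mul_apply, Fin.sum_univ_two, Matrix.smul_apply, smul_eq_mul,
    one_apply_eq, ne_eq, zero_ne_one, not_false_eq_true, one_apply_ne] at a0 a1
  rw [det_fin_two] at h1
  rw [trace_fin_two]
  exact mul_right_cancel₀ h0 (by
    linear_combination (ρ 1 1) * a0 - (ρ 1 0) * a1 + (μ a - ρ 0 0) * h1)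

end Fm

end Vale.Agent.P022K.PM
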