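import Vale.Agent.P022K.PM.Co1
import Vale.Agent.P022K.PM.Ta1

/-!
# P022K / PM / Co2: the ring of adelic matrices realised by endomorphisms (helper4)
-/

namespace Vale.Agent.P022K.PM

set_option linter.unusedSectionVars false

open Matrix TP Vale.Agent.P010M Vale.Agent.P010MBas Vale.Agent.P010M81

variable {n k F ι : Type} [Fintype n] [DecidableEq n] [CommRing k] [Field F] [IsAlgClosed F]
  [Finite ι] {A : AbSch k ι} {φ : k →+* F} {p : ℕ} {pt : (n → ℚ) →+ A.P φ}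
  (ht : ∀ r : TP.Pr, r.1 ≠ p → TPt r.1 pt)

/-- the action on the Tate module at `r` -/
noncomputable def tau (r : TP.Pr) (h : r.1 ≠ p) : RHom A φ A φ →+* Matrix n n ℚ_[r.1] :=
  (ht r h).tm.rho.comp (RHom.act (RingHom.id F) φ.id_comp)

theorem tau_rz (r : TP.Pr) (h : r.1 ≠ p) (w : RHom A φ A φ) :
    (ht r h).tm.Rz (ht r h).tm (act0 w) (tau ht r h w) := Tm.rho_rz _ _

/-- adelic matrices realised, away from `p`, by an endomorphism -/
def Er : Subring (Matrix n n Af) where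
  carrier := {u | ∃ w, ∀ r h, tau ht r h w = mp r u}
  mul_mem' := fun ⟨a, ha⟩ ⟨b, hb⟩ => ⟨a * b, fun r h => by rw [map_mul, map_mul, ha, hb]⟩
  one_mem' := ⟨1, fun r h => by rw [map_one, map_one]⟩
  add_mem' := fun ⟨a, ha⟩ ⟨b, hb⟩ => ⟨a + b, fun r h => by rw [map_add, map_add, ha, hb]⟩
  zero_mem' := ⟨0, fun r h => by rw [map_zero, map_zero]⟩
  neg_mem' := fun ⟨a, ha⟩ => ⟨-a, fun r h => by rw [map_neg, map_neg, ha]⟩

theorem Ad.mem (hp : p.Prime) {w : RHom A φ A φ} {u : Matrix n n Af} (H : Ad p pt pt (act0 w) u) :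
    u ∈ Er ht := ⟨w, fun r h => (tau_rz ht r h w).unq
      (H.rz ((Nat.coprime_primes r.2 hp).2 h) h _ _)⟩

/-- TATE -/
theorem te_er (hC : Cube (O1 A)) (hp : ∀ r : TP.Pr, r.1 ≠ p → (r.1 : F) ≠ 0) :
    TE p (Er ht) :=
  have := rhom_fg A φ φ hC
  te_of (tau ht) (fun r h => rhom_disc A φ φ hC (hp r h) (AddMonoidHom.id _) Function.injective_id _
    fun _ w hw _ h0 => (tau_rz ht r h w).kill hw h0) fun _ h => h

end Vale.Agent.P022K.PM
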