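import Vale.Agent.P022K.PM.St
import Vale.Agent.P022K.Top.PmSt

/-!
# P022K / PM: rows, second list (contexts and local points)
-/

set_option autoImplicit false
set_option linter.all false

open NumberField IsDedekindDomain Matrix Quaternion

noncomputable section

namespace Vale.Agent.P022K.PM

open Vale.Agent.P022 Vale.Agent.P010MR Vale.Agent.P010MT8
open Vale.Agent.P022.H443 (inP)
open Vale.Agent.P022D.W (dec)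
open Vale.Agent.P022E.GW (Ov Fb)
open Vale.Agent.P022K.CH (Cp Kp Id red eps dt)
open Vale.Agent.P022K.Top (GI iC rd Rp Rd UU Urc Cty)
open Vale.Agent.P022K.Top.Pm (Dg An)
open Vale.Agent.P022K.TP (Mn)

/-- a context: datum, quadratic character, complex embedding, eigenspace, working level -/
structure Cx where
  D : QD
  η : GQ →* ℤˣ
  j : Qb →+* ℂ
  ν : Em D Qb
  N : ℕ

section words

variable {p q : ℕ} [Fact p.Prime] [Fact q.Prime]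

/-- the roots of unity of `L0` fill the residue field -/
def Tei {D : QD} (μ : Em D (Cp p)) : Prop := ∀ c ∈ c0 μ, ‖c‖ = 1 →
  ∃ ζ : D.L0, (∃ n, ¬ p ∣ n ∧ ζ ^ n = 1) ∧ ‖c - μ.z0 ζ‖ < 1

/-- the hypotheses on a context -/
structure Cx.Ok (C : Cx) (ι : Qb →+* Cp p) (ι' : Qb →+* Cp q)
    (ρ : GQ →* GL (Fin 2) (Kp p)) : Prop where
  lv : Lv C.η C.N (C.ν.map ι) (C.ν.map ι') ρ
  cj : ∀ c, IsConj c → ∀ z, C.ν.z0 (C.D.cj z) = c (C.ν.z0 z)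
  odd : ∀ c, IsConj c → C.η c = -1
  tei : Tei (C.ν.map ι)
  gl : ∃ (θ : C.D.L0) (x : MP C.D C.η), x.Ck θ ∧ ∀ σ, ∃ e, sg e = σ ∧ Nt e ∧ x.Fx C.j e
  bq : ∀ a : C.D.L0, IsIntegral ℤ a → a ≠ 0 → (∀ φ : C.D.L0 →+* ℂ, ‖φ a‖ ≤ 2 * (p + 1) ^ 2) →
    ‖(C.ν.map ι').z0 a‖ = 1

/-- the context is large enough -/
def Cx.Has (C : Cx) (ι : Qb →+* Cp p) (A : Finset (Cp p)) (B : Finset Qb) : Prop :=
  (∀ a ∈ A, a ∈ c0 (C.ν.map ι)) ∧ ∀ b ∈ B, ∃ z, C.ν.z0 z = b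

/-- a local point -/
structure Cx.Pt (C : Cx) (ι : Qb →+* Cp p) (ι' : Qb →+* Cp q) (ρ : GQ →* GL (Fin 2) (Kp p))
    {Γ : Subgroup GQ} (x : MP C.D C.η) (s : Γ →* EE C.D C.η) : Prop where
  lp : Lp C.j x s
  lg : ∀ d, Lg (C.ν.map ι) (C.ν.map ι') ρ (s d)

/-- `R` holds in all large contexts -/
def Ev (ι : Qb →+* Cp p) (ρ : GQ →* GL (Fin 2) (Kp p))
    (R : ∀ (q : ℕ) [Fact q.Prime], (Qb →+* Cp q) → Cx → Prop) : Prop :=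
  ∃ (A : Finset (Cp p)) (B : Finset Qb), (∀ b ∈ B, Cmn b) ∧
    ∀ (q : ℕ) [Fact q.Prime] (ι' : Qb →+* Cp q) (C : Cx), C.Ok ι ι' ρ → C.Has ι A B → R q ι' C

/-- an ordinary Weil number -/
structure Wn (l : ℕ) (α : Qb) : Prop where
  int : IsIntegral ℤ α
  cm : Cmn α
  nrm : ∀ c, IsConj c → α * c α = l
  ord : ∀ c, IsConj c → ∀ P, Ov l P → ¬ InP P (α + c α)

/-- `Cty` without the clause on ramification -/
structure Ct0 (P : Id) (V : GQ → GI p) (y : GL (Fin 2) (Cp p)) (η : GQ → ℤˣ)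
    (ζ ζ' u u' : GQ → Cp p) : Prop where
  mul : ∀ g ∈ dec P, ∀ h ∈ dec P, η (g * h) = η g * η h
  dg : ∀ g ∈ dec P, η g = 1 → (y * iC (V g) * y⁻¹).val = !![ζ g * u g, 0; 0, ζ' g * u' g]
  an : ∀ g ∈ dec P, η g = -1 → (y * iC (V g) * y⁻¹).val = !![0, ζ g * u g; ζ' g * u' g, 0]
  opn : ∃ U : Subgroup GQ, IsOpen (U : Set GQ) ∧ ∀ g ∈ U ⊓ dec P, η g = 1 ∧ ζ g = 1 ∧ ζ' g = 1
  fin : ∃ n, 0 < n ∧ ∀ g ∈ dec P, ζ g ^ n = 1 ∧ ζ' g ^ n = 1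
  det : ∀ g ∈ dec P, ζ g * ζ' g = ((η g : ℤ) : Cp p)
  ur : Urc P u
  ur' : Urc P u'
  uu : ∀ g ∈ dec P, u g * u' g = eps p g
  eq : (∃ g ∈ dec P, η g = -1) → ∀ g ∈ dec P, u g = u' g

theorem ct0 {P : Id} {V : GQ → GI p} {y : GL (Fin 2) (Cp p)} {η : GQ → ℤˣ}
    {ζ ζ' u u' : GQ → Cp p} (h : Cty P V y η ζ ζ' u u') : Ct0 P V y η ζ ζ' u u' :=
  ⟨h.mul, h.dg, h.an, h.opn, h.fin, h.det, h.ur, h.ur', h.uu, h.eq⟩

/-- the unramified quadratic character -/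
structure Ur (l : ℕ) (P : Id) (η : GQ → ℤˣ) : Prop where
  mul : ∀ g ∈ dec P, ∀ h ∈ dec P, η (g * h) = η g * η h
  opn : ∃ U : Subgroup GQ, IsOpen (U : Set GQ) ∧ ∀ g ∈ U ⊓ dec P, η g = 1
  fb : ∀ k g, Fb (l ^ k) P g → η g = (-1) ^ k

/-- a character of finite order -/
structure Fc (P : Id) (ξ : GQ → Cp p) : Prop where
  mul : ∀ g ∈ dec P, ∀ h ∈ dec P, ξ (g * h) = ξ g * ξ h
  opn : ∃ U : Subgroup GQ, IsOpen (U : Set GQ) ∧ ∀ g ∈ U ⊓ dec P, ξ g = 1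
  fin : ∃ n, 0 < n ∧ ∀ g ∈ dec P, ξ g ^ n = 1

/-- the residual representation -/
structure Rb (ρ : GQ →* GL (Fin 2) (Kp p)) : Prop where
  opn : IsOpen {g | ρ g = 1}
  det : ∀ g, dt ρ g = red (eps p g)

/-- the residual representation in the frame `h` -/
def fr (ρ : GQ →* GL (Fin 2) (Kp p)) (h : GI p) (g : GQ) : GL (Fin 2) (Kp p) :=
  (rd h)⁻¹ * ρ g * rd h

/-- the clauses at `p` -/
structure Atp {D : QD} {η : GQ →* ℤˣ} (ι : Qb →+* Cp p) (ι' : Qb →+* Cp q) (μ' : Em D (Cp q))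
    (ρ : GQ →* GL (Fin 2) (Kp p)) (P : Id) (s : dec P →* EE D η) : Prop where
  tam : ∃ n, ¬ q ∣ n ∧ ∀ d : dec P, d.1 ∈ inP P → re μ' (s d) ^ n = 1
  alt : (∃ d : dec P, d.1 ∈ inP P ∧ (re μ' (s d)).map red ^ 2 ≠ 1) ∨
    ∃ d : dec P, Fb p P d ∧ ‖(re μ' (s d)).trace ^ 2 - (p + 1) ^ 2‖ = 1
  uu : UU P ρ → ∀ d : dec P, (d.1 ∈ inP P → (re μ' (s d)).trace = 2) ∧
    (Fb p P d → ∃ a : Qb, (re μ' (s d)).trace = ι' a ∧ ‖ι a‖ = 1)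

/-- the clauses at `q` -/
structure Atq {D : QD} {η : GQ →* ℤˣ} (μ : Em D (Cp p)) (μ' : Em D (Cp q)) (P : Id)
    (s : dec P →* EE D η) : Prop where
  inq : ∀ d : dec P, d.1 ∈ inP P → (re μ (s d)).trace = 2 ∧ ‖re μ' (s d) 1 1 - 1‖ < 1
  frq : ∀ d : dec P, Fb q P d → ∃ a, Trc q (s d) a ∧ (∀ μ'' : Em D (Cp q), ‖μ''.ev a‖ = 1) ∧
    ‖μ'.ev a ^ 2 - 1‖ = 1

/-- a triangular representation with values in `E`; the quotient is `ξ` times the unramified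
character with Frobenius value `α` -/
structure Tri (P : Id) (E : IntermediateField ℚ_[p] (Cp p)) (ξ : GQ → Cp p) (α : Cp p)
    (W : GQ → M2 (Cp p)) : Prop where
  mul : ∀ g ∈ dec P, ∀ h ∈ dec P, W (g * h) = W g * W h
  cont : ContinuousOn W (dec P)
  mem : ∀ g ∈ dec P, ∀ i k, W g i k ∈ E
  tri : ∀ g ∈ dec P, W g 1 0 = 0
  det : ∀ g ∈ dec P, (W g).det = eps p g
  et : ∀ k g, Fb (p ^ k) P g → W g 1 1 = ξ g * α ^ k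
  ns : ¬ ∃ x, ∀ g ∈ dec P, W g 0 1 = x * (W g 1 1 - W g 0 0)

end words

/-- quantification over residual representations -/
def AllR (A : ∀ {p : ℕ} [Fact p.Prime], (Qb →+* Cp p) → (GQ →* GL (Fin 2) (Kp p)) → Prop) :
    Prop := ∀ (p : ℕ) [Fact p.Prime] (ι : Qb →+* Cp p) (ρ : GQ →* GL (Fin 2) (Kp p)), Rb ρ → A ι ρ

/-- **WEIL**: ordinary Weil numbers are dense in the units -/
def WEIL : Prop := ∀ (p : ℕ) [Fact p.Prime] (ι : Qb →+* Cp p) (l : ℕ) (u : Cp p) (ε : ℝ),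
  l.Prime → ‖u‖ = 1 → 0 < ε → ∃ α, Wn l α ∧ ‖ι α - u‖ < ε

/-- **QPK**: the choice of the auxiliary prime -/
def QPK : Prop := ∀ (K : IntermediateField ℚ Qb) (U : Subgroup GQ) (c : ℝ) (B : ℕ),
  FiniteDimensional ℚ K → IsOpen (U : Set GQ) → ∃ (q : ℕ) (_ : Fact q.Prime), B < q ∧ q % 4 = 1 ∧
    (∀ Q, Ov q Q → dec Q ≤ U) ∧ ∀ (ι' : Qb →+* Cp q), ∀ a ∈ K, IsIntegral ℤ a → a ≠ 0 →
      (∀ φ : Qb →+* ℂ, ‖φ a‖ ≤ c) → ‖ι' a‖ = 1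

/-- **LFT**: unramified lifts -/
def LFT : Prop := AllR fun {p} _ _ ρ => ∀ l P, Ov l P → l ≠ p → (∀ s ∈ inP P, ρ s = 1) →
  ∃ V y u u', Rp (dec P) V ∧ Rd (dec P) V ρ ∧
    Ct0 P V y (fun _ => 1) (fun _ => 1) (fun _ => 1) u u'

/-- **CLS**: the shape of the residual representation at `p` -/
def CLS : Prop := AllR fun {p} _ _ ρ => ∀ P, Ov p P → ∃ h : GI p, (iC h).val.det = 1 ∧
  ((∀ g ∈ dec P, fr ρ h g 1 0 = 0) ∨ (¬ UU P ρ ∧ ∃ et, Ur p P et ∧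
    ∀ g ∈ dec P, (et g = 1 → Dg (fr ρ h g)) ∧ (et g = -1 → An (fr ρ h g))))

/-- **LPL**: points at the primes different from `p` and `q` -/
def LPL : Prop := AllR fun {p} _ ι ρ => ∀ l P V y et ζ ζ' u u' (n : ℕ), Ov l P → l ≠ p →
  Rp (dec P) V → Rd (dec P) V ρ → Ct0 P V y et ζ ζ' u u' → Ev ι ρ fun q _ ι' C =>
    l ≠ q → (∀ g ∈ dec P, C.η g = et g) → ∃ (x : MP C.D C.η) (s : dec P →* EE C.D C.η),
      C.Pt ι ι' ρ x s ∧ (∃ z : GI p, rd z = 1 ∧ ∀ d : dec P, Le ((iC (V d)).val -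
        (iC z⁻¹).val * re (C.ν.map ι) (s d) * (iC z).val) (‖(p : Cp p)‖ ^ n)) ∧
      ∀ d : dec P, d.1 ∈ inP P → et d = 1 → ζ d = 1 → (re (C.ν.map ι') (s d)).trace = 2

/-- **LPQ**: the point at `q` -/
def LPQ : Prop := AllR fun ι ρ => Ev ι ρ fun q _ ι' C => q % 4 = 1 → ∀ P, Ov q P →
  (∀ g ∈ dec P, ρ g = 1 ∧ C.η g = 1) → ∃ (x : MP C.D C.η) (s : dec P →* EE C.D C.η),
    C.Pt ι ι' ρ x s ∧ Atq (C.ν.map ι) (C.ν.map ι') P s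

/-- **LPC**: the real point -/
def LPC : Prop := AllR fun ι ρ => Ev ι ρ fun _ _ ι' C => ∃ (x : MP C.D C.η) (e : EE C.D C.η),
  (∀ a, C.j (sg e a) = starRingEnd ℂ (C.j a)) ∧ e * e = 1 ∧ x.Fx C.j e ∧
    Lg (C.ν.map ι) (C.ν.map ι') ρ e

/-- **LPI**: the point at `p`, induced case -/
def LPI : Prop := AllR fun {p} _ ι ρ => ∀ P (h : GI p) et, Ov p P → (iC h).val.det = 1 →
  ¬ UU P ρ → Ur p P et → (∀ g ∈ dec P, (et g = 1 → Dg (fr ρ h g)) ∧ (et g = -1 → An (fr ρ h g))) →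
  Ev ι ρ fun _ _ ι' C => (∀ g ∈ dec P, C.η g = et g) →
    ∃ (x : MP C.D C.η) (s : dec P →* EE C.D C.η), C.Pt ι ι' ρ x s ∧ Atp ι ι' (C.ν.map ι') ρ P s

/-- **LPR**: the point at `p`, triangular case -/
def LPR : Prop := AllR fun {p} _ ι ρ => ∀ P (h : GI p), (p = 2 ∨ 7 ≤ p) → Ov p P →
  (iC h).val.det = 1 → (∀ g ∈ dec P, fr ρ h g 1 0 = 0) →
  Ev ι ρ fun _ _ ι' C => (∀ g ∈ dec P, C.η g = 1) →
    ∃ (x : MP C.D C.η) (s : dec P →* EE C.D C.η), C.Pt ι ι' ρ x s ∧ Atp ι ι' (C.ν.map ι') ρ P s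

/-- **TRI**: neighbours of an ordinary point are triangular with the same diagonal -/
def TRI : Prop := ∀ N, AllD fun D η j => ∀ (p : ℕ) [Fact p.Prime] (μ : Em D (Cp p)) (P : Id)
  (x : MP D η) (s : dec P →* EE D η) (ξ : GQ → Cp p) (α : Cp p), D.Ok N → p ∣ N → μ.ι ∈ c0 μ →
  Ov p P → Lp j x s → Fc P ξ → ‖α‖ = 1 →
  (∀ d : dec P, Fb p P d → ∃ a : D.L0, Rat p (s d) (D.l0 a) ∧ μ.z0 (D.cj a) = ξ d * α ∧
    ∀ f : D.L0 →+* Cp p, ‖f (a + D.cj a)‖ = 1) →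
  ∃ m, 0 < m ∧ ∀ (x' : MP D η) (s' : dec P →* EE D η), Lp j x' s' →
    (∀ d, Mn m (uu (s' d) - uu (s d))) →
    (∀ d : dec P, d.1 ∈ inP P ∨ Fb p P d → ∀ (r : ℕ) [Fact r.Prime], r ≠ p → ∀ ν : Em D (Cp r),
      (re ν (s' d)).trace = (re ν (s d)).trace) ∧
    ∃ g : M2 (Cp p), g.det = 1 ∧ (∀ i k, g i k ∈ c0 μ) ∧ ∀ d : dec P,
      (g⁻¹ * re μ (s' d) * g) 1 0 = 0 ∧
      ∀ k, Fb (p ^ k) P d → (g⁻¹ * re μ (s' d) * g) 1 1 = ξ d * α ^ k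

/-- **LAT** `p`: lattices in non split extensions -/
def LAT (p : ℕ) [Fact p.Prime] : Prop := ∀ (P : Id) (r : GQ →* GL (Fin 2) (Kp p)), Ov p P → Rb r →
  (∀ g ∈ dec P, r g 1 0 = 0) → ∃ (ξ : GQ → Cp p) (u : Cp p) (ε : ℝ) (A : Finset (Cp p)),
    Fc P ξ ∧ ‖u‖ = 1 ∧ 0 < ε ∧ (UU P r → ∀ s ∈ inP P, ξ s = 1) ∧
    ∀ α, ‖α - u‖ < ε → ∀ E : IntermediateField ℚ_[p] (Cp p), FiniteDimensional ℚ_[p] E →
      (∀ a ∈ A, a ∈ E) → ∀ W, Tri P E ξ α W → ∃ t ∈ E, ∃ x ∈ E, t ≠ 0 ∧ ∀ g ∈ dec P,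
        ‖t * W g 0 1 + x * (W g 1 1 - W g 0 0)‖ ≤ 1 ∧
        red (t * W g 0 1 + x * (W g 1 1 - W g 0 0)) = r g 0 1 ∧ red (W g 1 1) = r g 1 1

/-- **LATP** -/
def LATP : Prop := ∀ (p : ℕ) [Fact p.Prime], (p = 2 ∨ 7 ≤ p) → LAT p

section ev

variable {p : ℕ} [Fact p.Prime] {ι : Qb →+* Cp p} {ρ : GQ →* GL (Fin 2) (Kp p)}
  {R R' : ∀ (q : ℕ) [Fact q.Prime], (Qb →+* Cp q) → Cx → Prop}

theorem Ev.of (h : ∀ (q : ℕ) [Fact q.Prime] ι' C, C.Ok ι ι' ρ → R q ι' C) : Ev ι ρ R :=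
  ⟨∅, ∅, by simp, fun q _ ι' C a _ => h q ι' C a⟩

theorem Ev.mono (h : Ev ι ρ R)
    (e : ∀ (q : ℕ) [Fact q.Prime] ι' C, C.Ok ι ι' ρ → R q ι' C → R' q ι' C) : Ev ι ρ R' := by
  obtain ⟨A, B, h1, h2⟩ := h
  exact ⟨A, B, h1, fun q _ ι' C a b => e q ι' C a (h2 q ι' C a b)⟩

theorem Ev.and (h : Ev ι ρ R) (h' : Ev ι ρ R') : Ev ι ρ fun q _ ι' C => R q ι' C ∧ R' q ι' C := by
  classical
  obtain ⟨A, B, h1, h2⟩ := h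
  obtain ⟨A', B', h1', h2'⟩ := h'
  refine ⟨A ∪ A', B ∪ B', fun b hb => (Finset.mem_union.1 hb).elim (h1 b) (h1' b),
    fun q _ ι' C a b => ⟨h2 q ι' C a ⟨fun x hx => b.1 x ?_, fun x hx => b.2 x ?_⟩,
      h2' q ι' C a ⟨fun x hx => b.1 x ?_, fun x hx => b.2 x ?_⟩⟩⟩ <;> simp [hx]

theorem Ev.all {κ : Type} (Z : Finset κ)
    {R : κ → ∀ (q : ℕ) [Fact q.Prime], (Qb →+* Cp q) → Cx → Prop} (h : ∀ l ∈ Z, Ev ι ρ (R l)) :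
    Ev ι ρ fun q _ ι' C => ∀ l ∈ Z, R l q ι' C := by
  classical
  induction Z using Finset.induction_on with
  | empty => exact Ev.of fun _ _ _ _ _ => by simp
  | insert a Z _ ih =>
    refine ((h a (by simp)).and (ih fun l hl => h l (by simp [hl]))).mono fun q _ ι' C _ k l hl => ?_
    rcases Finset.mem_insert.1 hl with rfl | hl
    exacts [k.1, k.2 l hl]

theorem Ev.has (A : Finset (Cp p)) {B : Finset Qb} (h : ∀ b ∈ B, Cmn b) :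
    Ev ι ρ fun _ _ _ C => C.Has ι A B := ⟨A, B, h, fun _ _ _ _ _ b => b⟩

end ev

end Vale.Agent.P022K.PM
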