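import Vale.Agent.P022K.PM.Cls
import Vale.Agent.P022K.PM.St2
import Vale.Agent.P022K.CH.Weil

/-!
# P022K / PM: the row `CLS`
-/

set_option autoImplicit false

open Matrix

noncomputable section

namespace Vale.Agent.P022K.PM

open Vale.Agent.P022
open Vale.Agent.P022D.W (dec exists_phi phi_mem inP_le_dec)
open Vale.Agent.P022K.CH
open Vale.Agent.P022K.Top (GI iC rd)

/-- matrices of determinant one lift -/
theorem Cls.ex_lift {p : ℕ} [Fact p.Prime] {g : GL (Fin 2) (Kp p)} (h : g.val.det = 1) :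
    ∃ z : GI p, (iC z).val.det = 1 ∧ rd z = g := by
  choose y hy using fun i k => IsLocalRing.residue_surjective (R := Op p) (g i k)
  have e : IsLocalRing.residue _ (y 0 0 * y 1 1 - y 0 1 * y 1 0) = 1 := by
    rw [map_sub, map_mul, map_mul, hy, hy, hy, hy, ← h, det_fin_two]
  obtain ⟨u, hu⟩ := (IsLocalRing.residue_ne_zero_iff_isUnit _).1 (e ▸ one_ne_zero)
  have e1 : IsLocalRing.residue _ u⁻¹.val = 1 := by
    rw [← mul_one (IsLocalRing.residue _ _), ← e, ← hu, ← map_mul, u.inv_mul, map_one, hu, e]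
  have d : det !![u⁻¹.val * y 0 0, y 0 1; u⁻¹.val * y 1 0, y 1 1] = 1 := by
    rw [det_fin_two_of, ← u.inv_mul, hu]
    ring
  refine ⟨.mk'' _ (d ▸ isUnit_one), ((Op p).subtype.map_det _).symm.trans ?_, Units.ext ?_⟩
  · exact (congrArg _ d).trans (map_one _)
  · ext i k
    change IsLocalRing.residue _ (!![u⁻¹.val * y 0 0, y 0 1; u⁻¹.val * y 1 0, y 1 1] i k) = _
    fin_cases i <;> fin_cases k <;> simp [e1, hy, -map_units_inv]

/-- **CLS** -/
theorem cls_row : CLS := fun p _ _ ρ r P hP => by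
  obtain ⟨g, g1, h⟩ := Cls.cls ρ r.opn hP
  obtain ⟨z, z1, rfl⟩ := Cls.ex_lift g1
  refine ⟨z, z1, h.imp_right fun ⟨η, a, b, c, d, e, s, hs, n⟩ =>
    ⟨fun u => n (by simp [u.2.1 s hs]), η, ⟨a, b, fun k x hx => ?_⟩, e⟩⟩
  obtain ⟨φ, hφ⟩ := exists_phi hP.1 hP.2.1 hP.2.2
  have m := phi_mem hP.1 hP.2.1 hφ
  have i := Weil.fb_div hP (one_mul k ▸ Weil.fb_pow hP (a := 1) (by rwa [pow_one]) k) hx
  rw [← mul_inv_cancel_left (φ ^ k) x, a _ (pow_mem m k) _ (inP_le_dec i), c _ i, mul_one]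
  clear i hx
  induction k with
  | zero => exact c _ (one_mem _)
  | succ k ih => rw [pow_succ, a _ (pow_mem m k) _ m, ih, d φ hφ, pow_succ]

end Vale.Agent.P022K.PM
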