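import Vale.Agent.P022K.PM.Dic2

/-!
# P022K / PM / Dic3: the row INTT (helper4)
-/

set_option linter.all false

open NumberField Matrix Quaternion Module

noncomputable section

namespace Vale.Agent.P022K.PM

open Vale.Agent.P022 Vale.Agent.P010MR Vale.Agent.P010MT8
open Vale.Agent.P022K.CH (Cp eps)
open Vale.Agent.P022K.TP (Af Pr am Mn pr)

variable {D : QD} {p : ℕ} [Fact p.Prime] {η : GQ →* ℤˣ}

/-- left multiplication by `L0` as a ring homomorphism -/
def QD.l0A (D : QD) : D.L0 →ₐ[ℚ] Mi D.g ℚ := RingHom.toRatAlgHom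
  { toFun := D.l0
    map_one' := by rw [QD.l0, map_one, D.lm_one]
    map_mul' := fun a b => by rw [QD.l0, map_mul, D.lm_mul]; rfl
    map_zero' := by rw [QD.l0, map_zero, D.lm_zero]
    map_add' := fun a b => by rw [QD.l0, map_add, D.lm_add]; rfl }

theorem QD.l0A_apply (D : QD) (z) : D.l0A z = D.l0 z := rfl

theorem ta_ex {I : Type} [Fintype I] (b : Basis I ℚ D.L0) {t : Mi D.g Af} (h : t ∈ TA D) :
    ∃ c : I → Af, ∑ i, c i • am (D.l0 (b i)) = t := by
  refine (Submodule.mem_span_range_iff_exists_fun Af).1 (Submodule.span_le.2 ?_ h)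
  rintro _ ⟨z, rfl⟩
  refine (Submodule.mem_span_range_iff_exists_fun Af).2 ⟨fun i => TP.cA (b.repr z i), ?_⟩
  change _ = am (D.l0A z)
  conv_rhs => rw [← b.sum_repr z, map_sum]
  ext i j
  simp only [am, Matrix.sum_apply, QD.l0A_apply, map_smul, map_apply, Matrix.smul_apply, map_sum,
    smul_eq_mul, map_mul]

theorem mp_ta {I : Type} [Fintype I] (z : I → D.L0) (c : I → Af) (r : Pr) :
    mp r (∑ i, c i • am (D.l0 (z i))) = ∑ i, pr r (c i) • ql r.1 (D.l0 (z i)) := by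
  ext i j
  simp [mp_apply, am, ql, Matrix.sum_apply, TP.pr_cA]

theorem rh_ta {I : Type} [Fintype I] (z : I → D.L0) (c : I → ℚ_[p]) (μ : Em D (Cp p)) :
    Rh μ (∑ i, c i • ql p (D.l0 (z i)))
      (diagonal ![∑ i, c i • μ.z0 (z i), ∑ i, c i • μ.z0 (D.cj (z i))]) := by
  have : Rh μ (∑ i, c i • ql p (D.l0 (z i)))
      (∑ i, c i • diagonal ![μ.z0 (z i), μ.z0 (D.cj (z i))]) := by
    change μ.Qm * cK p _ = _
    simp only [map_sum, map_smul, Matrix.mul_sum, Matrix.sum_mul, Matrix.mul_smul, Matrix.smul_mul]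
    exact Finset.sum_congr rfl fun i _ => congrArg _ (rh_l0' μ _)
  convert this using 1
  ext i j
  fin_cases i <;> fin_cases j <;> simp [Matrix.sum_apply]

theorem eig_nle {n : Type} [Fintype n] {q : n → Cp p} (h0 : q ≠ 0) {X : Matrix n n (Cp p)} {a : Cp p}
    (h : q ᵥ* X = a • q) {c : ℝ} (hc : 0 ≤ c) (hX : ∀ i j, ‖X i j‖ ≤ c) : ‖a‖ ≤ c := by
  refine le_of_mul_le_mul_right ?_ (norm_pos_iff.2 h0)
  rw [← norm_smul, ← h, mul_comm]
  refine (pi_norm_le_iff_of_nonneg (by positivity)).2 fun j => ?_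
  rw [vecMul, dotProduct]
  refine IsUltrametricDist.norm_sum_le_of_forall_le_of_nonneg (by positivity) fun i _ => ?_
  rw [norm_mul]
  exact mul_le_mul (norm_le_pi_norm q i) (hX i j) (norm_nonneg _) (norm_nonneg _)

variable {N : ℕ}

theorem QD.Ok.l0_le (H : D.Ok N) {z : D.L0} (h : ∀ f : D.L0 →+* Cp p, ‖f z‖ ≤ 1) :
    Nle (ql p (D.l0 z)) 1 := fun i j => by
  obtain ⟨m, h1, h2⟩ := Dat.exists_int h
  have := TP.mem_Z1.1 (H.lz _ h2 i j) (pp p)
  rw [← D.l0A_apply, ← nsmul_eq_mul, map_nsmul] at this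
  rwa [am, map_apply, TP.pr_cA, Matrix.smul_apply, nsmul_eq_mul, Rat.cast_mul, Rat.cast_natCast,
    norm_mul, Padic.norm_natCast_eq_one_iff.2 h1.symm, one_mul] at this

theorem QD.Ok.ta_le (H : D.Ok N) {I : Type} [Fintype I] {z : I → D.L0} (hz : ∀ i, IsIntegral ℤ (z i))
    {c : I → ℚ_[p]} {d : ℚ_[p]} (hd : d ≠ 0) (h : ∀ f : D.L0 →+* Cp p, ‖∑ i, c i • f (z i)‖ ≤ ‖d‖) :
    Nle (∑ i, c i • ql p (D.l0 (z i))) ‖d‖ := fun a b => by
  choose w hw using fun i => Padic.rat_dense p (c i / d) one_pos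
  have h1 := H.l0_le (p := p) (z := ∑ i, w i • z i) (fun f => by
    have e : f (∑ i, w i • z i) = d⁻¹ • ∑ i, c i • f (z i) + ∑ i, ((w i : ℚ_[p]) - c i / d) • f (z i) := by
      simp [Finset.smul_sum, smul_smul, ← Finset.sum_add_distrib, ← add_smul, inv_mul_eq_div,
        Rat.cast_smul_eq_qsmul, map_rat_smul]
    rw [e]
    refine (IsUltrametricDist.norm_add_le_max _ _).trans (max_le ?_ ?_)
    · rw [norm_smul, norm_inv]
      exact inv_mul_le_one_of_le₀ (h f) (norm_nonneg _)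
    · refine IsUltrametricDist.norm_sum_le_of_forall_le_of_nonneg zero_le_one fun i _ => ?_
      rw [norm_smul, norm_sub_rev]
      exact mul_le_one₀ (hw i).le (norm_nonneg _) (Dat.norm_int f (hz i))) a b
  have e : (∑ i, c i • ql p (D.l0 (z i))) a b = d * (ql p (D.l0 (∑ i, w i • z i)) a b +
      ∑ i, (c i / d - w i) * ql p (D.l0 (z i)) a b) := by
    rw [← D.l0A_apply, map_sum]
    simp [ql, Matrix.sum_apply, ← Finset.sum_add_distrib, ← add_mul, Finset.mul_sum, ← mul_assoc,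
      mul_div_cancel₀ _ hd, QD.l0A_apply]
  rw [e, norm_mul]
  refine mul_le_of_le_one_right (norm_nonneg _)
    ((IsUltrametricDist.norm_add_le_max _ _).trans (max_le h1 ?_))
  refine IsUltrametricDist.norm_sum_le_of_forall_le_of_nonneg zero_le_one fun i _ => ?_
  rw [norm_mul]
  exact mul_le_one₀ (hw i).le (norm_nonneg _) (H.l0_le (fun f => Dat.norm_int f (hz i)) a b)

/-- **INTT** -/
theorem intt : INTT := fun D N p _ H t ht => by
  classical
  obtain ⟨c, rfl⟩ := ta_ex (integralBasis D.L0) ht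
  have e := mp_ta (integralBasis D.L0) c (pp p)
  rw [mp_apply] at e
  rw [e]
  have h1 := rh_ta (integralBasis D.L0) fun i => pr (pp p) (c i)
  have h2 : ∀ b, _ * ql p (D.rm b) = ql p (D.rm b) * _ := fun b =>
    Commute.sum_left Finset.univ (fun i => pr (pp p) (c i) • ql p (D.l0 (integralBasis D.L0 i))) _
      fun i _ => Commute.smul_left
        (Commute.map (D.lm_rm _ b) (Rat.castHom ℚ_[p]).mapMatrix) _
  refine ⟨⟨fun m => h2 _, h2 _⟩, fun μ => ?_, fun n => ⟨fun h μ => ?_, fun h => ?_⟩⟩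
  · rw [(h1 μ).eq, cl_eq]
    refine ⟨by simp, by simp, fun a => ?_⟩
    fin_cases a <;> exact sum_mem fun i _ => Algebra.smul_def (pr (pp p) (c i)) (μ.z0 _) ▸
      mul_mem (clo_alg _ _) (subset_closure ⟨_, rfl⟩)
  · refine eig_nle (q := μ.Qm 0) (fun h0 => ?_) ?_ (norm_nonneg _)
      fun i j => (norm_algebraMap' _ _).trans_le (h i j)
    · simpa using congrFun (μ.fm.ind ![1, 0] (by ext; simp [vecMul, dotProduct, h0])) 0
    · rw [(h1 μ).eq]
      exact (congrFun (h1 μ) 0).trans (by ext; simp [diagonal_mul])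
  have h3 : ∀ f : D.L0 →+* Cp p, ‖∑ i, pr (pp p) (c i) • f (integralBasis D.L0 i)‖ ≤ ‖(n : ℚ_[p])‖ :=
    fun f => by
    obtain ⟨μ, h4, -⟩ := emx D _ f
    have := h μ
    rw [(h1 μ).eq] at this
    simpa [h4] using this
  rcases eq_or_ne n 0 with rfl | hn
  · have : ∀ i, pr (pp p) (c i) = 0 := fun i => by
      simpa [Finsupp.single_apply, apply_ite] using emb_sep (m := integralBasis D.L0)
        (v := fun i => algebraMap ℚ_[p] (Cp p) (pr (pp p) (c i)))
        (fun f => by simpa [Algebra.smul_def, mul_comm] using h3 f) ((integralBasis D.L0).coord i)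
    exact fun i j => by simp [this]
  · exact H.ta_le (fun i => by rw [integralBasis_apply]; exact RingOfIntegers.isIntegral_coe _)
      (Nat.cast_ne_zero.2 hn) h3

end Vale.Agent.P022K.PM
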