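import Vale.Agent.P022K.PM.Ord
import Vale.Agent.P022K.PM.Dic3
import Vale.Agent.P022K.Gd.Ctr

/-!
# P022K / PM / Cmet: the row CMET (helper71)
-/

set_option linter.all false

open NumberField Matrix Module

noncomputable section

namespace Vale.Agent.P022K.PM

open Vale.Agent.P022 Vale.Agent.P010MR Vale.Agent.P010MT8
open Vale.Agent.P022E.GW (Ov Fb)
open Vale.Agent.P022K.CH (Cp eps Id)
open Vale.Agent.P022K.TP (Af Pr am Mn pr Rel)

open TP P010M71 TP.Uq in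
theorem Cmet.near {D : QD} {η : GQ →* ℤˣ} {x : MP D η} {θ : D.L0} (h : x.Ck θ) (j : Qb →+* ℂ) {n : ℕ} (hn : 0 < n) :
    ∃ y : MP D η, Cn n y.k ∧ y.Ck θ ∧ ∀ e, x.Fx j e → y.Fx j e := by
  obtain ⟨h0, hc, b0, ⟨m1, t, m2, m3, m4⟩, m5, m6⟩ := h
  have h1 := at_uu x.k
  rw [x.one, map_one, map_one] at h1
  obtain ⟨b, hb, h2⟩ := sad D (uu x.k) (by simpa [TP.Sim] using h1.sim)
    (fun z => by rw [h1.comm, QD.al_one]) n hn
  obtain ⟨c, h3, h4⟩ := exists_EE (η := η) 1 (u := am (D.lm b))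
    (by rw [map_one, map_one]; exact QD.at_lm hb)
  have hR := rel_sp x.loc.1 (D.sp b hb)
  have e0 : star b * b = 1 := by rw [D.star_mul_self, hb, D.sc_one]
  let bu : D.Bˣ := ⟨b, star b, by rw [D.mul_star, hb, D.sc_one], e0⟩
  have e1 : D.lm (star b) * D.lm b = 1 := by rw [← D.lm_mul, e0, D.lm_one]
  have e2 : ∀ z : D.B, D.lm ((bu * b0 : D.Bˣ) * z * ((bu * b0)⁻¹ : D.Bˣ)) =
      D.lm b * D.lm (b0 * z * (b0⁻¹ : D.Bˣ)) * D.lm (star b) := fun z => by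
    rw [← D.lm_mul, ← D.lm_mul, _root_.mul_inv_rev, Units.val_mul, Units.val_mul]
    simp only [mul_assoc]
    rfl
  have H : Hm x.τ (act (qr (D.sp b hb).1) x.τ) (D.lm b) := hm_act (D.sp b hb) x.loc.1
  refine ⟨⟨_, c * x.k, QD.loc_sp x.loc hb, hR.algp x.alg, by rw [map_mul, h3, x.one, mul_one]⟩,
    by rwa [Cn, map_mul, h4], ⟨h0, hc, bu * b0, ⟨fun z hz => ?_, t, m2, m3, ?_⟩, ?_,
      fun a ha z y y0 hy => ?_⟩, fun e he s hs => ?_⟩
  · rw [map_mul, h4, e2, mul_assoc, m1 z hz, ← mul_assoc, ← mul_assoc, ← am_mul, ← am_mul,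
      mul_assoc _ (D.lm (star b)), e1, mul_one]
  · rw [map_mul, h4, mul_assoc, m4, ← mul_assoc, ← mul_assoc, ← am_mul, ← am_mul,
      _root_.mul_inv_rev, Units.val_mul, Units.val_mul, D.lm_mul, D.lm_mul]
    congr 2
    simp only [mul_assoc]
    rw [show D.lm (bu⁻¹ : D.Bˣ) * D.lm b = 1 from e1, mul_one]
  · rw [e2]
    exact (H.mul m5).mul (H.inv e1)
  · obtain ⟨A, hA⟩ := exists_la H
    obtain ⟨A', hA'⟩ := exists_la (H.inv e1)
    obtain ⟨a0, h5⟩ := exists_la m5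
    refine m6 a0 h5 z (A' *ᵥ y) (fun e => y0 ?_) ?_
    · have := hA (cm (D.lm (star b)) *ᵥ Sum.elim y 0)
      rwa [hA', zc_elim, e, mulVec_zero, mulVec_mulVec, ← cm_mul, mul_eq_one_comm.1 e1, cm_one,
        one_mulVec, zc_elim] at this
    · have := hA' (cm (D.lm ((bu * b0 : D.Bˣ) * D.em θ * ((bu * b0)⁻¹ : D.Bˣ))) *ᵥ Sum.elim y 0)
      rw [ha, zc_elim, hy, mulVec_smul, mulVec_mulVec, ← cm_mul, e2, ← mul_assoc, ← mul_assoc, e1,
        one_mul, cm_mul, ← mulVec_mulVec, h5, hA', zc_elim] at this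
      exact this
  · have h5 := hR.mul ((he s hs).mul (hR.inv (u' := uu c⁻¹) (h4 ▸ uu_mul_inv c)))
    rw [inv_one, mul_one, one_mul] at h5
    have e3 : am (D.sp b hb).1 * (uu (x.k * e * x.k⁻¹) * uu c⁻¹) =
        uu (c * x.k * e * (c * x.k)⁻¹) := by
      rw [show am (D.sp b hb).1 = uu c from h4.symm, ← map_mul, ← map_mul]
      congr 1
      group
    rw [e3] at h5
    exact h5

/-- **CMET** -/
theorem cmet : CMET := by
  intro N D η j x θ e l k _ P a y μ ok ck hP fx fb ta rat hy h1 ty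
  obtain ⟨x, x1, ck, x2⟩ := Cmet.near ck j one_pos
  have hk : Int x.k := by simpa [Int] using x1.add TP.mn_one
  obtain ⟨b, m, -, rfl, hb, T⟩ := ck.ty
  obtain ⟨v, hv, -, -, e1, e2⟩ := exists_wl hP
  obtain ⟨ι, g0, g1, -, g3⟩ := D.good' j hv
  obtain ⟨n, Z, hn, hB, hZ⟩ := g3 _ x.loc
  have E := Gd.et (r := pp l) hB hZ norm_p_lt x.loc.1 hn
  obtain ⟨t, t1, t2⟩ := g1 k _ ((e2 _ _).2 fb)
  obtain ⟨r, hr⟩ := exists_pr_ne l
  obtain ⟨A, hA⟩ := TP.exists_la (T.hm y)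
  have cj : ∀ {z ρ}, Rh μ (ql l (D.l0 z)) ρ → Rh μ (mp (pp l) (am (D.lb b z)))
      (re μ x.k * ρ * re μ x.k⁻¹) := fun h => by
    rw [← hb.l0, map_mul, map_mul, am, mp_cA]
    exact ((re_rh μ _).mul h).mul (re_rh μ _)
  have ik : re μ x.k⁻¹ * re μ x.k = 1 := by rw [← re_mul, inv_mul_cancel, re_one]
  have h2 := (Gd.ct (r := pp l) hB hZ x.loc.1 hn).row hA
    (hb.l0 y ▸ TP.Mn.mul (a := 1) (b := 1) (TP.Mn.mul (a := 1) (b := 1) hk (ok.lz y hy)) hk.inv)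
    (fun c w hw h => by
      obtain ⟨ψ, h3, rfl⟩ := T.eig _ _ hA c w hw h
      obtain ⟨φ, rfl⟩ := emb_surj j ψ
      obtain ⟨z, h4, h5⟩ := ty φ h3
      rw [RingHom.comp_apply, g0, ← h5]
      exact (e1 z).2 h4) (algebraMap _ (Cp l)) (PadicAlgCl.norm_extends l)
    (ρ := (Pi.single 0 1 ᵥ* re μ x.k⁻¹) ᵥ* μ.Qm) (by
      rw [vecMul_vecMul, cj (rh_l0' μ y), ← vecMul_vecMul, ← smul_vecMul,
        vecMul_vecMul _ (re μ _), ← mul_assoc, ← mul_assoc, ik, one_mul, ← vecMul_vecMul,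
        ← smul_vecMul]
      congr 2
      ext i
      fin_cases i <;> simp) h1
  have h3 := row_zero μ (w := (Pi.single 0 1 ᵥ* re μ x.k⁻¹) ᵥ* _) fun w => by
    rw [← dotProduct_mulVec, ← ((re_rh μ (x.k * e * x.k⁻¹)).sub (cj (rh_l0' μ a))).ap,
      dotProduct_mulVec, mt_eq, ← map_sub]
    refine h2 _ (E.kill _ (sub_mem (E.frb k t _ t2 (x2 e fx t t1)) (E.rat _ (T.hm a))) r hr ?_ w)
    rw [← hb.l0, map_mul, map_mul, map_sub, map_mul, map_mul, map_mul, map_mul, ← mt_eq e, rat r hr,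
      am, mp_cA]
    exact sub_self _
  have h4 := congrArg (· ᵥ* re μ x.k) h3
  rw [vecMul_vecMul, vecMul_vecMul, re_mul, re_mul, ← sub_mul, ← mul_sub, mul_assoc _ _ (re μ x.k),
    ik, mul_one, ← mul_assoc, ik, one_mul] at h4
  simpa [sub_eq_zero] using congrFun h4 0

end Vale.Agent.P022K.PM
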