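import Vale.Agent.P022K.Top.LvSt
import Vale.Agent.P022K.Top.Oe
import Vale.Agent.P022K.RT.Ufr

/-!
# P022K / PM: unramified characters and unramified lifts (helper45)
-/

set_option autoImplicit false
set_option linter.all false

open NumberField Matrix IsLocalRing Filter

noncomputable section

namespace Vale.Agent.P022K.PM.Lf

open Vale.Agent.P022 CH Top
open Vale.Agent.P022.H443 (inP)
open Vale.Agent.P022D.W (dec inP_le_dec phi_mem)
open Vale.Agent.P022E.GW (Ov Fb)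
open Vale.Agent.P022D.PA (Base)

variable {p : ℕ} [Fact p.Prime] {l : ℕ} {P : Id}

/-- the Weil elements are dense -/
theorem dens (h : Ov l P) {φ : dec P} (hφ : Fb l P φ) {C : Set (dec P)} (hC : IsClosed C)
    (H : ∀ (k : ℕ) (s : dec P), s.1 ∈ inP P → φ ^ k * s ∈ C) (g : dec P) : g ∈ C := by
  by_contra hg
  obtain ⟨τ, T⟩ := RT.Zl.wd h
  obtain ⟨N, -, h2, h3⟩ := RT.Zl.ex_nor (U := {u : dec P | u⁻¹ * g ∈ Cᶜ})
    (hC.isOpen_compl.preimage (continuous_inv.mul continuous_const)) (by simpa using hg)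
  obtain ⟨k, s, hs, u, hu, e⟩ := (T φ hφ).gen (N.subgroupOf (dec P))
    (h2.preimage continuous_subtype_val) g
  refine h3 u hu ?_
  rw [e, mul_assoc u, inv_mul_cancel_left]
  exact H k s hs

theorem fb_mem (h : Ov l P) {φ : GQ} (hφ : Fb l P φ) : φ ∈ dec P := phi_mem h.1 h.2.1 hφ

/-- unramified representations with a given Frobenius matrix -/
theorem ex_rep (h : Ov l P) {φ : dec P} (hφ : Fb l P φ) (γ : GI p) : ∃ R : dec P →* GI p,
    R φ = γ ∧ (∀ s : dec P, s.1 ∈ inP P → R s = 1) ∧ Continuous fun g => iC (R g) := by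
  obtain ⟨E, hE⟩ := (eventually_all.2 fun i => eventually_all.2 fun k =>
    ev_memR (mem_op.1 (γ.val i k).2)).exists
  choose a ha using hE
  haveI : Base E.R := { cpl := E.cplR, fin := E.finresR }
  have e0 : (Matrix.of a).map E.emR.op = γ.val := Matrix.ext fun i k => Subtype.ext (ha i k)
  have hu : IsUnit (Matrix.of a) := (Matrix.isUnit_iff_isUnit_det _).2 (by
    haveI := E.emR.op_loc
    refine isUnit_of_map_unit E.emR.op _ ?_
    rw [RingHom.map_det, RingHom.mapMatrix_apply, e0]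
    exact (Matrix.isUnit_iff_isUnit_det _).1 γ.isUnit)
  obtain ⟨R, h1, h2, h3, -⟩ := (RT.ufr l P φ h hφ E.R).1 _ hu
  refine ⟨xt E.emR.op R.toHomUnits, Units.ext ?_, fun s hs => ?_, ?_⟩
  · show (R φ).map E.emR.op = _
    rw [h1, e0]
  · have : R.toHomUnits s = 1 := Units.ext (h2 s hs)
    rw [MonoidHom.comp_apply, this, map_one]
  · exact (E.emR.lc_iff R.toHomUnits).1 h3

open Classical in
/-- extension by one -/
def ex1 {M : Type} [One M] (f : dec P → M) (g : GQ) : M := if h : g ∈ dec P then f ⟨g, h⟩ else 1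

theorem ex1_mem {M : Type} [One M] (f : dec P → M) {g : GQ} (h : g ∈ dec P) :
    ex1 f g = f ⟨g, h⟩ := dif_pos h

theorem ex1_coe {M : Type} [One M] (f : dec P → M) (g : dec P) : ex1 f g = f g := dif_pos g.2

theorem ex1_cont {M : Type} [One M] [TopologicalSpace M] {f : dec P → M} (h : Continuous f) :
    ContinuousOn (ex1 f) (dec P) :=
  continuousOn_iff_continuous_restrict.2 (h.congr fun g => (ex1_coe f g).symm)

theorem det_iC (a : GI p) : (iC a).val.det = (a.val.det : Op p) :=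
  (RingHom.map_det (Op p).subtype _).symm

theorem norm_det (a : GI p) : ‖(iC a).val.det‖ = 1 := by
  rw [det_iC]
  exact unit_Op.1 ((Matrix.isUnit_iff_isUnit_det _).1 a.isUnit)

/-- **unramified characters** with a given value at a Frobenius element -/
theorem ex_urc (h : Ov l P) {φ : GQ} (hφ : Fb l P φ) {a : Cp p} (ha : ‖a‖ = 1) :
    ∃ u, Urc P u ∧ u φ = a := by
  obtain ⟨b, rfl⟩ : ∃ b : Op p, (b : Cp p) = a := ⟨⟨a, mem_op.2 ha.le⟩, rfl⟩
  have d : (!![b, 0; 0, 1] : Matrix (Fin 2) (Fin 2) (Op p)).det = b := by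
    rw [det_fin_two_of, mul_one, mul_zero, sub_zero]
  have hb : IsUnit (!![b, 0; 0, 1] : Matrix (Fin 2) (Fin 2) (Op p)) :=
    (Matrix.isUnit_iff_isUnit_det _).2 (by rw [d]; exact unit_Op.2 ha)
  obtain ⟨R, h1, h2, h3⟩ := ex_rep h (φ := ⟨φ, fb_mem h hφ⟩) hφ hb.unit
  refine ⟨ex1 fun g => (iC (R g)).val.det, ⟨fun g hg k hk => ?_, ?_, fun g hg => ?_,
    fun s hs => ?_⟩, ?_⟩
  · rw [ex1_mem _ hg, ex1_mem _ hk, ex1_mem _ (mul_mem hg hk), ← det_mul, ← Units.val_mul,
      ← map_mul, ← map_mul]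
    rfl
  · exact ex1_cont (Units.continuous_val.comp h3).matrix_det
  · rw [ex1_mem _ hg, norm_det]
  · rw [ex1_mem _ (inP_le_dec hs), h2 _ hs, map_one, Units.val_one, det_one]
  · rw [ex1_mem _ (fb_mem h hφ), h1, det_iC, hb.unit_spec, d]

namespace Urc

variable {u u' : GQ → Cp p}

theorem ne (k : Urc P u) {g : GQ} (hg : g ∈ dec P) : u g ≠ 0 :=
  norm_ne_zero_iff.1 (by rw [k.nrm g hg]; exact one_ne_zero)

theorem one (k : Urc P u) : u 1 = 1 := k.ine 1 (one_mem _)

theorem pow (k : Urc P u) {g : GQ} (hg : g ∈ dec P) (n : ℕ) : u (g ^ n) = u g ^ n := by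
  induction n with
  | zero => rw [pow_zero, pow_zero, one k]
  | succ n ih => rw [pow_succ, pow_succ, k.mul _ (pow_mem hg n) _ hg, ih]

theorem inv (k : Urc P u) {g : GQ} (hg : g ∈ dec P) : u g⁻¹ = (u g)⁻¹ :=
  eq_inv_of_mul_eq_one_left (by rw [← k.mul _ (inv_mem hg) _ hg, inv_mul_cancel, one k])

theorem weil (k : Urc P u) {g s : GQ} (hg : g ∈ dec P) (hs : s ∈ inP P) (n : ℕ) :
    u (g ^ n * s) = u g ^ n := by
  rw [k.mul _ (pow_mem hg n) _ (inP_le_dec hs), k.ine s hs, mul_one, pow k hg]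

theorem ext (h : Ov l P) {φ : GQ} (hφ : Fb l P φ) (k : Urc P u) (k' : Urc P u') (e : u φ = u' φ) :
    ∀ g ∈ dec P, u g = u' g := fun g hg =>
  dens h (φ := ⟨φ, fb_mem h hφ⟩) hφ (C := {x | u x = u' x})
    (isClosed_eq k.cont.restrict k'.cont.restrict) (fun n s hs =>
      (weil k (fb_mem h hφ) hs n).trans (e ▸ (weil k' (fb_mem h hφ) hs n).symm)) ⟨g, hg⟩

theorem times (k : Urc P u) (k' : Urc P u') : Urc P fun g => u g * u' g :=
  ⟨fun g hg a ha => by rw [k.mul g hg a ha, k'.mul g hg a ha]; ring, k.cont.mul k'.cont,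
    fun g hg => by rw [norm_mul, k.nrm g hg, k'.nrm g hg, mul_one],
    fun s hs => by rw [k.ine s hs, k'.ine s hs, mul_one]⟩

theorem cyc (h : Ov l P) (hl : l ≠ p) : Urc P (eps p) :=
  ⟨fun g _ a _ => eps_mul g a, eps_cont.continuousOn, fun g _ => norm_eps g,
    fun s hs => eps_inert h hl hs⟩

end Urc

/-- a Weil element of degree `k` is `φ ^ k` times an element of the inertia group -/
theorem fb_dcmp (h : Ov l P) {φ ψ : GQ} (hφ : Fb l P φ) {k : ℕ} (hψ : Fb (l ^ k) P ψ) :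
    ∃ s ∈ inP P, ψ = φ ^ k * s := by
  have hd := fb_mem h hφ
  have e : ∀ (n : ℕ) (x : 𝓞 Qb), φ ^ n • x - x ^ l ^ n ∈ P := fun n => by
    induction n with
    | zero => simp
    | succ n ih =>
      intro x
      have := P.add_mem ((hd _).2 (ih x)) (hφ (x ^ l ^ n))
      rwa [smul_sub, sub_add_sub_cancel, ← mul_smul, ← pow_succ', ← pow_mul, ← pow_succ] at this
  refine ⟨(φ ^ k)⁻¹ * ψ, fun x => ?_, (mul_inv_cancel_left _ _).symm⟩
  have a1 := P.sub_mem (hψ x) (e k x)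
  rw [sub_sub_sub_cancel_right] at a1
  have a2 := (inv_mem (pow_mem hd k) _).2 a1
  rwa [smul_sub, inv_smul_smul, ← mul_smul] at a2

theorem Urc.fb {u : GQ → Cp p} (h : Ov l P) (k : Urc P u) {φ ψ : GQ} (hφ : Fb l P φ) {n : ℕ}
    (hψ : Fb (l ^ n) P ψ) : u ψ = u φ ^ n := by
  obtain ⟨s, hs, rfl⟩ := fb_dcmp h hφ hψ
  exact Urc.weil k (fb_mem h hφ) hs n

theorem Urc.fb1 {u : GQ → Cp p} (h : Ov l P) (k : Urc P u) {φ ψ : GQ} (hφ : Fb l P φ)
    (hψ : Fb l P ψ) : u ψ = u φ := by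
  rw [Urc.fb h k hφ (n := 1) (by rwa [pow_one]), pow_one]

/-- diagonalisation in a frame of determinant one -/
theorem diag1 {E : Type} [Field E] {m : Matrix (Fin 2) (Fin 2) E} {a b : E} (h : a ≠ b)
    (h1 : m.trace = a + b) (h2 : m.det = a * b) : ∃ y : GL (Fin 2) E, y.val.det = 1 ∧
      y.val * m * (y⁻¹).val = !![a, 0; 0, b] := by
  rw [trace_fin_two] at h1
  rw [det_fin_two] at h2
  suffices k : ∃ Q : Matrix (Fin 2) (Fin 2) E, Q.det ≠ 0 ∧ m * Q = Q * !![a, 0; 0, b] by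
    obtain ⟨Q, q1, q2⟩ := k
    have d : (Q * !![Q.det⁻¹, 0; 0, 1]).det = 1 := by
      rw [det_mul, det_fin_two_of, mul_one, mul_zero, sub_zero, mul_inv_cancel₀ q1]
    have u : IsUnit (Q * !![Q.det⁻¹, 0; 0, 1]) := (isUnit_iff_isUnit_det _).2
      (by rw [d]; exact isUnit_one)
    have c : (!![a, 0; 0, b] : Matrix (Fin 2) (Fin 2) E) * !![Q.det⁻¹, 0; 0, 1] =
        !![Q.det⁻¹, 0; 0, 1] * !![a, 0; 0, b] := by simp [mul_comm]
    refine ⟨u.unit⁻¹, ?_, ?_⟩
    · have := congrArg det u.unit.inv_mul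
      rwa [det_mul, u.unit_spec, d, mul_one, det_one] at this
    · rw [inv_inv, mul_assoc, Units.inv_mul_eq_iff_eq_mul, u.unit_spec, ← mul_assoc, q2, mul_assoc,
        c, mul_assoc]
  by_cases c : m 0 0 = b
  · have d : m 1 1 = a := by linear_combination h1 - c
    have e : m 0 1 * m 1 0 = 0 := by rw [c, d] at h2; linear_combination -h2
    refine ⟨!![m 0 1, a - b; a - b, -m 1 0], ?_, ?_⟩
    · rw [det_fin_two_of]
      intro k
      exact pow_ne_zero 2 (sub_ne_zero.2 h) (by linear_combination -k - e)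
    · ext i j
      fin_cases i <;> fin_cases j <;> simp [mul_apply, Fin.sum_univ_two, c, d]
      · ring
      · linear_combination -e
      · linear_combination e
      · ring
  · refine ⟨!![m 0 0 - b, -m 0 1; m 1 0, m 0 0 - b], ?_, ?_⟩
    · rw [det_fin_two_of]
      intro k
      exact mul_ne_zero (sub_ne_zero.2 c) (sub_ne_zero.2 h) (by
        linear_combination k + h2 - m 0 0 * h1)
    · ext i j
      fin_cases i <;> fin_cases j <;> simp [mul_apply, Fin.sum_univ_two]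
      · linear_combination m 0 0 * h1 - h2
      · ring
      · linear_combination m 1 0 * h1
      · linear_combination h2 - b * h1

/-- integral lifts with a given determinant and distinct eigenvalues -/
theorem ex_lift (A : GL (Fin 2) (Kp p)) (t : Op p) (ht : residue _ t = A.val.det) :
    ∃ γ : GI p, rd γ = A ∧ γ.val.det = t ∧ γ.val.trace ^ 2 ≠ 4 * t := by
  choose f hf using residue_surjective (R := Op p)
  have e0 : (A.val.map f).map (residue _) = A.val := Matrix.ext fun i k => hf _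
  have d0 : residue _ (A.val.map f).det = A.val.det := by
    rw [RingHom.map_det, RingHom.mapMatrix_apply, e0]
  have dA : A.val.det ≠ 0 := ((isUnit_iff_isUnit_det _).1 A.isUnit).ne_zero
  obtain ⟨c, hc⟩ := (residue_ne_zero_iff_isUnit _).1 (d0 ▸ dA)
  have ut : IsUnit t := (residue_ne_zero_iff_isUnit _).1 (ht ▸ dA)
  obtain ⟨B, b1, b2⟩ : ∃ B : Matrix (Fin 2) (Fin 2) (Op p), B.map (residue _) = A.val ∧
      B.det = t := by
    refine ⟨A.val.map f * !![c⁻¹ * t, 0; 0, 1], ?_, ?_⟩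
    · have : residue _ ((c⁻¹ : (Op p)ˣ) * t : Op p) = 1 := mul_left_cancel₀ dA (by
        rw [mul_one, ← d0, ← hc, ← map_mul, Units.mul_inv_cancel_left, ht, hc, d0])
      rw [Matrix.map_mul, e0]
      refine (congrArg (A.val * ·) ?_).trans (mul_one A.val)
      ext i k
      fin_cases i <;> fin_cases k <;> simp [this]
    · rw [det_mul, ← hc, det_fin_two_of, mul_one, mul_zero, sub_zero, Units.mul_inv_cancel_left]
  have p0 : residue (Op p) p = 0 := (res_eq_zero _).2 (by simpa using norm_p_lt)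
  have key : ∀ x y : ℕ, ∃ γ : GI p, rd γ = A ∧ γ.val.det = t ∧ γ.val.trace =
      B 0 0 + B 1 1 + B 0 0 * p * p * x * y + B 0 1 * p * y + B 1 0 * p * x := fun x y => by
    have d : (B * !![(1 + p * x * (p * y) : Op p), p * x; p * y, 1]).det = t := by
      rw [det_mul, b2, det_fin_two_of]; ring
    have u := (isUnit_iff_isUnit_det _).2 (d ▸ ut)
    refine ⟨u.unit, Units.ext ?_, d, ?_⟩
    · show (B * !![(1 + p * x * (p * y) : Op p), p * x; p * y, 1]).map (residue (Op p)) = _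
      rw [Matrix.map_mul, b1]
      refine (congrArg (A.val * ·) ?_).trans (mul_one A.val)
      ext i k
      fin_cases i <;> fin_cases k <;> simp [p0]
    · rw [u.unit_spec, trace_fin_two]
      simp [mul_apply, Fin.sum_univ_two]
      ring
  by_contra H
  have k : ∀ x y : ℕ, (B 0 0 + B 1 1 + B 0 0 * p * p * x * y + B 0 1 * p * y + B 1 0 * p * x) ^ 2 =
      4 * t := fun x y => by
    obtain ⟨γ, g1, g2, g3⟩ := key x y
    by_contra e
    exact H ⟨γ, g1, g2, g3 ▸ e⟩
  have pn : (p : Op p) ≠ 0 := Nat.cast_ne_zero.2 (Fact.out : p.Prime).ne_zero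
  have two : ∀ e : Op p, 2 * e ^ 2 = 0 → e = 0 := fun e h =>
    pow_eq_zero_iff two_ne_zero |>.1 ((mul_eq_zero.1 h).resolve_left two_ne_zero)
  have k00 := k 0 0
  have c1 : B 0 1 = 0 := (mul_eq_zero.1 (two (B 0 1 * p) (by
    have k1 := k 0 1
    have k2 := k 0 2
    push_cast at k00 k1 k2
    linear_combination k2 - 2 * k1 + k00))).resolve_right pn
  have c2 : B 1 0 = 0 := (mul_eq_zero.1 (two (B 1 0 * p) (by
    have k1 := k 1 0
    have k2 := k 2 0
    push_cast at k00 k1 k2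
    linear_combination k2 - 2 * k1 + k00))).resolve_right pn
  have c3 : B 0 0 = 0 := (mul_eq_zero.1 ((mul_eq_zero.1 (two (B 0 0 * p * p) (by
    have k1 := k 1 1
    have k2 := k 1 2
    rw [c1, c2] at k00 k1 k2
    push_cast at k00 k1 k2
    linear_combination k2 - 2 * k1 + k00))).resolve_right pn)).resolve_right pn
  rw [det_fin_two, c3, c1, zero_mul, zero_mul, sub_zero] at b2
  exact ut.ne_zero b2.symm

theorem rd_open {G : Type} [Group G] [TopologicalSpace G] {R : G →* GI p}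
    (h : Continuous fun g => iC (R g)) : IsOpen {g | rd (R g) = 1} := by
  have e : {g | rd (R g) = 1} = ⋂ i, ⋂ k, {g | ‖(iC (R g)).val i k - (iC (1 : GI p)).val i k‖ < 1} :=
    Set.ext fun g => by
      simp only [Set.mem_setOf_eq, Set.mem_iInter]
      rw [← map_one rd, Units.ext_iff, ← Matrix.ext_iff]
      refine forall₂_congr fun i k => ?_
      rw [← sub_eq_zero]
      exact (map_sub (residue (Op p)) _ _ ▸ res_eq_zero ((R g).val i k - (1 : GI p).val i k) :)
  rw [e]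
  exact isOpen_iInter_of_finite fun i => isOpen_iInter_of_finite fun k => isOpen_lt
    (((Units.continuous_val.comp h).matrix_elem i k).sub continuous_const).norm continuous_const

theorem norm_roots {a b : Cp p} (h1 : ‖a + b‖ ≤ 1) (h2 : ‖a * b‖ = 1) : ‖a‖ = 1 := by
  rw [norm_mul] at h2
  have k : ∀ x y : Cp p, ‖x + y‖ ≤ 1 → ‖x‖ * ‖y‖ = 1 → ‖x‖ ≤ 1 := fun x y h e => by
    by_contra n
    have n := not_le.1 n
    have : ‖y‖ < 1 := by nlinarith [norm_nonneg y]
    rw [IsUltrametricDist.norm_add_eq_max_of_norm_ne_norm (this.trans n).ne'] at h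
    exact n.not_ge ((le_max_left _ _).trans h)
  have := k a b h1 h2
  have := k b a (by rwa [add_comm]) (by rwa [mul_comm])
  nlinarith [norm_nonneg a, norm_nonneg b]

/-- **unramified lifts** -/
theorem lft0 (h : Ov l P) (hl : l ≠ p) {ρ : GQ →* GL (Fin 2) (Kp p)} (ho : IsOpen {g | ρ g = 1})
    (hd : ∀ g, dt ρ g = red (eps p g)) (hi : ∀ s ∈ inP P, ρ s = 1) :
    ∃ (V : GQ → GI p) (y : GL (Fin 2) (Cp p)) (u u' : GQ → Cp p), Rp (dec P) V ∧ Rd (dec P) V ρ ∧
      (∀ s ∈ inP P, V s = 1) ∧ y.val.det = 1 ∧ Urc P u ∧ Urc P u' ∧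
      (∀ g ∈ dec P, u g * u' g = eps p g) ∧
      (∀ g ∈ dec P, (y * iC (V g) * y⁻¹).val = !![u g, 0; 0, u' g]) ∧
      ∀ φ, Fb l P φ → u φ ≠ u' φ := by
  obtain ⟨φ, hφ⟩ := RT.Zl.ex_phi h
  obtain ⟨γ, g1, g2, g3⟩ := ex_lift (ρ φ) (l : Op p) (by
    rw [map_natCast, ← red_nat, ← eps_frob h hl hφ]; exact (hd φ).symm)
  obtain ⟨R, r1, r2, r3⟩ := ex_rep h hφ γ
  have d1 : (iC γ).val.det = l := by rw [det_iC, g2]; rfl
  have t1 : (iC γ).val.trace = (γ.val.trace : Op p) :=
    (AddMonoidHom.map_trace (Op p).subtype _).symm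
  obtain ⟨w, hw⟩ := IsAlgClosed.exists_pow_nat_eq ((iC γ).val.trace ^ 2 - 4 * l) two_pos
  have w0 : w ≠ 0 := fun e => g3 (Subtype.ext (by
    rw [e, t1] at hw
    show ((γ.val.trace : Op p) : Cp p) ^ 2 = 4 * l
    linear_combination -hw))
  obtain ⟨a, b, n, e1, e2⟩ : ∃ a b : Cp p, a ≠ b ∧ (iC γ).val.trace = a + b ∧
      (iC γ).val.det = a * b := ⟨((iC γ).val.trace + w) / 2, ((iC γ).val.trace - w) / 2,
    fun e => w0 (by linear_combination e), by ring,
    by rw [d1]; linear_combination (1 / 4 : Cp p) * hw⟩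
  obtain ⟨y, y1, y2⟩ := diag1 n e1 e2
  have n1 : ‖a + b‖ ≤ 1 := by rw [← e1, t1]; exact mem_op.1 (Subtype.prop _)
  have n2 : ‖a * b‖ = 1 := by rw [← e2, norm_det]
  obtain ⟨u, u1, u2⟩ := ex_urc h hφ (norm_roots n1 n2)
  obtain ⟨u', u1', u2'⟩ := ex_urc h hφ
    (norm_roots (a := b) (b := a) (by rwa [add_comm]) (by rwa [mul_comm]))
  have uu := Urc.ext h hφ (Urc.times u1 u1') (Urc.cyc h hl)
    (by rw [u2, u2', ← e2, d1, eps_frob h hl hφ])
  have c1 : Continuous fun g : dec P => u g := u1.cont.restrict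
  have c2 : Continuous fun g : dec P => u' g := u1'.cont.restrict
  have dg : ∀ g : dec P, (y * iC (R g) * y⁻¹).val = !![u g, 0; 0, u' g] := dens h hφ
    (C := {g | (y * iC (R g) * y⁻¹).val = !![u g, 0; 0, u' g]})
    (isClosed_eq (Units.continuous_val.comp ((continuous_const.mul r3).mul continuous_const))
      (continuous_matrix fun i k => by
        fin_cases i <;> fin_cases k
        exacts [c1, continuous_const, continuous_const, c2])) fun k s hs => by
      show (y * iC (R (φ ^ k * s)) * y⁻¹).val = !![u (φ.1 ^ k * s), 0; 0, u' (φ.1 ^ k * s)]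
      rw [Urc.weil u1 φ.2 hs, Urc.weil u1' φ.2 hs, u2, u2', map_mul, r2 s hs, mul_one, map_pow,
        r1, map_pow, ← conj_pow, Units.val_pow_eq_pow_val, Units.val_mul, Units.val_mul, y2]
      induction k with
      | zero => simp [one_fin_two]
      | succ k ih => rw [pow_succ, ih]; simp [pow_succ]
  obtain ⟨τ, T⟩ := RT.Zl.wd h
  have rr := (T φ hφ).ext (ρ := rd.comp R) (ρ' := ρ.comp (dec P).subtype) (rd_open r3)
    (ho.preimage continuous_subtype_val) (by rw [MonoidHom.comp_apply, r1, g1]; rfl)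
    fun s hs => by rw [MonoidHom.comp_apply, r2 s hs, map_one]; exact (hi s hs).symm
  refine ⟨ex1 R, y, u, u', ⟨fun g hg k hk => ?_, ?_, fun g hg => ?_⟩, fun g hg => ?_,
    fun s hs => ?_, y1, u1, u1', uu, fun g hg => ?_, fun ψ hψ => ?_⟩
  · rw [ex1_mem _ hg, ex1_mem _ hk, ex1_mem _ (mul_mem hg hk), ← map_mul]
    rfl
  · exact (ex1_cont r3).congr fun g hg => by rw [ex1_mem _ hg, ex1_mem _ hg]
  · rw [ex1_mem _ hg, ← uu g hg, ← Matrix.det_units_conj y, ← Units.val_mul, ← Units.val_mul,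
      dg ⟨g, hg⟩, det_fin_two_of, mul_zero, sub_zero]
  · rw [ex1_mem _ hg]
    exact DFunLike.congr_fun rr ⟨g, hg⟩
  · rw [ex1_mem _ (inP_le_dec hs), r2 _ hs]
  · rw [ex1_mem _ hg, dg ⟨g, hg⟩]
  · rwa [Urc.fb1 h u1 hφ hψ, Urc.fb1 h u1' hφ hψ, u2, u2']

end Vale.Agent.P022K.PM.Lf
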