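import Vale.Agent.P022K.PM.St2
import Vale.Agent.P022K.PM.Lf0

/-!
# P022K / PM: row LFT (helper45)
-/

set_option autoImplicit false
set_option linter.all false

namespace Vale.Agent.P022K.PM

/-- row LFT -/
theorem lft : LFT := fun p _ _ ρ R l P h hl hi => by
  obtain ⟨V, y, u, u', a, b, -, -, c, c', d, e, -⟩ := Lf.lft0 h hl R.opn R.det hi
  refine ⟨V, y, u, u', a, b, fun _ _ _ _ => (mul_one 1).symm, fun g hg _ => ?_,
    fun _ _ k => absurd k (by decide), ⟨⊤, isOpen_univ, fun _ _ => ⟨rfl, rfl, rfl⟩⟩,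
    ⟨1, one_pos, fun _ _ => ⟨one_pow 1, one_pow 1⟩⟩, fun _ _ => by simp, c, c', d,
    fun ⟨_, _, k⟩ => absurd k (by decide)⟩
  rw [e g hg, one_mul, one_mul]

end Vale.Agent.P022K.PM
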