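import Vale.Agent.P022.H20.GalDef
import Vale.Agent.P022K.TP.Af

/-!
# P022K / PM: capitulation of the ideal classes of an imaginary quadratic field (helper57)

The sizes of an idele `a + b θ` whose norm is rational up to a unit are the sizes of `g z`, with
`z` in `ℚ(θ)` and `g` in a finite set of numbers with `g * conj g` rational.
-/

set_option autoImplicit false

noncomputable section

namespace Vale.Agent.P022K.PM

open Vale.Agent.P022 Vale.Agent.P022K.TP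

/-- capitulation -/
def CAP : Prop :=
  ∀ (θ : Qb) (Δ : ℕ), 0 < Δ → θ ^ 2 = -Δ → ∃ A : Finset Qb,
    (∀ g ∈ A, ∃ q : ℚ, 0 < q ∧ ∀ c : GQ, IsConj c → g * c g = q) ∧
    ∀ (a b u u' : Af) (q : ℚ), u ∈ Zn 1 → u' ∈ Zn 1 → u * u' = 1 → 0 < q →
      a ^ 2 + Δ * b ^ 2 = cA q * u → ∃ g ∈ A, ∃ x y : ℚ,
        ∀ (r : ℕ) [h : Fact r.Prime] (ψ : Qb →+* PadicAlgCl r),
          ‖algebraMap ℚ_[r] (PadicAlgCl r) (pr ⟨r, h.out⟩ a) +
            algebraMap ℚ_[r] (PadicAlgCl r) (pr ⟨r, h.out⟩ b) * ψ θ‖ = ‖ψ (g * (x + y * θ))‖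

namespace Cap

/-- the finite places -/
abbrev X : Type := Σ r : Pr, (Qb →+* PadicAlgCl r.1)

/-- the component of an adele -/
def jj (r : Pr) : Af →+* PadicAlgCl r.1 := (algebraMap ℚ_[r.1] _).comp (pr r : Af →+* ℚ_[r.1])

theorem nj (r : Pr) (x : Af) : ‖jj r x‖ = ‖pr r x‖ := PadicAlgCl.norm_extends r.1 _

theorem jq (r : Pr) (q : ℚ) : jj r (cA q) = q := eq_ratCast ((jj r).comp cA) q

theorem nq (r : Pr) (q : ℚ) : ‖(q : PadicAlgCl r.1)‖ = ‖(q : ℚ_[r.1])‖ := by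
  rw [← jq, nj, pr_cA]

theorem rat_eq {m n : ℚ} (hm : 0 < m) (hn : 0 < n)
    (h : ∀ r : Pr, ‖(m : ℚ_[r.1])‖ = ‖(n : ℚ_[r.1])‖) : m = n := by
  have h1 : ∀ r : Pr, ‖((m / n : ℚ) : ℚ_[r.1])‖ = 1 := fun r => by
    rw [Rat.cast_div, norm_div, h, div_self (norm_ne_zero_iff.2 (Rat.cast_ne_zero.2 hn.ne'))]
  obtain ⟨z, hz⟩ := rat_int1 (q := m / n) (mem_Z1.2 fun r => by rw [pr_cA, h1])
  obtain ⟨w, hw⟩ := rat_int1 (q := (m / n)⁻¹) (mem_Z1.2 fun r => by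
    rw [pr_cA, Rat.cast_inv, norm_inv, h1, inv_one])
  have h0 : 0 < m / n := div_pos hm hn
  have h2 : z * w = 1 := by
    have : (z : ℚ) * w = 1 := by rw [← hz, ← hw, mul_inv_cancel₀ h0.ne']
    exact_mod_cast this
  have h3 : 0 < z := by rw [hz] at h0; exact_mod_cast h0
  rw [Int.eq_one_of_mul_eq_one_right h3.le h2, Int.cast_one] at hz
  exact (div_eq_one_iff_eq hn.ne').1 hz

theorem thue {n : ℕ} (hn : 0 < n) (a b : ℤ) : ∃ x y : ℤ, (x ≠ 0 ∨ y ≠ 0) ∧ x ^ 2 ≤ n ∧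
    y ^ 2 ≤ n ∧ (n : ℤ) ∣ b * x - a * y := by
  have : NeZero n := ⟨hn.ne'⟩
  obtain ⟨s, t, h1, h2⟩ := Fintype.exists_ne_map_eq_of_card_lt
    (fun s : Fin (n.sqrt + 1) × Fin (n.sqrt + 1) => ((b * (s.1 : ℕ) - a * (s.2 : ℕ) : ℤ) : ZMod n))
    (by simpa [sq] using Nat.lt_succ_sqrt n)
  have h3 : ∀ i j : Fin (n.sqrt + 1), (((i : ℕ) : ℤ) - (j : ℕ)) ^ 2 ≤ n := fun i j => by
    have e : ((n.sqrt : ℕ) : ℤ) ^ 2 ≤ n := by exact_mod_cast Nat.sqrt_le' n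
    have := i.2
    have := j.2
    exact (sq_le_sq' (by omega) (by omega)).trans e
  refine ⟨(t.1 : ℕ) - (s.1 : ℕ), (t.2 : ℕ) - (s.2 : ℕ), ?_, h3 _ _, h3 _ _, ?_⟩
  · by_contra h
    push Not at h
    exact h1 (Prod.ext (Fin.ext (by omega)) (Fin.ext (by omega)))
  · have := (ZMod.intCast_eq_intCast_iff_dvd_sub _ _ _).1 h2
    convert this using 1
    ring

variable {θ : Qb} {Δ : ℕ}

/-- the value of `a + b θ` at a place -/
def ev (θ : Qb) (p : X) (a b : Af) : PadicAlgCl p.1.1 := jj p.1 a + jj p.1 b * p.2 θ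

/-- the sizes of an idele -/
def sz (θ : Qb) (a b : Af) : X → ℝ := fun p => ‖ev θ p a b‖

/-- the sizes of a number -/
def sn (z : Qb) : X → ℝ := fun p => ‖p.2 z‖

/-- the norm is rational up to a unit -/
def Ok (Δ : ℕ) (a b : Af) (q : ℚ) : Prop :=
  0 < q ∧ ∀ r : Pr, ‖pr r (a ^ 2 + Δ * b ^ 2)‖ = ‖(q : ℚ_[r.1])‖

theorem sq_th (hθ : θ ^ 2 = -Δ) (p : X) : p.2 θ ^ 2 = -Δ := by
  rw [← map_pow, hθ, map_neg, map_natCast]

theorem sz_mul (hθ : θ ^ 2 = -Δ) (a b c d : Af) :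
    sz θ (a * c - Δ * b * d) (a * d + b * c) = sz θ a b * sz θ c d := funext fun p => by
  rw [Pi.mul_apply, sz, sz, sz, ← norm_mul]
  congr 1
  simp only [ev, map_sub, map_add, map_mul, map_natCast]
  linear_combination (-jj p.1 b * jj p.1 d) * sq_th hθ p

theorem sz_rat (x y : ℚ) : sz θ (cA x) (cA y) = sn (x + y * θ) := funext fun p => by
  simp only [sz, sn, ev, jq, map_add, map_mul, map_ratCast]

theorem sz_bar (hθ : θ ^ 2 = -Δ) {a b : Af} {q : ℚ} (h : Ok Δ a b q) (p : X) :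
    sz θ a b p * sz θ a (-b) p = ‖(q : ℚ_[p.1.1])‖ := by
  rw [sz, sz, ← norm_mul, ← h.2, ← nj]
  congr 1
  simp only [ev, map_neg, map_add, map_mul, map_natCast, map_pow]
  linear_combination (-jj p.1 b ^ 2) * sq_th hθ p

theorem sz_ne (hθ : θ ^ 2 = -Δ) {a b : Af} {q : ℚ} (h : Ok Δ a b q) (p : X) : sz θ a b p ≠ 0 :=
  left_ne_zero_of_mul (sz_bar hθ h p ▸ norm_ne_zero_iff.2 (Rat.cast_ne_zero.2 h.1.ne'))

theorem ok_mul {a b c d : Af} {q s : ℚ} (h : Ok Δ a b q) (k : Ok Δ c d s) :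
    Ok Δ (a * c - Δ * b * d) (a * d + b * c) (q * s) := ⟨mul_pos h.1 k.1, fun r => by
  rw [Rat.cast_mul, norm_mul, ← h.2, ← k.2, ← norm_mul, ← map_mul]
  congr 2
  ring⟩

theorem ok_rat (hΔ : 0 < Δ) {x y : ℚ} (h : x ≠ 0 ∨ y ≠ 0) :
    Ok Δ (cA x) (cA y) (x ^ 2 + Δ * y ^ 2) := ⟨by rcases h with h | h <;> positivity, fun r => by
  rw [← pr_cA]
  simp only [map_add, map_mul, map_pow, map_natCast]⟩

theorem ok_nat {a b : Af} {q : ℚ} (h : Ok Δ a b q) (ha : a ∈ Zn 1) (hb : b ∈ Zn 1) :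
    ∃ n : ℕ, 0 < n ∧ q = n ∧ a ^ 2 + Δ * b ^ 2 ∈ Zn n := by
  have h1 : a ^ 2 + Δ * b ^ 2 ∈ Zh := add_mem (pow_mem (mem_Zh.2 ha) 2)
    (mul_mem (natCast_mem Zh Δ) (pow_mem (mem_Zh.2 hb) 2))
  obtain ⟨z, rfl⟩ := rat_int1 (q := q) (mem_Z1.2 fun r => by
    rw [pr_cA, ← h.2]; exact mem_Z1.1 h1 r)
  have h0 : 0 < z := by exact_mod_cast h.1
  obtain ⟨n, rfl⟩ := Int.eq_ofNat_of_zero_le h0.le
  exact ⟨n, by exact_mod_cast h0, rfl, fun r => (h.2 r).le.trans_eq (by simp)⟩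

theorem sz_le (hθ : θ ^ 2 = -Δ) {n : ℕ} {a b : Af} (ha : a ∈ Zn n) (hb : b ∈ Zn n) (p : X) :
    sz θ a b p ≤ ‖(n : ℚ_[p.1.1])‖ := by
  have h1 : ‖p.2 θ‖ ≤ 1 := by
    rw [← sq_le_one_iff₀ (norm_nonneg _), ← norm_pow, sq_th hθ, norm_neg, ← map_natCast (jj p.1),
      nj, map_natCast]
    exact nat_le _ _
  refine (IsUltrametricDist.norm_add_le_max _ _).trans (max_le ?_ ?_)
  · rw [nj]; exact ha _
  · rw [norm_mul, nj]
    exact (mul_le_of_le_one_right (norm_nonneg _) h1).trans (hb _)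

theorem sz_add (a b c d : Af) (p : X) :
    sz θ (a + c) (b + d) p ≤ max (sz θ a b p) (sz θ c d p) := by
  refine le_trans (le_of_eq ?_) (IsUltrametricDist.norm_add_le_max _ _)
  simp only [sz, ev, map_add]
  congr 1
  ring

theorem sz_max (hθ : θ ^ 2 = -Δ) {k : ℕ} {a b c d : Af} (h : Ok Δ a b k) (ha : a ∈ Zn 1)
    (hb : b ∈ Zn 1) (hc : a - c ∈ Zn k) (hd : b - d ∈ Zn k) :
    sz θ a b = fun p => max (sz θ c d p) ‖(k : ℚ_[p.1.1])‖ := funext fun p => by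
  have h1 : ‖(k : ℚ_[p.1.1])‖ ≤ sz θ a b p := by
    rw [← Rat.cast_natCast, ← sz_bar hθ h p]
    exact mul_le_of_le_one_right (norm_nonneg _) (by simpa using sz_le hθ ha (neg_mem hb) p)
  refine le_antisymm ?_ (max_le ?_ h1)
  · have := sz_add (θ := θ) c d (a - c) (b - d) p
    rw [add_sub_cancel, add_sub_cancel] at this
    exact this.trans (max_le_max le_rfl (sz_le hθ hc hd p))
  · have := sz_add (θ := θ) a b (-(a - c)) (-(b - d)) p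
    rw [neg_sub, neg_sub, add_sub_cancel, add_sub_cancel] at this
    exact this.trans (max_le le_rfl ((sz_le hθ (neg_sub a c ▸ neg_mem hc)
      (neg_sub b d ▸ neg_mem hd) p).trans h1))

theorem ok_div {a b : Af} {q e : ℚ} (h : Ok Δ (cA e * a) (cA e * b) q) (he : e ≠ 0) :
    Ok Δ a b (q / e ^ 2) := ⟨div_pos h.1 (by positivity), fun r => by
  have h0 : ‖(e : ℚ_[r.1])‖ ≠ 0 := norm_ne_zero_iff.2 (Rat.cast_ne_zero.2 he)
  rw [Rat.cast_div, norm_div, ← h.2, Rat.cast_pow, norm_pow, eq_div_iff (pow_ne_zero 2 h0),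
    ← norm_pow, ← norm_mul, ← pr_cA, ← map_pow, ← map_mul]
  congr 2
  ring⟩

/-- scaling to a primitive vector -/
theorem prim {a b : Af} {q : ℚ} (h : Ok Δ a b q) : ∃ (d : ℚ) (n : ℕ) (a1 b1 : Af) (u v : ℤ),
    a = cA d * a1 ∧ b = cA d * b1 ∧ a1 ∈ Zn 1 ∧ b1 ∈ Zn 1 ∧ Ok Δ a1 b1 n ∧
      1 - u * a1 - v * b1 ∈ Zn n := by
  obtain ⟨d, hd, hh⟩ := exists_den_fin ![a, b]
  have ha : (d : Af) * a ∈ Zn 1 := hh 0
  have hb : (d : Af) * b ∈ Zn 1 := hh 1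
  have h0 : (d : ℚ) ≠ 0 := Nat.cast_ne_zero.2 hd.ne'
  have e0 : ∀ x : Af, x = cA (d : ℚ)⁻¹ * (d * x) := fun x => by
    rw [← mul_assoc, ← map_natCast cA, ← map_mul, inv_mul_cancel₀ h0, map_one, one_mul]
  have h1 : Ok Δ (d * a) (d * b) _ := ok_div (by rwa [← e0, ← e0]) (inv_ne_zero h0)
  obtain ⟨n, hn, e1, -⟩ := ok_nat h1 ha hb
  rw [e1] at h1
  obtain ⟨a0, h2⟩ := dens1 ha hn
  obtain ⟨b0, h3⟩ := dens1 hb hn
  obtain ⟨e, he, ea, eb, en, u, v, w, hb⟩ : ∃ e : ℕ, 0 < e ∧ (e : ℤ) ∣ a0 ∧ (e : ℤ) ∣ b0 ∧ e ∣ n ∧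
      ∃ u v w : ℤ, (e : ℤ) = u * a0 + v * b0 + w * n := by
    refine ⟨Nat.gcd (Int.gcd a0 b0) n, Nat.gcd_pos_of_pos_right _ hn,
      (Int.natCast_dvd_natCast.2 (Nat.gcd_dvd_left _ _)).trans (Int.gcd_dvd_left _ _),
      (Int.natCast_dvd_natCast.2 (Nat.gcd_dvd_left _ _)).trans (Int.gcd_dvd_right _ _),
      Nat.gcd_dvd_right _ _, Int.gcdA a0 b0 * Nat.gcdA (Int.gcd a0 b0) n,
      Int.gcdB a0 b0 * Nat.gcdA (Int.gcd a0 b0) n, Nat.gcdB (Int.gcd a0 b0) n, ?_⟩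
    rw [Nat.gcd_eq_gcd_ab]
    nth_rw 1 [Int.gcd_eq_gcd_ab]
    ring
  obtain ⟨a1, h4, e4⟩ := exists_eq_mul he (sub_add_cancel (d * a) (a0 : Af) ▸
    add_mem (Zn_anti en h2) ((int_mem_iff he).2 ea))
  obtain ⟨b1, h5, e5⟩ := exists_eq_mul he (sub_add_cancel (d * b) (b0 : Af) ▸
    add_mem (Zn_anti en h3) ((int_mem_iff he).2 eb))
  have h6 : (e : ℚ) ≠ 0 := Nat.cast_ne_zero.2 he.ne'
  have h7 : Ok Δ a1 b1 _ := ok_div (by rwa [map_natCast, ← e4, ← e5]) h6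
  obtain ⟨m, hm, e2, -⟩ := ok_nat h7 h4 h5
  have e3 : n = e * (e * m) := by
    have : (n : ℚ) = e * (e * m) := by rw [← e2]; field_simp
    exact_mod_cast this
  refine ⟨(d : ℚ)⁻¹ * e, m, a1, b1, u, v, ?_, ?_, h4, h5, e2 ▸ h7,
    Zn_anti (dvd_mul_left m e) ((mul_mem_iff he).1 ?_)⟩
  · rw [map_mul, map_natCast, mul_assoc, ← e4, ← e0]
  · rw [map_mul, map_natCast, mul_assoc, ← e5, ← e0]
  · have hb' : (e : Af) = u * a0 + v * b0 + w * n := by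
      exact_mod_cast congrArg (Int.cast : ℤ → Af) hb
    rw [← e3, show (e : Af) * (1 - u * a1 - v * b1) =
      w * n - u * (d * a - a0) - v * (d * b - b0) by rw [e4, e5]; linear_combination hb']
    exact sub_mem (sub_mem (Zn_mul1 (int_mem w) (nat_mem n)) (Zn_mul1 (int_mem u) h2))
      (Zn_mul1 (int_mem v) h3)

/-- the finitely many shapes -/
def sh (θ : Qb) (t : ℕ × ℤ × ℤ) : X → ℝ :=
  fun p => max (sz θ (t.2.1 : Af) (t.2.2 : Af) p) ‖(t.1 : ℚ_[p.1.1])‖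

theorem red {x : Af} (hx : x ∈ Zn 1) {k : ℕ} (hk : 0 < k) :
    ∃ i : ℤ, 0 ≤ i ∧ i ≤ k ∧ x - i ∈ Zn k := by
  obtain ⟨z, hz⟩ := dens1 hx hk
  have h0 : (0 : ℤ) < k := by exact_mod_cast hk
  refine ⟨z % k, Int.emod_nonneg _ h0.ne', (Int.emod_lt_of_pos _ h0).le, ?_⟩
  have := add_mem hz ((int_mem_iff hk).2 (Int.dvd_self_sub_emod (x := z)))
  rwa [Int.cast_sub, sub_add_sub_cancel] at this

/-- reduction -/
theorem fin (hΔ : 0 < Δ) (hθ : θ ^ 2 = -Δ) {a b : Af} {q : ℚ} (h : Ok Δ a b q) :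
    ∃ t ∈ Set.Icc (0, 0, 0) ((Δ + 1, Δ + 1, Δ + 1) : ℕ × ℤ × ℤ),
      (∃ c d s, Ok Δ c d s ∧ sh θ t = sz θ c d) ∧
        ∃ x y : ℚ, sz θ a b = sh θ t * sn (x + y * θ) := by
  obtain ⟨e, n, a, b, u, v, rfl, rfl, ha, hb, h, hu⟩ := prim h
  obtain ⟨_, hn, e1, hN⟩ := ok_nat h ha hb
  obtain rfl := Nat.cast_injective e1
  obtain ⟨a0, h1⟩ := dens1 ha hn
  obtain ⟨b0, h2⟩ := dens1 hb hn
  obtain ⟨x, y, h0, hx, hy, h3⟩ := thue hn a0 b0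
  have hD : (Δ : Af) ∈ Zn 1 := natCast_mem Zh Δ
  have h4 : b * x - a * y ∈ Zn n := by
    rw [show b * x - a * y = x * (b - b0) - y * (a - a0) + (b0 * x - a0 * y : ℤ) by
      push_cast; ring]
    exact add_mem (sub_mem (Zn_mul1 (int_mem x) h2) (Zn_mul1 (int_mem y) h1))
      ((int_mem_iff hn).2 h3)
  have h5 : a * x + Δ * b * y ∈ Zn n := by
    rw [show a * x + Δ * b * y = (x * a + y * (Δ * b)) * (1 - u * a - v * b) +
      (u * x + v * y) * (a ^ 2 + Δ * b ^ 2) + (v * a - u * (Δ * b)) * (b * x - a * y) by ring]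
    exact add_mem (add_mem (Zn_mul1 (add_mem (Zn_mul1 (int_mem x) ha)
      (Zn_mul1 (int_mem y) (Zn_mul1 hD hb))) hu) (Zn_mul1 (by exact_mod_cast int_mem _) hN))
      (Zn_mul1 (sub_mem (Zn_mul1 (int_mem v) ha) (Zn_mul1 (int_mem u) (Zn_mul1 hD hb))) h4)
  obtain ⟨c, hc, ec⟩ := exists_eq_mul hn h5
  obtain ⟨d, hd, ed⟩ := exists_eq_mul hn h4
  have hn' : (n : ℚ) ≠ 0 := Nat.cast_ne_zero.2 hn.ne'
  have h6 := ok_mul h (ok_rat hΔ (x := x) (y := -y) (by simpa using h0))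
  have h7 : Ok Δ c d _ := ok_div (e := n) (by
    rw [map_natCast, ← ec, ← ed]
    convert h6 using 1 <;> simp only [map_neg, map_intCast] <;> ring) hn'
  obtain ⟨k, hk, e2, -⟩ := ok_nat h7 hc hd
  rw [e2] at h7
  have e3 : x ^ 2 + Δ * y ^ 2 = k * n := by
    have : (x : ℚ) ^ 2 + Δ * y ^ 2 = k * n := by rw [← e2]; field_simp
    exact_mod_cast this
  have h8 : (k : ℤ) ≤ Δ + 1 := le_of_mul_le_mul_right (a := (n : ℤ))
    (by rw [← e3]; nlinarith [Int.natCast_nonneg Δ]) (by exact_mod_cast hn)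
  obtain ⟨i, i0, i1, hi⟩ := red hc hk
  obtain ⟨j, j0, j1, hj⟩ := red hd hk
  have h9 : sh θ (k, i, j) = sz θ c d := (sz_max hθ h7 hc hd hi hj).symm
  refine ⟨(k, i, j), ⟨⟨k.zero_le, i0, j0⟩, by exact_mod_cast h8, i1.trans h8, j1.trans h8⟩,
    ⟨c, d, k, h7, h9⟩, e * x / k, e * y / k, ?_⟩
  have e4 : (x : Af) ^ 2 + Δ * y ^ 2 = k * n := by
    exact_mod_cast congrArg (Int.cast : ℤ → Af) e3
  have e5 : ∀ z : ℚ, z ≠ 0 → cA z⁻¹ * cA z = 1 := fun z hz => by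
    rw [← map_mul, inv_mul_cancel₀ hz, map_one]
  have e6 := e5 n hn'
  have e7 := e5 k (Nat.cast_ne_zero.2 hk.ne')
  rw [h9, ← sz_rat, ← sz_mul hθ]
  simp only [div_eq_mul_inv, map_mul, map_natCast, map_intCast] at e6 e7 ⊢
  generalize cA (n : ℚ)⁻¹ = n' at *
  generalize cA (k : ℚ)⁻¹ = k' at *
  congr 1
  · linear_combination cA e * (k' * n' * (x * ec - Δ * y * ed - a * e4) -
      (a - k' * (c * x - Δ * d * y)) * e6 - n' * n * a * e7)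
  · linear_combination cA e * (k' * n' * (y * ec + x * ed - b * e4) -
      (b - k' * (c * y + d * x)) * e6 - n' * n * b * e7)

theorem sn_mul (z w : Qb) : sn (z * w) = sn z * sn w := funext fun p => by
  simp only [sn, Pi.mul_apply, map_mul, norm_mul]

theorem ok_pow (hθ : θ ^ 2 = -Δ) {a b : Af} {q : ℚ} (h : Ok Δ a b q) (i : ℕ) :
    ∃ c d s, Ok Δ c d s ∧ sz θ c d = sz θ a b ^ i := by
  induction i with
  | zero => exact ⟨1, 0, 1, ⟨one_pos, fun r => by simp⟩, funext fun p => by simp [sz, ev]⟩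
  | succ i ih =>
    obtain ⟨c, d, s, h1, h2⟩ := ih
    exact ⟨_, _, _, ok_mul h1 h, by rw [sz_mul hθ, h2, pow_succ]⟩

theorem quo (hΔ : 0 < Δ) (hθ : θ ^ 2 = -Δ) {x y : ℚ} (h : (x + y * θ : Qb) ≠ 0) (z w : ℚ) :
    ∃ s t : ℚ, (z + w * θ : Qb) = (s + t * θ) * (x + y * θ) := by
  have h0 : x ≠ 0 ∨ y ≠ 0 := by
    by_contra h1
    push Not at h1
    simp [h1.1, h1.2] at h
  have h1 : ((x : Qb) ^ 2 + Δ * y ^ 2) ≠ 0 := by exact_mod_cast (ok_rat hΔ h0).1.ne'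
  refine ⟨(z * x + Δ * w * y) / (x ^ 2 + Δ * y ^ 2), (w * x - z * y) / (x ^ 2 + Δ * y ^ 2), ?_⟩
  push_cast
  field_simp
  linear_combination (z * y ^ 2 - w * x * y) * hθ

/-- the classes have finite order -/
theorem tors (hΔ : 0 < Δ) (hθ : θ ^ 2 = -Δ) {a b : Af} {q : ℚ} (h : Ok Δ a b q) :
    ∃ m : ℕ, m ≠ 0 ∧ ∃ x y : ℚ, sz θ a b ^ m = sn (x + y * θ) := by
  choose c d s h1 h2 using ok_pow hθ h
  choose t h3 _ x y h4 using fun i => fin hΔ hθ (h1 i)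
  obtain ⟨i, j, h5, h6⟩ := Set.Finite.exists_lt_map_eq_of_forall_mem h3 (Set.finite_Icc _ _)
  obtain ⟨m, rfl⟩ := Nat.exists_eq_add_of_lt h5
  have h7 : ∀ p, sz θ (c i) (d i) p ≠ 0 := sz_ne hθ (h1 i)
  by_cases h0 : (x i + y i * θ : Qb) = 0
  · refine ⟨1, one_ne_zero, 0, 0, funext fun p => absurd ?_ (h7 p)⟩
    rw [h4, h0]
    simp [sn]
  obtain ⟨z, w, e⟩ := quo hΔ hθ h0 (x (i + m + 1)) (y (i + m + 1))
  refine ⟨m + 1, m.succ_ne_zero, z, w, funext fun p => mul_left_cancel₀ (h7 p) ?_⟩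
  have e1 := h4 (i + m + 1)
  rw [h2, e, sn_mul, ← h6, mul_left_comm, ← h4, add_assoc, pow_add, ← h2 i] at e1
  exact (congrFun e1 p).trans (mul_comm _ _)

theorem conj_th (hΔ : 0 < Δ) (hθ : θ ^ 2 = -Δ) {c : GQ} (hc : IsConj c) : c θ = -θ := by
  obtain ⟨Φ, hΦ⟩ := hc
  have h1 : c θ ^ 2 = θ ^ 2 := by rw [← map_pow, hθ, map_neg, map_natCast]
  refine (sq_eq_sq_iff_eq_or_eq_neg.1 h1).resolve_left fun h2 => ?_
  have h3 : ((Complex.normSq (Φ θ) : ℝ) : ℂ) = (-Δ : ℝ) := by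
    rw [← Complex.mul_conj, ← hΦ, h2, ← map_mul, ← sq, hθ]
    simp
  have h4 := Complex.normSq_nonneg (Φ θ)
  have h5 : (0 : ℝ) < Δ := by exact_mod_cast hΔ
  rw [Complex.ofReal_injective h3] at h4
  linarith

/-- capitulation of one class -/
theorem root (hΔ : 0 < Δ) (hθ : θ ^ 2 = -Δ) {a b : Af} {q : ℚ} (h : Ok Δ a b q) :
    ∃ g : Qb, (∀ c : GQ, IsConj c → g * c g = q) ∧ sz θ a b = sn g := by
  obtain ⟨m, hm, x, y, e⟩ := tors hΔ hθ h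
  obtain ⟨g, hg⟩ := IsAlgClosed.exists_pow_nat_eq (x + y * θ : Qb) (Nat.pos_of_ne_zero hm)
  refine ⟨g, fun c hc => ?_, funext fun p => (pow_left_inj₀ (norm_nonneg _) (norm_nonneg _) hm).1
    ((congrFun e p).trans (by rw [sn, ← hg, map_pow, norm_pow]))⟩
  have h1 := conj_th hΔ hθ hc
  have h2 : (x + y * θ) * c (x + y * θ) = (x ^ 2 + Δ * y ^ 2 : ℚ) := by
    simp only [map_add, map_mul, map_ratCast, h1]
    push_cast
    linear_combination (-y ^ 2) * hθ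
  have h3 : ∀ r : Pr, ‖((x ^ 2 + Δ * y ^ 2 : ℚ) : ℚ_[r.1])‖ = ‖((q ^ m : ℚ) : ℚ_[r.1])‖ :=
    fun r => by
      have : Algebra.IsAlgebraic ℚ Qb := AlgebraicClosure.isAlgebraic ℚ
      let ψ : Qb →+* PadicAlgCl r.1 := (IsAlgClosed.lift : Qb →ₐ[ℚ] PadicAlgCl r.1)
      have e1 : sz θ a b ⟨r, ψ.comp (c : Qb →+* Qb)⟩ = sz θ a (-b) ⟨r, ψ⟩ := by
        simp [sz, ev, h1]
      rw [← nq, ← map_ratCast ψ, ← h2, map_mul, norm_mul, Rat.cast_pow, norm_pow,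
        ← sz_bar hθ h ⟨r, ψ⟩, mul_pow, ← e1]
      exact (congrArg₂ _ (congrFun e ⟨r, ψ⟩) (congrFun e ⟨r, ψ.comp (c : Qb →+* Qb)⟩)).symm
  have h4 : 0 < x ^ 2 + Δ * y ^ 2 := lt_of_le_of_ne (by positivity) fun h5 => by
    have := h3 ⟨2, Nat.prime_two⟩
    rw [← h5, Rat.cast_zero, norm_zero, eq_comm, norm_eq_zero, Rat.cast_eq_zero] at this
    exact pow_ne_zero m h.1.ne' this
  rw [rat_eq h4 (pow_pos h.1 m) h3, ← hg, map_pow, ← mul_pow] at h2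
  obtain ⟨Φ, hΦ⟩ := hc
  have h5 : Φ (g * c g) = (Complex.normSq (Φ g) : ℝ) := by rw [map_mul, hΦ, Complex.mul_conj]
  have h6 : Complex.normSq (Φ g) ^ m = (q : ℝ) ^ m := Complex.ofReal_injective (by
    rw [Complex.ofReal_pow, ← h5, ← map_pow, h2]
    simp)
  rw [pow_left_inj₀ (Complex.normSq_nonneg _) (by exact_mod_cast h.1.le) hm] at h6
  exact Φ.injective (by rw [h5, h6]; simp)

end Cap

open Cap in
theorem cap : CAP := fun θ Δ hΔ hθ => by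
  classical
  have h1 : ∀ t : ℕ × ℤ × ℤ, ∃ g : Qb, (∃ q : ℚ, 0 < q ∧ ∀ c : GQ, IsConj c → g * c g = q) ∧
      ((∃ c d s, Ok Δ c d s ∧ sh θ t = sz θ c d) → sh θ t = sn g) := fun t => by
    by_cases h : ∃ c d s, Ok Δ c d s ∧ sh θ t = sz θ c d
    · obtain ⟨c, d, s, h2, h3⟩ := h
      obtain ⟨g, h4, h5⟩ := root hΔ hθ h2
      exact ⟨g, ⟨s, h2.1, h4⟩, fun _ => h3.trans h5⟩
    · exact ⟨1, ⟨1, one_pos, fun c _ => by simp⟩, fun h2 => absurd h2 h⟩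
  choose g h2 h3 using h1
  refine ⟨(Finset.Icc (0, 0, 0) ((Δ + 1, Δ + 1, Δ + 1) : ℕ × ℤ × ℤ)).image g, fun z hz => ?_,
    fun a b u u' q hu hu' e hq e' => ?_⟩
  · obtain ⟨t, -, rfl⟩ := Finset.mem_image.1 hz
    exact h2 t
  · have h4 : Ok Δ a b q := ⟨hq, fun r => by
      have h5 : ‖pr r u‖ * ‖pr r u'‖ = 1 := by rw [← norm_mul, ← map_mul, e, map_one, norm_one]
      have h6 : ‖pr r u‖ = 1 := le_antisymm (mem_Z1.1 hu r)
        (h5.symm.trans_le (mul_le_of_le_one_right (norm_nonneg _) (mem_Z1.1 hu' r)))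
      rw [e', map_mul, norm_mul, h6, mul_one, pr_cA]⟩
    obtain ⟨t, h5, h6, x, y, h7⟩ := fin hΔ hθ h4
    refine ⟨g t, Finset.mem_image_of_mem g (Finset.mem_Icc.2 h5), x, y, fun r h ψ => ?_⟩
    rw [h3 t h6, ← sn_mul] at h7
    exact congrFun h7 ⟨⟨r, h.out⟩, ψ⟩

end Vale.Agent.P022K.PM
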