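import Vale.Agent.P022K.PM.Defs
import Vale.Agent.P022K.GR.Ani2

/-!
# P022K / PM: potentially good reduction on the locus of the datum
-/

set_option autoImplicit false

open NumberField Matrix Quaternion

noncomputable section

namespace Vale.Agent.P022K.PM.QD

open Vale.Agent.P010MR Vale.Agent.P010MT8

variable (D : QD)

theorem mx_e (f : D.B →ₗ[ℚ] D.B) (x : D.B) : D.mx f *ᵥ D.e x = D.e (f x) := by
  rw [mx, LinearMap.toMatrix'_mulVec]
  simp

theorem rm_e (z x : D.B) : D.rm z *ᵥ D.e x = D.e (x * z) := D.mx_e _ x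

theorem lm_e (z x : D.B) : D.lm z *ᵥ D.e x = D.e (z * x) := D.mx_e _ x

theorem ex_real : Nonempty (D.M →+* ℝ) := by
  have := D.real
  obtain ⟨w⟩ : Nonempty (InfinitePlace D.M) := inferInstance
  exact ⟨InfinitePlace.embedding_of_isReal (IsTotallyReal.isReal w)⟩

theorem δ_sq_ne : (D.δ * D.δ).re ≠ 0 := fun h => by
  obtain ⟨φ⟩ := D.ex_real
  have e : (D.δ * D.δ).re = D.β * D.d3 ^ 2 - D.d1 ^ 2 := by simp [δ]; ring
  have h1 := congrArg φ (e ▸ h)
  rw [map_sub, map_mul, map_pow, map_pow, map_zero, sub_eq_zero] at h1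
  exact (D.neg φ).ne h1

theorem β_ne : D.β ≠ 0 := fun h => by
  obtain ⟨φ⟩ := D.ex_real
  simpa [h] using D.pos φ

/-- `B` is a division algebra -/
theorem nrd_ne {x : D.B} (hx : x ≠ 0) : D.nrd x ≠ 0 := fun h => by
  obtain ⟨l, _, μ, -, ram⟩ := D.ram 2 Nat.prime_two
  have key : ∀ y : D.B, (x * y).re = 0 := fun y => by
    have h1 := ram (x * y)
    have e : (x * y * star (x * y)).re = D.nrd x * D.nrd y := by simp [nrd]; ring
    rw [e, h, zero_mul, map_zero, norm_zero] at h1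
    exact (_root_.map_eq_zero μ).1 (norm_eq_zero.1 (pow_eq_zero_iff two_ne_zero |>.1
      (h1.antisymm (sq_nonneg _))))
  have hb := D.β_ne
  refine hx (QuaternionAlgebra.ext ?_ ?_ ?_ ?_)
  · simpa using key 1
  · simpa using key ⟨0, 1, 0, 0⟩
  · simpa [hb] using key ⟨0, 0, 1, 0⟩
  · simpa [hb] using key ⟨0, 0, 0, 1⟩

/-- the values of the theta function at torsion points are uniform -/
theorem un {p : ℕ} (hp : p.Prime) : ∃ n : ℕ, 2 ≤ n ∧ n.Coprime p ∧ ∀ τ ∈ D.Loc,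
    ∀ (K : Type) [NormedField K] [IsUltrametricDist K] (j : ℂ →+* K), ‖(n : K)‖ = 1 →
      GR.Un j τ n := by
  obtain ⟨l, hl, μ, hlp, ram⟩ := D.ram p hp
  obtain ⟨n, h2, hc, H⟩ := GR.un_quat (δ := D.δ) D.rm_e rfl D.sym D.δ_sq_ne two_ne_zero μ ram hp.pos
    ((Nat.coprime_primes hl.out hp).2 hlp)
  exact ⟨n, h2, hc, fun τ hτ => H τ hτ.1 fun _ _ => hτ.2 _⟩

theorem norm_cop {K : Type} [NormedField K] [IsUltrametricDist K] {n p : ℕ} (h : n.Coprime p)
    (hp : ‖(p : K)‖ < 1) : ‖(n : K)‖ = 1 := by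
  refine (IsUltrametricDist.norm_natCast_le_one K n).antisymm (not_lt.1 fun hn => ?_)
  obtain ⟨a, b, e⟩ := Nat.isCoprime_iff_coprime.2 h
  have h1 := IsUltrametricDist.norm_add_le_max ((a : K) * n) ((b : K) * p)
  have e' : (a : K) * n + b * p = 1 := by exact_mod_cast congrArg (Int.cast : ℤ → K) e
  rw [e', norm_one, norm_mul, norm_mul] at h1
  exact h1.not_gt (max_lt
    (mul_lt_one_of_nonneg_of_lt_one_right (IsUltrametricDist.norm_intCast_le_one K a)
      (norm_nonneg _) hn)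
    (mul_lt_one_of_nonneg_of_lt_one_right (IsUltrametricDist.norm_intCast_le_one K b)
      (norm_nonneg _) hp))

/-- the form for a field of residue characteristic `p` -/
theorem un' {p : ℕ} (hp : p.Prime) {τ : Mc D.g} (hτ : τ ∈ D.Loc) {K : Type} [NormedField K]
    [IsUltrametricDist K] (j : ℂ →+* K) (h : ‖(p : K)‖ < 1) :
    ∃ n : ℕ, 2 ≤ n ∧ ‖(n : K)‖ = 1 ∧ GR.Un j τ n := by
  obtain ⟨n, h2, hc, H⟩ := D.un hp
  exact ⟨n, h2, norm_cop hc h, H τ hτ K j (norm_cop hc h)⟩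

end Vale.Agent.P022K.PM.QD
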