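import Vale.Agent.P022K.PM.Iso
import Vale.Agent.P022K.PM.Un
import Vale.Agent.P022K.TP.Bas

/-!
# P022K / PM: Weil elements, the inertia group of a place, fixed points
-/

set_option autoImplicit false

open Polynomial Filter Topology

noncomputable section

namespace Vale.Agent.P022K.PM

open Vale.Agent.P022 Vale.Agent.P010MR Vale.Agent.P022K.TP

theorem root_eq {K : Type} [NormedField K] [IsUltrametricDist K] {n : ℕ} (hn : ‖(n : K)‖ = 1)
    {a b : K} (ha : a ^ n = 1) (hb : b ^ n = 1) (h : ‖a - b‖ < 1) : a = b := by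
  have h0 : n ≠ 0 := by rintro rfl; simp at hn
  have n1 : ∀ x : K, x ^ n = 1 → ‖x‖ = 1 := fun x hx =>
    (pow_eq_one_iff_of_nonneg (norm_nonneg x) h0).1 (by rw [← norm_pow, hx, norm_one])
  have hb0 : b ≠ 0 := norm_ne_zero_iff.1 (n1 b hb ▸ one_ne_zero)
  have h1 : (a / b) ^ n = 1 := by rw [div_pow, ha, hb, div_one]
  have h2 : ‖a / b - 1‖ < 1 := by rwa [div_sub_one hb0, norm_div, n1 b hb, div_one]
  rw [← div_eq_one_iff_eq hb0]
  generalize a / b = x at h1 h2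
  by_contra hx
  have h3 : ∑ i ∈ Finset.range n, x ^ i = 0 := by rw [geom_sum_eq hx, h1, sub_self, zero_div]
  have h4 : ∀ i, ‖x ^ i - 1‖ ≤ ‖x - 1‖ := fun i => by
    rw [← geom_sum_mul, norm_mul]
    refine mul_le_of_le_one_left (norm_nonneg _)
      (IsUltrametricDist.norm_sum_le_of_forall_le_of_nonneg zero_le_one fun j _ => ?_)
    rw [norm_pow, n1 x h1, one_pow]
  have h5 := IsUltrametricDist.norm_sum_le_of_forall_le_of_nonneg (s := Finset.range n)
    (norm_nonneg _) fun i _ => h4 i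
  rw [Finset.sum_sub_distrib, h3] at h5
  simp [hn] at h5
  exact h5.not_gt h2

theorem pow_cong {K : Type} [NormedField K] [IsUltrametricDist K] {a b : K} (ha : ‖a‖ ≤ 1)
    (hb : ‖b‖ ≤ 1) (n : ℕ) : ‖a ^ n - b ^ n‖ ≤ ‖a - b‖ := by
  rw [← (Commute.all a b).geom_sum₂_mul, norm_mul]
  refine mul_le_of_le_one_left (norm_nonneg _)
    (IsUltrametricDist.norm_sum_le_of_forall_le_of_nonneg zero_le_one fun j _ => ?_)
  rw [norm_mul, norm_pow, norm_pow]
  exact mul_le_one₀ (pow_le_one₀ (norm_nonneg _) ha) (by positivity) (pow_le_one₀ (norm_nonneg _) hb)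

variable {l : ℕ} [hl : Fact l.Prime] {v : AbsoluteValue Qb ℝ}

/-- the cyclotomic character of a Weil element -/
theorem cyc_wl (hv : IsPl l v) {k : ℕ} {σ : GQ} (h : Wl v l k σ) {r : Pr} (hr : r.1 ≠ l) :
    pr r (cyc σ) = (l : ℚ_[r.1]) ^ k := by
  obtain ⟨h0, -⟩ | ⟨_, jp, hj⟩ := hv
  · exact absurd h0 hl.out.ne_zero
  rw [← sub_eq_zero, ← norm_le_zero_iff]
  have h1 : Tendsto (fun m : ℕ => ‖(r.1 : ℚ_[r.1])‖ ^ m) atTop (𝓝 0) :=
    tendsto_pow_atTop_nhds_zero_of_lt_one (norm_nonneg _) Padic.norm_p_lt_one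
  refine ge_of_tendsto' h1 fun m => ?_
  have hn := pow_pos r.2.pos m
  have : NeZero (r.1 ^ m) := ⟨hn.ne'⟩
  obtain ⟨z, hz⟩ := dens1 (chi_mem σ.toRingEquiv) hn
  obtain ⟨t, ht⟩ := HasEnoughRootsOfUnity.exists_primitiveRoot Qb (r.1 ^ m)
  have h2 : σ t = t ^ z := chi_spec σ.toRingEquiv hn ht.pow_eq_one hz
  have hp : ‖(l : PadicAlgCl l)‖ < 1 := by
    rw [← map_natCast (algebraMap ℚ_[l] (PadicAlgCl l)), PadicAlgCl.norm_extends]
    exact Padic.norm_p_lt_one
  have h3 : v t ≤ 1 := ((pow_eq_one_iff_of_nonneg (v.nonneg t) hn.ne').1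
    (by rw [← map_pow, ht.pow_eq_one, map_one])).le
  have h4 : σ t = t ^ l ^ k := jp.injective <| root_eq
    (QD.norm_cop (((Nat.coprime_primes r.2 hl.out).2 hr).pow_left m) hp)
    (by rw [← map_pow, ← map_pow, ht.pow_eq_one, map_one, map_one])
    (by rw [← map_pow, ← pow_mul, mul_comm, pow_mul, ht.pow_eq_one, one_pow, map_one])
    (by rw [← map_sub, ← hj]; exact h.2 t h3)
  have h0 : t ≠ 0 := ht.ne_zero hn.ne'
  have h5 : ((r.1 ^ m : ℕ) : ℤ) ∣ z - (l ^ k : ℕ) := (ht.zpow_eq_one_iff_dvd _).1 (by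
    rw [zpow_sub₀ h0, ← h2, h4, zpow_natCast, div_self (pow_ne_zero _ h0)])
  have := add_mem hz ((int_mem_iff hn).2 h5) r
  change ‖pr r (chi Qb σ.toRingEquiv) - _‖ ≤ _
  simpa using this

omit hl in
theorem Wl.one (v : AbsoluteValue Qb ℝ) (l : ℕ) : Wl v l 0 1 := ⟨one_mem _, fun x _ => by simp⟩

theorem Wl.mul (hv : IsPl l v) {k k' : ℕ} {σ σ' : GQ} (h : Wl v l k σ) (h' : Wl v l k' σ') :
    Wl v l (k + k') (σ * σ') := by
  obtain ⟨h0, -⟩ | ⟨_, jp, hj⟩ := hv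
  · exact absurd h0 hl.out.ne_zero
  refine ⟨mul_mem h.1 h'.1, fun x hx => ?_⟩
  have h1 : v (σ (σ' x - x ^ l ^ k')) < 1 := (h.1 _).trans_lt (h'.2 x hx)
  have h2 := (pow_cong (a := jp (σ x)) (b := jp (x ^ l ^ k)) (by rw [← hj, h.1]; exact hx)
    (by rw [← hj, map_pow]; exact pow_le_one₀ (v.nonneg x) hx) (l ^ k')).trans_lt
    (by rw [← map_sub, ← hj]; exact h.2 x hx)
  rw [hj, show (σ * σ') x - x ^ l ^ (k + k') = σ (σ' x - x ^ l ^ k') +
    (σ x ^ l ^ k' - (x ^ l ^ k) ^ l ^ k') by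
      rw [map_sub, map_pow, ← pow_mul, ← pow_add, AlgEquiv.mul_apply]; ring, map_add]
  refine (IsUltrametricDist.norm_add_le_max _ _).trans_lt (max_lt (hj _ ▸ h1) ?_)
  rwa [map_sub, map_pow, map_pow jp (x ^ _)]

theorem Wl.pow (hv : IsPl l v) {k : ℕ} {σ : GQ} (h : Wl v l k σ) (i : ℕ) :
    Wl v l (k * i) (σ ^ i) := by
  induction i with
  | zero => simpa using Wl.one v l
  | succ i ih => rw [pow_succ, Nat.mul_succ]; exact ih.mul hv h

/-- the inertia group of a place -/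
def inr (hv : IsPl l v) : Subgroup GQ where
  carrier := {σ | Wl v l 0 σ}
  one_mem' := Wl.one v l
  mul_mem' h h' := Wl.mul hv h h'
  inv_mem' {σ} h := ⟨inv_mem h.1, fun x hx => by
    have := h.2 (σ⁻¹ x) ((inv_mem h.1 x).trans_le hx)
    rw [← AlgEquiv.mul_apply, mul_inv_cancel, v.map_sub] at this
    simpa using this⟩

theorem mem_inr (hv : IsPl l v) {σ : GQ} : σ ∈ inr hv ↔ Wl v l 0 σ := Iff.rfl

theorem closed_app (x : Qb) (P : Qb → Prop) : IsClosed {σ : GQ | P (σ x)} := by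
  refine isOpen_compl_iff.1 (isOpen_iff_mem_nhds.2 fun σ hσ => ?_)
  have h1 : IsOpen (MulAction.stabilizer GQ x : Set GQ) := stabilizer_isOpen_of_isIntegral x
  refine mem_of_superset ((h1.preimage (continuous_const_mul σ⁻¹)).mem_nhds (by simp)) fun t ht => ?_
  have h2 : (σ⁻¹ * t) x = x := ht
  have h3 : t x = σ x := by rw [← h2, ← AlgEquiv.mul_apply σ, mul_inv_cancel_left, h2]
  exact fun h => hσ (by simpa [h3] using h)

theorem closed_stab (v : AbsoluteValue Qb ℝ) : IsClosed (stab v : Set GQ) := by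
  have := isClosed_iInter fun x : Qb => closed_app x fun y => v y = v x
  rwa [← Set.ofPred_forall] at this

theorem closed_inr (hv : IsPl l v) : IsClosed (inr hv : Set GQ) := by
  have := isClosed_iInter fun x : Qb => closed_app x fun y => v x ≤ 1 → v (y - x ^ l ^ 0) < 1
  rw [← Set.ofPred_forall] at this
  exact (closed_stab v).inter this

theorem Dec.closed {D : Subgroup GQ} (h : Dec v D) : IsClosed (D : Set GQ) := by
  obtain ⟨N, h1, h2⟩ := h.2.2
  have h3 : IsOpen ((D.subgroupOf (stab v) : Subgroup (stab v)) : Set (stab v)) :=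
    Subgroup.isOpen_mono (H₁ := N.subgroupOf (stab v)) (fun x hx => h2 ⟨hx, x.2⟩)
      (h1.preimage continuous_subtype_val)
  have := (closed_stab v).isClosedEmbedding_subtypeVal.isClosedMap _
    (Subgroup.isClosed_of_isOpen (G := stab v) _ h3)
  convert this using 1
  ext x
  exact ⟨fun hx => ⟨⟨x, h.1 hx⟩, hx, rfl⟩, fun ⟨y, hy, e⟩ => e ▸ hy⟩

section fx

variable {g : ℕ} {j : Qb →+* ℂ} {τ : Mc g} {σ σ' : GQ} {u u' : Mi g Af}

theorem exists_ext0 (j : Qb →+* ℂ) (σ : GQ) : ∃ s, Ext j σ s :=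
  P010M6.exists_equiv j (j.comp σ.toRingEquiv.toRingHom)
    (Cardinal.mk_complex ▸ Cardinal.aleph0_lt_continuum) rfl

theorem FxT.mul (h : FxT j τ σ u) (h' : FxT j τ σ' u') : FxT j τ (σ * σ') (u * u') := fun s hs => by
  obtain ⟨s', hs'⟩ := exists_ext0 j σ'
  have := (h (s * s'⁻¹) fun a => ?_).mul (h' s' hs')
  · rwa [inv_mul_cancel_right] at this
  have h1 := hs' (σ'⁻¹ a)
  rw [← AlgEquiv.mul_apply, mul_inv_cancel, AlgEquiv.one_apply] at h1
  have h2 := hs (σ'⁻¹ a)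
  rw [← AlgEquiv.mul_apply, mul_inv_cancel_right] at h2
  rw [← h2, ← h1]
  exact congrArg s (s'.symm_apply_apply _)

theorem FxT.one (h : Algp τ) : FxT j τ 1 1 := fun s hs => h s fun x hx => by
  obtain ⟨f, h0, hf⟩ := hx
  have h1 : x ∈ (f.map (algebraMap ℚ Qb)).roots.map j := by
    rw [← (IsAlgClosed.splits _).roots_map, Polynomial.map_map,
      Subsingleton.elim (j.comp _) (algebraMap ℚ ℂ)]
    exact (mem_aroots.2 ⟨h0, hf⟩ : x ∈ f.aroots ℂ)
  obtain ⟨c, -, rfl⟩ := Multiset.mem_map.1 h1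
  exact hs c

theorem FxT.pow (h0 : Algp τ) (h : FxT j τ σ u) (i : ℕ) : FxT j τ (σ ^ i) (u ^ i) := by
  induction i with
  | zero => simpa using FxT.one h0
  | succ i ih => rw [pow_succ, pow_succ]; exact ih.mul h

end fx

end Vale.Agent.P022K.PM
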