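import Vale.Agent.P022K.PM.TwSt
import Vale.Agent.P022K.TP.Defs

/-!
# P022K / PM: twisted Moret-Bailly on the tower, statement (helper22)
-/

namespace Vale.Agent.P022K.PM

open Vale.Agent.P022 Vale.Agent.P010MR Vale.Agent.P022K.TP

variable {g : ℕ}

/-- `s` extends `σ` -/
def Ext (j : Qb →+* ℂ) (σ : GQ) (s : ℂ ≃+* ℂ) : Prop := ∀ a, s (j a) = j (σ a)

/-- the points with endomorphisms `f k` -/
def LocF {κ : Type} (f : κ → Mi g ℚ) : Set (Mc g) := {τ | τ ∈ Hg g ∧ ∀ k, Hm τ τ (f k)}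

/-- `(σ, u)` fixes `τ` -/
def FxT (j : Qb →+* ℂ) (τ : Mc g) (σ : GQ) (u : Mi g Af) : Prop := ∀ s, Ext j σ s → Rel s τ τ u

/-- a group of pairs `(π e, u e)` that acts on the tower above `LocF f` -/
structure Gt {κ G : Type} [Group G] (f : κ → Mi g ℚ) (j : Qb →+* ℂ) (m : ℕ) (π : G →* GQ)
    (u : G →* Mi g Af) : Prop where
  pos : 0 < m
  sur : Function.Surjective π
  int : ∀ e, Mn 1 (u e)
  inj : ∀ e, π e = 1 → u e = 1 → e = 1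
  opn : ∀ n, 0 < n → ∃ N : Subgroup GQ, IsOpen (N : Set GQ) ∧
    ∀ σ ∈ N, ∃ e, π e = σ ∧ Mn n (u e - 1)
  gam : ∀ δ : Sp g ℚ, Mn m (am δ.1 - 1) → (∀ k, δ.1 * f k = f k * δ.1) →
    ∃ e, π e = 1 ∧ u e = am δ.1
  trans : ∀ e s, Ext j (π e) s → ∀ τ ∈ LocF f, ∀ n, 0 < n → ∃ τ' ∈ LocF f, ∃ e',
    π e' = π e ∧ Mn n (u e' - u e) ∧ Rel s τ τ' (u e')

/-- a continuous section -/
structure Sct {G : Type} [Group G] (π : G →* GQ) (u : G →* Mi g Af) {Γ : Subgroup GQ}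
    (s : Γ →* G) : Prop where
  sec : ∀ d, π (s d) = d
  cts : ∀ n, 0 < n → ∃ N : Subgroup GQ, IsOpen (N : Set GQ) ∧
    ∀ d : Γ, (d : GQ) ∈ N → Mn n (u (s d) - 1)

/-- TWT: twisted Moret-Bailly on the tower -/
def TWT : Prop :=
  ∀ (g : ℕ) (κ G : Type) [Group G] (f : κ → Mi g ℚ) (j : Qb →+* ℂ) (m : ℕ) (π : G →* GQ)
    (u : G →* Mi g Af), Gt f j m π u →
    ∀ (ι : Type) [Finite ι] [Nonempty ι] (p : ι → ℕ), Function.Injective p →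
    ∀ v : ι → AbsoluteValue Qb ℝ, (∀ i, IsPl (p i) (v i)) →
    ∀ D : ι → Subgroup GQ, (∀ i, Dec (v i) (D i)) →
    ∀ s : ∀ i, D i →* G, (∀ i, Sct π u (s i)) →
    ∀ t : ι → Mc g, (∀ i, t i ∈ LocF f ∧ Algp (t i) ∧ ∀ d : D i, FxT j (t i) d (u (s i d))) →
    ∀ U : Subgroup GQ, IsOpen (U : Set GQ) → ∀ n, 0 < n →
    ∃ (H : Subgroup GQ) (ρ : H →* G) (τ : Mc g), H.Normal ∧ IsOpen (H : Set GQ) ∧ Glue.Dsj H U ∧
      Sct π u ρ ∧ τ ∈ LocF f ∧ Algp τ ∧ (∀ h : H, FxT j τ h (u (ρ h))) ∧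
      ∀ (i : ι) (σ : GQ), ∃ e : G, π e * σ⁻¹ ∈ stab (v i) ∧ (D i = stab (v i) → π e = σ) ∧
        ∀ d : D i, ∃ h : H, π e * h * (π e)⁻¹ = d ∧ Mn n (u (e * ρ h * e⁻¹) - u (s i d))

end Vale.Agent.P022K.PM
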