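import Vale.Agent.P022K.PM.St
import Vale.Agent.P022K.PM.Wl
import Vale.Agent.P022K.TP.Gt

/-!
# P022K / PM: rows FXG, MOVE, CONJZ, NZ
-/

set_option autoImplicit false

open Matrix Filter Topology

noncomputable section

namespace Vale.Agent.P022K.PM

open Vale.Agent.P022 Vale.Agent.P010MR Vale.Agent.P010MT8
open Vale.Agent.P022K.TP hiding Cn
open Vale.Agent.P022K.CH (Cp)

namespace Fxg

variable {g : ℕ} {j : Qb →+* ℂ} {τ : Mc g} {σ : GQ} {u u' : Mi g Af} {s : ℂ ≃+* ℂ}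

theorem ext_inv (h : Ext j σ s) : Ext j σ⁻¹ s⁻¹ := fun a => s.injective <| by
  rw [h]
  exact (s.apply_symm_apply _).trans (congrArg j (σ.apply_symm_apply a).symm)

theorem of_rel (hA : Algp τ) (hs : Ext j σ s) (h : Rel s τ τ u) : FxT j τ σ u := fun t ht => by
  have := (FxT.one (j := j) hA (t * s⁻¹) fun a => ?_).mul h
  · rwa [inv_mul_cancel_right, one_mul] at this
  exact (congrArg t (ext_inv hs a)).trans ((ht _).trans (congrArg j (σ.apply_symm_apply a)))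

theorem inv (h : FxT j τ σ u) (e : u * u' = 1) : FxT j τ σ⁻¹ u' := fun t ht => by
  simpa using (h t⁻¹ (by simpa using ext_inv ht)).inv e

theorem rel_conj (γ : Sp g ℚ) (h : Rel s τ τ u) :
    Rel s (act (qr γ.1) τ) (act (qr γ.1) τ) (am γ.1 * u * am (γ⁻¹).1) := by
  have hR := rel_sp h.h γ
  have := (hR.mul h).mul (hR.inv (u' := am (γ⁻¹).1) (by
    rw [← am_mul, ← Submonoid.coe_mul, mul_inv_cancel]; exact am_one))
  rwa [inv_one, mul_one, one_mul] at this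

theorem rel_conj' (γ : Sp g ℚ) (hτ : τ ∈ Hg g)
    (h : Rel s (act (qr γ.1) τ) (act (qr γ.1) τ) (am γ.1 * u * am (γ⁻¹).1)) : Rel s τ τ u := by
  have e : am γ.1 * am (γ⁻¹).1 = 1 := by
    rw [← am_mul, ← Submonoid.coe_mul, mul_inv_cancel]; exact am_one
  have hR := rel_sp hτ γ
  have := ((hR.inv e).mul h).mul hR
  rwa [inv_one, mul_one, one_mul, ← mul_assoc, ← mul_assoc, mul_eq_one_comm.1 e, one_mul,
    mul_assoc, mul_eq_one_comm.1 e, mul_one] at this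

variable {D : QD} {η : GQ →* ℤˣ}

theorem lm_inv (z : D.Bˣ) : am (D.lm z) * am (D.lm (z⁻¹ : D.Bˣ)) = 1 := by
  rw [← am_mul, ← D.lm_mul, Units.mul_inv, D.lm_one, am_one]

theorem at_cz (z : D.Bˣ) {c : Af} {t : ℤˣ} {u : Mi D.g Af} (h : D.At c t u) :
    D.At c t (am (D.lm z) * u * am (D.lm (z⁻¹ : D.Bˣ))) := by
  have h1 := congrArg am (D.lm_form z)
  have h2 := lm_inv z
  rw [am_mul, am_mul, am_mul, am_tr, am_J, D.lm_sc] at h1
  have h3 := h.cm (D.nrd z)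
  have h4 : ∀ a b, am (D.lm a) * am (D.rm b) = am (D.rm b) * am (D.lm a) := fun a b => by
    rw [← am_mul, ← am_mul, D.lm_rm]
  have h5 := congrArg am (D.rm_adj (z := D.sc (D.nrd z)) (z' := D.sc (D.nrd z)) (by
    rw [D.sc_comm]; simp [QD.sc]))
  refine QD.At.of_comm ?_ fun b => ?_
  · generalize am (D.lm z) = Z, am (D.lm (z⁻¹ : D.Bˣ)) = Z', am (D.rm (D.sc (D.nrd z))) = R at *
    calc (Z * u * Z')ᵀ * J (Fin D.g) Af * (Z * u * Z')
        = Z'ᵀ * (uᵀ * (Zᵀ * J (Fin D.g) Af * Z) * u) * Z' := by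
          simp only [transpose_mul, mul_assoc]
      _ = c • ((Z * Z')ᵀ * J (Fin D.g) Af * (Z * Z')) := by
          rw [h1, mul_assoc uᵀ, mul_assoc (J _ _), ← h3, ← mul_assoc (J _ _), ← mul_assoc uᵀ,
            ← mul_assoc uᵀ, h.sim, smul_mul_assoc, ← h1]
          simp only [transpose_mul, mul_assoc, smul_mul_assoc, mul_smul_comm]
      _ = _ := by rw [h2, transpose_one, one_mul, mul_one]
  · rw [mul_assoc, h4, ← mul_assoc, mul_assoc _ u, h.comm, ← mul_assoc, h4]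
    simp only [mul_assoc]

/-- the adelic matrix of a unit -/
def lu (z : D.Bˣ) : (Mi D.g Af)ˣ :=
  ⟨am (D.lm z), am (D.lm (z⁻¹ : D.Bˣ)), lm_inv z, mul_eq_one_comm.1 (lm_inv z)⟩

/-- conjugation by `lm z` -/
def cz (z : D.Bˣ) : EE D η →* EE D η where
  toFun e := ⟨(e.1.1, lu z * e.1.2 * (lu z)⁻¹), at_cz z e.2⟩
  map_one' := Subtype.ext (Prod.ext rfl (by simp))
  map_mul' a b := Subtype.ext (Prod.ext rfl (by simp [mul_assoc]))

theorem sg_cz (z : D.Bˣ) (e : EE D η) : sg (cz z e) = sg e := rfl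

theorem uu_cz (z : D.Bˣ) (e : EE D η) :
    uu (cz z e) = am (D.lm z) * uu e * am (D.lm (z⁻¹ : D.Bˣ)) := rfl

theorem exists_sp (z w : D.Bˣ) (h : D.nrd z = D.nrd w) (hw : star w.1 * D.δ = D.δ * star w.1) :
    ∃ γ : Sp D.g ℚ, γ.1 = D.lm z * D.rm (w⁻¹ : D.Bˣ) ∧ (γ⁻¹).1 = D.rm w * D.lm (z⁻¹ : D.Bˣ) := by
  have h1 : D.rm w * D.rm (w⁻¹ : D.Bˣ) = 1 := by rw [← D.rm_mul, Units.inv_mul, D.rm_one]
  have h2 : (D.rm w)ᵀ * J (Fin D.g) ℚ * D.rm w = (D.lm z)ᵀ * J (Fin D.g) ℚ * D.lm z := by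
    rw [D.lm_form, D.rm_adj hw, mul_assoc, ← D.rm_mul, D.mul_star, h, D.lm_sc]
  let γ : Sp D.g ℚ := ⟨D.lm z * D.rm (w⁻¹ : D.Bˣ), SymplecticGroup.mem_iff'.2 (by
    rw [transpose_mul, mul_assoc, mul_assoc, ← mul_assoc (J _ _), ← mul_assoc (D.lm z)ᵀ,
      ← mul_assoc (D.lm z)ᵀ, ← h2, mul_assoc _ (D.rm w), h1, mul_one, ← mul_assoc, ← transpose_mul,
      h1, transpose_one, one_mul])⟩
  refine ⟨γ, rfl, ?_⟩
  have h3 : γ.1 * (D.rm w * D.lm (z⁻¹ : D.Bˣ)) = 1 := by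
    rw [mul_assoc, ← mul_assoc (D.rm _), mul_eq_one_comm.1 h1, one_mul, ← D.lm_mul, Units.mul_inv,
      D.lm_one]
  rw [← mul_one (γ⁻¹).1, ← h3, ← mul_assoc, ← Submonoid.coe_mul, inv_mul_cancel]
  exact one_mul _

theorem sqrt_mem {K : Type} [NormedField K] [IsUltrametricDist K] [IsAlgClosed K] (F : Subfield K)
    (hF : IsClosed (F : Set K)) {u : K} (hu : u ∈ F) (h : ‖u - 1‖ < ‖(2 : K)‖ ^ 2) :
    ∃ y ∈ F, y ^ 2 = u := by
  have h2 : 0 < ‖(2 : K)‖ := (norm_nonneg _).lt_of_ne fun e => by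
    rw [← e] at h; exact (norm_nonneg _).not_gt (by simpa using h)
  have h3 : ‖(2 : K)‖ ≤ 1 := by exact_mod_cast IsUltrametricDist.norm_natCast_le_one K 2
  obtain ⟨y, rfl, hy⟩ : ∃ y : K, y ^ 2 = u ∧ ‖1 - y‖ < ‖(2 : K)‖ := by
    obtain ⟨y, rfl⟩ := IsAlgClosed.exists_pow_nat_eq u two_pos
    by_contra! H
    rw [show y ^ 2 - 1 = -((1 - y) * (1 - -y)) by ring, norm_neg, norm_mul, sq] at h
    exact h.not_ge (mul_le_mul (H y rfl) (H (-y) (neg_sq y)) h2.le (norm_nonneg _))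
  have h4 : ‖y‖ = 1 := by
    rw [show y = 1 + -(1 - y) by ring, IsUltrametricDist.norm_add_eq_max_of_norm_ne_norm
      (by rw [norm_one, norm_neg]; exact (hy.trans_le h3).ne'), norm_one, norm_neg,
      max_eq_left (hy.trans_le h3).le]
  have h5 : ‖1 - y‖ / ‖(2 : K)‖ < 1 := (div_lt_one h2).2 hy
  have key : ∀ n : ℕ, ∃ z ∈ F, ‖z - y‖ ≤ (‖1 - y‖ / ‖(2 : K)‖) ^ n * ‖1 - y‖ := fun n => by
    induction n with
    | zero => exact ⟨1, one_mem _, by simp⟩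
    | succ n ih =>
      obtain ⟨z, hz, h6⟩ := ih
      have h7 : ‖z - y‖ ≤ ‖1 - y‖ :=
        h6.trans (mul_le_of_le_one_left (norm_nonneg _) (pow_le_one₀ (by positivity) h5.le))
      have h8 : ‖z‖ = 1 := by
        have h9 := h7.trans_lt (hy.trans_le h3)
        rw [show z = y + (z - y) by ring, IsUltrametricDist.norm_add_eq_max_of_norm_ne_norm
          (by rw [h4]; exact h9.ne'), h4, max_eq_left h9.le]
      have z0 : z ≠ 0 := norm_ne_zero_iff.1 (h8 ▸ one_ne_zero)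
      have t0 : (2 : K) ≠ 0 := norm_pos_iff.1 h2
      refine ⟨(z + y ^ 2 / z) / 2, div_mem (add_mem hz (div_mem hu hz)) (ofNat_mem F 2), ?_⟩
      rw [show (z + y ^ 2 / z) / 2 - y = (z - y) * (z - y) / 2 / z by field_simp; ring, norm_div, h8,
        div_one, norm_div, norm_mul, mul_div_assoc, pow_succ, mul_right_comm]
      exact mul_le_mul h6 (div_le_div_of_nonneg_right h7 h2.le) (by positivity) (by positivity)
  refine ⟨y, hF.closure_subset (Metric.mem_closure_iff.2 fun ε hε => ?_), rfl⟩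
  obtain ⟨n, hn⟩ := exists_pow_lt_of_lt_one hε h5
  obtain ⟨z, hz, h6⟩ := key n
  refine ⟨z, hz, ?_⟩
  rw [dist_comm, dist_eq_norm]
  exact (h6.trans (mul_le_of_le_one_right (by positivity) (hy.trans_le h3).le)).trans_lt hn

end Fxg

open Fxg

/-- **FXG** -/
theorem fxg : FXG := fun D η j x => by
  refine ⟨?_, fun e e' h h' => ?_, fun e h => ?_, fun e s hs h => of_rel x.alg hs h⟩
  · have := FxT.one (j := j) x.alg
    intro s hs
    rw [mul_one, mul_inv_cancel, map_one]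
    exact this s hs
  · have := FxT.mul (j := j) h h'
    rw [← map_mul, ← map_mul, conj_mul] at this
    exact this
  · have := Fxg.inv (j := j) h (uu_mul_inv _)
    rw [← map_inv, conj_inv] at this
    exact this

/-- **MOVE** -/
theorem move_row : MOVE := fun D η j x n hn => by
  have h1 := at_uu x.k
  rw [x.one, map_one, map_one] at h1
  obtain ⟨b, hb, h2⟩ := sad D (uu x.k) (by simpa [Sim] using h1.sim)
    (fun z => by rw [h1.comm, QD.al_one]) n hn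
  obtain ⟨c, h3, h4⟩ := exists_EE (η := η) 1 (u := am (D.lm b))
    (by rw [map_one, map_one]; exact QD.at_lm hb)
  refine ⟨⟨_, c * x.k, QD.loc_sp x.loc hb, (rel_sp x.loc.1 (D.sp b hb)).algp x.alg,
    by rw [map_mul, h3, x.one, mul_one]⟩, by rwa [Cn, map_mul, h4], fun e => ?_⟩
  have e0 : am (D.sp b hb).1 * am ((D.sp b hb)⁻¹).1 = 1 := by
    rw [← am_mul, ← Submonoid.coe_mul, mul_inv_cancel]; exact am_one
  have e1 : uu (c * x.k * e * (c * x.k)⁻¹) =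
      am (D.sp b hb).1 * uu (x.k * e * x.k⁻¹) * am ((D.sp b hb)⁻¹).1 := by
    have e2 : am (D.sp b hb).1 = uu c := h4.symm
    rw [← one_mul (am ((D.sp b hb)⁻¹).1), ← mul_eq_one_comm.1 (uu_mul_inv c), mul_assoc (uu c⁻¹),
      ← e2, e0, e2, mul_one, ← map_mul, ← map_mul]
    congr 1
    group
  exact forall₂_congr fun s _ => ⟨fun h => rel_conj' _ x.loc.1 (e1 ▸ h), fun h => e1 ▸ rel_conj _ h⟩

/-- **CONJZ** -/
theorem conjz : CONJZ := fun D η j x z s t h => by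
  have h1 : D.nrd (D.sc s + D.sc t * D.δ) = D.nrd z := by
    rw [h]; simp [QD.nrd, QD.sc_eq, QD.δ]; ring
  obtain ⟨w, hw⟩ := D.isUnit_of_ne (y := D.sc s + D.sc t * D.δ) fun e =>
    D.nrd_ne_zero z.ne_zero (by rw [← h1, e]; simp [QD.nrd])
  obtain ⟨γ, h2, h3⟩ := exists_sp z w (by rw [hw, h1]) (by
    rw [hw]; ext <;> simp [QD.sc_eq, QD.δ] <;> ring)
  refine ⟨⟨act (qr γ.1) x.τ, cz z x.k, QD.loc_act x.loc.1 γ (r := fun b => D.rm (↑w⁻¹ * b * w))
    (fun b => x.loc.2 _) fun b => ?_, (rel_sp x.loc.1 γ).algp x.alg, x.one⟩,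
    fun e he => ⟨cz z e, rfl, rfl, fun hx s hs => ?_⟩⟩
  · rw [h2, mul_assoc, ← D.rm_mul, ← mul_assoc (D.rm b), ← D.lm_rm, Units.mul_inv_cancel_right,
      mul_assoc, ← D.rm_mul]
  have h4 := (at_uu (x.k * e * x.k⁻¹)).comm w
  have h5 : sg (x.k * e * x.k⁻¹) = sg e := by rw [map_mul, map_mul, map_inv, x.one]; simp
  rw [h5, he, QD.al_one] at h4
  have h6 : am γ.1 * uu (x.k * e * x.k⁻¹) * am (γ⁻¹).1 = uu (cz z x.k * cz z e * (cz z x.k)⁻¹) := by
    rw [h2, h3, am_mul, am_mul, ← mul_assoc, mul_assoc _ (uu _), h4, ← mul_assoc, mul_assoc (am _),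
      ← am_mul, ← D.rm_mul, Units.mul_inv, D.rm_one, am_one, mul_one, ← uu_cz, ← map_inv, ← map_mul,
      ← map_mul]
  exact h6 ▸ rel_conj γ (hx s hs)

/-- **NZ** -/
theorem nz : NZ := fun D N p _ hD hp μ hι c hc c0' => by
  let f : D.M0 →+* Cp p := μ.φ.comp (algebraMap D.M0 D.M)
  let F : Subfield (Cp p) := f.fieldRange.topologicalClosure
  obtain ⟨-, hM, y, hy, hy'⟩ := hD.spl p hp μ
  change _ ∈ F at hι hc hy
  have hn : D.nrd D.δ ≠ 0 := D.nrd_ne_zero D.delta_ne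
  have y0 : y ≠ 0 := fun e => hn ((_root_.map_eq_zero μ.φ).1 (by rw [← hy', e]; simp))
  have i0 : μ.ι ≠ 0 := fun e => by simpa [e] using μ.hι
  obtain ⟨l, hl, l0, l1, l2⟩ : ∃ l ∈ F, l ≠ 0 ∧ l - 1 ≠ 0 ∧ l - c ≠ 0 := by
    by_cases e : c = 2
    · exact ⟨3, ofNat_mem F 3, by norm_num, by norm_num, by rw [e]; norm_num⟩
    · exact ⟨2, ofNat_mem F 2, by norm_num, by norm_num, sub_ne_zero.2 (Ne.symm e)⟩
  let G : Cp p × Cp p × Cp p → Cp p := fun x =>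
    ((x.1 + (y ^ 2 * x.2.2 ^ 2 - x.2.1 ^ 2) / x.1) / 2) ^ 2 + x.2.1 ^ 2
  let x0 : Cp p × Cp p × Cp p :=
    (-((l - 1) * (l - c)) / (2 * l), (1 - c) / (2 * μ.ι), (l - c / l) / (2 * μ.ι * y))
  have t2 : (2 : Cp p) ∈ F := ofNat_mem F 2
  have h1 : x0.1 ≠ 0 := div_ne_zero (neg_ne_zero.2 (mul_ne_zero l1 l2)) (mul_ne_zero two_ne_zero l0)
  have h2 : G x0 = c := by
    have e1 : x0.2.1 ^ 2 = -((1 - c) / 2) ^ 2 := by
      simp only [x0, div_pow, mul_pow, μ.hι]; ring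
    have e2 : y ^ 2 * x0.2.2 ^ 2 = -((l - c / l) / 2) ^ 2 := by
      simp only [x0, div_pow, mul_pow, μ.hι]; field_simp
    have e3 : (y ^ 2 * x0.2.2 ^ 2 - x0.2.1 ^ 2) / x0.1 = (1 + c + l + c / l) / 2 := by
      rw [e1, e2, div_eq_iff h1]; simp only [x0]; field_simp; ring
    simp only [G]
    rw [e3, e1]; simp only [x0]; field_simp; ring
  have h3 : x0 ∈ closure (Set.range f ×ˢ Set.range f ×ˢ Set.range f) := by
    rw [closure_prod_eq, closure_prod_eq]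
    exact ⟨div_mem (neg_mem (mul_mem (sub_mem hl (one_mem F)) (sub_mem hl hc))) (mul_mem t2 hl),
      div_mem (sub_mem (one_mem F) hc) (mul_mem t2 hι),
      div_mem (sub_mem hl (div_mem hc hl)) (mul_mem (mul_mem t2 hι) hy)⟩
  have h4 : ContinuousAt (fun x => ‖G x / c - 1‖) x0 := by
    simp only [G]; fun_prop (disch := first | exact h1 | exact two_ne_zero | exact c0')
  have h5 : ∀ᶠ x in 𝓝 x0, ‖G x / c - 1‖ < ‖(2 : Cp p)‖ ^ 2 :=
    h4.eventually_lt continuousAt_const (by simp [h2, c0'])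
  obtain ⟨⟨_, _, _⟩, ⟨h6, h7⟩, ⟨m, rfl⟩, ⟨b, rfl⟩, t, rfl⟩ := mem_closure_iff_nhds.1 h3 _
    (h5.and (continuous_fst.continuousAt.eventually_ne h1))
  have m0 : algebraMap D.M0 D.M m ≠ 0 := fun e => h7 (by simp [f, e])
  simp only [f, RingHom.comp_apply] at h6
  generalize algebraMap D.M0 D.M m = m, algebraMap D.M0 D.M b = b, algebraMap D.M0 D.M t = t at *
  let z : D.B := ⟨(m + (D.nrd D.δ * t ^ 2 - b ^ 2) / m) / 2, b, 0, 0⟩
  have e1 : D.nrd z = z.re ^ 2 + b ^ 2 := by simp [QD.nrd, z]; ring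
  have e2 : μ.φ (D.nrd z) = G (μ.φ m, μ.φ b, μ.φ t) := by simp [e1, G, z, hy', map_ofNat]
  rw [← e2] at h6
  obtain ⟨r, hr, hr'⟩ := sqrt_mem F (Subfield.isClosed_topologicalClosure _) (div_mem (hM _) hc) h6
  obtain ⟨u, hu⟩ := D.isUnit_of_ne (y := z) fun e => by
    have h8 : ‖(2 : Cp p)‖ ≤ 1 := by exact_mod_cast IsUltrametricDist.norm_natCast_le_one (Cp p) 2
    rw [e, show D.nrd 0 = 0 by simp [QD.nrd], map_zero, zero_div, zero_sub, norm_neg, norm_one] at h6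
    exact h6.not_ge (pow_le_one₀ (norm_nonneg _) h8)
  refine ⟨u, z.re - m, t, hu ▸ ⟨rfl, rfl⟩, ?_, r, hr, by rw [hu, hr', mul_div_cancel₀ _ c0']⟩
  rw [hu, e1]
  simp only [z]
  field_simp
  ring

end Vale.Agent.P022K.PM
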