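import Vale.Agent.P022K.PM.Ck
import Vale.Agent.P022K.PM.Dic3
import Vale.Agent.P022K.PM.Fxg
import Vale.Agent.P022K.PM.Cap

/-!
# P022K / PM: integral global lifts at a point of a type induced from a quadratic field (helper99)
-/

open NumberField Matrix Quaternion

noncomputable section

namespace Vale.Agent.P022K.TP

open P010MR P010M71 P010MT8

/-- the normaliser of the commutant of a quadratic element -/
theorem quad_split {g : ℕ} [Nonempty (Ix g)] {τ : Mc g} {L : Type} [Field L] [NumberField L]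
    (l : L →+* Mi g ℚ) {θ : L} {Δ : ℚ} (hΔ : 0 < Δ) (hθ : θ ^ 2 = -(Δ : L))
    (T : Ty τ l {ψ | 0 < (ψ θ).im}) {σ : ℂ ≃+* ℂ} {U : Mi g Af} (hR : Rel σ τ τ U)
    (hU : U ∈ Submodule.span Af (Set.range fun z => am (l z))) :
    ∃ (y : L) (a b : Af), U = am (l y) * (a • 1 + b • am (l θ)) := by
  have : Fact (∀ r : ℚ, r ^ 2 ≠ -Δ + 0 * r) := ⟨fun r h => by nlinarith⟩
  let i : QuadraticAlgebra ℚ (-Δ) 0 →+* L :=
    { toFun := fun a => a.re + a.im * θ
      map_one' := by simp [QuadraticAlgebra.re_one, QuadraticAlgebra.im_one]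
      map_mul' := fun a b => by simp; linear_combination (-(a.im : L) * b.im) * hθ
      map_zero' := by simp
      map_add' := fun a b => by simp; ring }
  have : NumberField (QuadraticAlgebra ℚ (-Δ) 0) := {}
  have h0 : i ⟨0, 1⟩ = θ := by simp [i]
  have T1 := ty_of_one (l.comp i) T.mem (θ := ⟨0, 1⟩) (T.hm _) fun a ha c y hy e => by
    obtain ⟨ψ, h1, rfl⟩ := T.eig _ a ha c y hy e
    rwa [h0]
  obtain ⟨β, β', h1, h2⟩ := exists_sn (l.comp i) hR.sim.mul_ui fun f hf =>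
    (end_row (neat (2 * g)) σ τ τ τ τ U U hR hR f (T1.hom T1 (fun ψ h h' => by
      simp only [Set.mem_ofPred_eq, RingHom.comp_apply, Complex.conj_im] at h h'
      linarith) hf)).imp fun _ h => h.1
  obtain ⟨y, rfl⟩ := cent_q (l := l) (t := β) fun f hf =>
    h2 f f (fun z => hf _) (co_span hU hf).symm
  obtain ⟨z, hz⟩ := cent_l (l.comp i)
  obtain ⟨c, hc⟩ := hz Af cA (am β' * U) fun f hf => by
    obtain ⟨f', h3, -⟩ := end_row (neat (2 * g)) σ τ τ τ τ U U hR hR f (T1.hom T1 (fun ψ h h' => by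
      simp only [Set.mem_ofPred_eq, RingHom.comp_apply, Complex.conj_im] at h h'
      linarith) hf)
    have h4 : β' * f' = f * β' := by
      rw [← mul_one (β' * f'), ← mul_eq_one_comm.1 h1, ← mul_assoc, mul_assoc β', ← h2 f f' hf h3,
        ← mul_assoc, h1, one_mul]
    change am β' * U * am f = am f * (am β' * U)
    rw [mul_assoc, h3, ← mul_assoc, ← am_mul, h4, am_mul, mul_assoc]
  refine ⟨y, ∑ k, c k * cA (z k).re, ∑ k, c k * cA (z k).im, ?_⟩
  rw [show U = am (l y) * (am β' * U) by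
    rw [← mul_assoc, ← am_mul, mul_eq_one_comm.1 h1, am_one, one_mul], hc, Finset.sum_smul,
    Finset.sum_smul, ← Finset.sum_add_distrib]
  refine congrArg _ (Finset.sum_congr rfl fun k _ => ?_)
  rw [mul_smul, mul_smul, ← smul_add, ← am_one, ← am_smul, ← am_smul, ← am_add, ← map_one l,
    ← map_rat_smul, ← map_rat_smul, ← map_add, Rat.smul_def, Rat.smul_def, mul_one]
  rfl

theorem rat_eq {q q' : ℚ} (h : 0 < q) (h' : 0 ≤ q')
    (H : ∀ r : Pr, ‖(q : ℚ_[r.1])‖ = ‖(q' : ℚ_[r.1])‖) : q' = q := by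
  have h0 : q' ≠ 0 := fun e => h.ne' (by
    have := H ⟨2, Nat.prime_two⟩
    rwa [e, Rat.cast_zero, norm_zero, norm_eq_zero, Rat.cast_eq_zero] at this)
  have key : ∀ a b : ℚ, b ≠ 0 → (∀ r : Pr, ‖(a : ℚ_[r.1])‖ = ‖(b : ℚ_[r.1])‖) →
      ∃ z : ℤ, a = z * b := fun a b hb H => (rat_int1 (q := a / b) (mem_Z1.2 fun r => by
    rw [pr_cA, Rat.cast_div, norm_div, H]
    exact div_self_le_one _)).imp fun z hz => by rw [← hz, div_mul_cancel₀ _ hb]
  obtain ⟨a, ha⟩ := key q q' h0 H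
  obtain ⟨b, hb⟩ := key q' q h.ne' fun r => (H r).symm
  have h1 : a * b = 1 := by
    rw [hb, ← mul_assoc] at ha
    exact_mod_cast mul_right_cancel₀ h.ne' (ha.symm.trans (one_mul q).symm)
  rcases Int.eq_one_or_neg_one_of_mul_eq_one' h1 with ⟨-, rfl⟩ | ⟨-, rfl⟩
  · simpa using hb
  · simp at hb
    linarith

end Vale.Agent.P022K.TP

namespace Vale.Agent.P022K.PM

open Vale.Agent.P022 Vale.Agent.P010MR Vale.Agent.P010MT8
open Vale.Agent.P022K.TP hiding Ty Cn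
open Vale.Agent.P022K.CH (Cp)
open QD

variable {D : QD} {η : GQ →* ℤˣ}

theorem ex_cj (j : Qb →+* ℂ) : ∃ c : GQ, ∀ a, j (c a) = starRingEnd ℂ (j a) := by
  choose c hc using fun a => exists_j j (z := starRingEnd ℂ (j a))
    ((Algebra.IsAlgebraic.isAlgebraic a).algHom ((starRingEnd ℂ).comp j).toRatAlgHom)
  let f : Qb →+* Qb := ⟨⟨⟨c, j.injective (by simp [hc])⟩, fun a b => j.injective (by simp [hc])⟩,
    j.injective (by simp [hc]), fun a b => j.injective (by simp [hc])⟩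
  exact ⟨AlgEquiv.ofBijective f.toRatAlgHom (Algebra.IsAlgebraic.algHom_bijective _), hc⟩

theorem ex_over {L C : Type} [Field L] [NumberField L] [Field C] [IsAlgClosed C] (f : L →+* Qb)
    (ν : L →+* C) : ∃ ψ : Qb →+* C, ∀ z, ψ (f z) = ν z := by
  let _ := f.toAlgebra
  let _ := ν.toAlgebra
  have : IsScalarTower ℚ L Qb := IsScalarTower.of_algebraMap_eq fun q => (map_ratCast f q).symm
  have : Algebra.IsAlgebraic L Qb := Algebra.IsAlgebraic.tower_top (K := ℚ) L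
  exact ⟨(IsAlgClosed.lift : Qb →ₐ[L] C), fun z => (IsAlgClosed.lift : Qb →ₐ[L] C).commutes z⟩

/-- the finite set of generators of the capitulation -/
def Cpt (θ : Qb) (Δ : ℕ) (A : Finset Qb) : Prop :=
  (∀ g ∈ A, ∃ q : ℚ, 0 < q ∧ ∀ c, IsConj c → g * c g = q) ∧
  ∀ (a b u u' : Af) (q : ℚ), u ∈ Zn 1 → u' ∈ Zn 1 → u * u' = 1 → 0 < q →
    a ^ 2 + Δ * b ^ 2 = cA q * u → ∃ g ∈ A, ∃ x y : ℚ, ∀ (r : ℕ) [Fact r.Prime] (ψ : Qb →+* Cp r),
      ‖algebraMap _ _ (pr (pp r) a) + algebraMap _ _ (pr (pp r) b) * ψ θ‖ = ‖ψ (g * (x + y * θ))‖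

theorem ex_cpt {θ : Qb} {Δ : ℕ} (h : 0 < Δ) (hθ : θ ^ 2 = -(Δ : Qb)) : ∃ A, Cpt θ Δ A :=
  cap θ Δ h hθ

theorem l0_adj (z : D.L0) :
    (am (D.l0 z))ᵀ * J (Fin D.g) Af = J (Fin D.g) Af * am (D.l0 (D.cj z)) := by
  rw [← am_tr, ← am_J, ← am_mul, ← am_mul, l0, lm_adj, star_em, l0]

theorem Nt.mul {e e' : EE D η} (h : Nt e) (h' : Nt e') : Nt (e * e') := by
  have key : ∀ e : EE D η, Nt e ↔ Int e ∧ uu e * am (D.ww (η (sg e))) ∈ TA D := fun e => by
    rcases Int.units_eq_one_or (η (sg e)) with h | h <;>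
      simp [Nt, h, ww_one, ww_neg, am_one, show (1 : ℤˣ) ≠ -1 by decide,
        show (-1 : ℤˣ) ≠ 1 by decide]
  rw [key] at h h' ⊢
  refine ⟨h.1.mul h'.1, ?_⟩
  have := ta_mul h.2 (ta_ww (η (sg e)) h'.2)
  rw [← mul_assoc, ← mul_assoc, mul_assoc (uu e), ← am_mul, ww_sq, am_one, mul_one] at this
  rwa [map_mul, map_mul, map_mul, mul_comm (η _), ww_mul, am_mul, ← mul_assoc, mul_assoc (uu e)]

variable {N Δ : ℕ} {K : IntermediateField ℚ Qb} {f : D.L0 →+* Qb} {A : Finset Qb} {θ : D.L0}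
  {j : Qb →+* ℂ} {x : MP D η}

theorem gli1 (hΔ : 0 < Δ) (hθ : f θ ^ 2 = -(Δ : Qb)) (hA : Cpt (f θ) Δ A) (hD : D.Ok N)
    (hf : Idf D K f) (hK : ∀ g ∈ A, g ∈ K) (h : x.Ck θ) {e : EE D η} (ht : uu e ∈ TA D)
    (hx : x.Fx j e) : ∃ e' : EE D η, sg e' = sg e ∧ Int e' ∧ uu e' ∈ TA D ∧ x.Fx j e' := by
  have := D.ix_ne
  have hθ' : θ ^ 2 = -(Δ : D.L0) := f.injective (by simpa using hθ)
  obtain ⟨b, m, -, rfl, hb, T⟩ := h.ty
  generalize hm : algebraMap D.M0 D.L0 m * D.I = θ at *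
  obtain ⟨s, hs⟩ := ex_ext j (sg e)
  obtain ⟨y, α, β, h1⟩ := quad_split (D.lb b) (Δ := Δ) (by exact_mod_cast hΔ) (by simpa using hθ')
    (by rw [← hm]; exact T) (hx s hs) (by rw [map_mul, map_mul]; exact hb.of_ta ht)
  have h2 : uu e = am (D.l0 y) * (α • 1 + β • am (D.l0 θ)) := by
    rw [← hb.lb, ← hb.lb, show e = x.k⁻¹ * (x.k * e * x.k⁻¹) * x.k by group, map_mul, map_mul, h1]
    simp only [mul_add, add_mul, mul_smul_comm, smul_mul_assoc, mul_one, mul_assoc]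
    rw [← mul_assoc (uu x.k), uu_mul_inv, one_mul]
  have h3 : (α ^ 2 + Δ * β ^ 2) • am (D.l0 (y * D.cj y)) = cyc (sg e) • 1 := by
    have h4 := (at_uu e).sim
    have h5 : am (D.l0 θ) * am (D.l0 θ) = -((Δ : Af) • 1) := by
      rw [← am_mul, ← l0_mul, ← sq, hθ', ← D.l0A_apply, map_neg, map_natCast, am_neg,
        ← nsmul_one, ← Nat.cast_smul_eq_nsmul ℚ, am_smul, am_one, map_natCast]
    have h6 := ta_comm (ta_l0 (y * D.cj y)) (ta_l0 θ)
    rw [h2, transpose_mul, mul_assoc, mul_assoc, ← mul_assoc (J _ _), ← mul_assoc _ _ (_ + _),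
      ← mul_assoc _ (J _ _), l0_adj, mul_assoc (J _ _), ← am_mul, ← l0_mul, mul_comm _ y,
      ← mul_assoc, ← mul_assoc, transpose_add, transpose_smul, transpose_smul, transpose_one,
      add_mul, smul_mul_assoc, smul_mul_assoc, l0_adj, h.2.1, ← D.l0A_apply (-θ), map_neg, am_neg,
      D.l0A_apply] at h4
    have h7 := congrArg (-J (Fin D.g) Af * ·) h4
    simp only [mul_add, add_mul, mul_smul_comm, smul_mul_assoc, ← mul_assoc, neg_mul, mul_neg,
      J_squared, neg_neg, one_mul, mul_one, smul_neg] at h7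
    rw [mul_assoc, h6, ← mul_assoc, h5] at h7
    rw [← h7]
    simp only [neg_mul, smul_mul_assoc, one_mul]
    module
  have hy : y * D.cj y ≠ 0 := fun e0 => by
    obtain ⟨i⟩ := this
    rw [e0, ← D.l0A_apply, map_zero] at h3
    exact cyc_ne (sg e) ⟨2, Nat.prime_two⟩
      (by simpa [am] using congrArg (fun X => pr ⟨2, Nat.prime_two⟩ (X i i)) h3.symm)
  obtain ⟨q, h4, h5⟩ : ∃ q : ℚ, α ^ 2 + Δ * β ^ 2 = cA q * cyc (sg e) ∧ y * D.cj y * q = 1 := by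
    obtain ⟨i⟩ := this
    have h4 := congrArg (fun X => cyc (sg e)⁻¹ • (X * am (D.l0 (y * D.cj y)⁻¹))) h3
    simp only [smul_mul_assoc, ← am_mul, ← l0_mul, mul_inv_cancel₀ hy, l0_one, am_one, one_mul,
      smul_smul, mul_comm _ (cyc (sg e)), cyc_mul_inv, one_smul] at h4
    have h5 : cyc (sg e)⁻¹ * (α ^ 2 + Δ * β ^ 2) = cA (D.l0 (y * D.cj y)⁻¹ i i) := by
      simpa [am] using congrFun (congrFun h4 i) i
    refine ⟨_, by rw [← h5, mul_right_comm, mul_comm _ (cyc _), cyc_mul_inv, one_mul], ?_⟩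
    rw [h5, ← am_one, ← am_smul, ← l0_one, ← D.l0A_apply 1, ← map_smul, ← D.l0A_apply] at h4
    have : Nonempty (Ix D.g) := ⟨i⟩
    rw [← mul_one (Rat.cast _), ← Rat.smul_def]
    exact (congrArg _ (D.l0A.injective (am_inj h4))).trans (mul_inv_cancel₀ hy)
  have hq : 0 < q := by
    have h6 := congrArg (fun z => ((j.comp f) z).re) h5
    simp only [map_mul, conj_cj, Complex.mul_conj, map_ratCast, map_one, Complex.one_re] at h6
    rw [← Complex.ofReal_ratCast, ← Complex.ofReal_mul, Complex.ofReal_re] at h6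
    exact Rat.cast_pos.1 ((mul_pos_iff_of_pos_left (lt_of_le_of_ne (Complex.normSq_nonneg _)
      fun e => by rw [← e] at h6; simp at h6)).1 (h6 ▸ one_pos))
  obtain ⟨g, hg, a, c, H⟩ := hA.2 α β _ _ q (TP.chi_mem _) (TP.chi_mem _) (cyc_mul_inv (sg e)) hq h4
  obtain ⟨q1, h6, h7⟩ := hA.1 g hg
  obtain ⟨g, rfl⟩ := (hf.rng g).1 (hK g hg)
  obtain ⟨c0, hc0⟩ := ex_cj j
  have h8 : ∀ (r : ℕ) [Fact r.Prime] (ν : D.L0 →+* Cp r), ‖algebraMap _ _ (pr (pp r) α) +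
      algebraMap _ _ (pr (pp r) β) * ν θ‖ = ‖ν (g * (a + c * θ))‖ := fun r _ ν => by
    obtain ⟨ψ, h⟩ := ex_over f ν
    simpa [h] using H r ψ
  have h9 : g * (a + c * θ) * D.cj (g * (a + c * θ)) = (q1 * (a ^ 2 + Δ * c ^ 2) : ℚ) := by
    have : g * D.cj g = q1 := f.injective (by
      rw [map_mul, hf.cj c0 ⟨j, hc0⟩, h7 c0 ⟨j, hc0⟩, map_ratCast])
    simp only [map_mul, map_add, map_ratCast, h.2.1]
    push_cast
    linear_combination (a ^ 2 - c ^ 2 * θ ^ 2) * this - q1 * c ^ 2 * hθ'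
  generalize g * (a + c * θ) = w at h8 h9
  rw [rat_eq (q' := q1 * _) hq (by positivity) fun r => ?_] at h9
  · obtain ⟨e1, a1, a2, a3⟩ := (stab_row D η j x θ h).1 (y * w)⁻¹ (by
      rw [map_inv₀, ← mul_inv, map_mul, mul_mul_mul_comm, h9, h5, inv_one])
    refine ⟨e1 * e, by rw [map_mul, a1, one_mul], fun i k => mem_Z1.2 fun r => ?_,
      by rw [map_mul, a2]; exact ta_mul (ta_l0 _) ht, (fxg D η j x).2.1 _ _ a3 hx⟩
    have : Fact r.1.Prime := ⟨r.2⟩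
    have hw : w ≠ 0 := fun e => hq.ne' (by simpa [e] using h9.symm)
    have e2 : uu (e1 * e) = ∑ i, ![α, β] i • am (D.l0 (![w⁻¹, w⁻¹ * θ] i)) := by
      rw [map_mul, a2, h2, ← mul_assoc, ← am_mul, ← l0_mul, _root_.mul_inv_rev,
        inv_mul_cancel_right₀ (left_ne_zero_of_mul hy)]
      simp [mul_add, l0_mul, am_mul]
    have := ((intt D N r.1 hD (uu (e1 * e)) (by
      rw [map_mul, a2]; exact ta_mul (ta_l0 _) ht)).2.2 1).2 (fun μ => by
      rw [← mp_apply, e2, mp_ta, (rh_ta _ _ μ).eq]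
      have := h8 r.1 μ.zH
      simp only [diagonal_apply_eq, cons_val_zero, Fin.sum_univ_two, cons_val_one, ← μ.zH_apply,
        Algebra.smul_def, map_mul, map_inv₀, Nat.cast_one, norm_one]
      rw [← mul_assoc, mul_right_comm, ← add_mul, norm_mul, this, norm_inv]
      exact mul_inv_le_one) i k
    simpa using this
  · have : Fact r.1.Prime := ⟨r.2⟩
    obtain ⟨ψ⟩ : Nonempty (Qb →+* Cp r.1) := ⟨(IsAlgClosed.lift : Qb →ₐ[ℚ] Cp r.1)⟩
    have a1 := h8 r.1 (ψ.comp f)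
    have a2 := h8 r.1 ((ψ.comp f).comp D.cj.toRingEquiv.toRingHom)
    have a3 := congrArg (fun z => ‖(ψ.comp f) z‖) h9
    have a4 := congrArg (fun z => ‖algebraMap _ (Cp r.1) (pr r z)‖) h4
    have a5 : ‖pr r (cyc (sg e))‖ = 1 := le_antisymm (mem_Z1.1 (TP.chi_mem _) r) (by
      have := congrArg (fun z => ‖pr r z‖) (cyc_mul_inv (sg e))
      simp only [map_mul, norm_mul, map_one, norm_one] at this
      rw [← this]
      exact mul_le_of_le_one_right (norm_nonneg _) (mem_Z1.1 (TP.chi_mem _) r))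
    have a6 := congrArg (ψ.comp f) hθ'
    simp only [map_mul, norm_mul, norm_algebraMap', a5, mul_one, pr_cA] at a4
    simp only [map_mul, norm_mul] at a3
    change _ = ‖(ψ.comp f) (D.cj w)‖ at a2
    rw [← a1, ← a2, ← norm_mul, map_ratCast,
      ← map_ratCast (algebraMap ℚ_[r.1] _), norm_algebraMap'] at a3
    rw [← a4, ← a3, ← norm_algebraMap' (Cp r.1)]
    congr 1
    simp only [map_pow, map_neg, map_natCast] at a6
    change _ = (_ + _ * _) * (_ + _ * (ψ.comp f) (D.cj θ))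
    simp only [h.2.1, map_add, map_mul, map_pow, map_natCast, map_neg]
    linear_combination (algebraMap _ (Cp r.1) (pr r β)) ^ 2 * a6

/-- **GLI** -/
theorem gli (hΔ : 0 < Δ) (hθ : f θ ^ 2 = -(Δ : Qb)) (hA : Cpt (f θ) Δ A) (hD : D.Ok N)
    (hf : Idf D K f) (hK : ∀ g ∈ A, g ∈ K) (hη : ∀ s : GQ, s (f θ) = ((η s : ℤ) : Qb) * f θ)
    (h : x.Ck θ) (σ : GQ) : ∃ e : EE D η, sg e = σ ∧ Nt e ∧ x.Fx j e := by
  have h1 : ∀ σ, η σ = 1 → ∃ e : EE D η, sg e = σ ∧ Nt e ∧ x.Fx j e := fun σ hσ => by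
    obtain ⟨e, rfl, a2, a3⟩ := cmfix D η j x θ h σ hσ fun φ hφ => by
      have h2 : φ θ ^ 2 = f θ ^ 2 := by
        rw [← map_pow, ← map_pow, f.injective (a₁ := θ ^ 2) (a₂ := -(Δ : D.L0)) (by simpa using hθ)]
        simp
      have h3 : σ (φ θ) = φ θ := by
        rcases sq_eq_sq_iff_eq_or_eq_neg.1 h2 with e | e <;> simp [e, hη, hσ]
      rwa [h3]
    obtain ⟨e', b1, b2, b3, b4⟩ := gli1 hΔ hθ hA hD hf hK h a2 a3
    exact ⟨e', b1, ⟨b2, .inl ⟨b1 ▸ hσ, b3⟩⟩, b4⟩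
  rcases Int.units_eq_one_or (η σ) with hσ | hσ
  · exact h1 σ hσ
  obtain ⟨c, hc⟩ := ex_cj j
  have h2 : η c = -1 := (Int.units_eq_one_or (η c)).resolve_left fun e => h.1 (by
    have := hf.cj c ⟨j, hc⟩ θ
    rw [hη, e, h.2.1, map_neg] at this
    exact f.injective (by simpa [neg_eq_self] using this))
  obtain ⟨e, rfl, a2, a3, -⟩ := real N D η j x θ hD h c hc h2
  obtain ⟨e', b1, b2, b3⟩ := h1 (σ * (sg e)⁻¹) (by simp [hσ, h2])
  exact ⟨e' * e, by simp [b1], b2.mul a2, (fxg D η j x).2.1 _ _ b3 a3⟩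

end Vale.Agent.P022K.PM
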