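import Vale.Agent.P022K.PM.Twist
import Vale.Agent.P022K.PM.Gli
import Vale.Agent.P022K.PM.St2
import Vale.Agent.P022K.CH.Eps

/-!
# P022K / PM: the real point (helper87)
-/

open NumberField Matrix

noncomputable section

namespace Vale.Agent.P022K.PM

open Vale.Agent.P022
open Vale.Agent.P022K.CH (Cp Kp red eps dt red_add red_mul red_one red_zero red_sub red_int eps_conj)
open Gr

namespace Lpc

/-- trace zero and determinant minus one -/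
def Iv {F : Type} [Field F] (A : M2 F) : Prop := A 1 1 = -A 0 0 ∧ A 0 0 ^ 2 + A 0 1 * A 1 0 = 1

theorem iv_of {F : Type} [Field F] {A : M2 F} (h : A * A = 1) (hd : A.det = -1) : Iv A := by
  have a := congrFun (congrFun h 0) 0
  have b := congrFun (congrFun h 0) 1
  simp only [mul_apply, Fin.sum_univ_two, one_apply_eq, one_apply_ne, ne_eq, zero_ne_one,
    not_false_eq_true] at a b
  rw [det_fin_two] at hd
  refine ⟨?_, by linear_combination a⟩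
  have e : A 0 0 * (A 0 0 + A 1 1) = 0 := by linear_combination a + hd
  linear_combination -(A 1 1 * e - A 1 0 * b) + (A 0 0 + A 1 1) * hd

theorem ex_dg {F : Type} [Field F] [CharZero F] {A : M2 F} (H : Iv A) :
    ∃ g : M2 F, g.det = 1 ∧ A * g = g * !![1, 0; 0, -1] := by
  obtain ⟨h, h'⟩ := H
  by_cases e : A 0 0 + 1 = 0
  · have e' := eq_neg_of_add_eq_zero_left e
    have z : A 0 1 * A 1 0 = 0 := by linear_combination h' - (A 0 0 - 1) * e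
    refine ⟨!![A 0 1 / 4, -2; 1 / 2, A 1 0], by rw [det_fin_two_of]; linear_combination z / 4, ?_⟩
    ext i k
    fin_cases i <;> fin_cases k <;> simp [mul_apply, h, e']
    · ring
    · exact mul_eq_zero.1 z
    · exact (mul_eq_zero.1 z).symm
    · ring
  · obtain ⟨t, ht⟩ : ∃ t, t * (-2 * (A 0 0 + 1)) = 1 :=
      ⟨_, inv_mul_cancel₀ (mul_ne_zero (by norm_num) e)⟩
    refine ⟨!![t * (A 0 0 + 1), A 0 1; t * A 1 0, -(A 0 0 + 1)],
      by rw [det_fin_two_of]; linear_combination ht - t * h', ?_⟩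
    ext i k
    fin_cases i <;> fin_cases k <;> simp [mul_apply, h]
    · linear_combination t * h'
    · ring
    · ring
    · linear_combination h'

theorem cj2 {F : Type} [Field F] [CharZero F] (E : Subfield F) {A B : M2 F}
    (hA : ∀ i k, A i k ∈ E) (hB : ∀ i k, B i k ∈ E) (a : Iv A) (b : Iv B) :
    ∃ g : M2 F, (∀ i k, g i k ∈ E) ∧ g.det = 1 ∧ A * g = g * B := by
  obtain ⟨g, g1, g2⟩ := ex_dg (F := E) (A := of fun i k => ⟨A i k, hA i k⟩)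
    ⟨Subtype.ext a.1, Subtype.ext a.2⟩
  obtain ⟨k, k1, k2⟩ := ex_dg (F := E) (A := of fun i k => ⟨B i k, hB i k⟩)
    ⟨Subtype.ext b.1, Subtype.ext b.2⟩
  have e : of (fun i k => (⟨A i k, hA i k⟩ : E)) * (g * k⁻¹) =
      g * k⁻¹ * of fun i k => ⟨B i k, hB i k⟩ := by
    have u : IsUnit k.det := k1 ▸ isUnit_one
    rw [← mul_assoc, g2, mul_assoc, mul_assoc, ← nonsing_inv_mul_cancel_left k !![1, 0; 0, -1] u,
      ← k2, mul_assoc, mul_nonsing_inv_cancel_right _ _ u]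
  refine ⟨(g * k⁻¹).map E.subtype, fun i k => Subtype.prop _, ?_, ?_⟩
  · rw [← RingHom.mapMatrix_apply, ← RingHom.map_det, det_mul, det_nonsing_inv, g1, k1]; simp
  · have := congrArg (·.map E.subtype) e
    simp only [Matrix.map_mul (f := E.subtype) (L := of _),
      Matrix.map_mul (f := E.subtype) (M := of _)] at this
    exact this

variable {p : ℕ} [Fact p.Prime]

theorem ex_c (E : Subfield (Cp p)) {a b : Cp p} {r : Kp p} (ha : a ∈ E) (hb : b ∈ E) (h1 : ‖a‖ ≤ 1)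
    (h2 : ‖b‖ ≤ 1) (h0 : red b ≠ 0) (h : red a ^ 2 + red b * r = 1) :
    ∃ c ∈ E, ‖c‖ ≤ 1 ∧ red c = r ∧ a ^ 2 + b * c = 1 := by
  have e := Ti.norm_red h2 h0
  have e0 : b ≠ 0 := norm_ne_zero_iff.1 (e ▸ one_ne_zero)
  have h3 : ‖a * a‖ ≤ 1 := by rw [norm_mul]; exact mul_le_one₀ h1 (norm_nonneg _) h1
  have h4 : ‖(1 - a * a) / b‖ ≤ 1 := by
    rw [norm_div, e, div_one, sub_eq_add_neg]
    exact (IsUltrametricDist.norm_add_le_max _ _).trans (max_le (by simp) (by rwa [norm_neg]))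
  refine ⟨_, div_mem (sub_mem (one_mem _) (mul_mem ha ha)) hb, h4, mul_left_cancel₀ h0 ?_, by
    rw [mul_div_cancel₀ _ e0]; ring⟩
  rw [← red_mul h2 h4, mul_div_cancel₀ _ e0, red_sub (by simp) h3, red_mul h1 h1, red_one]
  linear_combination -h

theorem ex_lift (E : Subfield (Cp p)) {R : M2 (Kp p)}
    (hR : ∀ i k, ∃ x ∈ E, ‖x‖ ≤ 1 ∧ red x = R i k) (h : Iv R) :
    ∃ B : M2 (Cp p), (∀ i k, B i k ∈ E) ∧ Le B 1 ∧ B.map red = R ∧ Iv B := by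
  obtain ⟨a, b, c, ⟨a1, a2, a3⟩, ⟨b1, b2, b3⟩, ⟨c1, c2, c3⟩, e⟩ : ∃ a b c,
      (a ∈ E ∧ ‖a‖ ≤ 1 ∧ red a = R 0 0) ∧ (b ∈ E ∧ ‖b‖ ≤ 1 ∧ red b = R 0 1) ∧
      (c ∈ E ∧ ‖c‖ ≤ 1 ∧ red c = R 1 0) ∧ a ^ 2 + b * c = 1 := by
    obtain ⟨a, a1, a2, a3⟩ := hR 0 0
    obtain ⟨b, b1, b2, b3⟩ := hR 0 1
    obtain ⟨c, c1, c2, c3⟩ := hR 1 0
    by_cases hb : R 0 1 = 0
    · by_cases hc : R 1 0 = 0
      · have z : ∀ n : ℤ, ‖(n : Cp p)‖ ≤ 1 := fun n => IsUltrametricDist.norm_intCast_le_one _ n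
        rcases sq_eq_one_iff.1 (show R 0 0 ^ 2 = 1 by simpa [hb] using h.2) with e | e
        · exact ⟨1, 0, 0, ⟨one_mem _, by simp, e ▸ red_one⟩, ⟨zero_mem _, by simp, hb ▸ red_zero⟩,
            ⟨zero_mem _, by simp, hc ▸ red_zero⟩, by simp⟩
        · exact ⟨-1, 0, 0, ⟨neg_mem (one_mem _), by simp, by simpa [e] using red_int (p := p) (-1)⟩,
            ⟨zero_mem _, by simp, hb ▸ red_zero⟩, ⟨zero_mem _, by simp, hc ▸ red_zero⟩, by simp⟩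
      · obtain ⟨b, d1, d2, d3, d4⟩ := ex_c E (r := R 0 1) a1 c1 a2 c2 (c3 ▸ hc)
          (by rw [a3, c3, mul_comm]; exact h.2)
        exact ⟨a, b, c, ⟨a1, a2, a3⟩, ⟨d1, d2, d3⟩, ⟨c1, c2, c3⟩, mul_comm c b ▸ d4⟩
    · obtain ⟨c, d1, d2, d3, d4⟩ := ex_c E (r := R 1 0) a1 b1 a2 b2 (b3 ▸ hb)
        (by rw [a3, b3]; exact h.2)
      exact ⟨a, b, c, ⟨a1, a2, a3⟩, ⟨b1, b2, b3⟩, ⟨d1, d2, d3⟩, d4⟩
  have n : red (-a) = R 1 1 := by
    rw [← zero_sub, red_sub (by simp) a2, red_zero, zero_sub, a3, h.1]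
  refine ⟨!![a, b; c, -a], fun i k => ?_, fun i k => ?_, Matrix.ext fun i k => ?_, rfl, e⟩ <;>
    fin_cases i <;> fin_cases k <;> simp [*]

/-- the real point -/
theorem ex {D : QD} {η : GQ →* ℤˣ} (j : Qb →+* ℂ) {p q N : ℕ} [Fact p.Prime] [Fact q.Prime]
    {μ : Em D (Cp p)} {μ' : Em D (Cp q)} {ρ : GQ →* GL (Fin 2) (Kp p)} (h : Lv η N μ μ' ρ)
    (hc : ∀ c, IsConj c → η c = -1) : ∃ (x0 : MP D η) (e0 : EE D η),
    (∀ a, j (sg e0 a) = starRingEnd ℂ (j a)) ∧ e0 * e0 = 1 ∧ x0.Fx j e0 ∧ Lg μ μ' ρ e0 := by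
  obtain ⟨c, hj⟩ := ex_cj j
  have h1 : IsConj c := ⟨j, hj⟩
  obtain ⟨x, hx⟩ := cmex D η N h.ok D.I (fun e => by simpa [e] using D.hI) D.cjI
  obtain ⟨e, rfl, e2, e3, e4⟩ := real N D η j x _ h.ok hx c hj (hc c h1)
  have kf := fun x => h.ok.kf h.hp μ (x := x)
  obtain ⟨B, b1, b2, b3, b4⟩ := ex_lift μ.Kf (R := ρ (sg e)) (by simpa only [kf] using h.val (sg e))
    (iv_of (by rw [← Units.val_mul, ← map_mul, ← map_mul, e4, map_one, map_one, Units.val_one])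
      ((h.det _).trans (by simpa [eps_conj h1] using red_int (p := p) (-1))))
  obtain ⟨g, g1, g2, g3⟩ := cj2 μ.Kf (re_mem (h.ok.sp h.hp h.io) e) b1
    (iv_of (by rw [← re_mul, e4, re_one]) (by rw [re_eps, eps_conj h1])) b4
  obtain ⟨κ, k1, k2, rfl, k4⟩ := lift D η N p h.ok h.hp μ h.io g g2 fun i k => (kf _).1 (g1 i k)
  have a1 : re μ (κ⁻¹ * e * κ) = B := by
    rw [mul_assoc, re_mul, re_mul, g3, ← mul_assoc, ← re_mul, inv_mul_cancel, re_one, one_mul]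
  have a2 : sg (κ⁻¹ * e * κ) = sg e := by simp [k1]
  have a3 := re_rat k2 h.ne μ'
  have a4 : re μ' κ⁻¹ = 1 := by rw [← mul_one (re μ' κ⁻¹), ← a3, ← re_mul, inv_mul_cancel, re_one, a3]
  refine ⟨x.mv κ k1, κ⁻¹ * e * κ, a2 ▸ hj, ?_, (x.fx_mv j k1 _).2 (by simpa [mul_assoc] using e3),
    (k4 e e2.1).1 (a1 ▸ b2), by rw [a1, a2, b3], ?_⟩
  · rw [show κ⁻¹ * e * κ * (κ⁻¹ * e * κ) = κ⁻¹ * (e * e) * κ by group, e4, mul_one, inv_mul_cancel]
  · rw [a2, re_mul, re_mul, a3, a4, one_mul, mul_one]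
    exact (nt_mon μ' e2).mon

end Lpc

/-- **LPC** -/
theorem lpc : LPC := fun _ _ _ _ _ => Ev.of fun _ _ _ C h => Lpc.ex C.j h.lv h.odd

end Vale.Agent.P022K.PM
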