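import Vale.Agent.P022K.PM.Inds
import Vale.Agent.P022K.PM.St2
import Vale.Agent.P022K.CH.Tame
import Vale.Agent.P022K.CH.Eps

/-!
# P022K / PM: the point at `p`, induced case (helper87)
-/

open NumberField Matrix

noncomputable section

namespace Vale.Agent.P022K.PM

open Vale.Agent.P022
open Vale.Agent.P022.H443 (inP)
open Vale.Agent.P022D.W (dec exists_phi inP_le_dec)
open Vale.Agent.P022E.GW (Ov Fb)
open Vale.Agent.P022K.CH (Cp Kp Op Id red eps dt red_one)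
open Vale.Agent.P022K.Top (GI iC)
open Gr Ti

namespace Lpi

variable {D : QD} {η : GQ →* ℤˣ} {j : Qb →+* ℂ} {p q N : ℕ} [Fact p.Prime] [Fact q.Prime]

/-- the residue field of `E` -/
def Rc (E : Subfield (Cp p)) : Subring (Kp p) :=
  (E.toSubring.comap (Op p).subtype).map (IsLocalRing.residue (Op p))

theorem mem_Rc {E : Subfield (Cp p)} {y : Kp p} : y ∈ Rc E ↔ ∃ x ∈ E, ‖x‖ ≤ 1 ∧ red x = y :=
  ⟨fun ⟨x, h, e⟩ => ⟨x, h, CH.norm_Op x, (CH.red_coe x).trans e⟩,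
    fun ⟨x, h, h', e⟩ => ⟨⟨x, h'⟩, h, (CH.red_mk h').symm.trans e⟩⟩

theorem mm_mem {K : Type} [Field K] {S : Subring K} {a b : M2 K} (ha : ∀ i k, a i k ∈ S)
    (hb : ∀ i k, b i k ∈ S) (i k) : (a * b) i k ∈ S := by
  rw [mul_apply]; exact sum_mem fun l _ => mul_mem (ha _ _) (hb _ _)

theorem iv_mem {K : Type} [Field K] {S : Subring K} {g : GL (Fin 2) K} (h : g.val.det = 1)
    (ha : ∀ i k, g i k ∈ S) (i k) : g⁻¹ i k ∈ S := by
  rw [coe_units_inv, inv_def, h, Ring.inverse_one, one_smul, adjugate_fin_two]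
  fin_cases i <;> fin_cases k <;> simp [ha]

/-- inertia acts through characters of order dividing `p + 1` -/
theorem tam {P : Id} (hP : Ov p P) (ne : p ≠ q) (μ' : Em D (Cp q)) {x : MP D η}
    {s : dec P →* EE D η} (hs : Lp j x s) (hn : ∀ d, Nt (s d)) (h1 : ∀ φ, Fb p P φ → η φ = -1)
    {c : dec P → D.L0} (h2 : ∀ d, Pu p (c d))
    (h3 : ∀ d : dec P, d.1 ∈ inP P → re μ' (s d) = μ'.dg (c d)) (d : dec P) (hd : d.1 ∈ inP P) :
    re μ' (s d) ^ (p + 1) = 1 := by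
  obtain ⟨τ, -, t⟩ := CH.Loc.tame hP
  obtain ⟨φ, hφ⟩ := exists_phi hP.1 hP.2.1 hP.2.2
  obtain ⟨U, hU, h4⟩ := iner D η j x _ s p P hP (by rw [Subgroup.subgroupOf_self]; simp) hs
  obtain ⟨M, t⟩ := t φ hφ U hU
  obtain ⟨n, hM, e⟩ := t.rel _ hd
  obtain ⟨k, hk⟩ := t.wild n hM
  have a0 := t.NI hM
  let W : dec P →* M2 (Cp q) := (reH μ').comp s
  let f : dec P := ⟨φ, t.phi⟩
  let d0 : dec P := ⟨n, t.ID a0⟩
  have a1 : W d0 = 1 := by
    obtain ⟨m, b1, b2⟩ := (h2 d0).map (⟨⟨μ'.dg, dg_one μ'⟩, dg_mul μ'⟩ : D.L0 →* M2 (Cp q))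
    refine (pow_eq_one_iff_of_coprime (Nat.Coprime.pow_left k
      ((Fact.out : p.Prime).coprime_iff_not_dvd.2 b1))).1
        ⟨?_, (congrArg (· ^ m) (h3 d0 a0)).trans b2⟩
    rw [← map_pow]
    exact re_rat (h4 (d0 ^ p ^ k) ⟨hk, pow_mem a0 _⟩) ne μ'
  have a2 : W f * W d = W d ^ p * W f := by
    rw [← one_mul (W d ^ p), ← a1, ← map_pow, ← map_mul, ← map_mul, ← map_mul]
    exact congrArg W (Subtype.ext (mul_inv_eq_iff_eq_mul.1 e))
  have a3 := re_comm μ' (hn f) (c d)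
  rw [hs.sec.sg, h1 f hφ, QD.cs_neg, ← h3 d hd] at a3
  have a4 : W d ^ p = μ'.dg (D.cj (c d)) :=
    ((Group.isUnit f).map W).mul_right_cancel (a2.symm.trans a3)
  rw [pow_succ, show re μ' (s d) ^ p = _ from a4, h3 d hd, ← dg_mul, mul_comm, (h2 d).ru.cj, dg_one]

theorem core {μ : Em D (Cp p)} {μ' : Em D (Cp q)} {ρ : GQ →* GL (Fin 2) (Kp p)}
    (h : Lv η N μ μ' ρ) (hT : TEI μ) {P : Id} (hP : Ov p P) {x : MP D η} {θ : D.L0} (hx : x.Ck θ)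
    {s : dec P →* EE D η} (hs : Lp j x s) (hn : ∀ d, Nt (s d))
    (h0 : ∀ d : dec P, d.1 ∈ inP P → re μ' (s d) = 1) (h1 : ∀ φ, Fb p P φ → η φ = -1)
    {g : GL (Fin 2) (Kp p)} (g1 : g.val.det = 1) (g2 : ∀ i k, ∃ y ∈ c0 μ, ‖y‖ ≤ 1 ∧ red y = g i k)
    (g3 : ∀ d ∈ dec P, Mo (η d) (g⁻¹ * ρ d * g).val) :
    ∃ (x' : MP D η) (s' : dec P →* EE D η), Lp j x' s' ∧ (∀ d, Lg μ μ' ρ (s' d)) ∧
      (∀ d : dec P, d.1 ∈ inP P → re μ' (s' d) ^ (p + 1) = 1) ∧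
      ∀ d : dec P, Fb p P d → (re μ' (s' d)).trace = 0 := by
  have kf : ∀ y, y ∈ Rc μ.Kf ↔ ∃ x ∈ c0 μ, ‖x‖ ≤ 1 ∧ red x = y := fun y => by
    simp only [mem_Rc, h.ok.kf h.hp μ]
  have g4 := iv_mem g1 fun i k => (kf _).2 (g2 i k)
  obtain ⟨s', c, a1, a2⟩ := matc h.ok h.hp h.io hT hx hs hn
    (b := fun d => (g⁻¹ * ρ d * g).val) (fun d d' => by
      rw [← Units.val_mul, Subgroup.coe_mul, map_mul]; congr 1; group)
    ⟨ρ.ker, h.opn, fun d hd => by rw [show ρ d = 1 from hd, mul_one, inv_mul_cancel, Units.val_one]⟩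
    (fun d => g3 d d.2) (fun d => by
      rw [Units.val_mul, Units.val_mul, det_mul, det_mul, mul_right_comm, ← det_mul, g.inv_mul,
        det_one, one_mul]
      exact h.det d)
    fun d i k => (kf _).1 (mm_mem (mm_mem g4 fun i k => (kf _).2 (h.val _ i k))
      (fun i k => (kf _).2 (g2 i k)) i k)
  obtain ⟨x', s'', b1, b2⟩ := frame_res h a1 (fun d => a1.sec.sg d ▸ (nt_mon μ' (a2 d).1).mon)
    (g := (g⁻¹).val) (fun i k => (kf _).1 (g4 i k)) (c := 1) ((kf _).1 (one_mem _)) one_ne_zero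
    (by rw [← one_mul (det _), ← g1, ← det_mul, g.mul_inv, det_one, g1, one_pow]) fun d => by
      rw [(a2 d).2.2.2, ← Units.val_mul, ← Units.val_mul, mul_inv_cancel_right]
  have b3 : ∀ d, re μ' (s'' d) = re μ' (s' d) := fun d =>
    congrArg (rh μ') ((b2 d).2 (pp q) h.ne.symm)
  refine ⟨x', s'', b1, fun d => (b2 d).1, fun d hd => ?_, fun d hd => ?_⟩ <;> rw [b3]
  · exact tam hP h.ne μ' a1 (fun d => (a2 d).1) h1 (fun d => (a2 d).2.2.1)
      (fun d hd => by rw [re_tw μ' (a2 d).2.1, h0 d hd, mul_one]) d hd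
  · have := (nt_mon μ' (a2 d).1).2 (by rw [a1.sec.sg, h1 _ hd])
    rw [trace_fin_two, this.1, this.2, add_zero]

end Lpi

/-- **LPI** -/
theorem lpi : LPI := fun p _ ι ρ _ P h et hP h1 h2 h3 h4 => by
  classical
  obtain ⟨b, hb⟩ := IsAlgClosed.exists_pow_nat_eq (-(p : Qb)) two_pos
  refine (Ev.has (Finset.univ.image fun i : Fin 2 × Fin 2 => ((h i.1 i.2 : Op p) : Cp p)) (B := {b})
    fun _ e c c' a a' => ?_).mono fun q _ ι' C ok e1 e3 => ?_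
  · rw [Finset.mem_singleton.1 e, Cap.conj_th hP.1.pos hb a, Cap.conj_th hP.1.pos hb a']
  obtain ⟨y, hy⟩ := e1.2 b (by simp)
  have a1 : y ^ 2 = -p := C.ν.zH.injective (by rw [map_pow, map_neg, map_natCast, ← hb, ← hy]; rfl)
  obtain ⟨θ, x, hx, gl⟩ := ok.gl
  have a2 : ∀ k g, Fb (p ^ k) P g → C.η g = (-1) ^ k := fun k g hg => by
    rw [e3 g (fb_dec hP.2.1 (pow_ne_zero k hP.1.ne_zero) hg), h3.fb k g hg]
  obtain ⟨s, hs, hn, hr⟩ := inds0 gl ok.lv.ok hx ok.lv.eta hP a2 a1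
  obtain ⟨x', s', b1, b2, b3, b4⟩ := Lpi.core ok.lv ok.tei hP hx hs hn (fun d hd => re_rat
      (by simpa [QD.l0_one] using hr 0 d (by simpa using fb_one.2 hd)) ok.lv.ne _)
    (fun φ hφ => by simpa using a2 1 φ (by simpa using hφ)) (g := Top.rd h) (by
      have : h.val.det = 1 := Subtype.ext ((RingHom.map_det (Op p).subtype h.val).trans h1)
      exact (RingHom.map_det (IsLocalRing.residue (Op p)) h.val).symm.trans (by rw [this, map_one]))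
    (fun i k => ⟨_, e1.1 _ (Finset.mem_image.2 ⟨(i, k), Finset.mem_univ _, rfl⟩), CH.norm_Op _,
      CH.red_coe _⟩) fun d hd => by rw [e3 d hd]; exact h4 d hd
  have a3 : ‖((p + 1 : ℕ) : Cp q)‖ = 1 := by
    rw [← map_natCast (C.ν.map ι').zH]
    refine ok.bq _ (isIntegral_natCast _) (Nat.cast_ne_zero.2 p.succ_ne_zero) fun φ => ?_
    rw [map_natCast, Complex.norm_natCast, Nat.cast_add_one]
    nlinarith [p.cast_nonneg (α := ℝ)]
  obtain ⟨φ, hφ⟩ := exists_phi hP.1 hP.2.1 hP.2.2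
  let f : dec P := ⟨φ, fb_dec hP.2.1 hP.1.ne_zero hφ⟩
  refine ⟨x', s', ⟨b1, b2⟩, ⟨_, ?_, b3⟩, .inr ⟨f, hφ, ?_⟩, fun e => absurd e h2⟩
  · rw [← map_natCast (algebraMap ℚ_[q] (Cp q)), norm_algebraMap',
      Padic.norm_natCast_eq_one_iff] at a3
    exact (Fact.out : q.Prime).coprime_iff_not_dvd.1 a3
  · rw [b4 f hφ, ← Nat.cast_add_one, zero_pow two_ne_zero, zero_sub, norm_neg, norm_pow, a3, one_pow]

end Vale.Agent.P022K.PM
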