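import Vale.Agent.P022K.PM.Rh2
import Mathlib.FieldTheory.Galois.Infinite

/-!
# P022K / PM / Dic0: the local dictionary between matrices and their eigenspace blocks (helper4)
-/

set_option linter.all false

open NumberField Matrix Quaternion Module

noncomputable section

namespace Vale.Agent.P022K.PM

open Vale.Agent.P022 Vale.Agent.P010MR Vale.Agent.P010MT8
open Vale.Agent.P022K.CH (Cp eps)
open Vale.Agent.P022K.TP (Af Pr am Mn)

theorem emb_sep {M K I : Type} [Field M] [NumberField M] [Field K] [CharZero K] [IsAlgClosed K]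
    [Fintype I] {m : I → M} {v : I → K} (h : ∀ φ : M →+* K, ∑ k, φ (m k) * v k = 0)
    (l : M →ₗ[ℚ] ℚ) : ∑ k, (l (m k) : K) * v k = 0 := by
  obtain ⟨y, rfl⟩ := ((Algebra.traceForm ℚ M).toDual (traceForm_nondegenerate ℚ M)).surjective l
  have e : ∀ k, ((Algebra.traceForm ℚ M).toDual (traceForm_nondegenerate ℚ M) y (m k) : K) =
      ∑ φ : M →ₐ[ℚ] K, φ y * φ (m k) := fun k =>
    (trace_eq_sum_embeddings (K := ℚ) K (x := y * m k)).trans
      (Finset.sum_congr rfl fun φ _ => map_mul φ _ _)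
  simp only [e, Finset.sum_mul, mul_assoc]
  rw [Finset.sum_comm]
  exact Finset.sum_eq_zero fun φ _ => by
    rw [← Finset.mul_sum]; exact mul_eq_zero_of_right _ (h φ.toRingHom)

/-- the blocks determine a vector -/
theorem Qm_inj {D : QD} {K : Type} [Field K] [CharZero K] [IsAlgClosed K] {v : Ix D.g → K}
    (h : ∀ μ : Em D K, μ.Qm *ᵥ v = 0) : v = 0 := by
  obtain ⟨ι, hι⟩ := IsAlgClosed.exists_pow_nat_eq (-1 : K) two_pos
  have h1 : ∀ (x : D.B) (φ : D.M →+* K),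
      ∑ k, φ (x * D.e.symm (Pi.single k 1)).re * v k = 0 := fun x φ => by
    obtain ⟨s, hs⟩ := IsAlgClosed.exists_pow_nat_eq (φ D.β) two_pos
    have h3 : ∀ (μ : Em D K) a, ∑ k, μ.la a (x * D.e.symm (Pi.single k 1)) * v k = 0 :=
      fun μ a => by
      have h2 : (μ.Qm * (D.lm x).map ((↑) : ℚ → K)) *ᵥ v = 0 := by
        rw [μ.Qm_lm, ← mulVec_mulVec, h, mulVec_zero]
      refine .trans (Finset.sum_congr rfl fun k _ => congrArg (· * v k) ?_) (congrFun h2 a)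
      rw [← congrFun (μ.Qm_e _) a, ← D.lm_ap, ← Em.cast_mulVec, mulVec_mulVec]
      simp [mulVec, dotProduct, Pi.single_apply, apply_ite]
    have a4 := congrArg₂ (· + ·) (congrArg₂ (· + ·) (h3 ⟨φ, ι, s, hι, hs⟩ 0) (h3 ⟨φ, ι, s, hι, hs⟩ 1))
      (congrArg₂ (· + ·) (h3 ⟨φ, ι, -s, hι, by rw [neg_sq, hs]⟩ 0)
        (h3 ⟨φ, ι, -s, hι, by rw [neg_sq, hs]⟩ 1))
    simp only [← Finset.sum_add_distrib, add_zero] at a4
    refine mul_left_cancel₀ (show (4 : K) ≠ 0 by norm_num) ?_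
    rw [mul_zero, ← a4, Finset.mul_sum]
    exact Finset.sum_congr rfl fun k _ => by simp [Em.la]; ring
  have h4 : J (Fin D.g) K *ᵥ v = 0 := funext fun i => by
    have := emb_sep (h1 (D.δ * star (D.e.symm (Pi.single i 1)))) (2 • Algebra.trace ℚ D.M)
    refine .trans (b := _) ?_ this
    rw [mulVec, dotProduct]
    refine Finset.sum_congr rfl fun k _ => congrArg (· * v k) ?_
    have e := D.sym (D.e.symm (Pi.single i 1)) (D.e.symm (Pi.single k 1))
    rw [two_mul, map_add, ← two_nsmul] at e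
    rw [← Matrix.map_J _ (Rat.castHom K)]
    refine congrArg Rat.cast (.trans ?_ e)
    simp [pq]
  exact (mulVec_injective_iff_isUnit.2 ((isUnit_iff_isUnit_det _).2 (isUnit_det_J _ _)))
    (h4.trans (mulVec_zero _).symm)

variable {D : QD} {p : ℕ} [Fact p.Prime]

theorem Rh.ext {u u' : Mi D.g ℚ_[p]} (h : ∀ μ : Em D (Cp p), ∃ ρ, Rh μ u ρ ∧ Rh μ u' ρ) :
    u = u' := by
  ext i k
  have := congrFun (Qm_inj (v := fun i => cK p (u - u') i k) fun μ => by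
    obtain ⟨ρ, h1, h2⟩ := h μ
    have := h1.sub h2
    rw [sub_self, Rh, Matrix.zero_mul] at this
    exact funext fun a => congrFun (congrFun this a) k) i
  exact sub_eq_zero.1 ((map_eq_zero (algebraMap ℚ_[p] (Cp p))).1 this)

/-- the local Galois group -/
abbrev Gp (p : ℕ) [Fact p.Prime] : Type := Cp p ≃ₐ[ℚ_[p]] Cp p

theorem gp_fix {x : Cp p} (h : ∀ γ : Gp p, γ x = x) : ∃ c, algebraMap ℚ_[p] (Cp p) c = x :=
  (InfiniteGalois.mem_bot_iff_fixed x).2 h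

theorem gp_norm (γ : Gp p) (x : Cp p) : ‖γ x‖ = ‖x‖ := (spectralNorm_eq_of_equiv γ x).symm

/-- the action on embeddings -/
abbrev gc {M : Type} [Field M] (γ : Gp p) (φ : M →+* Cp p) : M →+* Cp p :=
  (γ : Cp p →+* Cp p).comp φ

/-- equivariant functions on the embeddings -/
def Eqv {M : Type} [Field M] (f : (M →+* Cp p) → Cp p) : Prop := ∀ γ φ, f (gc γ φ) = γ (f φ)

theorem Eqv.ex {M : Type} [Field M] [NumberField M] {I : Type} [Fintype I] (b : Basis I ℚ M)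
    {f : (M →+* Cp p) → Cp p} (hf : Eqv f) : ∃ c : I → ℚ_[p], ∀ φ, ∑ i, c i • φ (b i) = f φ := by
  classical
  let T : (I → Cp p) →ₗ[Cp p] (M →+* Cp p) → Cp p :=
    Matrix.mulVecLin (Matrix.of fun φ i => φ (b i))
  have h1 : Function.Injective T := (injective_iff_map_eq_zero T).2 fun c hc => funext fun j => by
    simpa [Finsupp.single_apply, apply_ite] using emb_sep (m := b) (congrFun hc) (b.coord j)
  obtain ⟨c, hc⟩ := (LinearMap.injective_iff_surjective_of_finrank_eq_finrank (by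
    rw [finrank_fintype_fun_eq_card, finrank_fintype_fun_eq_card, Embeddings.card,
      finrank_eq_card_basis b])).1 h1 f
  have h2 : ∀ γ : Gp p, (fun i => γ (c i)) = c := fun γ => h1 (hc.symm ▸ funext fun φ => by
    have e : gc γ (gc γ⁻¹ φ) = φ := by ext x; simp
    rw [← e, hf, ← hc]
    simp [T, mulVec, dotProduct])
  choose c' hc' using fun i => gp_fix fun γ => congrFun (h2 γ) i
  refine ⟨c', fun φ => ?_⟩
  rw [← hc]
  exact Finset.sum_congr rfl fun i _ => by rw [Algebra.smul_def, hc', mul_comm]; rfl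

/-- the block of a quaternion with given coordinates -/
def Em.lK {K : Type} [Field K] (μ : Em D K) (a : Fin 4 → K) : Matrix (Fin 2) (Fin 2) K :=
  !![a 0 + μ.ι * a 1, μ.s * (a 2 + μ.ι * a 3); μ.s * (a 2 - μ.ι * a 3), a 0 - μ.ι * a 1]

/-- `u` is in `B ⊗ ℚ_p`, with adjoint `u'` -/
structure InB (D : QD) (u u' : Mi D.g ℚ_[p]) : Prop where
  cm : ∀ b, u * ql p (D.rm b) = ql p (D.rm b) * u
  adj : uᵀ * J (Fin D.g) ℚ_[p] = J (Fin D.g) ℚ_[p] * u'

theorem exists_B {f : Fin 4 → (D.M →+* Cp p) → Cp p} (hf : ∀ k, Eqv (f k)) :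
    ∃ u u' : Mi D.g ℚ_[p], InB D u u' ∧ ∀ μ : Em D (Cp p), Rh μ u (μ.lK fun k => f k μ.φ) ∧
      Rh μ u' (μ.lK fun k => f k μ.φ).adjugate := by
  let b := finBasis ℚ D.M
  choose c hc using fun k => (hf k).ex b
  let x : Fin 4 → D.M → D.B := ![fun m => ⟨m, 0, 0, 0⟩, fun m => ⟨0, m, 0, 0⟩,
    fun m => ⟨0, 0, m, 0⟩, fun m => ⟨0, 0, 0, m⟩]
  let q := (Rat.castHom ℚ_[p]).mapMatrix (m := Ix D.g)
  have h1 : ∀ (μ : Em D (Cp p)) (y : Fin 4 → _ → D.B), Rh μ (∑ k, ∑ i, c k i • q (D.lm (y k i)))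
      (∑ k, ∑ i, c k i • μ.lB (y k i)) := fun μ y => by
    change μ.Qm * cK p _ = _
    simp only [map_sum, map_smul, Matrix.mul_sum, Matrix.sum_mul, Matrix.mul_smul, Matrix.smul_mul]
    exact Finset.sum_congr rfl fun k _ => Finset.sum_congr rfl fun i _ => congrArg _ (rh_lm' _)
  refine ⟨∑ k, ∑ i, c k i • q (D.lm (x k (b i))), ∑ k, ∑ i, c k i • q (D.lm (star (x k (b i)))),
    ⟨fun z => Commute.sum_left _ _ _ fun k _ => Commute.sum_left _ _ _ fun i _ =>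
      Commute.smul_left (Commute.map (D.lm_rm _ z) q) _, ?_⟩, fun μ => ⟨?_, ?_⟩⟩
  · simp only [transpose_sum, transpose_smul, Finset.sum_mul, Finset.mul_sum, smul_mul_assoc,
      mul_smul_comm]
    refine Finset.sum_congr rfl fun k _ => Finset.sum_congr rfl fun i _ => congrArg _ ?_
    have := congrArg q (D.lm_adj (x k (b i)))
    rwa [map_mul, map_mul, show q (J _ _) = J _ _ from Matrix.map_J _ (Rat.castHom _)] at this
  all_goals
    convert h1 μ _ using 1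
    ext i j
    fin_cases i <;> fin_cases j <;> simp [Em.lK, Em.lB, ← hc, x, Fin.sum_univ_four,
      Matrix.sum_apply, Finset.mul_sum, mul_add, mul_sub, sub_eq_add_neg] <;> exact add_comm _ _

theorem Em.lK_det {K : Type} [Field K] (μ : Em D K) (a : Fin 4 → K) :
    (μ.lK a).det = a 0 ^ 2 + a 1 ^ 2 - μ.φ D.β * (a 2 ^ 2 + a 3 ^ 2) := by
  simp [Em.lK, det_fin_two]
  linear_combination (μ.s ^ 2 * a 3 ^ 2 - a 1 ^ 2) * μ.hι - (a 2 ^ 2 + a 3 ^ 2) * μ.hs

theorem Em.lK_le {μ μ' : Em D (Cp p)} (h : μ'.φ = μ.φ) {a : Fin 4 → Cp p} {t : Cp p} {c : ℝ}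
    (H : Le (μ.lK a - t • 1) c) : Le (μ'.lK a - t • 1) c := by
  have h1 := sq_eq_sq_iff_eq_or_eq_neg.1 (μ'.hι.trans μ.hι.symm)
  have h2 := sq_eq_sq_iff_eq_or_eq_neg.1 (μ'.hs.trans (h ▸ μ.hs.symm))
  have a0 := H 0 0
  have a1 := H 0 1
  have a2 := H 1 0
  have a3 := H 1 1
  simp [Em.lK, -norm_mul, sub_eq_add_neg] at a0 a1 a2 a3
  intro i j
  rcases h1 with h1 | h1 <;> rcases h2 with h2 | h2 <;> fin_cases i <;> fin_cases j <;>
    simp [Em.lK, h1, h2, -norm_mul, sub_eq_add_neg, a0, a1, a2, a3]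

/-- the action on the embeddings of `M(i, √β)` -/
abbrev Em.gm (μ : Em D (Cp p)) (γ : Gp p) : Em D (Cp p) := μ.map (γ : Cp p →+* Cp p)

theorem Rh.gm {μ : Em D (Cp p)} {u ρ} (h : Rh μ u ρ) (γ : Gp p) : Rh (μ.gm γ) u (ρ.map γ) := by
  have e : (μ.gm γ).Qm = μ.Qm.map (γ : Cp p →+* Cp p) := by
    ext a k; simp [Em.Qm, Em.la, Em.map]
  have := congrArg (fun x : Matrix (Fin 2) (Ix D.g) (Cp p) => x.map (γ : Cp p →+* Cp p)) h
  simp only [Matrix.map_mul, ← e] at this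
  refine .trans (congrArg _ ?_) this
  ext i j; exact (γ.commutes _).symm

/-- the completion of `M` at the place of `μ` -/
def Em.Kf (μ : Em D (Cp p)) : Subfield (Cp p) where
  carrier := {x | ∀ γ : Gp p, gc γ μ.φ = μ.φ → γ x = x}
  mul_mem' ha hb γ h := by rw [map_mul, ha γ h, hb γ h]
  one_mem' γ h := map_one γ
  add_mem' ha hb γ h := by rw [map_add, ha γ h, hb γ h]
  zero_mem' γ h := map_zero γ
  neg_mem' ha γ h := by rw [map_neg, ha γ h]
  inv_mem' x ha γ h := by rw [map_inv₀, ha γ h]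

theorem Em.φ_mem (μ : Em D (Cp p)) (m : D.M) : μ.φ m ∈ μ.Kf := fun _ h => RingHom.congr_fun h m

theorem Em.alg_mem (μ : Em D (Cp p)) (c : ℚ_[p]) : algebraMap _ _ c ∈ μ.Kf :=
  fun γ _ => γ.commutes c

/-- `i` and `√β` are in the completion of `M` -/
def Em.Sp (μ : Em D (Cp p)) : Prop := μ.ι ∈ μ.Kf ∧ μ.s ∈ μ.Kf

theorem Rh.mem {μ : Em D (Cp p)} (hμ : μ.Sp) {u ρ} (h : Rh μ u ρ) (i j) : ρ i j ∈ μ.Kf :=
  fun γ e => by
    have h1 := h.gm γ
    have h2 : μ.gm γ = μ := by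
      have a := hμ.1 γ e
      have b := hμ.2 γ e
      cases μ
      simp only [Em.gm, Em.map, Em.mk.injEq]
      exact ⟨e, a, b⟩
    rw [h2] at h1
    exact congrFun (congrFun (h1.unq h) i) j

theorem Em.s_ne (μ : Em D (Cp p)) : μ.s ≠ 0 := fun h =>
  (map_ne_zero μ.φ).2 D.beta_ne (by rw [← μ.hs, h]; simp)

/-- an element of `B ⊗ ℚ_p` with a prescribed component at one place -/
theorem exists_loc {μ : Em D (Cp p)} (hμ : μ.Sp) {h : Matrix (Fin 2) (Fin 2) (Cp p)}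
    (hh : ∀ i j, h i j ∈ μ.Kf) : ∃ u u' : Mi D.g ℚ_[p], InB D u u' ∧ Rh μ u h ∧
      ∀ μ' : Em D (Cp p), ∃ ρ, Rh μ' u ρ ∧ Rh μ' u' ρ.adjugate ∧
        (((∃ γ : Gp p, μ'.φ = gc γ μ.φ ∧ ρ.det = γ h.det) ∧
          ∀ (t : ℚ_[p]) c, Le (h - t • 1) c → Le (ρ - t • 1) c) ∨
        ((∀ γ, μ'.φ ≠ gc γ μ.φ) ∧ ρ = 1)) := by
  classical
  let a : Fin 4 → Cp p := ![(h 0 0 + h 1 1) / 2, (h 0 0 - h 1 1) / (2 * μ.ι),
    (h 0 1 + h 1 0) / (2 * μ.s), (h 0 1 - h 1 0) / (2 * μ.s * μ.ι)]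
  have h2 : (2 : Cp p) ∈ μ.Kf := ofNat_mem _ 2
  have ha : ∀ k, a k ∈ μ.Kf := fun k => by
    fin_cases k
    exacts [div_mem (add_mem (hh _ _) (hh _ _)) h2,
      div_mem (sub_mem (hh _ _) (hh _ _)) (mul_mem h2 hμ.1),
      div_mem (add_mem (hh _ _) (hh _ _)) (mul_mem h2 hμ.2),
      div_mem (sub_mem (hh _ _) (hh _ _)) (mul_mem (mul_mem h2 hμ.2) hμ.1)]
  have e : μ.lK a = h := by
    have := μ.ι_ne
    have := μ.s_ne
    ext i j
    fin_cases i <;> fin_cases j <;> simp [Em.lK, a] <;> field_simp <;> ring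
  let f : Fin 4 → (D.M →+* Cp p) → Cp p := fun k φ =>
    if H : ∃ γ, φ = gc γ μ.φ then H.choose (a k) else if k = 0 then 1 else 0
  have f1 : ∀ k γ, f k (gc γ μ.φ) = γ (a k) := fun k γ => by
    have H : ∃ γ', gc γ μ.φ = gc γ' μ.φ := ⟨γ, rfl⟩
    have := ha k (γ⁻¹ * H.choose) (RingHom.ext fun m => γ.injective (by
      simpa using (RingHom.congr_fun H.choose_spec m).symm))
    rw [show f k _ = _ from dif_pos H]
    simpa using congrArg γ this
  have f2 : ∀ k φ, (∀ γ, φ ≠ gc γ μ.φ) → f k φ = if k = 0 then 1 else 0 := fun k φ H =>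
    dif_neg (not_exists.2 H)
  obtain ⟨u, u', h3, h4⟩ := exists_B (f := f) fun k γ φ => by
    by_cases H : ∃ γ, φ = gc γ μ.φ
    · obtain ⟨γ', rfl⟩ := H
      rw [f1]; exact f1 k (γ * γ')
    · rw [f2 k φ (not_exists.1 H), f2 k _ fun γ' e => H ⟨γ⁻¹ * γ', RingHom.ext fun m =>
        γ.injective (by simpa using RingHom.congr_fun e m)⟩]
      split_ifs <;> simp
  refine ⟨u, u', h3, ?_, fun μ' => ⟨_, (h4 μ').1, (h4 μ').2, ?_⟩⟩
  · simpa only [show ∀ k, f k μ.φ = a k from fun k => f1 k 1, e] using (h4 μ).1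
  by_cases H : ∃ γ, μ'.φ = gc γ μ.φ
  · obtain ⟨γ, H⟩ := H
    refine .inl ⟨⟨γ, H, ?_⟩, fun t c hc => ?_⟩
    · simp [Em.lK_det, ← e, H, f1]
    · rw [← algebraMap_smul (Cp p)]
      refine Em.lK_le (μ := μ.gm γ) H fun i j => (le_of_eq ?_).trans (hc i j)
      refine .trans (congrArg _ ?_) (gp_norm γ _)
      rw [← e, H, ← algebraMap_smul (Cp p) t]
      fin_cases i <;> fin_cases j <;> simp [Em.lK, f1, Em.map, -algebraMap_smul]
  · refine .inr ⟨not_exists.1 H, ?_⟩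
    ext i j
    fin_cases i <;> fin_cases j <;> simp [Em.lK, f2 _ _ (not_exists.1 H)]

end Vale.Agent.P022K.PM
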