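import Vale.Agent.P022K.PM.Defs
import Vale.Agent.P022K.PM.MdSt

/-!
# P022K / PM: rows, first list (datum, dictionary, geometry, points with complex multiplication)
-/

set_option autoImplicit false
set_option linter.all false

open NumberField IsDedekindDomain Matrix Quaternion

noncomputable section

namespace Vale.Agent.P022K.PM

open Vale.Agent.P022 Vale.Agent.P010MR Vale.Agent.P010MT8
open Vale.Agent.P022.H443 (inP)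
open Vale.Agent.P022D.W (dec)
open Vale.Agent.P022E.GW (Ov Fb)
open Vale.Agent.P022K.Glue (Dsj)
open Vale.Agent.P022K.CH (Cp Kp Id red eps dt Spl)
open Vale.Agent.P022K.TP (Af Pr am Mn chi Rel Hm La Algp)

/-- two by two matrices -/
abbrev M2 (R : Type) : Type := Matrix (Fin 2) (Fin 2) R

section words

variable {D : QD} {η : GQ →* ℤˣ} {p : ℕ} [Fact p.Prime]

/-- the closure of the image of `M0` -/
def c0 (μ : Em D (Cp p)) : Set (Cp p) :=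
  closure (Set.range fun x : D.M0 => μ.φ (algebraMap D.M0 D.M x))

/-- the matrix of left multiplication on the eigenspace -/
def Em.ml {C : Type} [Field C] (μ : Em D C) (b : D.B) : M2 C :=
  !![μ.φ b.re + μ.ι * μ.φ b.imI, μ.s * (μ.φ b.imJ + μ.ι * μ.φ b.imK);
    μ.s * (μ.φ b.imJ - μ.ι * μ.φ b.imK), μ.φ b.re - μ.ι * μ.φ b.imI]

/-- `u` is linear over `E'` -/
def Lin (D : QD) (u : Mi D.g ℚ_[p]) : Prop :=
  (∀ m : D.M, u * ql p (D.rm (D.sc m)) = ql p (D.rm (D.sc m)) * u) ∧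
    u * ql p (D.rm D.bj) = ql p (D.rm D.bj) * u

/-- all entries have norm at most `c` -/
def Lq {g : ℕ} (u : Mi g ℚ_[p]) (c : ℝ) : Prop := ∀ i k, ‖u i k‖ ≤ c

/-- an integral element of the normaliser of the torus -/
def Nt (e : EE D η) : Prop := Int e ∧
  ((η (sg e) = 1 ∧ uu e ∈ TA D) ∨ (η (sg e) = -1 ∧ uu e * am D.wm ∈ TA D))

/-- monomial modulo the maximal ideal, with the pattern `s` -/
def Mon (s : ℤˣ) (a : M2 (Cp p)) : Prop :=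
  (s = 1 → ‖a 0 1‖ < 1 ∧ ‖a 1 0‖ < 1) ∧ (s = -1 → ‖a 0 0‖ < 1 ∧ ‖a 1 1‖ < 1)

/-- the level group -/
def Lg {q : ℕ} [Fact q.Prime] (μ : Em D (Cp p)) (μ' : Em D (Cp q))
    (ρ : GQ →* GL (Fin 2) (Kp p)) (e : EE D η) : Prop :=
  Int e ∧ (re μ e).map red = (ρ (sg e) : M2 (Kp p)) ∧ Mon (η (sg e)) (re μ' e)

/-- a root of unity -/
def Ru {R : Type} [Monoid R] (z : R) : Prop := ∃ n, 0 < n ∧ z ^ n = 1

end words

/-- the extra properties of the datum at the primes dividing `N` -/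
structure QD.Ok (D : QD) (N : ℕ) : Prop where
  deg : Module.finrank D.M0 D.M = 2
  sev : ∃ x : D.M0, x ^ 2 = 7
  lz : ∀ z : D.L0, IsIntegral ℤ z → Mn 1 (am (D.l0 z))
  lw : Mn 1 (am D.wm)
  lat : ∀ (p : ℕ) [Fact p.Prime], p ∣ N → ∀ x : D.B,
    (∀ i, ‖((D.e x i : ℚ) : ℚ_[p])‖ ≤ 1) ↔ ∀ (μ : Em D (Cp p)) a, ‖μ.la a x‖ ≤ 1
  spl : ∀ (p : ℕ) [Fact p.Prime], p ∣ N → ∀ μ : Em D (Cp p), μ.s ∈ c0 μ ∧ (∀ m, μ.φ m ∈ c0 μ) ∧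
    ∃ y ∈ c0 μ, y ^ 2 = μ.φ (D.nrd D.δ)
  typ : ∀ x : D.M0, x ≠ 0 → ∃ (b : D.Bˣ) (k t : Mi D.g Af), D.At 1 1 k ∧
    (∀ φ : D.M →+* ℝ, 0 < φ (D.nrd b * D.d1 * algebraMap D.M0 D.M x)) ∧
    (∀ z, D.InL z → k * am (D.lm z) = am (D.lm (b * z * b⁻¹)) * k) ∧ t ∈ TA D ∧ Mn 1 t ∧
    k * (t * am D.wm) = am (D.lm b * D.wm * D.lm (b⁻¹ : D.Bˣ)) * k

/-- all complex conjugations agree on `x` -/
def Cmn (x : Qb) : Prop := ∀ c c', IsConj c → IsConj c' → c x = c' x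

/-- a CM field which contains the twelfth roots of unity -/
structure Cmf (K : IntermediateField ℚ Qb) : Prop where
  fin : FiniteDimensional ℚ K
  cm : ∀ x ∈ K, Cmn x
  cj : ∀ x ∈ K, ∀ c, IsConj c → c x ∈ K
  z : ∃ ζ ∈ K, ζ ^ 4 - ζ ^ 2 + 1 = 0
  sev : ∃ x ∈ K, x ^ 2 = -7

/-- `f` identifies `L0` with `K` -/
structure Idf (D : QD) (K : IntermediateField ℚ Qb) (f : D.L0 →+* Qb) : Prop where
  rng : ∀ x, x ∈ K ↔ ∃ z, f z = x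
  cj : ∀ c, IsConj c → ∀ z, f (D.cj z) = c (f z)

/-- **DATUM** -/
def DATUM : Prop := ∀ K, Cmf K → ∀ N, 0 < N → ∃ (D : QD) (f : D.L0 →+* Qb), D.Ok N ∧ Idf D K f

/-! ### dictionary -/

/-- **RH**: the matrices on the eigenspaces -/
def RH : Prop := ∀ (D : QD) (p : ℕ) [Fact p.Prime] (μ : Em D (Cp p)),
  (∀ u, Lin D u → Rh μ u (rh μ u)) ∧ (∀ u a b, Rh μ u a → Rh μ u b → a = b) ∧
  (∀ b, rh μ (ql p (D.lm b)) = μ.ml b) ∧ rh μ (ql p D.wm) = !![0, 1; 1, 0] ∧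
  (∀ u, Lin D u → (∀ μ' : Em D (Cp p), rh μ' u = 0) → u = 0) ∧
  (∃ C : ℝ, ∀ u c, Lin D u → Lq u c → Le (rh μ u) (C * c)) ∧
  ∀ η : GQ →* ℤˣ, (∀ e : EE D η, Lin D (mt e (pp p)) ∧ (re μ e).det = eps p (sg e)) ∧
    re μ (1 : EE D η) = 1 ∧ ∀ e e' : EE D η, re μ (e * e') = re μ e * re μ e'

/-- **EMX**: embeddings extend -/
def EMX : Prop := ∀ (D : QD) (C : Type) [Field C] [IsAlgClosed C] (f : D.L0 →+* C),
  ∃ μ : Em D C, (∀ z, μ.z0 z = f z) ∧ μ.ι = f D.I ∧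
    ∀ x : D.M0, μ.φ (algebraMap D.M0 D.M x) = f (algebraMap D.M0 D.L0 x)

/-- **INTR**: integrality at the working primes -/
def INTR : Prop := ∀ (D : QD) (N p : ℕ) [Fact p.Prime], D.Ok N → p ∣ N → ∀ u, Lin D u →
  ∀ n : ℕ, Lq u ‖(n : ℚ_[p])‖ ↔ ∀ μ : Em D (Cp p), Le (rh μ u) ‖(n : ℚ_[p])‖

/-- **INTT**: the torus at all primes -/
def INTT : Prop := ∀ (D : QD) (N p : ℕ) [Fact p.Prime], D.Ok N → ∀ t ∈ TA D,
  Lin D (t.map (TP.pr (pp p))) ∧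
  (∀ μ : Em D (Cp p), rh μ (t.map (TP.pr (pp p))) 0 1 = 0 ∧ rh μ (t.map (TP.pr (pp p))) 1 0 = 0 ∧
    ∀ a, rh μ (t.map (TP.pr (pp p))) a a ∈ cl μ) ∧
  ∀ n : ℕ, Lq (t.map (TP.pr (pp p))) ‖(n : ℚ_[p])‖ ↔
    ∀ μ : Em D (Cp p), ‖rh μ (t.map (TP.pr (pp p))) 0 0‖ ≤ ‖(n : ℚ_[p])‖

/-- **LIFT**: elements of the group which live at one place over `p` -/
def LIFT : Prop := ∀ (D : QD) (η : GQ →* ℤˣ) (N p : ℕ) [Fact p.Prime], D.Ok N → p ∣ N →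
  ∀ μ : Em D (Cp p), μ.ι ∈ c0 μ → ∀ g : M2 (Cp p), g.det = 1 → (∀ i k, g i k ∈ c0 μ) →
  ∃ κ : EE D η, sg κ = 1 ∧ Rat p κ 1 ∧ re μ κ = g ∧
    ∀ e : EE D η, Int e → (Le (re μ (κ⁻¹ * e * κ)) 1 → Int (κ⁻¹ * e * κ)) ∧
      (Le (re μ (e * κ)) 1 → Int (e * κ))

/-- **VAL**: the values of the matrices -/
def VAL : Prop := ∀ (D : QD) (η : GQ →* ℤˣ) (N p : ℕ) [Fact p.Prime], D.Ok N → p ∣ N →
  ∀ μ : Em D (Cp p), μ.ι ∈ c0 μ → (∀ (e : EE D η) i k, re μ e i k ∈ c0 μ) ∧ cl μ = c0 μ ∧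
    ∃ E : IntermediateField ℚ_[p] (Cp p), FiniteDimensional ℚ_[p] E ∧ (E : Set (Cp p)) = c0 μ

/-! ### the tower -/

namespace MP

variable {D : QD} {η : GQ →* ℤˣ} (x : MP D η)

/-- the marking identifies the torus with its conjugate by `b` -/
def Mk (b : D.Bˣ) : Prop :=
  (∀ z, D.InL z → uu x.k * am (D.lm z) = am (D.lm (b * z * b⁻¹)) * uu x.k) ∧
    ∃ t ∈ TA D, Mn 1 t ∧
      uu x.k * (t * am D.wm) = am (D.lm b * D.wm * D.lm (b⁻¹ : D.Bˣ)) * uu x.k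

/-- complex multiplication of the type `{φ | 0 < im φ θ}` -/
def Ck (θ : D.L0) : Prop := θ ≠ 0 ∧ D.cj θ = -θ ∧ ∃ b : D.Bˣ, x.Mk b ∧
  Hm x.τ x.τ (D.lm (b * D.em θ * b⁻¹)) ∧ ∀ a, La x.τ x.τ (D.lm (b * D.em θ * b⁻¹)) a →
    ∀ (c : ℂ) (y : Fin D.g → ℂ), y ≠ 0 → a *ᵥ y = c • y → 0 < c.im

end MP

/-- the type of `θ` -/
def Ty {D : QD} (j : Qb →+* ℂ) (θ : D.L0) : Set (D.L0 →+* Qb) := {φ | 0 < (j (φ θ)).im}

/-- `σ` preserves the type of `θ` -/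
def Pt {D : QD} (j : Qb →+* ℂ) (θ : D.L0) (σ : GQ) : Prop :=
  ∀ φ ∈ Ty j θ, 0 < (j (σ (φ θ))).im

/-- `y` lies in the prime `P` -/
def InP (P : Id) (y : Qb) : Prop := ∃ z : 𝓞 Qb, z ∈ P ∧ (z : Qb) = y

/-- a row about the datum, a character and an embedding -/
def AllD (A : ∀ (D : QD) (η : GQ →* ℤˣ), (Qb →+* ℂ) → Prop) : Prop := ∀ D η j, A D η j

/-- **FXG**: the stabilisers are groups, and they are closed -/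
def FXG : Prop := AllD fun D η j => ∀ x : MP D η, x.Fx j 1 ∧
  (∀ e e', x.Fx j e → x.Fx j e' → x.Fx j (e * e')) ∧ (∀ e, x.Fx j e → x.Fx j e⁻¹) ∧
  ∀ (e : EE D η) (s : ℂ ≃+* ℂ), Ext j (sg e) s → Rel s x.τ x.τ (uu (x.k * e * x.k⁻¹)) → x.Fx j e

/-- **MOVE**: the marking can be made small -/
def MOVE : Prop := AllD fun D η j => ∀ (x : MP D η) (n : ℕ), 0 < n → ∃ x' : MP D η,
  Cn n x'.k ∧ ∀ e, x'.Fx j e ↔ x.Fx j e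

/-- **CONJZ**: conjugation by elements whose norm is a norm from `M(δ)` -/
def CONJZ : Prop := AllD fun D η j => ∀ (x : MP D η) (z : D.Bˣ) (s t : D.M),
  D.nrd z = s ^ 2 + D.nrd D.δ * t ^ 2 → ∃ x' : MP D η, ∀ e : EE D η, η (sg e) = 1 →
    ∃ e' : EE D η, sg e' = sg e ∧ uu e' = am (D.lm z) * uu e * am (D.lm (z⁻¹ : D.Bˣ)) ∧
      (x.Fx j e → x'.Fx j e')

/-- **NZ**: such elements with prescribed norm class at one place -/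
def NZ : Prop := ∀ (D : QD) (N p : ℕ) [Fact p.Prime], D.Ok N → p ∣ N → ∀ μ : Em D (Cp p),
  μ.ι ∈ c0 μ → ∀ c ∈ c0 μ, c ≠ 0 → ∃ (z : D.Bˣ) (s t : D.M), D.InL z ∧
    D.nrd z = s ^ 2 + D.nrd D.δ * t ^ 2 ∧ ∃ y ∈ c0 μ, μ.φ (D.nrd z) = c * y ^ 2

/-- the hypotheses on the level group -/
structure Lv {D : QD} {p q : ℕ} [Fact p.Prime] [Fact q.Prime] (η : GQ →* ℤˣ) (N : ℕ)
    (μ : Em D (Cp p)) (μ' : Em D (Cp q)) (ρ : GQ →* GL (Fin 2) (Kp p)) : Prop where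
  ok : D.Ok N
  hp : p ∣ N
  hq : q ∣ N
  ne : p ≠ q
  io : μ.ι ∈ c0 μ
  eta : IsOpen {g | η g = 1}
  opn : IsOpen {g | ρ g = 1}
  det : ∀ g, dt ρ g = red (eps p g)
  val : ∀ g i k, ∃ x ∈ c0 μ, ‖x‖ ≤ 1 ∧ red x = ρ g i k

/-- **GRP**: the level group acts on the tower -/
def GRP : Prop := AllD fun D η j => ∀ (p q : ℕ) [Fact p.Prime] [Fact q.Prime] N
  (μ : Em D (Cp p)) (μ' : Em D (Cp q)) ρ, Lv η N μ μ' ρ → ∃ C : Subgroup (EE D η),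
    (∀ e, e ∈ C ↔ Lg μ μ' ρ e) ∧ (∀ e, sg e = 1 → Cn (p * q) e → e ∈ C) ∧
    Gt D.rm j (p * q) (sg.comp C.subtype) (uu.comp C.subtype)

/-- a local point -/
structure Lp {D : QD} {η : GQ →* ℤˣ} (j : Qb →+* ℂ) {Γ : Subgroup GQ} (x : MP D η)
    (s : Γ →* EE D η) : Prop where
  sec : Sec s
  fx : ∀ d, x.Fx j (s d)
  int : ∀ d, Int (s d)

/-- **GTW**: global points from local points -/
def GTW : Prop := AllD fun D η j => ∀ (p q : ℕ) [Fact p.Prime] [Fact q.Prime] N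
  (μ : Em D (Cp p)) (μ' : Em D (Cp q)) ρ, Lv η N μ μ' ρ →
  ∀ (Z : Finset ℕ) (P : ℕ → Id) (x : ℕ → MP D η) (s : ∀ l, dec (P l) →* EE D η),
  (∀ l ∈ Z, Ov l (P l) ∧ Lp j (x l) (s l) ∧ ∀ d, Lg μ μ' ρ (s l d)) →
  ∀ (x0 : MP D η) (e0 : EE D η), (∀ a, j (sg e0 a) = starRingEnd ℂ (j a)) → e0 * e0 = 1 →
  x0.Fx j e0 → Lg μ μ' ρ e0 → ∀ U : Subgroup GQ, IsOpen (U : Set GQ) → ∀ n, 0 < n →
  ∃ (H : Subgroup GQ) (r : H →* EE D η) (y : MP D η), H.Normal ∧ IsOpen (H : Set GQ) ∧ Dsj H U ∧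
    (∀ c, IsConj c → c ∈ H) ∧ Spl H Z ∧ Lp j y r ∧ (∀ h, Lg μ μ' ρ (r h)) ∧
    ∀ l ∈ Z, ∀ σ : GQ, ∃ e, Lg μ μ' ρ e ∧ sg e = σ ∧ ∀ (d : dec (P l)) (h : H),
      σ * h * σ⁻¹ = d → Mn n (uu (e * r h * e⁻¹) - uu (s l d))

/-! ### reduction -/

/-- `a` is the trace of `e` away from `l` -/
def Trc {D : QD} {η : GQ →* ℤˣ} (l : ℕ) (e : EE D η) (a : D.M × D.M) : Prop :=
  ∀ (r : ℕ) [Fact r.Prime], r ≠ l → ∀ μ : Em D (Cp r), (re μ e).trace = μ.ev a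

/-- **COMPAT** -/
def COMPAT : Prop := AllD fun D η j => ∀ (x : MP D η) (e : EE D η) (l k : ℕ) (P : Id), Ov l P →
  x.Fx j e → Fb (l ^ k) P (sg e) → ∃ a, Trc l e a ∧ (Int e → ∀ μ : Em D ℂ,
    IsIntegral ℤ (μ.ev a) ∧ ‖μ.ev a‖ ^ 2 ≤ 4 * (l : ℝ) ^ k)

/-- **INER** -/
def INER : Prop := AllD fun D η j => ∀ (x : MP D η) (Γ : Subgroup GQ) (s : Γ →* EE D η) (l : ℕ)
  (P : Id), Ov l P → IsOpen ((Γ.subgroupOf (dec P) : Subgroup (dec P)) : Set (dec P)) →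
  Lp j x s → ∃ N : Subgroup GQ, IsOpen (N : Set GQ) ∧
    ∀ d : Γ, d.1 ∈ N ⊓ inP P → Rat l (s d) 1

/-- **RATL** -/
def RATL : Prop := AllD fun D η j => ∀ (x : MP D η) (θ : D.L0) (e : EE D η) (l k : ℕ) (P : Id),
  x.Ck θ → Ov l P → x.Fx j e → Fb (l ^ k) P (sg e) → uu e ∈ TA D →
  ∃ a : D.L0, Rat l e (D.l0 a) ∧ a * D.cj a = (l : D.L0) ^ k ∧ (Int e → IsIntegral ℤ a)

/-- **CMET**: the etale part -/
def CMET : Prop := ∀ N, AllD fun D η j => ∀ (x : MP D η) (θ : D.L0) (e : EE D η) (l k : ℕ)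
  [Fact l.Prime] (P : Id) (a y : D.L0) (μ : Em D (Cp l)), D.Ok N → x.Ck θ → Ov l P → x.Fx j e →
  Fb (l ^ k) P (sg e) → uu e ∈ TA D → Rat l e (D.l0 a) → IsIntegral ℤ y → ‖μ.z0 y‖ = 1 →
  (∀ φ ∈ Ty j θ, InP P (φ y)) → re μ e 0 0 = μ.z0 a

/-- **ORD** -/
def ORD : Prop := AllD fun D η j => ∀ (x : MP D η) (Γ : Subgroup GQ) (s : Γ →* EE D η) (l : ℕ)
  [Fact l.Prime] (P : Id), Ov l P → Γ ≤ dec P →
  IsOpen ((Γ.subgroupOf (dec P) : Subgroup (dec P)) : Set (dec P)) → Lp j x s →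
  (∃ (d : Γ) (k : ℕ) (a : D.M × D.M), 0 < k ∧ Fb (l ^ k) P d ∧ Trc l (s d) a ∧
    ∀ μ : Em D (Cp l), ‖μ.ev a‖ = 1) →
  ∀ μ : Em D (Cp l), ∃ (w : Fin 2 → Cp l) (u : Γ → Cp l), w ≠ 0 ∧
    (∀ d, w ᵥ* re μ (s d) = u d • w ∧ ‖u d‖ = 1) ∧
    ∀ (d : Γ) k a, Fb (l ^ k) P d → Trc l (s d) a → u d ^ 2 - μ.ev a * u d + (l : Cp l) ^ k = 0

/-! ### complex multiplication -/

/-- **CMEX** -/
def CMEX : Prop := ∀ (D : QD) (η : GQ →* ℤˣ) N, D.Ok N → ∀ θ : D.L0, θ ≠ 0 → D.cj θ = -θ →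
  ∃ x : MP D η, x.Ck θ

/-- **THETA**: every type is the type of an element -/
def THETA : Prop := ∀ (D : QD) (j : Qb →+* ℂ) (Φ : Set (D.L0 →+* Qb)),
  (∀ φ, φ ∈ Φ ↔ φ.comp D.cj.toRingEquiv.toRingHom ∉ Φ) →
  ∃ θ : D.L0, θ ≠ 0 ∧ D.cj θ = -θ ∧ Ty j θ = Φ

/-- **STAB**: the geometric stabiliser -/
def STAB : Prop := AllD fun D η j => ∀ (x : MP D η) (θ : D.L0), x.Ck θ →
  (∀ z : D.L0, z * D.cj z = 1 → ∃ e : EE D η, sg e = 1 ∧ uu e = am (D.l0 z) ∧ x.Fx j e) ∧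
  ∀ e : EE D η, sg e = 1 → x.Fx j e → uu e ∈ TA D →
    ∃ z : D.L0, z * D.cj z = 1 ∧ uu e = am (D.l0 z)

/-- **CMFIX**: the main theorem of complex multiplication, weak form -/
def CMFIX : Prop := AllD fun D η j => ∀ (x : MP D η) (θ : D.L0), x.Ck θ → ∀ σ, η σ = 1 →
  Pt j θ σ → ∃ e : EE D η, sg e = σ ∧ uu e ∈ TA D ∧ x.Fx j e

/-- **REAL** -/
def REAL : Prop := ∀ N, AllD fun D η j => ∀ (x : MP D η) (θ : D.L0), D.Ok N → x.Ck θ → ∀ c : GQ,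
  (∀ a, j (c a) = starRingEnd ℂ (j a)) → η c = -1 →
  ∃ e : EE D η, sg e = c ∧ Nt e ∧ x.Fx j e ∧ e * e = 1

/-- **DEEP** -/
def DEEP : Prop := AllD fun D η j => ∀ (x : MP D η) (θ : D.L0), x.Ck θ → IsOpen {g | η g = 1} →
  ∀ n, 0 < n → ∃ N : Subgroup GQ, IsOpen (N : Set GQ) ∧
    ∀ σ ∈ N, ∃ e : EE D η, sg e = σ ∧ Cn n e ∧ uu e ∈ TA D ∧ x.Fx j e

/-- **ST**: points whose representation at `μ` is not split -/
def ST : Prop := ∀ N, AllD fun D η j => ∀ (x : MP D η) (θ : D.L0) (p : ℕ) [Fact p.Prime] (P : Id)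
  (s : dec P →* EE D η) (y : D.L0), D.Ok N → p ∣ N → x.Ck θ → Ov p P → Lp j x s →
  (∀ d, uu (s d) ∈ TA D) → IsIntegral ℤ y → y * D.cj y = p → (∀ φ, φ ∈ Ty j θ ↔ InP P (φ y)) →
  ∀ (μ : Em D (Cp p)) (n : ℕ), 0 < n → ∃ (x' : MP D η) (s' : dec P →* EE D η), Lp j x' s' ∧
    (∀ d, Mn n (uu (s' d) - uu (s d))) ∧ ¬ ∃ g : GL (Fin 2) (Cp p), ∀ d,
      ((g⁻¹ : GL (Fin 2) (Cp p)) * re μ (s' d) * g : M2 (Cp p)) 0 1 = 0 ∧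
      ((g⁻¹ : GL (Fin 2) (Cp p)) * re μ (s' d) * g : M2 (Cp p)) 1 0 = 0

end Vale.Agent.P022K.PM
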