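import Vale.Agent.P022K.PM.Weil
import Vale.Agent.P022K.PM.Wl
import Vale.Agent.P022K.PM.Dic0
import Vale.Agent.P022K.PM.St
import Vale.Agent.P022K.CH.Bas

/-!
# P022K / PM: CM numbers, density of the totally real numbers, roots of unity in local fields
-/

set_option autoImplicit false

open NumberField Polynomial

noncomputable section

namespace Vale.Agent.P022K.PM.Fld

open Vale.Agent.P022 Vale.Agent.P022K.CH
open Vale.Agent.P022.H443 (algQb galQb)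

/-- totally real -/
def Re (x : Qb) : Prop := ∀ c, IsConj c → c x = x

theorem conj_sq {c : GQ} (h : IsConj c) (x : Qb) : c (c x) = x := by
  obtain ⟨φ, hφ⟩ := h
  exact φ.injective (by rw [hφ, hφ, Complex.conj_conj])

theorem conj_cj {c : GQ} (h : IsConj c) (σ : GQ) : IsConj (σ⁻¹ * c * σ) := by
  obtain ⟨φ, hφ⟩ := h
  exact ⟨φ.comp (σ : Qb →+* Qb), fun x => by simpa using hφ (σ x)⟩

theorem ap_cj (c σ : GQ) (x : Qb) : c (σ x) = σ ((σ⁻¹ * c * σ) x) := by simp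

theorem Re.gal {x : Qb} (h : Re x) (σ : GQ) : Re (σ x) := fun c hc => by
  rw [ap_cj, h _ (conj_cj hc σ)]

theorem cmn_gal {x : Qb} (h : Cmn x) (σ : GQ) : Cmn (σ x) := fun c c' hc hc' => by
  rw [ap_cj c, ap_cj c', h _ _ (conj_cj hc σ) (conj_cj hc' σ)]

theorem Re.cmn {x : Qb} (h : Re x) : Cmn x := fun c c' hc hc' => (h c hc).trans (h c' hc').symm

theorem cmn_of_norm {x r : Qb} (h : ∀ c, IsConj c → x * c x = r) : Cmn x := fun c c' hc hc' => by
  by_cases h0 : x = 0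
  · simp [h0]
  exact mul_left_cancel₀ h0 ((h c hc).trans (h c' hc').symm)

theorem norm_of_abs {x : Qb} {r : ℚ} (h : ∀ φ : Qb →+* ℂ, ‖φ x‖ ^ 2 = r) {c : GQ} (hc : IsConj c) :
    x * c x = r := by
  obtain ⟨φ, hφ⟩ := hc
  refine φ.injective ?_
  rw [map_mul, hφ, Complex.mul_conj', map_ratCast, ← Complex.ofReal_pow, h, Complex.ofReal_ratCast]

theorem norm_of_root {x : Qb} {n : ℕ} (hn : n ≠ 0) (h : x ^ n = 1) {c : GQ} (hc : IsConj c) :
    x * c x = 1 := by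
  simpa using norm_of_abs (r := 1) (fun φ => by
    rw [(pow_eq_one_iff_of_nonneg (norm_nonneg (φ x)) hn).1 (by
      rw [← norm_pow, ← map_pow, h, map_one, norm_one])]; simp) hc

theorem cmn_root {x : Qb} {n : ℕ} (hn : n ≠ 0) (h : x ^ n = 1) : Cmn x :=
  cmn_of_norm fun _ => norm_of_root hn h

theorem cmn_sqrt {x : Qb} {r : ℚ} (h : x ^ 2 = r) : Cmn x :=
  cmn_of_norm fun _ => norm_of_abs (r := |r|) fun φ => by
    rw [← norm_pow, ← map_pow, h, map_ratCast, Complex.norm_ratCast, Rat.cast_abs]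

/-- the field of all CM numbers -/
def cmF : IntermediateField ℚ Qb where
  carrier := {x | Cmn x}
  mul_mem' ha hb c c' hc hc' := by rw [map_mul, map_mul, ha c c' hc hc', hb c c' hc hc']
  add_mem' ha hb c c' hc hc' := by rw [map_add, map_add, ha c c' hc hc', hb c c' hc hc']
  algebraMap_mem' r c c' _ _ := by rw [c.commutes, c'.commutes]
  inv_mem' x ha c c' hc hc' := by rw [map_inv₀, map_inv₀, ha c c' hc hc']

theorem fin_orbit {A : Set Qb} (h : A.Finite) : {y | ∃ a ∈ A, ∃ σ : GQ, y = σ a}.Finite := by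
  have := algQb
  refine (h.biUnion fun a _ => (minpoly ℚ a).rootSet_finite Qb).subset ?_
  rintro _ ⟨a, ha, σ, rfl⟩
  refine Set.mem_biUnion ha (mem_rootSet.2 ⟨minpoly.ne_zero (Algebra.IsIntegral.isIntegral a), ?_⟩)
  rw [aeval_algHom_apply, minpoly.aeval, map_zero]

/-- two embeddings differ by a Galois element -/
theorem exists_gal {L C : Type} [Field L] [CharZero L] [Field C] [CharZero C] [IsAlgClosed C]
    (f : L →+* Qb) (g : L →+* C) (ι : Qb →+* C) : ∃ σ : GQ, ∀ z, g z = ι (σ (f z)) := by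
  have := algQb
  have := galQb
  obtain ⟨ψ, hψ⟩ : ∃ ψ : Qb →+* C, ∀ z, ψ (f z) = g z := by
    let _ := f.toAlgebra
    let _ := g.toAlgebra
    have : IsScalarTower ℚ L Qb := IsScalarTower.of_algebraMap_eq' (RingHom.ext_rat _ _)
    have : Algebra.IsAlgebraic L Qb := Algebra.IsAlgebraic.tower_top (K := ℚ) L
    exact ⟨(IsAlgClosed.lift : Qb →ₐ[L] C), (IsAlgClosed.lift : Qb →ₐ[L] C).commutes⟩
  let _ : Algebra Qb C := ι.toAlgebra
  have : IsScalarTower ℚ Qb C := IsScalarTower.of_algebraMap_eq' (RingHom.ext_rat _ _)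
  exact ⟨ψ.toRatAlgHom.restrictNormal' Qb, fun z =>
    (hψ z).symm.trans (ψ.toRatAlgHom.restrictNormal_commutes Qb (f z)).symm⟩

variable {p : ℕ} [hp : Fact p.Prime]

/-- the totally real numbers are dense -/
theorem dense_re (ι : Qb →+* Cp p) (b : Cp p) {ε : ℝ} (hε : 0 < ε) :
    ∃ t, Re t ∧ ‖ι t - b‖ < ε := by
  have := algQb
  obtain ⟨a, ha⟩ := Metric.denseRange_iff.1 (dense_alg ι) b ε hε
  obtain ⟨n, hn, hi⟩ := ((IsFractionRing.isAlgebraic_iff ℤ ℚ Qb).2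
    (Algebra.IsAlgebraic.isAlgebraic a)).exists_integral_multiple
  have h0 : (n : Cp p) ≠ 0 := Int.cast_ne_zero.2 hn
  obtain ⟨t, h1, -, h2, -⟩ := weil (q := 2) le_rfl ⊤ isOpen_univ (ι := Unit) (fun _ => p)
    (fun _ => hp.out.ne_zero) (fun _ => (NormedField.toAbsoluteValue (Cp p)).comp ι.injective)
    (fun _ => Or.inr ⟨hp, ι, fun _ => rfl⟩) (fun _ => ⟨n • a, hi⟩)
    (mul_pos hε (norm_pos_iff.2 h0)) ∅ (by simp) (by simp) ∅ 0
  obtain ⟨s, -, h3, -⟩ := h2 ()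
  replace h3 : ‖ι (s t - n • a)‖ < ε * ‖(n : Cp p)‖ := h3
  refine ⟨s t / n, fun c ⟨φ, hφ⟩ => φ.injective ?_, ?_⟩
  · obtain ⟨x, hx, -⟩ := h1 (φ.comp (s : Qb →+* Qb))
    replace hx : (x : ℂ) = φ (s t) := hx
    rw [hφ, map_div₀, ← hx]; simp
  · rw [show ι (s t / n) - b = ι (s t - n • a) / n + (ι a - b) by
      rw [zsmul_eq_mul, map_sub, map_mul, map_div₀, map_intCast]; field_simp; ring]
    refine (IsUltrametricDist.norm_add_le_max _ _).trans_lt (max_lt ?_ ?_)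
    · rwa [norm_div, div_lt_iff₀ (norm_pos_iff.2 h0)]
    · rwa [← dist_eq_norm, dist_comm]

theorem gp_near (γ : Gp p) {x b : Cp p} {ε : ℝ} (h : γ x = x) (e : ‖x - b‖ < ε) :
    ‖γ b - b‖ < ε := by
  rw [show γ b - b = γ (b - x) + (x - b) by rw [map_sub, h]; ring]
  refine (IsUltrametricDist.norm_add_le_max _ _).trans_lt (max_lt ?_ e)
  rwa [gp_norm, norm_sub_rev]

/-- a totally real number which generates `b` locally -/
theorem kras (ι : Qb →+* Cp p) (b : Cp p) :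
    ∃ t, Re t ∧ ∀ γ : Gp p, γ (ι t) = ι t → γ b = b := by
  have hf := ((minpoly ℚ_[p] b).rootSet_finite (Cp p)).subset (Set.sdiff_subset (t := {b}))
  obtain ⟨ε, hε, h⟩ := Metric.isOpen_iff.1 hf.isClosed.isOpen_compl b (by simp)
  obtain ⟨t, h1, h2⟩ := dense_re ι b hε
  refine ⟨t, h1, fun γ e => by_contra fun hn => h (mem_ball_iff_norm.2 (gp_near γ e h2)) ⟨?_, hn⟩⟩
  refine mem_rootSet.2 ⟨minpoly.ne_zero (Algebra.IsIntegral.isIntegral b), ?_⟩
  rw [aeval_algHom_apply, minpoly.aeval, map_zero]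

theorem norm_cop {n : ℕ} (h : ¬ p ∣ n) : ‖(n : Cp p)‖ = 1 := by
  rw [← map_natCast (algebraMap ℚ_[p] (Cp p)), norm_algebraMap', Padic.norm_natCast_eq_one_iff]
  exact (hp.out.coprime_iff_not_dvd).2 h

/-- a root of unity of order prime to `p` -/
def Rp (p : ℕ) {R : Type} [Monoid R] (z : R) : Prop := ∃ n, ¬ p ∣ n ∧ z ^ n = 1

theorem Rp.eq {a b : Cp p} (ha : Rp p a) (hb : Rp p b) (h : ‖a - b‖ < 1) : a = b := by
  obtain ⟨n, h1, h2⟩ := ha
  obtain ⟨m, h3, h4⟩ := hb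
  exact root_eq (norm_cop (hp.out.not_dvd_mul h1 h3)) (by rw [pow_mul, h2, one_pow])
    (by rw [pow_mul', h4, one_pow]) h

theorem Rp.norm {a : Cp p} (ha : Rp p a) : ‖a‖ = 1 := by
  obtain ⟨n, h1, h2⟩ := ha
  exact (pow_eq_one_iff_of_nonneg (n := n) (norm_nonneg a) (by rintro rfl; simp at h1)).1
    (by rw [← norm_pow, h2, norm_one])

theorem fin_cls0 (V : Submodule ℚ_[p] (Cp p)) [FiniteDimensional ℚ_[p] V] :
    ∃ t : Set (Cp p), t.Finite ∧ ∀ x ∈ V, ‖x‖ ≤ 1 → ∃ y ∈ t, ‖x - y‖ < 1 := by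
  have := FiniteDimensional.proper ℚ_[p] V
  obtain ⟨t, -, h1, h2⟩ := finite_cover_balls_of_compact (isCompact_closedBall (0 : V) 1) one_pos
  refine ⟨_, h1.image (↑), fun x hx h => ?_⟩
  obtain ⟨y, h3, h4⟩ := Set.mem_iUnion₂.1 (h2 (a := ⟨x, hx⟩) (mem_closedBall_zero_iff.2 h))
  exact ⟨y, ⟨y, h3, rfl⟩, mem_ball_iff_norm.1 h4⟩

variable (E : IntermediateField ℚ_[p] (Cp p)) [hE : FiniteDimensional ℚ_[p] E]

theorem fin_cls : ∃ t : Set (Cp p), t.Finite ∧ ∀ x ∈ E, ‖x‖ ≤ 1 → ∃ y ∈ t, ‖x - y‖ < 1 :=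
  @fin_cls0 p _ (Subalgebra.toSubmodule E.toSubalgebra) hE

theorem closed : IsClosed (E : Set (Cp p)) :=
  @Submodule.closed_of_finiteDimensional ℚ_[p] (Cp p) _ _ _ _ _ _ _ _
    (Subalgebra.toSubmodule E.toSubalgebra) hE

theorem near_tr {x y z : Cp p} (h : ‖x - z‖ < 1) (h' : ‖y - z‖ < 1) : ‖x - y‖ < 1 := by
  rw [show x - y = x - z + -(y - z) by ring]
  exact (IsUltrametricDist.norm_add_le_max _ _).trans_lt (max_lt h (by rwa [norm_neg]))

theorem fin_rp : {z | z ∈ E ∧ Rp p z}.Finite := by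
  obtain ⟨t, h1, h2⟩ := fin_cls E
  refine (h1.biUnion (t := fun y => {z | Rp p z ∧ ‖z - y‖ < 1}) fun y _ =>
    Set.Subsingleton.finite fun a ha b hb => ha.1.eq hb.1 (near_tr ha.2 hb.2)).subset ?_
  rintro z ⟨h3, h4⟩
  obtain ⟨y, h5, h6⟩ := h2 z h3 h4.norm.le
  exact Set.mem_biUnion h5 ⟨h4, h6⟩

theorem red_pow {x : Cp p} (h : ‖x‖ ≤ 1) (n : ℕ) : red (x ^ n) = red x ^ n := by
  induction n with
  | zero => simp [red_one]
  | succ n ih => rw [pow_succ, red_mul (norm_pow x n ▸ pow_le_one₀ (norm_nonneg _) h) h, ih, pow_succ]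

/-- the multiplicative representative -/
theorem teich {c : Cp p} (hc : c ∈ E) (h : ‖c‖ = 1) : ∃ z ∈ E, Rp p z ∧ ‖c - z‖ < 1 := by
  have n1 : ∀ k, ‖c ^ k‖ = 1 := fun k => by rw [norm_pow, h, one_pow]
  obtain ⟨t, h1, h2⟩ := fin_cls E
  choose y y1 y2 using fun k : ℕ => h2 _ (pow_mem hc k) (n1 k).le
  obtain ⟨a, b, hab, e⟩ := h1.exists_lt_map_eq_of_forall_mem y1
  obtain ⟨m, rfl⟩ := Nat.exists_eq_add_of_lt hab
  have h3 := near_tr (y2 (a + m + 1)) (e ▸ y2 a)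
  rw [show c ^ (a + m + 1) - c ^ a = c ^ a * (c ^ (m + 1) - 1) by ring, norm_mul, n1, one_mul,
    ← red_eq_iff (n1 _).le norm_one.le, red_pow h.le, red_one] at h3
  obtain ⟨j, n, hn, e'⟩ := Nat.exists_eq_pow_mul_and_not_dvd m.succ_ne_zero p hp.out.ne_one
  have : ExpChar (Kp p) p := ExpChar.prime hp.out
  rw [show m + 1 = _ from e', ExpChar.pow_prime_pow_mul_eq_one_iff, ← red_pow h.le, ← red_one,
    red_eq_iff (n1 _).le norm_one.le] at h3
  have n0 : n ≠ 0 := by rintro rfl; simp at hn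
  have hm := monic_X_pow_sub_C (1 : Cp p) n0
  obtain ⟨z, z1, z2⟩ : ∃ z ∈ (X ^ n - C (1 : Cp p)).roots, ‖c - z‖ < 1 := by
    by_contra! hh
    have h4 := congrArg (eval c) ((IsAlgClosed.splits _).eq_prod_roots_of_monic hm)
    rw [eval_multiset_prod, eval_sub, eval_pow, eval_X, eval_C] at h4
    refine h3.not_ge (h4 ▸ Multiset.prod_induction (fun x => 1 ≤ ‖x‖) _
      (fun a b ha hb => norm_mul a b ▸ one_le_mul_of_one_le_of_one_le ha hb) norm_one.ge ?_)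
    intro a ha
    obtain ⟨_, hb, rfl⟩ := Multiset.mem_map.1 ha
    obtain ⟨z, hz, rfl⟩ := Multiset.mem_map.1 hb
    simpa using hh z hz
  have z3 : z ^ n = 1 := by simpa [sub_eq_zero] using (mem_roots hm.ne_zero).1 z1
  refine ⟨z, ?_, ⟨n, hn, z3⟩, z2⟩
  rw [← InfiniteGalois.fixedField_fixingSubgroup E]
  exact fun γ => Rp.eq ⟨n, hn, by
    rw [show γ • z = γ.1 z from rfl, ← map_pow, z3, map_one]⟩ ⟨n, hn, z3⟩
    (gp_near γ.1 (γ.2 ⟨c, hc⟩) z2)

end Vale.Agent.P022K.PM.Fld
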