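import Vale.Agent.P022K.PM.Weil
import Vale.Agent.P022K.PM.Fld0
import Mathlib.RingTheory.Ideal.Quotient.HasFiniteQuotients

/-!
# P022K / PM: Weil numbers with a prescribed local behaviour (helper95)
-/

namespace Vale.Agent.P022K.PM

open NumberField IsDedekindDomain Filter Vale.Agent.P022 IntermediateField
open Vale.Agent.P022K.CH (Cp)

noncomputable section

namespace Wx

theorem ex_nf (a : Qb) : ∃ (K : Type) (_ : Field K) (_ : NumberField K) (f : K →+* Qb) (y : K),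
    f y = a :=
  have := adjoin.finiteDimensional (H443.algQb.isAlgebraic a).isIntegral
  ⟨ℚ⟮a⟯, _, {}, algebraMap _ _, AdjoinSimple.gen ℚ a, rfl⟩

theorem idem0 {R : Type} [Monoid R] [Finite R] (x : R) :
    ∃ m : ℕ, x ^ (m + 1) * x ^ (m + 1) = x ^ (m + 1) := by
  obtain ⟨i, j, h, e⟩ := Set.Finite.exists_lt_map_eq_of_forall_mem (f := fun n : ℕ => x ^ n)
    (fun _ => Set.mem_univ _) Set.finite_univ
  obtain ⟨d, rfl⟩ := Nat.exists_eq_add_of_lt h
  have h1 : ∀ k, x ^ (i + k * (d + 1)) = x ^ i := fun k => by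
    induction k with
    | zero => simp
    | succ k ih => rw [add_mul, one_mul, ← add_assoc, pow_add, ih, ← pow_add, ← add_assoc, ← e]
  refine ⟨i + (i + 1) * d, ?_⟩
  rw [← pow_add, show i + (i + 1) * d + 1 + (i + (i + 1) * d + 1) =
    i + (i + 1) * (d + 1) + ((i + 1) * d + 1) by ring, pow_add, h1, ← pow_add, add_assoc]

theorem idem (x : 𝓞 Qb) {N : ℕ} (hN : N ≠ 0) :
    ∃ (m : ℕ) (z : 𝓞 Qb), x ^ (m + 1) * (x ^ (m + 1) - 1) = N * z := by
  obtain ⟨K, _, _, f, y, e⟩ := ex_nf x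
  let := f.toAlgebra
  obtain ⟨y, rfl⟩ : ∃ y, RingOfIntegers.mapRingHom f y = x := ⟨⟨y, (isIntegral_algebraMap_iff
    (algebraMap K Qb).injective).1 (e ▸ x.2)⟩, RingOfIntegers.ext e⟩
  have : Finite (𝓞 K ⧸ Ideal.span {(N : 𝓞 K)}) := Ring.HasFiniteQuotients.finiteQuotient (by
    rw [Ne, Ideal.span_singleton_eq_bot]; exact Nat.cast_ne_zero.2 hN)
  obtain ⟨m, h⟩ := idem0 (Ideal.Quotient.mk (Ideal.span {(N : 𝓞 K)}) y)
  rw [← map_pow, ← map_mul, Ideal.Quotient.eq, Ideal.mem_span_singleton] at h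
  obtain ⟨z, h⟩ := h
  exact ⟨m, _, by simpa [mul_sub] using congrArg (RingOfIntegers.mapRingHom f) h⟩

variable {p : ℕ} [hp : Fact p.Prime] (ι : Qb →+* Cp p) {ε : ℝ}

theorem nint (x : 𝓞 Qb) : ‖ι x‖ ≤ 1 := MB.norm_int' ι.toRatAlgHom x

theorem np : ‖(p : Cp p)‖ < 1 := by
  rw [← map_natCast (algebraMap ℚ_[p] _), norm_algebraMap']; exact Padic.norm_p_lt_one

theorem idem_near (hε : 0 < ε) {x : 𝓞 Qb} (hx : ‖ι x‖ = 1) : ∃ (m : ℕ) (z : 𝓞 Qb),
    x ^ (m + 1) * (x ^ (m + 1) - 1) = p * z ∧ ‖ι x ^ (m + 1) - 1‖ < ε := by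
  obtain ⟨k, hk⟩ := exists_pow_lt_of_lt_one hε (np (p := p))
  obtain ⟨m, z, h⟩ := idem x (pow_ne_zero (k + 1) hp.out.ne_zero)
  refine ⟨m, p ^ k * z, by rw [h]; push_cast; ring, ?_⟩
  have := congrArg (fun y : 𝓞 Qb => ‖ι y‖) h
  simp only [map_mul, map_sub, map_pow, map_one, map_natCast, norm_mul, norm_pow, hx, one_pow,
    one_mul, Nat.cast_pow] at this
  refine this.trans_lt (lt_of_le_of_lt ?_ hk)
  rw [pow_succ, mul_assoc]
  exact mul_le_of_le_one_right (by positivity) (mul_le_one₀ np.le (norm_nonneg _) (nint ι z))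

theorem int_near {A : Cp p} (hA : ‖A‖ ≤ 1) (hε : 0 < ε) : ∃ b : 𝓞 Qb, ‖ι b - A‖ < ε := by
  obtain ⟨a, ha⟩ := Metric.denseRange_iff.1 (dense_alg ι) A _ (lt_min hε one_pos)
  rw [dist_comm, dist_eq_norm, lt_min_iff] at ha
  have h1 : ‖ι a‖ ≤ 1 := by
    simpa using (IsUltrametricDist.norm_add_le_max (ι a - A) A).trans (max_le ha.2.le hA)
  obtain ⟨K, _, _, f, y, rfl⟩ := ex_nf a
  let g := RingOfIntegers.mapRingHom f
  obtain ⟨P, hP⟩ := MB.exists_emb' ι.toRatAlgHom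
  have := hP.ov.2.1
  obtain ⟨n, ⟨d, hd⟩, h⟩ := HeightOneSpectrum.exists_primeCompl_mul_eq_or_mul_eq
    (⟨P.comap g, inferInstance, fun e => hp.out.ne_zero (by
      have : (p : 𝓞 K) ∈ P.comap g := by simpa using hP.ov.2.2
      exact_mod_cast (Ideal.mem_bot.1 (e ▸ this)))⟩ : HeightOneSpectrum (𝓞 K)) y
  have h2 : ‖ι (g d)‖ = 1 := (nint ι _).antisymm (not_lt.1 fun e => hd ((hP _).2 e))
  obtain ⟨n, d, h2, h⟩ : ∃ n d : 𝓞 Qb, ‖ι d‖ = 1 ∧ ι (f y) * ι d = ι n := by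
    rcases h with h | h <;> replace h := congrArg (ι.comp f) h <;> rw [map_mul] at h
    · exact ⟨g n, g d, h2, h⟩
    refine ⟨g d, g n, (nint ι _).antisymm ?_, h⟩
    rw [← h2, show ι (g d) = ι (f y) * ι (g n) from h.symm, norm_mul]
    exact mul_le_of_le_one_left (norm_nonneg _) h1
  obtain ⟨m, -, -, h3⟩ := idem_near ι hε h2
  refine ⟨n * d ^ m, ?_⟩
  rw [show ι (n * d ^ m : 𝓞 Qb) - A = ι (f y) * (ι d ^ (m + 1) - 1) + (ι (f y) - A) by
    push_cast; rw [map_mul, map_pow, ← h]; ring]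
  refine (IsUltrametricDist.norm_add_le_max _ _).trans_lt (max_lt ?_ ha.1)
  rw [norm_mul]
  exact (mul_le_of_le_one_left (norm_nonneg _) h1).trans_lt h3

theorem cop_near {A : Cp p} (hA : ‖A‖ = 1) (hε : 0 < ε) :
    ∃ b : 𝓞 Qb, IsCoprime b p ∧ ‖ι b - A‖ < ε := by
  obtain ⟨b, hb⟩ := int_near ι hA.le (lt_min hε one_pos)
  rw [lt_min_iff] at hb
  have h1 : ‖ι b‖ = 1 := by
    rw [← hA, ← sub_add_cancel (ι b) A, IsUltrametricDist.norm_add_eq_max_of_norm_ne_norm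
      (hA ▸ hb.2.ne), max_eq_right (hA ▸ hb.2.le)]
  obtain ⟨m, z, h2, h3⟩ := idem_near ι hε h1
  refine ⟨b * b ^ (m + 1) + (1 - b ^ (m + 1)), ⟨b ^ m * b ^ (m + 1) + (1 - b ^ (m + 1)),
    -((b ^ (m + 1) + 2 - b - b ^ m) * z), by
      linear_combination (b ^ (m + 1) + 2 - b - b ^ m) * h2⟩, ?_⟩
  rw [show ι (b * b ^ (m + 1) + (1 - b ^ (m + 1)) : 𝓞 Qb) - A =
    ι (b - 1 : 𝓞 Qb) * (ι b ^ (m + 1) - 1) + (ι b - A) by push_cast; simp; ring]
  refine (IsUltrametricDist.norm_add_le_max _ _).trans_lt (max_lt ?_ hb.1)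
  rw [norm_mul]
  exact (mul_le_of_le_one_left (norm_nonneg _) (nint ι _)).trans_lt h3

theorem nat_le (n : ℕ) : ‖(n : Cp p)‖ ≤ 1 := IsUltrametricDist.norm_natCast_le_one _ n

theorem unit_of_cop {a : 𝓞 Qb} (h : IsCoprime a p) : ‖ι a‖ = 1 := by
  obtain ⟨x, y, h⟩ := h
  refine (nint ι a).antisymm (not_lt.1 fun e => ?_)
  have h1 := congrArg (fun y : 𝓞 Qb => ‖ι y‖) h
  simp only [map_add, map_mul, map_natCast, map_one, norm_one] at h1
  refine ((IsUltrametricDist.norm_add_le_max _ _).trans_lt (max_lt ?_ ?_)).ne h1 <;> rw [norm_mul]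
  exacts [mul_lt_one_of_nonneg_of_lt_one_right (nint ι x) (norm_nonneg _) e,
    mul_lt_one_of_nonneg_of_lt_one_right (nint ι y) (norm_nonneg _) np]

open Polynomial in
theorem ex_root (b c : 𝓞 Qb) : ∃ y, y * (b - y) = c := by
  have h : (C (-b) * X + C c).degree < 2 := degree_linear_le.trans_lt (by decide)
  obtain ⟨y, hy⟩ := (Weil.splits (monic_X_pow_add (n := 2) h)).exists_eval_eq_zero (by
    rw [degree_add_eq_left_of_degree_lt (by rwa [degree_X_pow]), degree_X_pow]; decide)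
  exact ⟨y, by simp at hy; linear_combination -hy⟩

end Wx

open Wx in
/-- ordinary Weil numbers near a given unit -/
theorem weilx {l p : ℕ} (hl : l.Prime) [hp : Fact p.Prime] (ι : Qb →+* Cp p) {u : Cp p}
    (hu : ‖u‖ = 1) {ε : ℝ} (hε : 0 < ε) : ∃ α a : 𝓞 Qb, Cmn α ∧ IsCoprime a l ∧
      (∀ c, IsConj c → α * c (α : Qb) = l ∧ α + c (α : Qb) = a) ∧ ‖ι α - u‖ < ε := by
  have u0 : u ≠ 0 := norm_ne_zero_iff.1 (hu ▸ one_ne_zero)
  have h0 : ‖l / u‖ = ‖(l : Cp p)‖ := by rw [norm_div, hu, div_one]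
  obtain ⟨a0, c0, h1⟩ : ∃ b : 𝓞 Qb, (p = l → IsCoprime b p) ∧ ‖ι b - (u + l / u)‖ < ε ^ 2 := by
    by_cases e : p = l
    · subst e
      obtain ⟨b, h⟩ := cop_near ι (A := u + p / u) (by
        rw [IsUltrametricDist.norm_add_eq_max_of_norm_ne_norm (by rw [hu, h0]; exact np.ne'), hu, h0,
          max_eq_left np.le]) (pow_pos hε 2)
      exact ⟨b, fun _ => h.1, h.2⟩
    · obtain ⟨b, h⟩ := int_near ι (A := u + l / u) ((IsUltrametricDist.norm_add_le_max _ _).trans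
        (max_le hu.le (h0 ▸ nat_le l))) (pow_pos hε 2)
      exact ⟨b, fun h => absurd h e, h⟩
  obtain ⟨a, h2, h3, h4, -⟩ := weil hl.two_le ⊤ isOpen_univ (fun _ : Unit => p)
    (fun _ => hp.out.ne_zero) (fun _ => (NormedField.toAbsoluteValue _).comp ι.injective)
    (fun _ => .inr ⟨hp, ι, fun _ => rfl⟩) (fun _ => a0) (pow_pos hε 2) {l} (by simpa using hl)
    (fun _ h => c0 (by simpa using h)) ∅ 0
  obtain ⟨s, -, h5, -⟩ := h4 ()
  have h6 : ‖ι (s • a : 𝓞 Qb) - (u + l / u)‖ < ε ^ 2 := by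
    rw [← sub_add_sub_cancel _ (ι a0), ← map_sub]
    exact (IsUltrametricDist.norm_add_le_max _ _).trans_lt (max_lt h5 h1)
  have h7 : IsCoprime (s • a) l := by
    simpa using (h3 l (by simp)).map (MulSemiringAction.toRingHom GQ (𝓞 Qb) s)
  have h8 := fun φ : Qb →+* ℂ => h2 (φ.comp (s : Qb →+* Qb))
  change ∀ φ : Qb →+* ℂ, ∃ x : ℝ, (x : ℂ) = φ (s • a : 𝓞 Qb) ∧ _ at h8
  generalize s • a = b at h6 h7 h8
  have key : ∀ α : 𝓞 Qb, α * (b - α) = l → Cmn α ∧ IsCoprime b l ∧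
      ∀ c, IsConj c → α * c (α : Qb) = l ∧ α + c (α : Qb) = b := fun α h => by
    have h' : (α : Qb) * (b - α) = l := by exact_mod_cast congrArg ((↑) : 𝓞 Qb → Qb) h
    have e : ∀ c, IsConj c → α * c (α : Qb) = l := fun c hc => by
      simpa using Fld.norm_of_abs (r := l) (fun φ => by
        obtain ⟨x, e, hx⟩ := h8 φ
        have e1 := congrArg φ h'
        rw [map_mul, map_sub, ← e, map_natCast] at e1
        have e2 := congrArg Complex.re e1
        have e3 := congrArg Complex.im e1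
        have e4 := sq_lt_sq' (abs_lt.1 hx).1 (abs_lt.1 hx).2
        rw [mul_pow, Real.sq_sqrt (Nat.cast_nonneg _)] at e4
        simp at e2 e3
        rw [Complex.sq_norm, Complex.normSq_apply, Rat.cast_natCast]
        rcases mul_eq_zero.1 (show (φ α).im * (x - 2 * (φ α).re) = 0 by linear_combination e3)
          with e5 | e5
        · rw [e5] at e2
          nlinarith [sq_nonneg (x - 2 * (φ α).re)]
        · linear_combination e2 - (φ α).re * e5) hc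
    refine ⟨Fld.cmn_of_norm e, h7, fun c hc => ⟨e c hc, ?_⟩⟩
    rw [mul_left_cancel₀ (fun k => hl.ne_zero (by rw [k, zero_mul] at h'; exact_mod_cast h'.symm))
      ((e c hc).trans h'.symm), add_sub_cancel]
  obtain ⟨y, h9⟩ := ex_root b l
  have h10 : ‖ι y - u‖ * ‖ι (b - y : 𝓞 Qb) - u‖ < ε * ε := by
    have e := congrArg (fun z : 𝓞 Qb => ι z) h9
    simp only [map_mul, map_sub, map_natCast, RingOfIntegers.coe_eq_algebraMap] at e h6 ⊢
    rw [← norm_mul, ← sq, ← one_mul (ε ^ 2), ← norm_neg]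
    refine lt_of_eq_of_lt ?_ (mul_lt_mul_of_pos_left h6 one_pos)
    rw [← hu, ← norm_mul]
    congr 1
    field_simp
    linear_combination -e
  by_cases k : ‖ι y - u‖ < ε
  · obtain ⟨k1, k2, k3⟩ := key y h9
    exact ⟨y, b, k1, k2, k3, k⟩
  · obtain ⟨k1, k2, k3⟩ := key (b - y) (by linear_combination h9)
    exact ⟨b - y, b, k1, k2, k3, not_le.1 fun k' => h10.not_ge
      (mul_le_mul (not_lt.1 k) k' hε.le (norm_nonneg _))⟩

end

end Vale.Agent.P022K.PM
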