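import Vale.Agent.P022K.PM.St2
import Vale.Agent.P022K.PM.Weilx

/-!
# P022K / PM: the row WEIL (helper95)
-/

namespace Vale.Agent.P022K.PM

open NumberField

theorem weil_row : WEIL := fun _ _ ι _ _ _ hl hu hε => by
  obtain ⟨α, a, h1, ⟨x, y, h2⟩, h3, h4⟩ := weilx hl ι hu hε
  refine ⟨α, ⟨α.2, h1, fun c hc => (h3 c hc).1, fun c hc P hP ⟨z, hz, e⟩ => hP.2.1.ne_top ?_⟩, h4⟩
  obtain rfl : z = a := RingOfIntegers.ext (e.trans (h3 c hc).2)
  exact (Ideal.eq_top_iff_one _).2 (h2 ▸ add_mem (P.mul_mem_left x hz) (P.mul_mem_left y hP.2.2))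

end Vale.Agent.P022K.PM
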