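import Vale.Agent.P022K.PM.Lpl0
import Vale.Agent.P022K.PM.Weilr

/-!
# P022K / PM: the local points away from `p` and `q` (row `LPL`, helper4)
-/

set_option autoImplicit false

open NumberField Matrix

noncomputable section

namespace Vale.Agent.P022K.PM

open Vale.Agent.P022 Vale.Agent.P010MR Vale.Agent.P010MT8
open Vale.Agent.P022.H443 (inP)
open Vale.Agent.P022D.W (dec)
open Vale.Agent.P022E.GW (Ov Fb)
open Vale.Agent.P022K.CH (Cp Kp Op Id red eps)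
open Vale.Agent.P022K.CH.Weil (fb_zero fb_add fb_pow fb_div fb_conj)
open Vale.Agent.P022K.Top (GI iC Rp Rd Urc)
open Vale.Agent.P022K.TP hiding Cn Ty
open QD Gr Ti

namespace Lpl

variable {D : QD} {η : GQ →* ℤˣ} {j : Qb →+* ℂ} {x : MP D η} {θ : D.L0} {N l : ℕ} {P : Id}
  {p : ℕ} [Fact p.Prime] {μ : Em D (Cp p)} {V : GQ → GI p} {y : GL (Fin 2) (Cp p)}
  {ζ ζ' u u' : GQ → Cp p} {c : GQ → D.L0}

theorem w_mul (hV : Rp (dec P) V) (y : GL (Fin 2) (Cp p)) {a b : GQ} (ha : a ∈ dec P)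
    (hb : b ∈ dec P) :
    (y * iC (V (a * b)) * y⁻¹).val = (y * iC (V a) * y⁻¹).val * (y * iC (V b) * y⁻¹).val := by
  rw [← Units.val_mul, hV.mul a ha b hb, map_mul]
  simp only [mul_assoc, inv_mul_cancel_left]

theorem u_ne (h : Urc P u) {g : GQ} (hg : g ∈ dec P) : u g ≠ 0 :=
  norm_ne_zero_iff.1 (h.nrm g hg ▸ one_ne_zero)

section

variable (hV : Rp (dec P) V) (h : Ct0 P V y η ζ ζ' u u') (hc : ∀ g ∈ dec P, μ.zH (c g) = ζ g)
include h hc

theorem c_ru {g : GQ} (hg : g ∈ dec P) : Ru (c g) := h.fin.imp fun n e =>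
  ⟨e.1, μ.zH.injective (by rw [map_pow, hc g hg, (e.2 g hg).1, map_one])⟩

theorem c_cj {g : GQ} (hg : g ∈ dec P) (e : η g = 1) : μ.zH (D.cj (c g)) = ζ' g := by
  have h1 := congrArg μ.zH (c_ru h hc hg).cj
  have h2 := h.det g hg
  rw [map_mul, hc g hg, map_one] at h1
  rw [e, Units.val_one, Int.cast_one] at h2
  linear_combination ζ' g * h1 - μ.zH (D.cj (c g)) * h2

theorem c_opn : ∃ U : Subgroup GQ, IsOpen (U : Set GQ) ∧ ∀ g ∈ U ⊓ dec P, c g = 1 :=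
  h.opn.imp fun _ e => ⟨e.1, fun g hg => μ.zH.injective (by
    rw [hc g hg.2, (e.2 g hg).2.1, map_one])⟩

include hV

theorem c_mul {a b : GQ} (ha : a ∈ dec P) (hb : b ∈ dec P) (e : η a = 1) (e' : η b = 1) :
    c (a * b) = c a * c b := by
  have h1 := congrFun (congrFun (w_mul hV y ha hb) 0) 0
  rw [h.dg _ (mul_mem ha hb) (by simp [e, e']), h.dg a ha e, h.dg b hb e'] at h1
  refine μ.zH.injective (mul_right_cancel₀ (u_ne h.ur (mul_mem ha hb)) ?_)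
  rw [map_mul, hc _ (mul_mem ha hb), hc a ha, hc b hb]
  exact (by simpa using h1 : _ = ζ a * u a * (ζ b * u b)).trans (by rw [h.ur.mul a ha b hb]; ring)

/-- the induced case -/
theorem ind (ok : D.Ok N) (hp : p ∣ N) (io : μ.ι ∈ c0 μ) (hT : TEI μ) (hη : IsOpen {g | η g = 1})
    (ck : x.Ck θ) (gl : ∀ σ, ∃ e : EE D η, sg e = σ ∧ Nt e ∧ x.Fx j e) (hP : Ov l P) (hl : l ≠ p)
    (h0 : ∃ g ∈ dec P, η g = -1) {b : D.L0} (hb : b ^ 2 = l) :
    ∃ (s : dec P →* EE D η) (t : Cp p), Lp j x s ∧ t ∈ c0 μ ∧ ‖t - 1‖ < 1 ∧ ∀ d, Nt (s d) ∧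
      re μ (s d) * diagonal ![t, 1] = diagonal ![t, 1] * (y * iC (V d) * y⁻¹).val ∧
      (d.1 ∈ inP P → η d = 1 → Rat l (s d) (D.l0 (c d))) := by
  obtain ⟨φ, hφ⟩ := P022D.W.exists_phi hP.1 hP.2.1 hP.2.2
  have h1 : φ ∈ dec P := fbd hP (k := 1) ((pow_one l).symm ▸ hφ)
  have h2 := h.uu φ h1
  rw [← h.eq h0 φ h1, CH.eps_frob hP hl hφ] at h2
  obtain ⟨a, a1, a2⟩ : ∃ a : D.L0, a ^ 2 = l ∧ μ.zH a = u φ := by
    rcases sq_eq_sq_iff_eq_or_eq_neg.1 (show μ.zH b ^ 2 = u φ ^ 2 by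
      rw [← map_pow, hb, map_natCast, sq, h2]) with e | e
    exacts [⟨b, hb, e⟩, ⟨-b, by rw [neg_sq, hb], by rw [map_neg, e, neg_neg]⟩]
  have a3 : D.cj a = a := mul_left_cancel₀ (fun e : a = 0 => hP.1.ne_zero (by
    simpa [e] using a1.symm)) ((Sc.sq_int (.inl a1)).2.trans (by rw [← a1, sq]))
  have a4 : ∀ {k d}, Fb (l ^ k) P d → μ.zH a ^ k = u d := fun e => by
    rw [a2, urc_pow h.ur hP hφ e]
  obtain ⟨g, hg, h3⟩ := id h0
  obtain ⟨r, m, r1, r2⟩ := Sc.ex_rho hη hP hg h3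
  have r3 := fbd hP r1
  have r4 : μ.zH (c r) * u r ≠ 0 :=
    mul_ne_zero ((map_ne_zero _).2 (left_ne_zero_of_mul_eq_one (c_ru h hc r3).cj)) (u_ne h.ur r3)
  obtain ⟨s, s1, s2, s3⟩ := inds gl ok ck hη hP r1 r2 (.inl a1) c (fun d hd _ => c_ru h hc hd)
    (fun _ a _ b => c_mul hV h hc a b) ((c_opn h hc).imp fun U e => ⟨e.1, fun d hd _ => e.2 d hd⟩)
    (fun k d e1 e2 => μ.zH.injective (by
      have d1 := fbd hP e2
      have d2 := fbd hP (fb_conj r3 e2)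
      have d3 := w_mul hV y d2 r3
      rw [inv_mul_cancel_right, w_mul hV y r3 d1, h.an r r3 r2, h.dg d d1 e1,
        h.dg _ d2 (by simp [e1]), ← hc _ d2, ← a4 (fb_conj r3 e2), ← hc r r3,
        ← h.eq h0 d d1, ← a4 e2] at d3
      rw [map_mul D.cj, map_pow D.cj, a3, map_mul, map_mul, c_cj h hc d1 e1, map_pow]
      refine mul_left_cancel₀ r4 ?_
      simpa [mul_comm] using (congrFun (congrFun d3 0) 1).symm)) (μ.zH.injective (by
      have d3 := congrFun (congrFun (w_mul hV y r3 r3) 0) 0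
      have d4 := h.det r r3
      have d5 := h.uu r r3
      rw [h.an r r3 r2, h.dg _ (mul_mem r3 r3) (by simp [r2])] at d3
      rw [CH.eps_of_pow hP hl r1] at d5
      rw [map_mul, hc _ (mul_mem r3 r3), map_pow, a4 (fb_add hP r1 r1)]
      simp [r2] at d3 d4 d5 ⊢
      linear_combination d3 + u r * u' r * d4 - d5))
  have w1 : Continuous fun d : dec P => (y * iC (V d) * y⁻¹).val :=
    Units.continuous_val.comp ((hV.cont.domRestrict.const_mul y).mul_const y⁻¹)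
  have w2 := weil_cl hP (C := {d | η d ≠ 1} ∪ {d | (y * iC (V d) * y⁻¹).val = re μ (s d)})
    ((hη.preimage continuous_subtype_val).isClosed_compl.union
      (isClosed_eq w1 (re_cont μ s1.sec))) fun k d e => or_iff_not_imp_left.2 fun e' => by
    have e1 : η d = 1 := not_not.1 e'
    change _ = _
    rw [(s3 k d e1 e).re hl.symm μ, h.dg d d.2 e1, ← h.eq h0 d d.2, ← a4 e, ← hc d d.2,
      ← c_cj h hc d.2 e1, map_mul D.cj, map_pow D.cj, a3]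
    ext i k
    fin_cases i <;> fin_cases k <;> simp [← Em.zH_apply]
  obtain ⟨s', t, b1, b2, b3, b4⟩ := mex ok hp io hT hη ck s1 s2
    (W := fun d => (y * iC (V d) * y⁻¹).val) (fun a b => w_mul hV y a.2 b.2)
    (fun d e => (w2 d).resolve_left (not_not.2 e)) (r := ⟨r, r3⟩) r2
    (by simp [h.an r r3 r2, Mo]) (by simp [← hV.det r r3, mul_comm, y.det_ne_zero]) (by
      simp only [h.an r r3 r2, ← hc r r3, ← a4 r1, ← map_pow, ← map_mul]
      exact (val D η N p ok hp μ io).2.1 ▸ subset_closure ⟨_, rfl⟩) (by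
      simp [h.an r r3 r2, h.ur.nrm r r3, norm_ru (h.fin.imp fun n e => ⟨e.1, (e.2 r r3).1⟩)])
  refine ⟨s', t, b1, b2, b3, fun d => ⟨(b4 d).1, (b4 d).2.1, fun e e' r hr => ?_⟩⟩
  rw [mt_eq, (b4 d).2.2 e', ← mul_one (c d), ← pow_zero a]
  exact s3 0 d e' (fb_zero.2 e) r hr

end

theorem ex_root (ι : Qb →+* Cp p) {n : ℕ} (hn : 0 < n) {w : Cp p} (h : w ^ n = 1) :
    ∃ t ∈ Polynomial.nthRootsFinset n (1 : Qb), ι t = w := by
  obtain ⟨t, rfl⟩ := (IsAlgClosed.splits (Polynomial.X ^ n - Polynomial.C (1 : Qb))).mem_range_of_isRoot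
    (Polynomial.monic_X_pow_sub_C _ hn.ne').ne_zero (i := ι) (x := w) (by simp [h])
  exact ⟨t, (Polynomial.mem_nthRootsFinset hn _).2 (ι.injective (by simpa using h)), rfl⟩

theorem z0_map {C C' : Type} [Field C] [Field C'] (ν : Em D C) (f : C →+* C') (z : D.L0) :
    (ν.map f).z0 z = f (ν.z0 z) := by simp [Em.z0, Em.la, Em.map]

end Lpl

open Lpl in
/-- **LPL** -/
theorem lpl (hC : CMET) : LPL := fun p _ ι ρ _ l P V y et ζ ζ' u u' n hP hl hV hR h => by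
  classical
  obtain ⟨φ, hφ⟩ := P022D.W.exists_phi hP.1 hP.2.1 hP.2.2
  obtain ⟨m, m0, hm⟩ := h.fin
  have p0 : 0 < ‖(p : Cp p)‖ := norm_pos_iff.2 (Nat.cast_ne_zero.2 (Fact.out : p.Prime).ne_zero)
  obtain ⟨δ, δ0, hδ⟩ := ex_del (y⁻¹).val y.val (pow_pos p0 (n + 1))
  obtain ⟨α, a1, a2⟩ := weil_row p ι l (u φ) δ hP.1
    (h.ur.nrm _ (fbd hP (k := 1) ((pow_one l).symm ▸ hφ))) δ0
  obtain ⟨w, hw⟩ := IsAlgClosed.exists_pow_nat_eq y.val.det two_pos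
  obtain ⟨β, hβ⟩ := IsAlgClosed.exists_pow_nat_eq (l : Qb) two_pos
  refine ⟨insert w (Finset.univ.image fun i : Fin 2 × Fin 2 => y i.1 i.2),
    insert α (insert β (Polynomial.nthRootsFinset m 1)), fun b hb => ?_,
    fun q _ ι' C ok has hq he => ?_⟩
  · simp only [Finset.mem_insert, Polynomial.mem_nthRootsFinset m0] at hb
    rcases hb with rfl | rfl | hb
    exacts [a1.cm, Fld.cmn_sqrt (r := l) (by simpa using hβ), Fld.cmn_root m0.ne' hb]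
  have h' : Ct0 P V y C.η ζ ζ' u u' := ⟨fun a _ b _ => map_mul _ a b,
    fun g a b => h.dg g a (he g a ▸ b), fun g a b => h.an g a (he g a ▸ b),
    h.opn.imp fun U e => ⟨e.1, fun g a => he g a.2 ▸ e.2 g a⟩, h.fin, fun g a => he g a ▸ h.det g a,
    h.ur, h.ur', h.uu, fun ⟨g, a, b⟩ => h.eq ⟨g, a, he g a ▸ b⟩⟩
  have ex : ∀ g, ∃ z, g ∈ dec P → (C.ν.map ι).zH z = ζ g := fun g => by
    by_cases hg : g ∈ dec P
    · obtain ⟨t, t1, t2⟩ := ex_root ι m0 (hm g hg).1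
      obtain ⟨z, rfl⟩ := has.2 t (by simp [t1])
      exact ⟨z, fun _ => (z0_map _ _ _).trans t2⟩
    · exact ⟨1, fun e => absurd e hg⟩
  choose c hc using ex
  have L := ok.lv
  obtain ⟨x, s, t, s1, t1, t2, s2⟩ : ∃ (x : MP C.D C.η) (s : dec P →* EE C.D C.η) (t : Cp p),
      Lp C.j x s ∧ t ∈ c0 (C.ν.map ι) ∧ ‖t - 1‖ < 1 ∧ ∀ d, Nt (s d) ∧
      (∃ e, Le e δ ∧ re (C.ν.map ι) (s d) * diagonal ![t, 1] =
        diagonal ![t, 1] * ((y * iC (V d) * y⁻¹).val - e)) ∧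
      (d.1 ∈ inP P → C.η d = 1 → Rat l (s d) (C.D.l0 (c d))) := by
    by_cases h0 : ∃ g ∈ dec P, C.η g = -1
    · obtain ⟨θ, x, ck, gl⟩ := ok.gl
      obtain ⟨b, rfl⟩ := has.2 β (by simp)
      obtain ⟨s, t, s1, t1, t2, s2⟩ := ind hV h' hc L.ok L.hp L.io ok.tei L.eta ck gl hP hl h0
        (b := b) (C.ν.zH.injective (by rw [map_pow, map_natCast]; exact hβ))
      exact ⟨x, s, t, s1, t1, t2, fun d => ⟨(s2 d).1, ⟨0, fun _ _ => by simpa using δ0.le, by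
        rw [sub_zero, (s2 d).2.1]⟩, (s2 d).2.2⟩⟩
    · have h1 : ∀ g ∈ dec P, C.η g = 1 := fun g hg =>
        (Int.units_eq_one_or _).resolve_right fun e => h0 ⟨g, hg, e⟩
      obtain ⟨a, rfl⟩ := has.2 α (by simp)
      obtain ⟨b1, b2, b3⟩ := wn_l0 ok.cj a1
      obtain ⟨x, s, s1, s2⟩ := split (μ := C.ν.map ι) hC L.ok L.hp L.eta C.j hP hl h1 h.ur h.uu
        b1 b2 b3 hφ (z0_map C.ν ι a ▸ a2.le) (c := fun d => c d) (fun d => c_ru h' hc d.2)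
        (fun a b => c_mul hV h' hc a.2 b.2 (h1 _ a.2) (h1 _ b.2))
        ((c_opn h' hc).imp fun U e => ⟨e.1, fun d hd => e.2 d ⟨hd, d.2⟩⟩)
      refine ⟨x, s, 1, s1, (L.ok.kf L.hp _).1 (one_mem _), by simp, fun d => ⟨(s2 d).1,
        ⟨_, (s2 d).2.1, ?_⟩, fun e _ => (s2 d).2.2 e⟩⟩
      rw [h'.dg d d.2 (h1 d d.2), ← hc d d.2, ← c_cj h' hc d.2 (h1 d d.2)]
      ext i k
      fin_cases i <;> fin_cases k <;> simp [Em.dg, Em.zH_apply]
  have kf := fun x => L.ok.kf L.hp (C.ν.map ι) (x := x)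
  have t0 : t ≠ 0 := fun e => by simp [e] at t2
  have w0 : w ^ 2 ≠ 0 := hw ▸ y.det_ne_zero
  obtain ⟨x', s', b1, b2, ⟨z, b3, b4⟩, b5⟩ := last L s1 (fun d => (s2 d).1) hR
    (g := diagonal ![t, 1] * y.val) (fun i k => by
      rw [← kf, diagonal_mul]
      refine mul_mem ?_ ((kf _).2 (has.1 _ (Finset.mem_insert_of_mem
        (Finset.mem_image.2 ⟨(i, k), Finset.mem_univ _, rfl⟩))))
      fin_cases i
      exacts [(kf _).2 t1, one_mem _]) (has.1 w (by simp)) (by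
      simpa [← hw, w0] using t2) (pow_lt_one₀ p0.le CH.norm_p_lt n.succ_ne_zero) fun d => by
    obtain ⟨e, e1, e2⟩ := (s2 d).2.1
    convert hδ e e1 using 1
    rw [Matrix.mul_inv_rev, mul_assoc, mul_assoc, ← mul_assoc (re _ _), e2,
      ← mul_assoc (diagonal _)⁻¹, ← mul_assoc (diagonal _)⁻¹, nonsing_inv_mul _ (by simp [t0]),
      one_mul, ← coe_units_inv, sub_mul, mul_sub, ← Units.val_mul, ← Units.val_mul]
    simp [mul_assoc]
  refine ⟨x', s', ⟨b1, b2⟩, ⟨z, b3, fun d i k => (b4 d i k).trans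
    (pow_le_pow_of_le_one p0.le CH.norm_p_lt.le n.le_succ)⟩, fun d e1 e2 e3 => ?_⟩
  have e4 := (s2 d).2.2 e1 (he d d.2 ▸ e2)
  rw [show c d = 1 from (C.ν.map ι).zH.injective (by rw [hc d d.2, e3, map_one])] at e4
  rw [re, b5 d (pp q) L.ne.symm, ← re, e4.re hq.symm]
  simp [← Em.zH_apply, one_add_one_eq_two]

end Vale.Agent.P022K.PM
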