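import Vale.Agent.P022K.PM.Dat2
import Mathlib.NumberTheory.Padics.Complex
import Mathlib.NumberTheory.NumberField.InfinitePlace.Embeddings

/-!
# P022K / PM / Dat3: integrality (helper95)
-/

namespace Vale.Agent.P022K.PM.Dat

open NumberField Matrix Module Quaternion Polynomial

noncomputable section

section Ultra

variable {C : Type} [NormedField C] [IsUltrametricDist C]

variable (C) in
/-- the closed unit ball -/
def ball : Subring C where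
  carrier := {x | ‖x‖ ≤ 1}
  mul_mem' h h' := by rw [Set.mem_ofPred_eq, norm_mul]; exact mul_le_one₀ h (norm_nonneg _) h'
  one_mem' := norm_one.le
  add_mem' h h' := (IsUltrametricDist.norm_add_le_max _ _).trans (max_le h h')
  zero_mem' := by simp
  neg_mem' h := by simpa using h

theorem norm_int {K : Type} [Field K] (f : K →+* C) {y : K} (h : IsIntegral ℤ y) : ‖f y‖ ≤ 1 := by
  obtain ⟨g, hg, h0⟩ := h.map f.toIntAlgHom
  by_contra hc
  push Not at hc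
  change eval₂ _ (f y) g = 0 at h0
  rw [hg.as_sum, eval₂_add, eval₂_X_pow, eval₂_finsetSum, add_eq_zero_iff_eq_neg] at h0
  have h1 : ‖f y ^ g.natDegree‖ < ‖f y‖ ^ g.natDegree := by
    rw [h0, norm_neg]
    rcases (Finset.range g.natDegree).eq_empty_or_nonempty with h | h
    · rw [h]; simp; positivity
    obtain ⟨i, hi, h2⟩ := IsUltrametricDist.exists_norm_finsetSum_le_of_nonempty h
      fun i => eval₂ (algebraMap ℤ C) (f y) (Polynomial.C (g.coeff i) * X ^ i)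
    refine h2.trans_lt ?_
    rw [eval₂_mul, eval₂_C, eval₂_X_pow, norm_mul, norm_pow]
    exact (mul_le_of_le_one_left (by positivity) (IsUltrametricDist.norm_intCast_le_one C _)).trans_lt
      (pow_lt_pow_right₀ hc (Finset.mem_range.1 hi))
  exact h1.ne (norm_pow _ _)

theorem mv_le {n : Type} [Fintype n] {A : Matrix n n C} {v : n → C} (hA : ∀ i j, ‖A i j‖ ≤ 1)
    (hv : ∀ i, ‖v i‖ ≤ 1) (i : n) : ‖(A *ᵥ v) i‖ ≤ 1 :=
  (ball C).sum_mem fun j _ => (ball C).mul_mem (hA i j) (hv j)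

theorem mv_lt {A : Matrix (Fin 4) (Fin 4) C} {v : Fin 4 → C} (hA : ∀ i j, ‖A i j‖ < 1)
    (hv : ∀ i, ‖v i‖ ≤ 1) (i : Fin 4) : ‖(A *ᵥ v) i‖ < 1 := by
  obtain ⟨j, -, h⟩ := IsUltrametricDist.exists_norm_finsetSum_le_of_nonempty Finset.univ_nonempty
    fun j => A i j * v j
  exact h.trans_lt (by
    rw [norm_mul]; exact mul_lt_one_of_nonneg_of_lt_one_left (norm_nonneg _) (hA i j) (hv j))

theorem norm_one_add {a : C} (h : ‖a‖ < 1) : ‖1 + a‖ = 1 := by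
  rw [IsUltrametricDist.norm_add_eq_max_of_norm_ne_norm (by rw [norm_one]; exact h.ne'), norm_one,
    max_eq_left h.le]

omit [IsUltrametricDist C] in
theorem sq_near [CharZero C] {σ t : C} (h : σ ^ 2 = 1 + 4 * t) (ht : ‖t‖ < 1) :
    ∃ (ε : ℤˣ) (a : C), ‖a‖ < 1 ∧ σ = (ε : ℤ) + 2 * a := by
  have e : (σ - 1) / 2 * (1 + (σ - 1) / 2) = t := by linear_combination h / 4
  by_cases h1 : ‖(σ - 1) / 2‖ < 1
  · exact ⟨1, _, h1, by simp; ring⟩
  refine ⟨-1, 1 + (σ - 1) / 2, not_le.1 fun h2 => ht.not_ge ?_, by simp; ring⟩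
  rw [← e, norm_mul]
  exact one_le_mul_of_one_le_of_one_le (not_lt.1 h1) h2

/-- half of `A + σ` -/
theorem half [CharZero C] {A : Matrix (Fin 4) (Fin 4) C} {d : Fin 4 → ℤˣ} {σ t : C}
    (hA : ∀ i j, ∃ y, ‖y‖ < 1 ∧ A i j = diagonal (fun k => ((d k : ℤ) : C)) i j + 4 * y)
    (h : σ ^ 2 = 1 + 4 * t) (ht : ‖t‖ < 1) : ‖σ‖ = 1 ∧ ∃ (ε : ℤˣ) (B : Matrix (Fin 4) (Fin 4) C),
      (∀ i j, ‖B i j‖ < 1) ∧ (2 : C)⁻¹ • (A + σ • 1) =
        diagonal (fun k => if d k = ε then ((ε : ℤ) : C) else 0) + B := by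
  have h4 : ∀ y : C, ∀ k : ℕ, ‖y‖ < 1 → ‖k * y‖ < 1 := fun y k hy => by
    rw [norm_mul]
    exact mul_lt_one_of_nonneg_of_lt_one_right (IsUltrametricDist.norm_natCast_le_one C k)
      (norm_nonneg _) hy
  refine ⟨(pow_eq_one_iff_of_nonneg (norm_nonneg _) two_ne_zero).1 (by
    rw [← norm_pow, h]; exact norm_one_add (h4 t 4 ht)), ?_⟩
  obtain ⟨ε, a, ha, rfl⟩ := sq_near h ht
  choose y hy hA using hA
  refine ⟨ε, of fun i j => (2 : ℕ) * y i j + if i = j then a else 0, fun i j =>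
    (IsUltrametricDist.norm_add_le_max _ _).trans_lt (max_lt (h4 _ 2 (hy i j)) ?_), ?_⟩
  · split_ifs
    exacts [ha, by simp]
  ext i j
  by_cases e : i = j
  · subst e
    rcases Int.units_eq_one_or ε with rfl | rfl <;> rcases Int.units_eq_one_or (d i) with h | h <;>
      simp [hA, h] <;> ring
  · simp [hA, e]; ring

end Ultra

theorem den_cop {p : ℕ} [hp : Fact p.Prime] {q : ℚ} (h : ‖(q : ℚ_[p])‖ ≤ 1) : q.den.Coprime p := by
  refine ((Nat.Prime.coprime_iff_not_dvd hp.out).2 fun hd => ?_).symm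
  have h2 : ((q.den : ℤ) : ℚ_[p]) * (q : ℚ_[p]) = (q.num : ℤ) := by
    exact_mod_cast Rat.den_mul_eq_num q
  have h3 : ‖((q.num : ℤ) : ℚ_[p])‖ < 1 := by
    rw [← h2, norm_mul]
    exact mul_lt_one_of_nonneg_of_lt_one_left (norm_nonneg _)
      (Padic.norm_intCast_lt_one_iff.2 (Int.natCast_dvd_natCast.2 hd)) h
  exact hp.out.one_lt.ne' (Nat.eq_one_of_dvd_coprimes q.reduced
    (Int.natCast_dvd.1 (Padic.norm_intCast_lt_one_iff.1 h3)) hd)

theorem exists_den {p : ℕ} [Fact p.Prime] {ι : Type} [Finite ι] {v : ι → ℚ}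
    (h : ∀ i, ‖(v i : ℚ_[p])‖ ≤ 1) : ∃ m : ℕ, m.Coprime p ∧ IsZ ((m : ℚ) • v) := by
  have := Fintype.ofFinite ι
  refine ⟨∏ i, (v i).den, Nat.Coprime.prod_left fun i _ => den_cop (h i), fun i => ?_⟩
  obtain ⟨c, hc⟩ := Finset.dvd_prod_of_mem (fun i => (v i).den) (Finset.mem_univ i)
  refine ⟨c * (v i).num, ?_⟩
  rw [hc, Pi.smul_apply, smul_eq_mul, Int.cast_mul, ← Rat.den_mul_eq_num]
  push_cast; ring

theorem norm_cop {p m : ℕ} [hp : Fact p.Prime] (h : m.Coprime p) : ‖(m : PadicAlgCl p)‖ = 1 := by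
  rw [← map_natCast (algebraMap ℚ_[p] _), norm_algebraMap', Padic.norm_natCast_eq_one_iff.2 h.symm]

theorem exists_int {p : ℕ} [Fact p.Prime] {K : Type} [Field K] [NumberField K] {y : K}
    (h : ∀ f : K →+* PadicAlgCl p, ‖f y‖ ≤ 1) : ∃ m : ℕ, m.Coprime p ∧ IsIntegral ℤ (m * y) := by
  classical
  have hi : IsIntegral ℚ y := Algebra.IsIntegral.isIntegral y
  have h1 : (minpoly ℚ y).map (algebraMap ℚ (PadicAlgCl p)) ∈ lifts (ball (PadicAlgCl p)).subtype := by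
    rw [(IsAlgClosed.splits _).eq_prod_roots_of_monic ((minpoly.monic hi).map _)]
    refine Subsemiring.multiset_prod_mem _ _ fun q hq => ?_
    obtain ⟨a, ha, rfl⟩ := Multiset.mem_map.1 hq
    obtain ⟨f, rfl⟩ := (Embeddings.range_eval_eq_rootSet_minpoly K _ y).symm.subset
      (Multiset.mem_toFinset.2 ha)
    exact ⟨X - C ⟨f y, h f⟩, by simp⟩
  obtain ⟨m, hm, h2⟩ := exists_den (p := p) (v := fun i : Fin ((minpoly ℚ y).natDegree + 1) =>
    (minpoly ℚ y).coeff i) fun i => by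
      obtain ⟨a, ha⟩ := (lifts_iff_coeff_lifts _).1 h1 i
      rw [← norm_algebraMap' (PadicAlgCl p), map_ratCast, ← eq_ratCast (algebraMap ℚ _), ← coeff_map,
        ← ha]
      exact a.2
  obtain ⟨G, hG⟩ : C (m : ℚ) * minpoly ℚ y ∈ lifts (algebraMap ℤ ℚ) :=
    (lifts_iff_coeff_lifts _).2 fun i => by
      rw [coeff_C_mul]
      by_cases hi : i < (minpoly ℚ y).natDegree + 1
      · obtain ⟨z, hz⟩ := h2 ⟨i, hi⟩
        exact ⟨z, hz.symm⟩
      · exact ⟨0, by rw [coeff_eq_zero_of_natDegree_lt (by omega)]; simp⟩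
  rw [coe_mapRingHom] at hG
  have h3 := isIntegral_leadingCoeff_smul G y (by
    rw [← aeval_map_algebraMap ℚ, hG, map_mul, minpoly.aeval, mul_zero])
  have h4 : G.leadingCoeff = m := (algebraMap ℤ ℚ).injective_int (by
    rw [← leadingCoeff_map_of_injective (algebraMap ℤ ℚ).injective_int, hG,
      (minpoly.monic hi).leadingCoeff_C_mul]; simp)
  exact ⟨m, hm, by simpa [h4] using h3⟩

variable {M0 M : Type} [Field M0] [NumberField M0] [Field M] [NumberField M] [Algebra M0 M]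

theorem Lat.loc {c : M0} {n g : ℕ} {F F' : (Fin 4 → M0) ≃ₗ[ℚ] (Fin g → ℚ)} (L : Lat c n g F F')
    {p : ℕ} [Fact p.Prime] (hn : n.Coprime p) (v : Fin 4 → M0) :
    (∃ m : ℕ, m.Coprime p ∧ IsZ (F ((m : ℚ) • v))) ↔
      ∀ (f : M0 →+* PadicAlgCl p) k, ‖f (v k)‖ ≤ 1 := by
  refine ⟨fun ⟨m, hm, h⟩ f k => ?_, fun h => ?_⟩
  · have := norm_int f (L.ge _ h k)
    rwa [Pi.smul_apply, Nat.cast_smul_eq_nsmul, nsmul_eq_mul, map_mul, map_mul, map_natCast,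
      map_natCast, norm_mul, norm_mul, norm_cop hn, norm_cop hm, one_mul, one_mul] at this
  · choose m hm h1 using fun k => exists_int fun f => h f k
    refine ⟨∏ k, m k, Nat.Coprime.prod_left fun k _ => hm k, L.le _ fun k => ?_⟩
    obtain ⟨a, ha⟩ := Finset.dvd_prod_of_mem m (Finset.mem_univ k)
    refine int_eq ((int_n a).mul (h1 k)) ?_
    rw [ha, Pi.smul_apply, Nat.cast_smul_eq_nsmul, nsmul_eq_mul]
    push_cast; ring

namespace Pre

variable (P : Pre M0 M)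

theorem r3_int : IsIntegral ℤ P.r3 :=
  IsIntegral.of_pow two_pos (by rw [P.h3]; exact int_n 3)

theorem isZ_add {ι : Type} {v w : ι → ℚ} (h : IsZ v) (h' : IsZ w) : IsZ (v + w) := fun i => by
  obtain ⟨a, ha⟩ := h i
  obtain ⟨b, hb⟩ := h' i
  exact ⟨a + b, by simp [ha, hb]⟩

theorem lz {x y : M0} (ha : IsIntegral ℤ (x - P.r3 * y)) (hb : IsIntegral ℤ (2 * y))
    {v : ℍ[M,-1,P.b]} (h : IsZ (P.e v)) :
    IsZ (P.e (⟨algebraMap M0 M x, algebraMap M0 M y, 0, 0⟩ * v)) := by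
  rw [isZ_e] at h ⊢
  have h3 : algebraMap M0 M P.r3 ^ 2 = 3 := by rw [← map_pow, P.h3, map_ofNat]
  have e0 : P.X0 (⟨algebraMap M0 M x, algebraMap M0 M y, 0, 0⟩ * v) =
      (x - P.r3 * y) • P.X0 v + (-(2 * y)) • P.X1 v := by
    rw [X0, X0, X1, ← map_smul, ← map_smul, ← map_add]
    congr 1
    ext <;> simp [Algebra.smul_def, map_ofNat]
    · linear_combination (-algebraMap M0 M y * v.imI) * h3
    · linear_combination (-algebraMap M0 M y * v.imK) * h3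
  have e1 : P.X1 (⟨algebraMap M0 M x, algebraMap M0 M y, 0, 0⟩ * v) =
      (2 * y) • P.X0 v + (x - P.r3 * y + 2 * y * P.r3) • P.X1 v := by
    rw [X0, X1, X1, ← map_smul, ← map_smul, ← map_add]
    congr 1
    ext <;> simp [Algebra.smul_def, map_ofNat] <;> ring
  rw [e0, e1, map_add, map_add]
  exact ⟨isZ_add (P.L.smul _ ha _ h.1) (P.L.smul _ hb.neg _ h.2),
    isZ_add (P.L.smul _ hb _ h.1) (P.L.smul _ (ha.add (hb.mul P.r3_int)) _ h.2)⟩

theorem lw {v : ℍ[M,-1,P.b]} (h : IsZ (P.e v)) : IsZ (P.e ⟨v.re, -v.imI, v.imJ, -v.imK⟩) := by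
  rw [isZ_e] at h ⊢
  have e0 : P.X0 ⟨v.re, -v.imI, v.imJ, -v.imK⟩ = P.X0 v + P.r3 • P.X1 v := by
    rw [X0, X0, X1, ← map_smul, ← map_add]
    congr 1
    ext <;> simp [Algebra.smul_def] <;> ring
  have e1 : P.X1 ⟨v.re, -v.imI, v.imJ, -v.imK⟩ = (-1 : M0) • P.X1 v := by
    rw [X1, X1, ← map_smul]
    congr 1
    ext <;> simp
  rw [e0, e1, map_add]
  exact ⟨isZ_add h.1 (P.L.smul _ P.r3_int _ h.2), P.L.smul _ isIntegral_one.neg _ h.2⟩

theorem eig {C : Type} [Field C] (φ : M →+* C) {t : C} (ht : t ^ 2 = φ P.b) (x y : M) :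
    (P.J1.map (φ.comp (algebraMap M0 M)) + φ P.ω • 1) *ᵥ
      (P.J2.map (φ.comp (algebraMap M0 M)) + t • 1) *ᵥ (φ.comp (algebraMap M0 M) ∘ P.θ (x, y)) =
    (φ x + t * φ y) • (P.J1.map (φ.comp (algebraMap M0 M)) + φ P.ω • 1) *ᵥ
      (P.J2.map (φ.comp (algebraMap M0 M)) + t • 1) *ᵥ 1 := by
  obtain ⟨a, a', rfl⟩ := P.gen x
  obtain ⟨d, d', rfl⟩ := P.gen y
  set f := φ.comp (algebraMap M0 M) with hf
  have hf' : ∀ z, φ (algebraMap M0 M z) = f z := fun _ => rfl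
  have h1 : P.J1.map f * P.J1.map f = φ P.ω ^ 2 • 1 := by
    rw [← Matrix.map_mul, P.T.s1, ← map_pow, P.hω]; ext i j; simp [one_apply, apply_ite f, hf']
  have h2 : P.J2.map f * P.J2.map f = t ^ 2 • 1 := by
    rw [← Matrix.map_mul, P.T.s2, ht]; ext i j; simp [one_apply, apply_ite f, hf', b]
  have h3 : P.J2.map f * P.J1.map f = P.J1.map f * P.J2.map f := by
    rw [← Matrix.map_mul, ← Matrix.map_mul, P.T.c12]
  have h4 : f ∘ P.θ (algebraMap M0 M a + algebraMap M0 M a' * P.ω,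
      algebraMap M0 M d + algebraMap M0 M d' * P.ω) =
      (f a • 1 + f a' • P.J1.map f + (f d • 1 + f d' • P.J1.map f) * P.J2.map f) *ᵥ 1 := by
    rw [θ_ap, Mx, ρ_eq, ρ_eq]
    funext i
    simp [mulVec, dotProduct, mul_apply, one_apply, apply_ite f]
  rw [h4, mulVec_mulVec, mulVec_mulVec, mulVec_mulVec, ← smul_mulVec]
  congr 1
  simp only [map_add, map_mul, hf']
  generalize P.J1.map f = A, P.J2.map f = B at *
  have h5 : ∀ X, A * (A * X) = φ P.ω ^ 2 • X := fun X => by rw [← mul_assoc, h1]; simp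
  have h6 : ∀ X, B * (A * X) = A * (B * X) := fun X => by rw [← mul_assoc, h3, mul_assoc]
  simp only [mul_add, add_mul, smul_mul_assoc, mul_smul_comm, one_mul, mul_one, mul_assoc, h1, h2,
    h3, h5, h6]
  module

/-- congruences modulo `4 N` -/
structure Nr (N : ℕ) : Prop where
  j1 : ∀ i j, ∃ y, IsIntegral ℤ y ∧ P.J1 i j = diagonal ![1, 1, -1, -1] i j + 4 * (N * y)
  j2 : ∀ i j, ∃ y, IsIntegral ℤ y ∧ P.J2 i j = diagonal ![1, -1, -1, 1] i j + 4 * (N * y)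
  s : ∃ y, IsIntegral ℤ y ∧ P.s = 1 + 4 * (N * y)
  β : ∃ y, IsIntegral ℤ y ∧ P.β = 1 + 4 * (N * y)
  κ : ∃ y, IsIntegral ℤ y ∧ P.κ = 1 + 4 * (N * y)
  n : P.n.Coprime N
  lift : ∀ (C : Type) [Field C] (f : M0 →+* C) (σ : C), σ ^ 2 = f P.s →
    ∃ φ : M →+* C, φ.comp (algebraMap M0 M) = f ∧ φ P.ω = σ

variable {P} {N p : ℕ} [hp : Fact p.Prime] (H : P.Nr N) (hN : p ∣ N)
include H hN

omit [NumberField M0] H in
theorem sm (f : M0 →+* PadicAlgCl p) {y : M0} (hy : IsIntegral ℤ y) : ‖f (N * y)‖ < 1 := by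
  rw [map_mul, norm_mul, map_natCast]
  refine mul_lt_one_of_nonneg_of_lt_one_left (norm_nonneg _) ?_ (norm_int f hy)
  rw [← map_natCast (algebraMap ℚ_[p] _), norm_algebraMap']
  exact_mod_cast Padic.norm_intCast_lt_one_iff.2 (Int.natCast_dvd_natCast.2 hN)

theorem ent (f : M0 →+* PadicAlgCl p) {σ t : PadicAlgCl p} (hσ : σ ^ 2 = f P.s)
    (ht : t ^ 2 = f P.β) : ‖σ‖ = 1 ∧ ‖t‖ = 1 ∧ (∀ v : Fin 4 → PadicAlgCl p, (∀ k, ‖v k‖ ≤ 1) → ∀ k,
      ‖((4 : PadicAlgCl p)⁻¹ • (P.J1.map f + σ • 1) *ᵥ (P.J2.map f + t • 1) *ᵥ v) k‖ ≤ 1) ∧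
      ∃ k, ‖((4 : PadicAlgCl p)⁻¹ • (P.J1.map f + σ • 1) *ᵥ (P.J2.map f + t • 1) *ᵥ 1) k‖ = 1 := by
  obtain ⟨y, hy, e⟩ := H.s
  obtain ⟨y', hy', e'⟩ := H.β
  obtain ⟨h1, ε, A, hA, eA⟩ := half (A := P.J1.map f) (d := ![1, 1, -1, -1]) (σ := σ) (fun i j => by
    obtain ⟨y, hy, e⟩ := H.j1 i j
    refine ⟨_, sm hN f hy, ?_⟩
    rw [map_apply, e, map_add, map_mul, map_ofNat]
    fin_cases i <;> fin_cases j <;> simp)
    (by rw [hσ, e, map_add, map_one, map_mul, map_ofNat]) (sm hN f hy)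
  obtain ⟨h2, ε', B, hB, eB⟩ := half (A := P.J2.map f) (d := ![1, -1, -1, 1]) (σ := t) (fun i j => by
    obtain ⟨y, hy, e⟩ := H.j2 i j
    refine ⟨_, sm hN f hy, ?_⟩
    rw [map_apply, e, map_add, map_mul, map_ofNat]
    fin_cases i <;> fin_cases j <;> simp)
    (by rw [ht, e', map_add, map_one, map_mul, map_ofNat]) (sm hN f hy')
  have e4 : ∀ v, (4 : PadicAlgCl p)⁻¹ • (P.J1.map f + σ • 1) *ᵥ (P.J2.map f + t • 1) *ᵥ v =
      ((2 : PadicAlgCl p)⁻¹ • (P.J1.map f + σ • 1)) *ᵥ ((2 : PadicAlgCl p)⁻¹ • (P.J2.map f + t • 1)) *ᵥ v :=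
    fun v => by rw [smul_mulVec, smul_mulVec, mulVec_smul, smul_smul]; norm_num
  have hd : ∀ (d : Fin 4 → ℤˣ) (ε : ℤˣ) (A : Matrix (Fin 4) (Fin 4) (PadicAlgCl p)),
      (∀ i j, ‖A i j‖ < 1) → ∀ i j,
      ‖(diagonal (fun k => if d k = ε then ((ε : ℤ) : PadicAlgCl p) else 0) + A) i j‖ ≤ 1 :=
    fun d ε A hA i j => (ball _).add_mem (by
      rw [diagonal_apply]; split_ifs
      exacts [intCast_mem _ _, zero_mem _, zero_mem _]) (hA i j).le
  simp only [e4, eA, eB]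
  refine ⟨h1, h2, fun v hv => mv_le (hd _ _ _ hA) (mv_le (hd _ _ _ hB) hv), ?_⟩
  obtain ⟨k, k1, k2⟩ : ∃ k, (![1, 1, -1, -1] : Fin 4 → ℤˣ) k = ε ∧
      (![1, -1, -1, 1] : Fin 4 → ℤˣ) k = ε' := by
    rcases Int.units_eq_one_or ε with rfl | rfl <;> rcases Int.units_eq_one_or ε' with rfl | rfl <;>
      decide
  have h3 := mv_lt hA (mv_le (hd ![1, -1, -1, 1] ε' _ hB) (v := 1) (by simp)) k
  have h4 := mv_lt hB (v := 1) (by simp) k
  refine ⟨k, ?_⟩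
  rw [add_mulVec, Pi.add_apply, mulVec_diagonal, if_pos k1]
  generalize (A *ᵥ _) k = a at h3
  rw [add_mulVec, Pi.add_apply, mulVec_diagonal, if_pos k2]
  generalize (B *ᵥ _) k = b at h4
  have h5 := IsUltrametricDist.norm_add_le_max a b
  have h6 := IsUltrametricDist.norm_add_le_max a (-b)
  rw [norm_neg] at h6
  have h7 := norm_one_add (h5.trans_lt (max_lt h3 h4))
  have h8 := norm_one_add (h6.trans_lt (max_lt h3 h4))
  have h9 := norm_one_add ((norm_neg _).trans_lt (h5.trans_lt (max_lt h3 h4)))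
  have h10 := norm_one_add ((norm_neg _).trans_lt (h6.trans_lt (max_lt h3 h4)))
  rcases Int.units_eq_one_or ε with rfl | rfl <;> rcases Int.units_eq_one_or ε' with rfl | rfl
  · rw [← h7]; congr 1; simp; ring
  · rw [← h9, ← norm_neg]; congr 1; simp; ring
  · rw [← h10, ← norm_neg]; congr 1; simp; ring
  · rw [← h8]; congr 1; simp; ring

theorem θ_int (x y : M) : (∀ (f : M0 →+* PadicAlgCl p) k, ‖f (P.θ (x, y) k)‖ ≤ 1) ↔
    ∀ (φ : M →+* PadicAlgCl p) t, t ^ 2 = φ P.b → ‖φ x + t * φ y‖ ≤ 1 := by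
  refine ⟨fun h φ t ht => ?_, fun h f k => ?_⟩
  · obtain ⟨-, -, h1, k, h2⟩ := ent H hN (φ.comp (algebraMap M0 M)) (σ := φ P.ω)
      (by rw [← map_pow, P.hω]; rfl) ht
    have h3 := h1 _ (h (φ.comp (algebraMap M0 M))) k
    have h4 := P.eig φ ht x y
    rw [Function.comp_def] at h4
    rwa [h4, smul_comm, Pi.smul_apply, smul_eq_mul, norm_mul, h2, mul_one] at h3
  obtain ⟨σ, hσ⟩ := IsAlgClosed.exists_pow_nat_eq (f P.s) two_pos
  obtain ⟨t, ht⟩ := IsAlgClosed.exists_pow_nat_eq (f P.β) two_pos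
  have key : ∀ σ t : PadicAlgCl p, σ ^ 2 = f P.s → t ^ 2 = f P.β → ‖((4 : PadicAlgCl p)⁻¹ •
      (P.J1.map f + σ • 1) *ᵥ (P.J2.map f + t • 1) *ᵥ (f ∘ P.θ (x, y))) k‖ ≤ 1 := fun σ t hσ ht => by
    obtain ⟨φ, rfl, rfl⟩ := H.lift _ f σ hσ
    rw [P.eig φ ht, smul_comm, Pi.smul_apply, smul_eq_mul, norm_mul]
    exact mul_le_one₀ (h φ t ht) (norm_nonneg _) ((ent H hN _ hσ ht).2.2.1 1 (by simp) k)
  obtain ⟨h1, h2, -⟩ := ent H hN f hσ ht
  have h3 := (ball _).add_mem ((ball _).sub_mem ((ball _).sub_mem (key σ t hσ ht)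
    (key σ (-t) hσ (by rwa [neg_sq]))) (key (-σ) t (by rwa [neg_sq]) ht))
    (key (-σ) (-t) (by rwa [neg_sq]) (by rwa [neg_sq]))
  have h4 : ‖σ * t * f (P.θ (x, y) k)‖ ≤ 1 := by
    refine le_of_eq_of_le (congrArg _ ?_) h3
    simp only [add_mulVec, mulVec_add, smul_mulVec, mulVec_smul, one_mulVec, Pi.smul_apply,
      Pi.add_apply, smul_eq_mul, Function.comp_apply]
    ring
  rwa [norm_mul, norm_mul, h1, h2, one_mul, one_mul] at h4

theorem lat (x : ℍ[M,-1,P.b]) : (∀ i, ‖(P.e x i : ℚ_[p])‖ ≤ 1) ↔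
    ∀ (φ : M →+* PadicAlgCl p) ι t, ι ^ 2 = -1 → t ^ 2 = φ P.b →
      ‖φ x.re + ι * φ x.imI + t * (φ x.imJ + ι * φ x.imK)‖ ≤ 1 := by
  have hn : P.n.Coprime p := H.n.coprime_dvd_right hN
  have h0 : (∀ i, ‖(P.e x i : ℚ_[p])‖ ≤ 1) ↔ (∀ (f : M0 →+* PadicAlgCl p) k, ‖f (P.X0 x k)‖ ≤ 1) ∧
      ∀ (f : M0 →+* PadicAlgCl p) k, ‖f (P.X1 x k)‖ ≤ 1 := by
    rw [← P.L.loc hn, ← P.L.loc hn]
    simp only [map_smul]
    refine ⟨fun h => ?_, fun ⟨⟨m, hm, h⟩, m', hm', h'⟩ i => ?_⟩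
    · obtain ⟨m, hm, h1⟩ := exists_den h
      refine ⟨⟨m, hm, fun i => h1 (.inl i)⟩, m, hm, ?_⟩
      rw [← map_smul, P.L.dual, map_smul]
      exact fun i => h1 (.inr i)
    rw [← map_smul, P.L.dual, map_smul] at h'
    have h2 : ∀ (m : ℕ) (q : ℚ), m.Coprime p → (∃ z : ℤ, m * q = z) → ‖(q : ℚ_[p])‖ ≤ 1 :=
      fun m q hm ⟨z, hz⟩ => by
        have h3 := Padic.norm_int_le_one (p := p) z
        rwa [← Rat.cast_intCast, ← hz, Rat.cast_mul, norm_mul, Rat.cast_natCast,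
          Padic.norm_natCast_eq_one_iff.2 hm.symm, one_mul] at h3
    rcases i with i | i
    exacts [h2 m _ hm (h i), h2 m' _ hm' (h' i)]
  have hz : ∀ (φ : M →+* PadicAlgCl p) ι, ι ^ 2 = -1 →
      ‖(φ (algebraMap M0 M P.r3) + ι) / 2‖ = 1 := fun φ ι hι => by
    have h3 : φ (algebraMap M0 M P.r3) ^ 2 = 3 := by
      rw [← map_pow, ← map_pow, P.h3, map_ofNat, map_ofNat]
    have h4 : ((φ (algebraMap M0 M P.r3) + ι) / 2) ^ 3 = ι := by
      linear_combination (φ (algebraMap M0 M P.r3) / 8 + 3 * ι / 8) * h3 +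
        (3 * φ (algebraMap M0 M P.r3) / 8 + ι / 8) * hι
    refine (pow_eq_one_iff_of_nonneg (norm_nonneg _) (n := 3 * 2) (by norm_num)).1 ?_
    rw [← norm_pow, pow_mul, h4, hι, norm_neg, norm_one]
  have he : ∀ (φ : M →+* PadicAlgCl p) ι t,
      φ x.re + ι * φ x.imI + t * (φ x.imJ + ι * φ x.imK) =
      φ (x.re - algebraMap M0 M P.r3 * x.imI) + t * φ (x.imJ - algebraMap M0 M P.r3 * x.imK) +
        (φ (algebraMap M0 M P.r3) + ι) / 2 * (φ (2 * x.imI) + t * φ (2 * x.imK)) := fun φ ι t => by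
    simp only [map_sub, map_mul, map_ofNat]; ring
  rw [h0, X0, X1, θ_int H hN, θ_int H hN]
  refine ⟨fun ⟨h1, h2⟩ φ ι t hι ht => he φ ι t ▸ (ball _).add_mem (h1 φ t ht)
    ((ball _).mul_mem (hz φ ι hι).le (h2 φ t ht)), fun h => ?_⟩
  obtain ⟨ι, hι⟩ := IsAlgClosed.exists_pow_nat_eq (-1 : PadicAlgCl p) two_pos
  have h1 : ∀ (φ : M →+* PadicAlgCl p) t, t ^ 2 = φ P.b →
      ‖φ (2 * x.imI) + t * φ (2 * x.imK)‖ ≤ 1 := fun φ t ht => by
    have h2 : ‖ι‖ = 1 := (pow_eq_one_iff_of_nonneg (norm_nonneg _) two_ne_zero).1 (by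
      rw [← norm_pow, hι, norm_neg, norm_one])
    refine le_of_eq_of_le (b := ‖ι * (φ (2 * x.imI) + t * φ (2 * x.imK))‖)
      (by rw [norm_mul, h2, one_mul]) ?_
    refine le_of_eq_of_le (congrArg _ ?_) ((ball _).sub_mem (h φ ι t hι ht)
      (h φ (-ι) t (by rwa [neg_sq]) ht))
    simp only [map_mul, map_ofNat]; ring
  refine ⟨fun φ t ht => le_of_eq_of_le (congrArg _ ?_) ((ball _).sub_mem (h φ ι t hι ht)
    ((ball _).mul_mem (hz φ ι hι).le (h1 φ t ht))), h1⟩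
  rw [he, add_sub_cancel_right]

end Pre

end

end Vale.Agent.P022K.PM.Dat
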