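import Vale.Agent.P022K.PM.Dic1
import Vale.Agent.P022K.PM.St
import Vale.Agent.P022K.PM.Dat3

/-!
# P022K / PM / Dic2: the rows RH, EMX, INTR, VAL, LIFT (helper4)
-/

set_option linter.all false

open NumberField Matrix Quaternion Module

noncomputable section

namespace Vale.Agent.P022K.PM

open Vale.Agent.P022 Vale.Agent.P010MR Vale.Agent.P010MT8
open Vale.Agent.P022K.CH (Cp eps)
open Vale.Agent.P022K.TP (Af Pr am Mn pr)

variable {D : QD} {p : ℕ} [Fact p.Prime] {η : GQ →* ℤˣ}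

theorem Lin.cf {u : Mi D.g ℚ_[p]} (h : Lin D u) : Cf D u := QD.comm_rE h.1 h.2

theorem Lin.rh {u : Mi D.g ℚ_[p]} (h : Lin D u) (μ : Em D (Cp p)) : Rh μ u (rh μ u) := h.cf.rh μ

theorem mt_lin (e : EE D η) (r : Pr) : Lin D (mt e r) :=
  ⟨fun m => by simpa only [map_mul, am, mp_cA, mt_eq, ql] using congrArg (mp r) ((at_uu e).cm m),
    by simpa only [map_mul, am, mp_cA, mt_eq, ql] using congrArg (mp r) (at_uu e).cj⟩

/-- **RH** -/
theorem rh_row : RH := fun D p _ μ =>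
  ⟨fun u h => h.rh μ, fun _ _ _ => Rh.unq, fun b => (rh_lm' b).eq, (rh_wm' μ).eq,
    fun u h H => Rh.ext fun μ' => ⟨0, H μ' ▸ h.rh μ', rh_zero' μ'⟩,
    (exists_bd μ).imp fun C H u c h hc => by
      rcases le_or_gt 0 c with h0 | h0
      · exact H.2 u _ (h.rh μ) c h0 hc
      · obtain ⟨i, -⟩ := Function.ne_iff.1 ((map_ne_zero_iff D.e D.e.injective).2 one_ne_zero)
        exact absurd ((norm_nonneg _).trans (hc i i)) h0.not_ge,
    fun η => ⟨fun e => ⟨mt_lin e (pp p), re_eps μ e⟩, re_one μ, re_mul μ⟩⟩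

theorem Em.z0_eq {C : Type} [Field C] (μ : Em D C) (x y : D.M0) :
    μ.z0 (algebraMap _ _ x + algebraMap _ _ y * D.I) =
      μ.φ (algebraMap _ _ x) + μ.ι * μ.φ (algebraMap _ _ y) := by
  simp [Em.z0, Em.la, D.emA, D.emI]

/-- **EMX** -/
theorem emx : EMX := fun D C _ _ f => by
  let _ : Algebra D.M0 C := (f.comp (algebraMap D.M0 D.L0)).toAlgebra
  have : Algebra.IsAlgebraic D.M0 D.M := Algebra.IsAlgebraic.tower_top (K := ℚ) D.M0
  let φ : D.M →ₐ[D.M0] C := IsAlgClosed.lift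
  obtain ⟨s, hs⟩ := IsAlgClosed.exists_pow_nat_eq (φ D.β) two_pos
  refine ⟨⟨φ, f D.I, s, by rw [← map_pow, D.hI, map_neg, map_one], hs⟩, fun z => ?_, rfl,
    φ.commutes⟩
  obtain ⟨x, y, rfl⟩ := D.gen z
  rw [Em.z0_eq, map_add, map_mul, mul_comm]
  exact congrArg₂ (· + · * f D.I) (φ.commutes x) (φ.commutes y)

/-- the value on `L0` is a ring homomorphism -/
def Em.zH {C : Type} [Field C] [CharZero C] (μ : Em D C) : D.L0 →+* C where
  toFun := μ.z0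
  map_one' := by simp [Em.z0, Em.la]
  map_zero' := by simp [Em.z0, Em.la]
  map_add' a b := by simp [Em.z0, Em.la]; ring
  map_mul' a b := by
    simp [Em.z0, Em.la, em_eq]
    linear_combination (-μ.φ (D.em a).imI * μ.φ (D.em b).imI) * μ.hι

theorem Em.zH_apply {C : Type} [Field C] [CharZero C] (μ : Em D C) (z) : μ.zH z = μ.z0 z := rfl

/-- the closure of the image of a field -/
def clo {M : Type} [Field M] (f : M →+* Cp p) : Subring (Cp p) := f.range.topologicalClosure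

theorem clo_alg {M : Type} [Field M] [CharZero M] (f : M →+* Cp p) (c : ℚ_[p]) :
    algebraMap _ _ c ∈ clo f :=
  map_mem_closure (continuous_algebraMap ℚ_[p] (Cp p)) (Padic.denseRange_ratCast p c)
    (by rintro _ ⟨q, rfl⟩; exact ⟨q, by simp⟩)

theorem c0_eq (μ : Em D (Cp p)) : c0 μ = clo (μ.φ.comp (algebraMap D.M0 D.M)) := rfl

theorem cl_eq (μ : Em D (Cp p)) : cl μ = clo μ.zH := rfl

theorem c0_le (μ : Em D (Cp p)) {x} (h : x ∈ c0 μ) : x ∈ μ.Kf := fun γ e =>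
  closure_minimal (by rintro _ ⟨y, rfl⟩; exact RingHom.congr_fun e _)
    (isClosed_eq (AddMonoidHomClass.isometry_of_norm γ (gp_norm γ)).continuous continuous_id) h

theorem Em.Kf_span (μ : Em D (Cp p)) {x} (h : x ∈ μ.Kf) :
    ∃ c : Fin (finrank ℚ D.M) → ℚ_[p], ∑ i, c i • μ.φ (finBasis ℚ D.M i) = x := by
  classical
  let f : (D.M →+* Cp p) → Cp p := fun φ => if H : ∃ γ, φ = gc γ μ.φ then H.choose x else 0
  have f1 : ∀ γ, f (gc γ μ.φ) = γ x := fun γ => by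
    have H : ∃ γ', gc γ μ.φ = gc γ' μ.φ := ⟨γ, rfl⟩
    have := h (γ⁻¹ * H.choose) (RingHom.ext fun m => γ.injective (by
      simpa using (RingHom.congr_fun H.choose_spec m).symm))
    rw [show f _ = _ from dif_pos H]
    simpa using congrArg γ this
  obtain ⟨c, hc⟩ := Eqv.ex (finBasis ℚ D.M) (f := f) fun γ φ => by
    by_cases H : ∃ γ, φ = gc γ μ.φ
    · obtain ⟨γ', rfl⟩ := H
      rw [f1]; exact f1 (γ * γ')
    · rw [show f φ = 0 from dif_neg H, map_zero]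
      exact dif_neg fun ⟨γ', e⟩ => H ⟨γ⁻¹ * γ', RingHom.ext fun m =>
        γ.injective (by simpa using RingHom.congr_fun e m)⟩
  exact ⟨c, (hc _).trans (f1 1)⟩

variable {N : ℕ}

theorem QD.Ok.kf (h : D.Ok N) (hp : p ∣ N) (μ : Em D (Cp p)) {x} : x ∈ μ.Kf ↔ x ∈ c0 μ := by
  refine ⟨fun H => ?_, c0_le μ⟩
  obtain ⟨c, rfl⟩ := μ.Kf_span H
  rw [c0_eq]
  exact sum_mem fun i _ => Algebra.smul_def (c i) (μ.φ _) ▸
    mul_mem (clo_alg _ _) ((h.spl p hp μ).2.1 _)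

theorem QD.Ok.sp (h : D.Ok N) (hp : p ∣ N) {μ : Em D (Cp p)} (hι : μ.ι ∈ c0 μ) : μ.Sp :=
  ⟨c0_le μ hι, c0_le μ (h.spl p hp μ).1⟩

theorem QD.Ok.latP (h : D.Ok N) (hp : p ∣ N) : LatP D p := h.lat p hp

/-- at `2` the square root of `-1` is in the completion -/
theorem QD.Ok.io_two (h : D.Ok N) (hp : p = 2) (μ : Em D (Cp p)) : μ.ι ∈ c0 μ := by
  subst hp
  obtain ⟨x, hx⟩ := h.sev
  obtain ⟨y, hy, -⟩ := Gq.sqrt_near (p := 2) (-7) 1 (by
    have : ‖(2 : ℤ_[2])‖ < 1 := PadicInt.norm_lt_one_iff_dvd _ |>.2 (by simp)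
    rw [show (1 : ℤ_[2]) ^ 2 - -7 = 2 * (2 * 1) ^ 2 by norm_num, norm_mul, norm_pow]
    exact mul_lt_of_lt_one_left (by simp) this)
  have h1 : (μ.φ (algebraMap _ _ x⁻¹) * algebraMap ℚ_[2] (Cp 2) y) ^ 2 = μ.ι ^ 2 := by
    rw [mul_pow, ← map_pow, ← map_pow, ← map_pow, inv_pow, hx, μ.hι, ← PadicInt.coe_pow, hy]
    rw [show ((-7 : ℤ_[2]) : ℚ_[2]) = -7 from rfl]
    simp [map_ofNat]
  have h2 : μ.φ (algebraMap _ _ x⁻¹) * algebraMap ℚ_[2] (Cp 2) y ∈
      clo (μ.φ.comp (algebraMap D.M0 D.M)) :=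
    mul_mem (subset_closure ⟨x⁻¹, rfl⟩) (clo_alg _ _)
  rcases sq_eq_sq_iff_eq_or_eq_neg.1 h1.symm with e | e <;> rw [e, c0_eq]
  exacts [h2, neg_mem h2]

theorem LatP.le_odd (H : LatP D p) (hp : p ≠ 2) {μ : Em D (Cp p)} {u ρ} (h : Rh μ u ρ) {c : ℝ}
    (h0 : 0 ≤ c) (hu : Nle u c) : Le ρ c := by
  have h1 : ∀ x : D.B, (∀ (μ : Em D (Cp p)) a, ‖μ.la a x‖ ≤ 1) → ∀ i,
      ‖(ρ *ᵥ fun a => μ.la a x) i‖ ≤ c := fun x hx i => by
    rw [← μ.Qm_e, mulVec_mulVec, ← h, mulVec, dotProduct, ← one_mul c]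
    refine IsUltrametricDist.norm_sum_le_of_forall_le_of_nonneg (by simpa) fun k _ => ?_
    rw [norm_mul, ← map_ratCast (algebraMap ℚ_[p] (Cp p)), norm_algebraMap']
    exact (mul_le_of_le_one_right (norm_nonneg _) ((H x).2 hx k)).trans
      (nmul zero_le_one h0 (H.Qm μ) (fun a b => (norm_algebraMap' _ _).trans_le (hu a b)) i k)
  have h2 : ∀ μ : Em D (Cp p), ‖μ.ι‖ = 1 := fun μ =>
    (pow_eq_one_iff_of_nonneg (norm_nonneg _) two_ne_zero).1 (by rw [← norm_pow, μ.hι]; simp)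
  have h3 : ‖(2 : Cp p)‖ = 1 := by
    exact_mod_cast Dat.norm_cop (p := p) ((Nat.coprime_primes Nat.prime_two Fact.out).2 hp.symm)
  intro i j
  have a := h1 1 (by simp [Em.la]) i
  have b := h1 D.bi (by simp [Em.la, QD.bi, h2]) i
  have e : ∀ t : Cp p, ‖t‖ = 1 → ‖(ρ *ᵥ fun a => μ.la a 1) i + t * (ρ *ᵥ fun a => μ.la a D.bi) i‖ ≤
      c := fun t ht => (IsUltrametricDist.norm_add_le_max _ _).trans
    (max_le a (by rwa [norm_mul, ht, one_mul]))
  rw [← one_mul ‖ρ i j‖, ← h3, ← norm_mul]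
  fin_cases j
  · refine (le_of_eq (congrArg _ ?_)).trans (e (-μ.ι) (by rw [norm_neg, h2]))
    simp [mulVec, dotProduct, Em.la, QD.bi]
    linear_combination (ρ i 0 - ρ i 1) * μ.hι
  · refine (le_of_eq (congrArg _ ?_)).trans (e μ.ι (h2 _))
    simp [mulVec, dotProduct, Em.la, QD.bi]
    linear_combination (ρ i 1 - ρ i 0) * μ.hι

theorem QD.Ok.le (H : D.Ok N) (hp : p ∣ N) {μ : Em D (Cp p)} {u ρ} (h : Rh μ u ρ) {c : ℝ}
    (h0 : 0 ≤ c) (hu : Nle u c) : Le ρ c := by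
  by_cases h2 : p = 2
  exacts [(H.latP hp).le (H.sp hp (H.io_two h2 μ)) h h0 hu, (H.latP hp).le_odd h2 h h0 hu]

theorem QD.Ok.le_int (H : D.Ok N) (hp : p ∣ N) (μ : Em D (Cp p)) {e : EE D η} (h : Int e) :
    Le (re μ e) 1 := H.le hp (re_rh μ e) zero_le_one fun i j => TP.mem_Z1.1 (h i j) (pp p)

/-- **INTR** -/
theorem intr : INTR := fun D N p _ H hp u h n => by
  refine ⟨fun hu μ => H.le hp (h.rh μ) (norm_nonneg _) hu, fun hu => ?_⟩
  rcases eq_or_ne n 0 with rfl | hn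
  · rw [show u = 0 from Rh.ext fun μ => ⟨0, (show rh μ u = 0 from Matrix.ext fun i j => by
      simpa using hu μ i j) ▸ h.rh μ, rh_zero' μ⟩]
    exact fun i j => by simp
  · exact (H.latP hp).nle (Nat.cast_ne_zero.2 hn) fun μ => ⟨_, h.rh μ, hu μ⟩

/-- **VAL** -/
theorem val : VAL := fun D η N p _ H hp μ hι => by
  refine ⟨fun e i k => (H.kf hp μ).1 (re_mem (H.sp hp hι) e i k), subset_antisymm
    (closure_minimal ?_ isClosed_closure) (closure_mono ?_),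
    μ.Kf.toIntermediateField μ.alg_mem, ?_, Set.ext fun x => H.kf hp μ⟩
  · rintro _ ⟨z, rfl⟩
    obtain ⟨x, y, rfl⟩ := D.gen z
    rw [Em.z0_eq, c0_eq]
    exact add_mem (subset_closure ⟨x, rfl⟩ : _ ∈ c0 μ)
      (mul_mem hι (subset_closure ⟨y, rfl⟩ : _ ∈ c0 μ))
  · rintro _ ⟨x, rfl⟩
    exact ⟨algebraMap _ _ x, by simpa using μ.z0_eq x 0⟩
  · refine Module.Finite.of_surjective (Fintype.linearCombination ℚ_[p] fun i =>
      (⟨μ.φ (finBasis ℚ D.M i), μ.φ_mem _⟩ : μ.Kf.toIntermediateField μ.alg_mem)) fun x => ?_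
    refine (μ.Kf_span x.2).imp fun c hc => Subtype.ext ?_
    rw [← hc, Fintype.linearCombination_apply]
    simp

/-- the size of a block depends only on the place -/
theorem re_le {μ μ' : Em D (Cp p)} {γ : Gp p} (h : μ'.φ = gc γ μ.φ) {e : EE D η} {c : ℝ}
    (H : Le (re μ e) c) : Le (re μ' e) c := by
  have h0 : Le (re (μ.gm γ) e) c := fun i j => by
    rw [re_gm]; exact (gp_norm γ _).trans_le (H i j)
  change μ'.φ = (μ.gm γ).φ at h
  generalize μ.gm γ = ν at h h0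
  have h1 : ∀ ν ν' : Em D (Cp p), ν'.φ = ν.φ → ν'.ι = -ν.ι → ν'.s = ν.s → Le (re ν e) c →
      Le (re ν' e) c := fun ν ν' a b d H => by
    have e1 : ν'.Qm = ν.Qm.submatrix Fin.rev id := by
      ext i k; fin_cases i <;> simp [Em.Qm, Em.la, a, b, d]
    rw [show re ν' e = (re ν e).submatrix Fin.rev Fin.rev from Rh.eq (by
      rw [Rh, e1]
      refine .trans ?_ (submatrix_mul_equiv (re ν e) ν.Qm _ Fin.revPerm _).symm
      rw [← re_rh ν e]; rfl)]
    exact fun i j => H _ _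
  have h2 : ∀ ν ν' : Em D (Cp p), ν'.φ = ν.φ → ν'.ι = ν.ι → ν'.s = -ν.s → Le (re ν e) c →
      Le (re ν' e) c := fun ν ν' a b d H => by
    have e1 : ν'.Qm * (D.rm D.bi).map ((↑) : ℚ → Cp p) = diagonal ![ν.ι, -ν.ι] * ν.Qm :=
      D.mx_ext fun x => by
        rw [← mulVec_mulVec, ← mulVec_mulVec, Em.cast_mulVec, D.rm_ap, Em.Qm_e, Em.Qm_e]
        funext i
        fin_cases i <;> simp [Em.la, mulVec_diagonal, QD.bi, a, b, d]
        · linear_combination (-ν.φ x.imI - ν.s * ν.φ x.imK) * ν.hι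
        · linear_combination (-ν.φ x.imI - ν.s * ν.φ x.imK) * ν.hι
    have e2 := congrArg (fun x => cK p (mp (pp p) x)) (at_uu e).ci
    simp only [map_mul, Int.cast_smul_eq_zsmul, map_zsmul] at e2
    rw [am, mp_cA, show cK p ((D.rm D.bi).map (↑)) = _ from cK_ql _] at e2
    have e3 : re ν' e * diagonal ![ν.ι, -ν.ι] =
        (η (sg e) : ℤ) • (diagonal ![ν.ι, -ν.ι] * re ν e) := ν.fm.unq (by
      rw [Matrix.smul_mul, Matrix.mul_assoc _ (re ν e), ← re_rh ν e, ← Matrix.mul_assoc _ ν.Qm,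
        Matrix.mul_assoc (re ν' e), ← e1, ← Matrix.mul_assoc, ← re_rh ν' e, Matrix.mul_assoc,
        Matrix.mul_assoc, ← Matrix.mul_smul]
      exact congrArg _ e2)
    have e4 : ‖ν.ι‖ = 1 :=
      (pow_eq_one_iff_of_nonneg (norm_nonneg _) two_ne_zero).1 (by rw [← norm_pow, ν.hι]; simp)
    intro i j
    have := congrArg norm (congrFun (congrFun e3 i) j)
    refine (le_of_eq ?_).trans (H i j)
    rcases Int.units_eq_one_or (η (sg e)) with t | t <;> fin_cases i <;> fin_cases j <;>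
      simpa [t, e4] using this
  rcases sq_eq_sq_iff_eq_or_eq_neg.1 (μ'.hι.trans ν.hι.symm) with a | a <;>
    rcases sq_eq_sq_iff_eq_or_eq_neg.1 (μ'.hs.trans (h ▸ ν.hs.symm)) with b | b
  · rwa [show μ' = ν by cases μ'; cases ν; simp_all]
  · exact h2 _ _ h a b h0
  · exact h1 _ _ h a b h0
  · exact h1 ⟨ν.φ, ν.ι, -ν.s, ν.hι, by rw [neg_sq, ν.hs]⟩ _ h a b (h2 ν _ rfl rfl rfl h0)

/-- integrality after a change at one place -/
theorem QD.Ok.int_of (H : D.Ok N) (hp : p ∣ N) {μ : Em D (Cp p)} {e e' : EE D η} (h : Int e)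
    (h1 : ∀ r : Pr, r.1 ≠ p → mt e' r = mt e r)
    (h2 : ∀ μ' : Em D (Cp p), (∀ γ, μ'.φ ≠ gc γ μ.φ) → re μ' e' = re μ' e) (h3 : Le (re μ e') 1) :
    Int e' := fun i j => TP.mem_Z1.2 fun r => by
  rcases eq_or_ne r (pp p) with rfl | hr
  · rw [← norm_one (α := ℚ_[p])]
    refine (H.latP hp).nle one_ne_zero (fun μ' => ⟨_, re_rh μ' e', ?_⟩) i j
    rw [norm_one]
    by_cases a : ∃ γ, μ'.φ = gc γ μ.φ
    exacts [re_le a.choose_spec h3, h2 μ' (not_exists.1 a) ▸ H.le_int hp μ' h]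
  · exact (congrArg norm (congrFun (congrFun (h1 r fun e => hr (Subtype.ext e)) i) j)).trans_le
      (TP.mem_Z1.1 (h i j) r)

/-- **LIFT** -/
theorem lift : LIFT := fun D η N p _ H hp μ hι g hd hg => by
  obtain ⟨k, h1, h2, h3, h4, -⟩ := exists_one (H.sp hp hι) (fun i j => c0_le μ (hg i j)) hd η
  have m : ∀ (a b : EE D η) r, mt (a * b) r = mt a r * mt b r := fun a b r => by
    simp only [mt_eq, map_mul]
  refine ⟨k, h1, fun r hr => (h3 r hr).trans (Matrix.map_one _ (by simp) (by simp)).symm, h2,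
    fun e he => ⟨H.int_of hp he (fun r hr => ?_) fun μ' a => ?_, H.int_of hp he
      (fun r hr => by rw [m, h3 r hr, mul_one]) fun μ' a => by rw [re_mul, h4 μ' a, mul_one]⟩⟩
  · rw [← one_mul (mt _ r), ← h3 r hr, ← m, ← mul_assoc, mul_inv_cancel_left, m, h3 r hr, mul_one]
  · rw [← one_mul (re _ _), ← h4 μ' a, ← re_mul, ← mul_assoc, mul_inv_cancel_left, re_mul, h4 μ' a,
      mul_one]

end Vale.Agent.P022K.PM
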