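import Vale.Agent.P022K.PM.Fld0
import Vale.Agent.P022K.PM.Dic2

/-!
# P022K / PM: the choice of the CM field (row `FIELD`)
-/

set_option autoImplicit false

open NumberField Polynomial IntermediateField

noncomputable section

namespace Vale.Agent.P022K.PM

open Vale.Agent.P022 Vale.Agent.P022K.CH
open Vale.Agent.P022.H443 (algQb galQb)

namespace Fld

variable {p : ℕ} [hp : Fact p.Prime] {K : IntermediateField ℚ Qb} {D : QD} {N : ℕ}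
  {f : D.L0 →+* Qb}

theorem ex_conj : ∃ c : GQ, IsConj c := by
  have := algQb
  let φ : Qb →+* ℂ := (IsAlgClosed.lift : Qb →ₐ[ℚ] ℂ)
  obtain ⟨c, h⟩ := exists_gal (RingHom.id Qb) ((starRingEnd ℂ).comp φ) φ
  exact ⟨c, φ, fun x => (h x).symm⟩

/-- the totally real elements of `K` generate `B` locally -/
def Gen (K : IntermediateField ℚ Qb) (B : Set (Cp p)) : Prop := ∀ (ι : Qb →+* Cp p) (γ : Gp p),
  (∀ x ∈ K, Re x → γ (ι x) = ι x) → ∀ b ∈ B, γ b = b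

theorem exists_gen (ι : Qb →+* Cp p) {B : Set (Cp p)} (h : B.Finite) : ∃ A : Set Qb, A.Finite ∧
    (∀ a ∈ A, Re a) ∧ ∀ K : IntermediateField ℚ Qb, (∀ a ∈ A, ∀ σ : GQ, σ a ∈ K) → Gen K B := by
  choose t h1 h2 using kras ι
  refine ⟨t '' B, h.image t, by rintro _ ⟨b, -, rfl⟩; exact h1 b, fun K hK ι' γ e b hb => h2 b γ ?_⟩
  obtain ⟨σ, hσ⟩ := exists_gal (RingHom.id Qb) ι ι'
  rw [hσ]
  exact e _ (hK _ ⟨b, hb, rfl⟩ σ) ((h1 b).gal σ)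

theorem re_ex (hf : Idf D K f) {x : Qb} (hx : x ∈ K) (h : Re x) :
    ∃ y : D.M0, f (algebraMap _ _ y) = x := by
  obtain ⟨z, rfl⟩ := (hf.rng x).1 hx
  obtain ⟨c, hc⟩ := ex_conj
  have e := f.injective ((hf.cj c hc z).trans (h c hc))
  obtain ⟨a, b, rfl⟩ := D.gen z
  rw [map_add, map_mul, D.cj.commutes, D.cj.commutes, D.cjI] at e
  exact ⟨a, congrArg f (by linear_combination e / 2)⟩

theorem z0_alg {C : Type} [Field C] (μ : Em D C) (y : D.M0) :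
    μ.z0 (algebraMap _ _ y) = μ.φ (algebraMap _ _ y) := by simpa using μ.z0_eq y 0

theorem Gen.mem {B : Set (Cp p)} (h : Gen K B) (ι : Qb →+* Cp p) (hD : D.Ok N) (hN : p ∣ N)
    (hf : Idf D K f) (μ : Em D (Cp p)) : B ⊆ c0 μ := fun b hb => (hD.kf hN μ).1 fun γ e => by
  obtain ⟨σ, hσ⟩ := exists_gal f μ.zH ι
  refine h (ι.comp (σ : Qb →+* Qb)) γ (fun x hx hr => ?_) b hb
  obtain ⟨y, rfl⟩ := re_ex hf hx hr
  have : ι.comp (σ : Qb →+* Qb) (f (algebraMap _ _ y)) = μ.φ (algebraMap _ _ y) :=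
    (hσ _).symm.trans (z0_alg μ y)
  rw [this]
  exact RingHom.congr_fun e _

theorem gal_adjoin {S : Set Qb} (h : ∀ a ∈ S, ∀ σ : GQ, σ a ∈ S) (σ : GQ) {x : Qb}
    (hx : x ∈ adjoin ℚ S) : σ x ∈ adjoin ℚ S :=
  (adjoin_le_iff.2 fun a ha => subset_adjoin ℚ S (h a ha σ) :
    adjoin ℚ S ≤ (adjoin ℚ S).comap (σ : Qb →ₐ[ℚ] Qb)) hx

/-- adjunction of the multiplicative representatives -/
theorem exists_tei (ι : Qb →+* Cp p) {S : Set Qb} (h : S.Finite) (hc : ∀ a ∈ S, Cmn a)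
    (hg : ∀ a ∈ S, ∀ σ : GQ, σ a ∈ S) : ∃ K : IntermediateField ℚ Qb, FiniteDimensional ℚ K ∧
      (∀ x ∈ K, Cmn x) ∧ (∀ a ∈ S, a ∈ K) ∧ (∀ (σ : GQ), ∀ x ∈ K, σ x ∈ K) ∧
      ∀ c ∈ closure (ι '' K), ‖c‖ = 1 → ∃ t ∈ K, Rp p t ∧ ‖c - ι t‖ < 1 := by
  have := algQb
  have := (h.image ι).to_subtype
  let E := adjoin ℚ_[p] (ι '' S)
  have : FiniteDimensional ℚ_[p] E :=
    finiteDimensional_adjoin fun x _ => Algebra.IsIntegral.isIntegral x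
  let T := ι ⁻¹' {z | z ∈ E ∧ Rp p z}
  have t1 : ∀ t, Rp p (ι t) ↔ Rp p t := fun t => exists_congr fun n => and_congr_right fun _ => by
    rw [← map_pow, map_eq_one_iff _ ι.injective]
  have n0 : ∀ {n}, ¬ p ∣ n → n ≠ 0 := by rintro _ h rfl; simp at h
  have := (h.union ((fin_rp E).preimage ι.injective.injOn)).to_subtype
  have t2 : ∀ x ∈ adjoin ℚ (S ∪ T), ι x ∈ E := fun x hx =>
    ((adjoin_le_iff (T := (E.toSubfield.comap ι).toIntermediateField fun r =>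
      show ι _ ∈ E by simp)).2 (by
        rintro a (ha | ha); exacts [show ι a ∈ E from subset_adjoin _ _ ⟨a, ha, rfl⟩, ha.1])) hx
  refine ⟨adjoin ℚ (S ∪ T), finiteDimensional_adjoin fun x _ => Algebra.IsIntegral.isIntegral x,
    (adjoin_le_iff (T := cmF)).2 ?_, fun a ha => subset_adjoin _ _ (Or.inl ha),
    fun σ x => gal_adjoin ?_ σ, fun c hc e => ?_⟩
  · rintro a (ha | ⟨-, ha⟩)
    · exact hc a ha
    · obtain ⟨n, h1, h2⟩ := (t1 a).1 ha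
      exact cmn_root (n0 h1) h2
  · rintro a (ha | ⟨hb, ha⟩) σ
    · exact Or.inl (hg a ha σ)
    obtain ⟨n, h1, h2⟩ := (t1 a).1 ha
    have : NeZero (orderOf a) :=
      ⟨(isOfFinOrder_iff_pow_eq_one.2 ⟨n, (n0 h1).bot_lt, h2⟩).orderOf_pos.ne'⟩
    obtain ⟨i, -, e⟩ := (IsPrimitiveRoot.orderOf a).eq_pow_of_pow_eq_one (ξ := σ a)
      (by rw [← map_pow, pow_orderOf_eq_one, map_one])
    exact Or.inr ⟨by rw [← e, map_pow]; exact pow_mem hb i,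
      (t1 _).2 ⟨n, h1, by rw [← map_pow, h2, map_one]⟩⟩
  · obtain ⟨z, z1, z2, z3⟩ := teich E (closure_minimal (by
      rintro _ ⟨x, hx, rfl⟩; exact t2 x hx) (closed E) hc) e
    obtain ⟨n, h1, h2⟩ := id z2
    obtain ⟨t, rfl⟩ := (IsAlgClosed.splits (X ^ n - C (1 : Qb))).mem_range_of_isRoot
      (monic_X_pow_sub_C _ (n0 h1)).ne_zero (i := ι) (x := z) (by simp [h2])
    exact ⟨t, subset_adjoin _ _ (Or.inr ⟨z1, z2⟩), (t1 t).1 z2, z3⟩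

theorem fin_i (p : ℕ) [Fact p.Prime] : {x : Cp p | x ^ 2 = -1}.Finite :=
  ((X ^ 2 - C (-1 : Cp p)).roots.finite_toSet).subset fun x hx =>
    (mem_roots (monic_X_pow_sub_C _ two_ne_zero).ne_zero).2 (by simpa [add_eq_zero_iff_eq_neg] using hx)

/-- lifts of the entries of a residual representation -/
theorem exists_val (ρ : GQ →* GL (Fin 2) (Kp p)) (h : IsOpen {g | ρ g = 1}) :
    ∃ B : Set (Cp p), B.Finite ∧ ∀ g i k, ∃ x ∈ B, ‖x‖ ≤ 1 ∧ red x = ρ g i k := by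
  have : Finite (GQ ⧸ ρ.ker) := ρ.ker.quotient_finite_of_isOpen h
  have : Finite ρ.range := Finite.of_equiv _ (QuotientGroup.quotientKerEquivRange ρ).toEquiv
  choose l h1 h2 using red_surj (p := p)
  exact ⟨_, Set.finite_range fun x : ρ.range × Fin 2 × Fin 2 => l (x.1.1 x.2.1 x.2.2),
    fun g i k => ⟨_, ⟨(⟨ρ g, g, rfl⟩, i, k), rfl⟩, h1 _, h2 _⟩⟩

end Fld

open Fld in
/-- **FIELD** -/
theorem field {A : Set Qb} (hA : A.Finite) (hc : ∀ a ∈ A, Cmn a) {p q : ℕ} [Fact p.Prime]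
    [Fact q.Prime] {B : Set (Cp p)} (hB : B.Finite) {B' : Set (Cp q)} (hB' : B'.Finite) :
    ∃ K, Cmf K ∧ (∀ a ∈ A, a ∈ K) ∧ (∀ (σ : GQ), ∀ x ∈ K, σ x ∈ K) ∧
      ∀ (D : QD) (f : D.L0 →+* Qb) (N : ℕ), D.Ok N → Idf D K f →
        (p ∣ N → ∀ μ : Em D (Cp p), μ.ι ∈ c0 μ ∧ B ⊆ c0 μ ∧ ∀ c ∈ c0 μ, ‖c‖ = 1 →
          ∃ ζ : D.L0, (∃ n, ¬ p ∣ n ∧ ζ ^ n = 1) ∧ ‖c - μ.z0 ζ‖ < 1) ∧
        (q ∣ N → ∀ μ : Em D (Cp q), μ.ι ∈ c0 μ ∧ B' ⊆ c0 μ) := by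
  have := algQb
  let ι : Qb →+* Cp p := (IsAlgClosed.lift : Qb →ₐ[ℚ] Cp p)
  let ι' : Qb →+* Cp q := (IsAlgClosed.lift : Qb →ₐ[ℚ] Cp q)
  obtain ⟨A1, a1, a2, a3⟩ := exists_gen ι (hB.union (fin_i p))
  obtain ⟨A2, b1, b2, b3⟩ := exists_gen ι' (hB'.union (fin_i q))
  obtain ⟨ζ, hζ⟩ : ∃ ζ : Qb, ζ ^ 4 - ζ ^ 2 + 1 = 0 := by
    obtain ⟨z, hz⟩ := IsAlgClosed.exists_root (X ^ 4 - X ^ 2 + 1 : Qb[X]) (by
      rw [show (X ^ 4 - X ^ 2 + 1 : Qb[X]).degree = 4 by compute_degree!]; simp)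
    exact ⟨z, by simpa using hz⟩
  obtain ⟨s, hs⟩ := IsAlgClosed.exists_pow_nat_eq (-7 : Qb) two_pos
  obtain ⟨K, k1, k2, k3, k4, k5⟩ := exists_tei ι
    (fin_orbit (((hA.union (a1.union b1)).insert s).insert ζ)) (by
      rintro _ ⟨a, ha, σ, rfl⟩
      refine cmn_gal ?_ σ
      rcases ha with rfl | rfl | ha | ha | ha
      exacts [cmn_root (n := 12) (by simp) (by
        linear_combination (a ^ 8 + a ^ 6 - a ^ 2 - 1) * hζ), cmn_sqrt (r := -7) (by simpa using hs),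
        hc a ha, (a2 a ha).cmn, (b2 a ha).cmn])
    (by rintro _ ⟨a, ha, σ, rfl⟩ τ; exact ⟨a, ha, τ * σ, rfl⟩)
  replace k3 := fun a ha (σ : GQ) => k3 (σ a) ⟨a, ha, σ, rfl⟩
  refine ⟨K, ⟨k1, k2, fun x hx c _ => k4 c x hx, ⟨ζ, k3 ζ (by simp) 1, hζ⟩, s, k3 s (by simp) 1, hs⟩,
    fun a ha => k3 a (by simp [ha]) 1, k4, fun D f N hD hf => ⟨fun hN μ => ?_, fun hN μ => ?_⟩⟩
  · have h := (a3 K fun a ha => k3 a (by simp [ha])).mem ι hD hN hf μ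
    refine ⟨h (Or.inr μ.hι), fun b hb => h (Or.inl hb), fun c hc e => ?_⟩
    obtain ⟨σ, hσ⟩ := exists_gal f μ.zH ι
    obtain ⟨t, t1, ⟨n, t2, t3⟩, t4⟩ := k5 c (closure_mono (by
      rintro _ ⟨y, rfl⟩
      exact ⟨_, k4 σ _ ((hf.rng _).2 ⟨_, rfl⟩), (hσ _).symm.trans (z0_alg μ y)⟩) hc) e
    obtain ⟨z, hz⟩ := (hf.rng _).1 (k4 σ⁻¹ t t1)
    refine ⟨z, ⟨n, t2, f.injective (by rw [map_pow, hz, ← map_pow, t3, map_one, map_one])⟩, ?_⟩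
    rwa [show μ.z0 z = ι t from (hσ z).trans (by rw [hz]; simp)]
  · have h := (b3 K fun a ha => k3 a (by simp [ha])).mem ι' hD hN hf μ
    exact ⟨h (Or.inr μ.hι), fun b hb => h (Or.inl hb)⟩

end Vale.Agent.P022K.PM
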