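import Vale.Agent.P022K.PM.Md2
import Vale.Agent.P022K.TP.Neat
import Vale.Agent.P022K.TP.Opn
import Vale.Agent.P022K.TP.Conj

/-!
# P022K / PM: twisted Moret-Bailly on the tower (helper22)
-/

namespace Vale.Agent.P022K.PM

open Vale.Agent.P022 Vale.Agent.P010MR Vale.Agent.P010MGa P010MH Vale.Agent.P022K.TP Matrix
  P010M71 TP.Uq P010MT8

variable {g : ℕ}

/-- congruent matrices that fix a point are equal -/
theorem rel_uniq {M : ℕ} (hM : 3 ≤ M) {s : ℂ ≃+* ℂ} {τ : Mc g} {u u' : Mi g Af} (hu : Mn 1 u)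
    (h : Rel s τ τ u) (h' : Rel s τ τ u') (hc : Mn M (u' - u)) : u' = u := by
  obtain ⟨δ, h1, h2⟩ := unq (neat g) s τ τ τ u u' h h'
  have h3 := hc.mul (hu.ui (σ := s))
  rw [mul_one, h2, sub_mul, mul_assoc, h.sim.mul_ui, mul_one] at h3
  rw [h2, neat g τ h.h δ h1.symm M hM h3]
  exact (congrArg (· * u) am_one).trans (one_mul u)

/-- openness of the stabiliser of an algebraic point -/
theorem opn_ext (j : Qb →+* ℂ) {τ : Mc g} (hA : Algp τ) {n : ℕ} (hn : 0 < n) :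
    ∃ N : Subgroup GQ, IsOpen (N : Set GQ) ∧ ∀ σ ∈ N, ∀ s, Ext j σ s →
      ∃ u, Mn n (u - 1) ∧ Rel s τ τ u := by
  obtain ⟨S, h1, h2⟩ := opn (conj g) τ hA n hn
  choose a ha using fun x : S => exists_j j (h1 x x.2)
  refine ⟨⨅ x, MulAction.stabilizer GQ (a x), ?_, fun σ hσ s hs => h2 s fun x hx => ?_⟩
  · rw [Subgroup.coe_iInf]
    exact isOpen_iInter_of_finite fun x => stabilizer_isOpen_of_isIntegral _
  · exact (congrArg s (ha ⟨x, hx⟩)).symm.trans ((hs _).trans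
      ((congrArg j (Subgroup.mem_iInf.1 hσ ⟨x, hx⟩)).trans (ha _)))

/-- **TWT** -/
theorem twt : TWT := by
  intro g κ G _ f j m π u hG ι _ _ p hp v hv D hD s hs t ht U hU n hn
  let _ := j.toAlgebra
  obtain ⟨ς, _, γ, hγ, hL, hF⟩ := tens f
  obtain ⟨M₀, h0, hC⟩ := chart_ph (r := fun _ => 2) γ hγ
  obtain ⟨M, hM, d1, d2, d3, d4⟩ : ∃ M, 0 < M ∧ M₀ ∣ M ∧ 8 ∣ M ∧ m ∣ M ∧ n ∣ M :=
    ⟨M₀ * (8 * (m * n)), by have := hG.pos; positivity, dvd_mul_right _ _,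
      (dvd_mul_right _ _).mul_left _, ((dvd_mul_right _ _).mul_left _).mul_left _,
      ((dvd_mul_left _ _).mul_left _).mul_left _⟩
  obtain ⟨hC, hI⟩ := hC M hM d1 d2
  have hK := Nat.mul_pos hM hM
  have h3 : 3 ≤ M := le_trans (by norm_num) (Nat.le_of_dvd hM d2)
  have : NeZero (M * M) := ⟨hK.ne'⟩
  let k := kap hK hG.int
  let k1 := kap hM hG.int
  let φ := (π.prod k).rangeRestrict
  let π' := (MonoidHom.fst _ _).comp (π.prod k).range.subtype
  let k' := (MonoidHom.snd _ _).comp (π.prod k).range.subtype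
  have hφ : Function.Surjective φ := MonoidHom.rangeRestrict_surjective _
  have hk : ∀ {e e'}, φ e = φ e' → k1 e = k1 e' := fun h => (kap_iff hM hG.int).2
    (((kap_iff hK hG.int).1 (congrArg k' h)).anti (dvd_mul_left _ _))
  have tr : ∀ e s', Ext j (π e) s' → ∀ τ ∈ Loc (r := fun _ => 2) γ,
      ∃ τ' ∈ Loc (r := fun _ => 2) γ, ∃ e', φ e' = φ e ∧ Rel s' τ τ' (u e') := fun e s' h τ hτ => by
    obtain ⟨τ', h1, e', h2, h4, h5⟩ := hG.trans e s' h τ (hL ▸ hτ) _ hK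
    exact ⟨τ', hL ▸ h1, e', Subtype.ext (Prod.ext h2 ((kap_iff hK hG.int).2 h4)), h5⟩
  obtain ⟨H, S, τ, a1, a2, a3, a4, a5, a6, ⟨w, hw, a7⟩, a8⟩ := twp (form_ph γ 4 hM) hγ hC (π := π')
    (fun σ => (hG.sur σ).elim fun e h => ⟨φ e, h⟩) k'
    (fun e h h' => Subtype.ext (Prod.ext h h')) (mu g 4 _)
    (fun e s' h τ hτ => by
      obtain ⟨e, rfl⟩ := hφ e
      obtain ⟨τ', h1, e', h2, h4⟩ := tr e s' h τ hτ
      exact ⟨τ', h1, h2 ▸ rel_ph four_pos hM hG.int h4⟩)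
    ((hG.opn _ hK).imp fun N h => ⟨h.1, fun σ hσ => (h.2 σ hσ).elim fun e he =>
      ⟨φ e, he.1, (kap_one hK hG.int).2 he.2⟩⟩) hp hv hD (fun i => φ.comp (s i)) (fun i => (hs i).sec)
    (fun i => ((hs i).cts _ hK).imp fun N h => ⟨h.1, fun d hd => (kap_one hK hG.int).2 (h.2 d hd)⟩) t
    (fun i => ⟨hL ▸ (ht i).1, exists_ph four_pos hM d2 (ht i).1.1, by
      choose w hw using fun x x' : Xt g 4 (M * M) => exists_j j
        ((ht i).2.1.ratio four_pos (fun b => rep M (x' b)) fun b => rep M (x b))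
      refine ⟨w, hw, fun d x x' => j.injective ?_⟩
      obtain ⟨s', h⟩ := exists_ext j d
      obtain ⟨c, hc, h1⟩ := rel_ph four_pos hM hG.int ((ht i).2.2 d s' h)
      refine (hw _ _).trans ((congrArg₂ (· / ·) (h1 x) (h1 x')).trans ?_)
      rw [mul_div_mul_left _ _ hc, ← map_div₀]
      exact (congrArg s' (hw x x')).symm.trans ((h _).trans
        (congrArg (fun σ : GQ => j (σ _)) ((hs i).sec d).symm))⟩) U hU
  have ex : ∀ (h : H) s', Ext j h s' → ∃ e, π e = h ∧ (∃ e0, φ e0 = S h ∧ k1 e = k1 e0) ∧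
      Rel s' τ τ (u e) := fun h s' h1 => by
    obtain ⟨e, he⟩ := hφ (S h)
    have h2 : π e = h := (congrArg π' he).trans (a4 h)
    obtain ⟨τ', h4, e', h5, h6⟩ := tr e s' (h2.symm ▸ h1) τ a6
    obtain ⟨c, hc, h7⟩ := rel_ph four_pos hM hG.int h6
    have h8 : k e' = k' (S h) := congrArg k' (h5.trans he)
    obtain ⟨δ, b1, b2, b3⟩ := hI τ a6 τ' h4 fun x x' => by
      obtain ⟨x, rfl⟩ := (mu g 4 _ (k e')).surjective x
      obtain ⟨x', rfl⟩ := (mu g 4 _ (k e')).surjective x'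
      rw [h7, h7, mul_div_mul_left _ _ hc, ← map_div₀, ← hw, ← hw, h8]
      exact (congrArg j ((a7 h x x').trans (congrArg (fun σ : GQ => σ _) (a4 h)))).trans
        (h1 _).symm
    obtain ⟨e0, b4, b5⟩ := hG.gam (zs δ) ((mn_gm b1).anti d3) (hF δ b2)
    refine ⟨e0 * e', by rw [map_mul, b4, one_mul, ← h2]; exact congrArg π' h5, ⟨e', h5.trans he, by
      rw [map_mul, (kap_one hM hG.int).2 (b5 ▸ mn_gm b1), one_mul]⟩, ?_⟩
    have := h6.left (zs δ)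
    rwa [qr_zs, b3, ← b5, ← map_mul] at this
  have hA : Algp τ := (alg g τ a6.1 fun σ hσ =>
    (ex 1 σ fun a => hσ _ (alg_j j a)).elim fun e h => ⟨_, hG.int e, h.2.2⟩).1
  choose s0 hs0 using exists_ext j
  choose ρ r1 r2 r3 using fun h : H => ex h _ (hs0 h)
  choose e0 r2 r4 using r2
  have r5 : ∀ h : H, FxT j τ h (u (ρ h)) := fun h s' h1 => (r3 h).congr hA ((hs0 h).eq h1)
  have r6 : ∀ h h', ρ (h * h') = ρ h * ρ h' := fun h h' => by
    have h1 := rel_uniq h3 (hG.int _) (map_mul u _ _ ▸ (r3 h).mul (r3 h'))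
      (r5 (h * h') _ ((hs0 h).mul (hs0 h'))) ((kap_iff hM hG.int).1 ((r4 _).trans
        ((hk (e' := e0 h * e0 h') (by rw [r2, map_mul, map_mul, r2, r2])).trans
          (by rw [map_mul, map_mul, ← r4, ← r4]))))
    refine mul_inv_eq_one.1 (hG.inj _ ?_ ?_)
    · rw [map_mul, map_inv, map_mul, r1, r1, r1, Subgroup.coe_mul, mul_inv_cancel]
    · rw [map_mul, h1, ← map_mul, mul_inv_cancel, map_one]
  refine ⟨H, MonoidHom.mk' ρ r6, τ, a1, a2, a3, ⟨r1, fun n' hn' => ?_⟩, hL ▸ a6, hA, r5,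
    fun i σ => ?_⟩
  · obtain ⟨N, hN, h1⟩ := opn_ext j hA (Nat.mul_pos hn' hM)
    obtain ⟨N', hN', h2⟩ := a5
    refine ⟨N ⊓ N', hN.inter hN', fun h hh => ?_⟩
    obtain ⟨u', h4, h5⟩ := h1 h hh.1 _ (hs0 h)
    have h6 := (kap_one hM hG.int).1 ((r4 h).trans ((kap_one hM hG.int).2 (((kap_one hK hG.int).1
      ((congrArg k' (r2 h)).trans (h2 h hh.2))).anti (dvd_mul_left _ _))))
    have h7 := (h4.anti (dvd_mul_left _ _)).sub h6
    rw [sub_sub_sub_cancel_right] at h7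
    exact rel_uniq h3 (hG.int _) (r3 h) h5 h7 ▸ h4.anti (dvd_mul_right _ _)
  · obtain ⟨e, b1, b2, b3⟩ := a8 i σ
    obtain ⟨e, rfl⟩ := hφ e
    refine ⟨e, b1, b2, fun d => (b3 d).imp fun h hh => ⟨?_, Mn.anti ((kap_iff hM hG.int).1
      (Eq.trans ?_ (hk (e := e * e0 h * e⁻¹) ?_))) d4⟩⟩
    · have := congrArg π' hh
      rw [map_mul, map_mul, map_inv, a4] at this
      exact this.trans ((hs i).sec d)
    · rw [map_mul, map_mul, map_mul, map_mul, ← r4]; rfl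
    · rw [map_mul, map_mul, map_inv, r2]; exact hh

end Vale.Agent.P022K.PM
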