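import Vale.Agent.P022K.PM.Cmex
import Vale.Agent.P022K.PM.Md
import Vale.Agent.P022K.TP.Cmg
import Vale.Agent.P022K.TP.Gt

/-!
# P022K / PM: the rows REAL, STAB, DEEP, and CMFIX for the elements which reverse the type
-/

open NumberField Matrix Quaternion

noncomputable section

namespace Vale.Agent.P022K.PM

open Vale.Agent.P022 Vale.Agent.P010MR Vale.Agent.P010MT8
open Vale.Agent.P022K.TP hiding Ty Cn
open QD

variable {D : QD} {η : GQ →* ℤˣ}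

theorem QD.lb_I (b : D.Bˣ) :
    (D.lb b D.I)ᵀ * J (Fin D.g) ℚ = -(J (Fin D.g) ℚ * D.lb b D.I) := by
  rw [lb_adj, D.cjI, map_neg, mul_neg]

theorem QD.wm_sq (D : QD) : D.wm * D.wm = 1 := D.ww_neg ▸ D.ww_sq (-1)

namespace MP

variable {x : MP D η} {b : D.Bˣ} {θ : D.L0} {j : Qb →+* ℂ}

theorem Mk.of_ta (h : x.Mk b) {t : Mi D.g Af} (ht : t ∈ TA D) :
    uu x.k * t * uu x.k⁻¹ ∈ Submodule.span Af (Set.range fun z => am (D.lb b z)) := by
  induction ht using Submodule.span_induction with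
  | mem _ e =>
    obtain ⟨z, rfl⟩ := e
    rw [h.l0]
    exact Submodule.subset_span ⟨_, rfl⟩
  | zero => simp
  | add a c _ _ ha hc => rw [mul_add, add_mul]; exact add_mem ha hc
  | smul c a _ ha => rw [mul_smul_comm, smul_mul_assoc]; exact Submodule.smul_mem _ _ ha

theorem Mk.w (h : x.Mk b) : ∃ t ∈ TA D, Mn 1 t ∧
    uu x.k⁻¹ * am (wb b (-1)) * uu x.k = t * am D.wm := by
  obtain ⟨t, h1, h2, h3⟩ := h.2
  exact ⟨t, h1, h2, by rw [wb, ww_neg, mul_assoc, ← h3, ← mul_assoc, uu_inv_mul, one_mul]⟩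

/-- elements of the group from relations -/
theorem of_rel (x : MP D η) {σ : GQ} {s : ℂ ≃+* ℂ} (hs : Ext j σ s) {u : Mi D.g Af}
    (hR : Rel s x.τ x.τ u) (h : ∀ z, u * am (D.rm z) = am (D.rm (al (η σ) z)) * u) :
    ∃ e : EE D η, sg e = σ ∧ uu e = uu x.k⁻¹ * u * uu x.k ∧ x.Fx j e := by
  obtain ⟨e, h1, h2⟩ := exists_EE (η := η) σ (At.of_comm (chi_ext hs ▸ hR.sim) h)
  have h3 : sg (x.k⁻¹ * e * x.k) = σ := by rw [map_mul, map_mul, map_inv, x.one, h1]; simp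
  refine ⟨x.k⁻¹ * e * x.k, h3, by rw [map_mul, map_mul, h2], x.fx_of (h3.symm ▸ hs) ?_⟩
  rwa [show x.k * (x.k⁻¹ * e * x.k) * x.k⁻¹ = e by group, h2]

theorem span_rm {t : Mi D.g Af} (ht : t ∈ Submodule.span Af (Set.range fun z => am (D.lb b z)))
    (z : D.B) : t * am (D.rm z) = am (D.rm z) * t :=
  (span_comm ht fun _ => (D.lm_rm _ _).symm).symm

end MP

/-- **CMFIX** for the elements which reverse the type -/
theorem cmfix_neg (D : QD) (η : GQ →* ℤˣ) (j : Qb →+* ℂ) (x : MP D η) (θ : D.L0) (h : x.Ck θ)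
    (σ : GQ) (hη : η σ = -1) (hσ : ∀ φ ∈ Ty j θ, (j (σ (φ θ))).im < 0) :
    ∃ e : EE D η, sg e = σ ∧ uu e * am D.wm ∈ TA D ∧ x.Fx j e := by
  have := D.ix_ne
  obtain ⟨b, m, -, rfl, h1, h2⟩ := h.ty
  obtain ⟨s, hs⟩ := exists_ext j σ
  obtain ⟨t, h3, h4⟩ := TP.cmfix (nor D.hI D.gen D.cjI D.z3 _) (fix_cj D.gen D.cjI) (D.lb_adj b) h2
    (D.typ_conj m) (wb_form b (-1)) (D.cs (-1)).toRingEquiv (wb_lb b (-1))
    (σ := s) fun ψ hψ => by
      obtain ⟨φ, rfl⟩ := emb_surj j ψ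
      rw [cs_neg]
      refine ⟨(s.toRingHom.comp (j.comp φ)).comp D.cj.toRingEquiv.toRingHom, ?_, fun z => ?_⟩
      · change 0 < (s (j (φ (D.cj _)))).im
        rw [h.2.1, hs, map_neg, map_neg, map_neg, Complex.neg_im, neg_pos]
        exact hσ φ hψ
      · change _ = s (j (φ (D.cj (D.cj z))))
        obtain ⟨a, c, rfl⟩ := D.gen z
        simp [D.cjI]
  obtain ⟨e, h5, h6, h7⟩ := x.of_rel hs h4 fun z => by
    rw [hη, mul_assoc, ← am_mul, wb_rm, am_mul, ← mul_assoc, MP.span_rm h3, mul_assoc]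
  obtain ⟨t0, h8, -, h9⟩ := h1.w
  refine ⟨e, h5, ?_, h7⟩
  rw [h6, ← mul_assoc, ← mul_one (_ * t), ← uu_mul_inv x.k, ← mul_assoc, mul_assoc _ (uu x.k⁻¹),
    mul_assoc _ (_ * am _), h9, mul_assoc, mul_assoc t0, ← am_mul, wm_sq, am_one, mul_one]
  exact ta_mul (h1.ta h3) h8

/-- **REAL** -/
theorem real : REAL := by
  intro N D η j x θ hD h c hc hη
  obtain ⟨b, m, -, rfl, h1, h2⟩ := h.ty
  obtain ⟨e, h5, h6, h7⟩ := x.of_rel (j := j) (σ := c) (s := cc) (fun a => (hc a).symm)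
    (h2.real (D.typ_conj m) D.conj_cj (by simp [wb_form b (-1)])
      fun z => D.cs_neg ▸ wb_lb b (-1) z) fun z => by rw [hη, ← am_mul, wb_rm, am_mul]
  obtain ⟨t, h8, h9, h10⟩ := h1.w
  have h11 := h6.trans h10
  refine ⟨e, h5, ⟨by rw [Int, h11]; exact Mn.mul (a := 1) (b := 1) h9 hD.lw, .inr ⟨h5 ▸ hη, ?_⟩⟩,
    h7, ext_EE ?_ ?_⟩
  · rwa [h11, mul_assoc, ← am_mul, wm_sq, am_one, mul_one]
  · rw [map_mul, h5, map_one]
    exact AlgEquiv.ext fun a => j.injective (by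
      rw [AlgEquiv.mul_apply, hc, hc, Complex.conj_conj, AlgEquiv.one_apply])
  · rw [map_mul, h6]
    simp only [wb, am_mul, mul_assoc]
    rw [← mul_assoc (uu x.k), uu_mul_inv, one_mul, ← mul_assoc (am (D.lm ↑b⁻¹)), ← am_mul, inv_lm,
      am_one, one_mul, ← mul_assoc (am (D.ww _)), ← am_mul, ww_sq, am_one, one_mul,
      ← mul_assoc (am _), ← am_mul, lm_inv, am_one, one_mul, uu_inv_mul, map_one]

/-- **STAB** -/
theorem stab_row : STAB := by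
  intro D η j x θ h
  have := D.ix_ne
  obtain ⟨b, m, -, rfl, h1, h2⟩ := h.ty
  refine ⟨fun z hz => ?_, fun e he hx ht => ?_⟩
  · have h3 := (rel_one h2.mem).nrm (D.lb_adj b) h2.hm hz
    rw [mul_one] at h3
    obtain ⟨e, h5, h6, h7⟩ := x.of_rel (j := j) (σ := 1) (fun _ => rfl) h3 fun y => by
      rw [map_one, al_one, ← am_mul, ← am_mul, lb_apply, D.lm_rm]
    exact ⟨e, h5, h6.trans (h1.lb z), h7⟩
  · have h3 := hx 1 fun a => by rw [he]; rfl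
    rw [map_mul, map_mul, ← mul_one (_ * uu x.k⁻¹)] at h3
    obtain ⟨y, h4, h5⟩ := cm_unq (D.lb_adj b) (t := 1) (w := 1) (Submodule.subset_span
      ⟨1, by simp only [map_one, am_one]⟩) (h1.of_ta ht) (by rw [mul_one]; exact rel_one h2.mem) h3
    refine ⟨y, h4, ?_⟩
    rw [mul_one, mul_one, mul_one] at h5
    rw [← h1.lb, ← h5, ← mul_assoc, ← mul_assoc, uu_inv_mul, one_mul, mul_assoc, uu_inv_mul,
      mul_one]

/-- **DEEP** -/
theorem deep : DEEP := by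
  intro D η j x θ h hη n hn
  have := D.ix_ne
  obtain ⟨b, m, -, rfl, h1, h2⟩ := h.ty
  obtain ⟨d, hd, H⟩ := h2.deep (D.typ_conj m) D.hI (lb_I b)
  obtain ⟨a, ha, Ha⟩ := exists_dm (uu x.k)
  obtain ⟨c, hc, Hc⟩ := exists_dm (uu x.k⁻¹)
  obtain ⟨N, h3, h4⟩ := opn_ext j x.alg (n := d * (c * (a * n))) (by positivity)
  refine ⟨N ⊓ η.ker, h3.inter hη, fun σ hσ => ?_⟩
  obtain ⟨s, hs⟩ := exists_ext j σ
  obtain ⟨u, h5, h6⟩ := h4 σ hσ.1 s hs
  have h7 := H s u h6 (h5.anti (dvd_mul_right _ _))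
  obtain ⟨e, h8, h9, h10⟩ := x.of_rel hs h6 fun z => by
    rw [show η σ = 1 from hσ.2, al_one, MP.span_rm h7]
  refine ⟨e, h8, ?_, h9 ▸ h1.ta h7, h10⟩
  have h11 := (Ha _ _ (Hc _ _ (h5.anti (dvd_mul_left _ _))).2).1
  rwa [mul_sub, sub_mul, mul_one, uu_inv_mul, ← h9] at h11

end Vale.Agent.P022K.PM
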