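import Vale.Agent.P022K.PM.Grp
import Vale.Agent.P022K.PM.Ck
import Vale.Agent.P022K.PM.Fxg
import Vale.Agent.P022K.PM.Dic2

/-!
# P022K / PM: twists of local sections and changes of the frame (helper22)
-/

open NumberField Matrix Quaternion

noncomputable section

namespace Vale.Agent.P022K.PM

open Vale.Agent.P022 Vale.Agent.P010MR Vale.Agent.P010MT8
open Vale.Agent.P022K.CH (Cp Kp Op red eps dt red_eq_iff red_add red_mul red_one red_zero)
open Vale.Agent.P022K.TP Gr QD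

variable {D : QD} {η : GQ →* ℤˣ} {j : Qb →+* ℂ} {Γ : Subgroup GQ} {N : ℕ}

theorem Ru.mul {R : Type} [CommMonoid R] {a b : R} (h : Ru a) (h' : Ru b) : Ru (a * b) := by
  obtain ⟨n, h1, h2⟩ := h
  obtain ⟨m, h3, h4⟩ := h'
  exact ⟨n * m, Nat.mul_pos h1 h3, by
    rw [mul_pow, pow_mul, h2, mul_comm n, pow_mul, h4, one_pow, one_pow, one_mul]⟩

theorem Ru.int {R : Type} [CommRing R] {a : R} (h : Ru a) : IsIntegral ℤ a :=
  let ⟨_, h1, h2⟩ := h; IsIntegral.of_pow h1 (h2 ▸ isIntegral_one)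

/-- roots of unity have norm one -/
theorem Ru.cj {z : D.L0} (h : Ru z) : z * D.cj z = 1 := by
  obtain ⟨n, h1, h2⟩ := h
  obtain ⟨φ⟩ := D.real_emb
  obtain ⟨x, y, rfl⟩ := D.gen z
  have e : (algebraMap _ _ x + algebraMap _ _ y * D.I) * D.cj (algebraMap _ _ x +
      algebraMap _ _ y * D.I) = algebraMap D.M0 D.L0 (x ^ 2 + y ^ 2) := by
    simp only [map_add, map_mul, map_pow, D.cj.commutes, D.cjI]
    linear_combination (-(algebraMap D.M0 D.L0 y) ^ 2) * D.hI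
  have h3 : (x ^ 2 + y ^ 2) ^ n = 1 := (algebraMap D.M0 D.L0).injective (by
    rw [map_pow, ← e, mul_pow, ← map_pow, h2, map_one, map_one, mul_one])
  let f := φ.comp (algebraMap D.M0 D.M)
  have h4 : f (x ^ 2 + y ^ 2) = f 1 := by
    rw [map_one]
    refine (pow_eq_one_iff_of_nonneg ?_ h1.ne').1 (by rw [← map_pow, h3, map_one])
    rw [map_add, map_pow, map_pow]
    positivity
  rw [e, f.injective h4, map_one]

theorem nt_iff {e : EE D η} : Nt e ↔ Int e ∧ uu e * am (D.ww (η (sg e))) ∈ TA D := by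
  refine and_congr_right fun _ => ?_
  rcases Int.units_eq_one_or (η (sg e)) with h | h <;> simp [h, ww_one, ww_neg, am_one]

/-- the normaliser acts on the torus -/
theorem Nt.comm {e : EE D η} (h : Nt e) (z : D.L0) :
    uu e * am (D.l0 z) = am (D.l0 (D.cs (η (sg e)) z)) * uu e := by
  have h1 : uu e = uu e * am (D.ww (η (sg e))) * am (D.ww (η (sg e))) := by
    rw [mul_assoc, ← am_mul, ww_sq, am_one, mul_one]
  rw [h1, mul_assoc _ _ (am _), ← am_mul, ww_l0, am_mul, ← mul_assoc,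
    ta_comm (nt_iff.1 h).2 (ta_l0 _), mul_assoc]

variable {p : ℕ} [Fact p.Prime]

/-- the matrix of an element of `L0` -/
def Em.dg {C : Type} [Field C] (μ : Em D C) (z : D.L0) : M2 C :=
  diagonal ![μ.z0 z, μ.z0 (D.cj z)]

theorem re_tw (μ : Em D (Cp p)) {e e' : EE D η} {z : D.L0} (h : uu e' = am (D.l0 z) * uu e) :
    re μ e' = μ.dg z * re μ e :=
  Rh.eq (by rw [mt_eq, h, map_mul, mp_am]; exact (rh_l0' μ z).mul (re_rh μ e))

theorem rat_tw {l : ℕ} {e e' : EE D η} {z : D.L0} (h : uu e' = am (D.l0 z) * uu e)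
    {a : Mi D.g ℚ} (ha : Rat l e a) : Rat l e' (D.l0 z * a) := fun r hr => by
  rw [mt_eq, h, map_mul, ← mt_eq, ha r hr]
  exact (congrArg (· * _) (mp_cA r _)).trans (Matrix.map_mul (f := Rat.castHom ℚ_[r.1])).symm

/-- **twist** by a cocycle with values in the roots of unity -/
theorem twist (ok : D.Ok N) {x : MP D η} {θ : D.L0} (hx : x.Ck θ) {s : Γ →* EE D η}
    (hs : Lp j x s) (hn : ∀ d, Nt (s d)) {c : Γ → D.L0} (h1 : ∀ d, Ru (c d))
    (h2 : ∀ d d' : Γ, c (d * d') = c d * D.cs (η d) (c d'))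
    (h3 : ∃ U : Subgroup GQ, IsOpen (U : Set GQ) ∧ ∀ d : Γ, d.1 ∈ U → c d = 1) :
    ∃ s' : Γ →* EE D η, Lp j x s' ∧ ∀ d, Nt (s' d) ∧ uu (s' d) = am (D.l0 (c d)) * uu (s d) := by
  choose t a1 a2 a3 using fun d => (stab_row D η j x θ hx).1 (c d) (h1 d).cj
  have a4 : ∀ d, sg (t d * s d) = d := fun d => by rw [map_mul, a1, one_mul, hs.sec.sg]
  let s' : Γ →* EE D η := MonoidHom.mk' (fun d => t d * s d) fun a b => ext_EE
    (by rw [map_mul sg (_ * _), a4, a4, a4]; rfl) (by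
      simp only [map_mul, a2]
      rw [mul_assoc (am _) (uu _), ← mul_assoc (uu _), (hn a).comm, hs.sec.sg, h2, l0_mul, am_mul]
      simp only [mul_assoc])
  have a5 : ∀ d, uu (s' d) = am (D.l0 (c d)) * uu (s d) := fun d => by rw [← a2, ← map_mul]; rfl
  have a6 : ∀ d, Int (s' d) := fun d =>
    Int.mul (by rw [Int, a2]; exact ok.lz _ (h1 d).int) (hs.int d)
  obtain ⟨U, hU, h3⟩ := h3
  refine ⟨s', ⟨⟨a4, fun n hn => ?_⟩, fun d => (fxg D η j x).2.1 _ _ (a3 d) (hs.fx d), a6⟩,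
    fun d => ⟨nt_iff.2 ⟨a6 d, ?_⟩, a5 d⟩⟩
  · obtain ⟨V, hV, h4⟩ := hs.sec.cts n hn
    exact ⟨U ⊓ V, hU.inter hV, fun d hd => by
      rw [Cn, a5, h3 d hd.1, l0_one, am_one, one_mul]; exact h4 d hd.2⟩
  · rw [a5, mul_assoc, show sg (s' d) = sg (s d) from (a4 d).trans (hs.sec.sg d).symm]
    exact ta_mul (ta_l0 _) (nt_iff.1 (hn d)).2

/-- `L0` contains the Teichmueller representatives -/
def TEI (μ : Em D (Cp p)) : Prop :=
  ∀ c ∈ c0 μ, ‖c‖ = 1 → ∃ ζ : D.L0, (∃ n, ¬ p ∣ n ∧ ζ ^ n = 1) ∧ ‖c - μ.z0 ζ‖ < 1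

namespace Ti

/-- a root of unity of order prime to `p` -/
def Pu {R : Type} [Monoid R] (p : ℕ) (z : R) : Prop := ∃ n, ¬ p ∣ n ∧ z ^ n = 1

theorem Pu.ru {R : Type} [Monoid R] {p : ℕ} {z : R} (h : Pu p z) : Ru z :=
  h.imp fun _ h => ⟨Nat.pos_of_ne_zero fun e => h.1 (e ▸ dvd_zero _), h.2⟩

theorem Pu.mul {R : Type} [CommMonoid R] {a b : R} (h : Pu p a) (h' : Pu p b) : Pu p (a * b) := by
  obtain ⟨n, h1, h2⟩ := h
  obtain ⟨m, h3, h4⟩ := h'
  exact ⟨n * m, fun e => ((Fact.out : p.Prime).dvd_mul.1 e).elim h1 h3, by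
    rw [mul_pow, pow_mul, h2, mul_comm n, pow_mul, h4, one_pow, one_pow, one_mul]⟩

theorem Pu.map {R S F : Type} [Monoid R] [Monoid S] [FunLike F R S] [MonoidHomClass F R S] {p : ℕ}
    {a : R} (h : Pu p a) (f : F) : Pu p (f a) :=
  h.imp fun _ h => ⟨h.1, by rw [← map_pow, h.2, map_one]⟩

theorem norm_ru {x : Cp p} (h : Ru x) : ‖x‖ = 1 :=
  let ⟨_, h1, h2⟩ := h
  (pow_eq_one_iff_of_nonneg (norm_nonneg _) h1.ne').1 (by rw [← norm_pow, h2, norm_one])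

theorem Pu.eq_one {x : Cp p} (h : Pu p x) (h' : red x = 1) : x = 1 := by
  let y : Op p := ⟨x, CH.mem_op.2 (norm_ru h.ru).le⟩
  obtain ⟨n, h1, h2⟩ := h
  have h3 : IsLocalRing.residue (Op p) y = 1 := (CH.red_coe y).symm.trans h'
  have h4 := mul_geom_sum y n
  rw [show y ^ n = 1 from Subtype.ext h2, sub_self, mul_eq_zero] at h4
  refine h4.elim (fun e => congrArg Subtype.val (sub_eq_zero.1 e)) fun e => absurd ?_ h1
  have := congrArg (IsLocalRing.residue (Op p)) e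
  simpa [h3, CharP.cast_eq_zero_iff (Kp p) p] using this

theorem dg_mul (μ : Em D (Cp p)) (a b : D.L0) : μ.dg (a * b) = μ.dg a * μ.dg b := by
  ext i k
  fin_cases i <;> fin_cases k <;> simp [Em.dg, ← Em.zH_apply]

theorem dg_one (μ : Em D (Cp p)) : μ.dg 1 = 1 := by
  ext i k
  fin_cases i <;> fin_cases k <;> simp [Em.dg, ← Em.zH_apply]

theorem dg_le (μ : Em D (Cp p)) {a : D.L0} (h : Pu p a) : Le (μ.dg a) 1 := fun i k => by
  have h1 := norm_ru (h.map μ.zH).ru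
  have h2 := norm_ru ((h.map D.cj).map μ.zH).ru
  fin_cases i <;> fin_cases k <;> simp [Em.dg, ← Em.zH_apply, h1, h2]

theorem re_comm (μ : Em D (Cp p)) {e : EE D η} (h : Nt e) (z : D.L0) :
    re μ e * μ.dg z = μ.dg (D.cs (η (sg e)) z) * re μ e := by
  have h1 := congrArg (mp (pp p)) (h.comm z)
  rw [map_mul, map_mul, mp_am, mp_am] at h1
  exact ((re_rh μ e).mul (rh_l0' μ z)).unq (h1 ▸ (rh_l0' μ _).mul (re_rh μ e))

theorem mo_ex {K : Type} [Field K] {s : ℤˣ} {a b : M2 K} (ha : Mo s a) (hb : Mo s b)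
    (hd : a.det = b.det) (h0 : a.det ≠ 0) : ∃ k, a 0 k ≠ 0 ∧ b 0 k ≠ 0 ∧
      ∀ u v, u * v = 1 → u * a 0 k = b 0 k → diagonal ![u, v] * a = b := by
  have h1 := hd ▸ h0
  rw [det_fin_two] at h0 h1
  rw [det_fin_two, det_fin_two] at hd
  rcases Int.units_eq_one_or s with rfl | rfl
  · obtain ⟨a1, a2⟩ := ha.1 rfl
    obtain ⟨b1, b2⟩ := hb.1 rfl
    simp only [a1, b1, zero_mul, sub_zero] at h0 h1 hd
    refine ⟨0, left_ne_zero_of_mul h0, left_ne_zero_of_mul h1, fun u v e e' => ?_⟩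
    have : v * a 1 1 = b 1 1 := mul_left_cancel₀ (left_ne_zero_of_mul h0) (by
      linear_combination v * hd - v * b 1 1 * e' + a 0 0 * b 1 1 * e)
    ext i k
    fin_cases i <;> fin_cases k <;> simp [*]
  · obtain ⟨a1, a2⟩ := ha.2 rfl
    obtain ⟨b1, b2⟩ := hb.2 rfl
    simp only [a1, b1, zero_mul, zero_sub, neg_inj, ne_eq, neg_eq_zero] at h0 h1 hd
    refine ⟨1, left_ne_zero_of_mul h0, left_ne_zero_of_mul h1, fun u v e e' => ?_⟩
    have : v * a 1 0 = b 1 0 := mul_left_cancel₀ (left_ne_zero_of_mul h0) (by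
      linear_combination v * hd - v * b 1 0 * e' + a 0 1 * b 1 0 * e)
    ext i k
    fin_cases i <;> fin_cases k <;> simp [*]

theorem norm_red {x : Cp p} (h : ‖x‖ ≤ 1) (h' : red x ≠ 0) : ‖x‖ = 1 :=
  h.antisymm (not_lt.1 fun e => h' (by rw [← red_zero, red_eq_iff h (by simp), sub_zero]; exact e))

theorem det_ne (ok : D.Ok N) (hp : p ∣ N) (μ : Em D (Cp p)) {e : EE D η} (h : Int e) :
    ((re μ e).map red).det ≠ 0 := left_ne_zero_of_mul_eq_one (b := ((re μ e⁻¹).map red).det) (by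
  rw [← det_mul, ← red_mm (ok.le_int hp μ h) (ok.le_int hp μ h.inv), ← re_mul, mul_inv_cancel,
    re_one, red_m1, det_one])

end Ti

open Ti

/-- **match**: a twist with prescribed reduction -/
theorem matc (ok : D.Ok N) (hp : p ∣ N) {μ : Em D (Cp p)} (io : μ.ι ∈ c0 μ) (hT : TEI μ)
    {x : MP D η} {θ : D.L0} (hx : x.Ck θ) {s : Γ →* EE D η} (hs : Lp j x s) (hn : ∀ d, Nt (s d))
    {b : Γ → M2 (Kp p)} (h0 : ∀ d d', b (d * d') = b d * b d')
    (h1 : ∃ U : Subgroup GQ, IsOpen (U : Set GQ) ∧ ∀ d : Γ, d.1 ∈ U → b d = 1)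
    (h2 : ∀ d : Γ, Mo (η d) (b d)) (h3 : ∀ d : Γ, (b d).det = red (eps p d))
    (h4 : ∀ d i k, ∃ y ∈ c0 μ, ‖y‖ ≤ 1 ∧ red y = b d i k) :
    ∃ (s' : Γ →* EE D η) (c : Γ → D.L0), Lp j x s' ∧ ∀ d, Nt (s' d) ∧
      uu (s' d) = am (D.l0 (c d)) * uu (s d) ∧ Pu p (c d) ∧ (re μ (s' d)).map red = b d := by
  have a1 := fun d => ok.le_int hp μ (hs.int d)
  have a2 := fun d => det_ne ok hp μ (hs.int d)
  have a3 : ∀ {z : D.L0}, Pu p z → red (μ.zH z) * red (μ.zH (D.cj z)) = 1 := fun h => by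
    rw [← red_mul (norm_ru (h.map _).ru).le (norm_ru ((h.map _).map _).ru).le, ← map_mul, h.ru.cj,
      map_one, red_one]
  have a4 : ∀ z, (μ.dg z).map red = diagonal ![red (μ.zH z), red (μ.zH (D.cj z))] := fun z => by
    ext i k
    fin_cases i <;> fin_cases k <;> simp [Em.dg, red_zero, Em.zH_apply]
  have ex : ∀ d, ∃ z, Pu p z ∧ (μ.dg z * re μ (s d)).map red = b d := fun d => by
    obtain ⟨k, b1, b2, b3⟩ := mo_ex (s := η d)
      ((mon_iff (a1 d)).1 (hs.sec.sg d ▸ (nt_mon μ (hn d)).mon)) (h2 d)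
      (by rw [← (red_det (a1 d)).2, re_eps, hs.sec.sg, h3]) (a2 d)
    obtain ⟨y, b4, b5, b6⟩ := h4 d 0 k
    have b7 := norm_red (a1 d 0 k) b1
    have b8 : ‖y / re μ (s d) 0 k‖ = 1 := by rw [norm_div, b7, norm_red b5 (b6 ▸ b2), div_one]
    obtain ⟨z, b9, b10⟩ := hT _ ((ok.kf hp μ).1 (div_mem ((ok.kf hp μ).2 b4)
      (re_mem (ok.sp hp io) _ _ _))) b8
    refine ⟨z, b9, ?_⟩
    rw [red_mm (dg_le μ b9) (a1 d), a4]
    refine b3 _ _ (a3 b9) ?_
    rw [← (red_eq_iff b8.le (norm_ru (Pu.map b9 μ.zH).ru).le).2 b10, map_apply,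
      ← red_mul b8.le b7.le, div_mul_cancel₀ _ (norm_ne_zero_iff.1 (b7 ▸ one_ne_zero)), b6]
  have un : ∀ d z z', Pu p z → Pu p z' → (μ.dg z * re μ (s d)).map red =
      (μ.dg z' * re μ (s d)).map red → z = z' := fun d z z' h h' e => by
    rw [red_mm (dg_le μ h) (a1 d), red_mm (dg_le μ h') (a1 d), a4, a4] at e
    have e1 := congrFun (congrFun ((((isUnit_iff_isUnit_det _).2 (a2 d).isUnit).mul_left_inj).1 e)
      0) 0
    simp only [diagonal_apply_eq, cons_val_zero] at e1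
    have e2 := ((h.mul (h'.map D.cj)).map μ.zH).eq_one (by
      rw [map_mul, red_mul (norm_ru (h.map _).ru).le (norm_ru ((h'.map _).map _).ru).le, e1, a3 h'])
    rw [map_eq_one_iff _ μ.zH.injective] at e2
    linear_combination z' * e2 - z * h'.ru.cj
  choose c c1 c2 using ex
  obtain ⟨U, hU, h1⟩ := h1
  obtain ⟨V, hV, h5⟩ := hs.sec.cts p (Fact.out : p.Prime).pos
  obtain ⟨s', d1, d2⟩ := twist ok hx hs hn (fun d => (c1 d).ru) (fun d d' =>
    un _ _ _ (c1 _) ((c1 d).mul ((c1 d').map _)) (by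
      rw [c2, h0, ← c2, ← c2, map_mul s, re_mul, dg_mul, mul_assoc (μ.dg _), ← mul_assoc (μ.dg _)
        (re μ _), ← hs.sec.sg d, ← re_comm μ (hn d), ← red_mm]
      · simp only [mul_assoc]
      · simpa using (dg_le μ (c1 d)).mul (a1 d)
      · simpa using (dg_le μ (c1 d')).mul (a1 d')))
    ⟨U ⊓ V, hU.inter hV, fun d hd => un d _ _ (c1 d) ⟨1, (Fact.out : p.Prime).not_dvd_one, by simp⟩
      (by rw [c2, h1 d hd.1, dg_one, one_mul, cn_red intr ok hp μ (h5 d hd.2)])⟩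
  exact ⟨s', c, d1, fun d => ⟨(d2 d).1, (d2 d).2, c1 d, by rw [re_tw μ (d2 d).2, c2]⟩⟩

/-- conjugates of sections -/
theorem Sec.cj {s : Γ →* EE D η} (h : Sec s) {k : EE D η} (hk : PM.sg k = 1) :
    Sec ((MulAut.conj k⁻¹).toMonoidHom.comp s) := by
  obtain ⟨a, ha, h1⟩ := exists_cont_r (m := Ix D.g) (uu k)
  obtain ⟨b, hb, h2⟩ := exists_cont_r (m := Ix D.g) (uu k⁻¹)ᵀ
  refine ⟨fun d => by simp [hk, h.sg], fun n hn => ?_⟩
  refine (h.cts (b * (a * n)) (by positivity)).imp fun U hU => ⟨hU.1, fun d hd => ?_⟩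
  have := h1 _ _ (h2 _ _ (Mn.tr (hU.2 d hd))).tr
  rw [← transpose_mul, transpose_transpose, mul_sub, sub_mul, mul_one, uu_inv_mul, ← map_mul,
    ← map_mul] at this
  simpa [Cn] using this

variable {q : ℕ} [Fact q.Prime] {μ : Em D (Cp p)} {μ' : Em D (Cp q)} {ρ : GQ →* GL (Fin 2) (Kp p)}

/-- **frame**: change of the frame at `μ` -/
theorem frame (h : Lv η N μ μ' ρ) {x : MP D η} {s : Γ →* EE D η} (hs : Lp j x s)
    (hm : ∀ d : Γ, Mon (η d) (re μ' (s d))) {g : M2 (Cp p)} (hg : ∀ i k, g i k ∈ c0 μ)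
    {c : Cp p} (hc : c ∈ c0 μ) (h1 : ‖g.det / c ^ 2 - 1‖ < 1)
    (h2 : ∀ d, Le (g⁻¹ * re μ (s d) * g) 1)
    (h3 : ∀ d : Γ, (g⁻¹ * re μ (s d) * g).map red = (ρ d : M2 (Kp p))) :
    ∃ (x' : MP D η) (s' : Γ →* EE D η) (z : GL (Fin 2) (Op p)), Lp j x' s' ∧
      GeneralLinearGroup.map (IsLocalRing.residue (Op p)) z = 1 ∧ ∀ d, Lg μ μ' ρ (s' d) ∧
      (((GeneralLinearGroup.map (Op p).subtype z)⁻¹ : GL (Fin 2) (Cp p)) * re μ (s' d) *
        (GeneralLinearGroup.map (Op p).subtype z : GL (Fin 2) (Cp p)) : M2 (Cp p)) =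
          g⁻¹ * re μ (s d) * g ∧
      ∀ r : Pr, r.1 ≠ p → mt (s' d) r = mt (s d) r := by
  obtain ⟨u, hu⟩ : ∃ u, u = g.det / c ^ 2 := ⟨_, rfl⟩
  rw [← hu] at h1
  have a1 : ‖u‖ = 1 := by
    rw [← sub_add_cancel u 1, IsUltrametricDist.norm_add_eq_max_of_norm_ne_norm
      (by rw [norm_one]; exact h1.ne), norm_one, max_eq_right h1.le]
  have a2 : u ≠ 0 := norm_ne_zero_iff.1 (a1 ▸ one_ne_zero)
  have a3 := (div_ne_zero_iff.1 (hu ▸ a2)).1
  have a4 : c ≠ 0 := fun e => a2 (by simp [hu, e])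
  let Z : M2 (Cp p) := diagonal ![u, 1]
  let W : M2 (Cp p) := diagonal ![u⁻¹, 1]
  have b1 : W * Z = 1 := by
    ext i k
    fin_cases i <;> fin_cases k <;> simp [W, Z, a2]
  have b2 : Le Z 1 := fun i k => by fin_cases i <;> fin_cases k <;> simp [Z, a1]
  have b3 : Le W 1 := fun i k => by fin_cases i <;> fin_cases k <;> simp [W, a1]
  have b4 : Z.map red = 1 := by
    rw [← red_m1, red_congr b2 le_one]
    intro i k
    fin_cases i <;> fin_cases k <;> simp [Z, h1]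
  have b5 : W.map red = 1 := by rw [← mul_one (W.map red), ← b4, ← red_mm b3 b2, b1, red_m1, b4]
  have kf := fun x => h.ok.kf h.hp μ (x := x)
  obtain ⟨κ, c1, c2, c3, c4⟩ := lift D η N p h.ok h.hp μ h.io (c⁻¹ • g * W) (by
    simp only [det_mul, det_smul, W, det_diagonal, Fin.prod_univ_two, cons_val_zero, cons_val_one,
      hu, Fintype.card_fin]
    field_simp) fun i k => by
      rw [← kf, mul_diagonal]
      refine mul_mem (mul_mem (inv_mem ((kf _).2 hc)) ((kf _).2 (hg _ _))) ?_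
      fin_cases k
      · refine inv_mem (hu ▸ div_mem ?_ (pow_mem ((kf _).2 hc) _))
        rw [det_fin_two]
        exact sub_mem (mul_mem ((kf _).2 (hg _ _)) ((kf _).2 (hg _ _)))
          (mul_mem ((kf _).2 (hg _ _)) ((kf _).2 (hg _ _)))
      · exact one_mem _
  have c5 : re μ κ * Z = c⁻¹ • g := by rw [c3, mul_assoc, b1, mul_one]
  have c6 : g⁻¹ = c⁻¹ • (W * re μ κ⁻¹) := inv_eq_left_inv (by
    rw [smul_mul_assoc, ← mul_smul_comm, ← c5, mul_assoc, ← mul_assoc (re μ _), ← re_mul,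
      inv_mul_cancel, re_one, one_mul, b1])
  have c7 : ∀ e, W * re μ (κ⁻¹ * e * κ) * Z = g⁻¹ * re μ e * g := fun e => by
    rw [re_mul, re_mul, mul_assoc, mul_assoc, c5, c6]
    simp only [mul_smul_comm, smul_mul_assoc, mul_assoc]
  have c8 : ∀ e, re μ (κ⁻¹ * e * κ) = Z * (g⁻¹ * re μ e * g) * W := fun e => by
    rw [← c7, ← mul_assoc, ← mul_assoc, mul_eq_one_comm.1 b1, one_mul, mul_assoc _ Z,
      mul_eq_one_comm.1 b1, mul_one]
  have c9 := fun d => (b2.mul (h2 d)).mul b3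
  simp only [mul_one, ← c8] at c9
  have d1 := fun d => (c4 _ (hs.int d)).1 (c9 d)
  have d2 : ∀ d, (MulAut.conj κ⁻¹).toMonoidHom.comp s d = κ⁻¹ * s d * κ := fun d => by simp
  have d3 : ∀ d, sg (κ⁻¹ * s d * κ) = d := fun d => by simp [c1, hs.sec.sg]
  let z : GL (Fin 2) (Op p) := ⟨of fun i k => ⟨Z i k, CH.mem_op.2 (b2 i k)⟩,
    of fun i k => ⟨W i k, CH.mem_op.2 (b3 i k)⟩,
    Matrix.map_injective Subtype.val_injective <| (Matrix.map_mul (f := (Op p).subtype)).trans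
      ((mul_eq_one_comm.1 b1).trans (Matrix.map_one _ rfl rfl).symm),
    Matrix.map_injective Subtype.val_injective <| (Matrix.map_mul (f := (Op p).subtype)).trans
      (b1.trans (Matrix.map_one _ rfl rfl).symm)⟩
  refine ⟨x.mv κ c1, _, z, ⟨hs.sec.cj c1, fun d => (x.fx_mv j c1 _).2 ?_, fun d => d2 d ▸ d1 d⟩,
    Units.ext ((Matrix.ext fun i k => (CH.red_coe _).symm).trans b4), fun d => d2 d ▸ ⟨⟨d1 d, ?_, ?_⟩,
      c7 _, fun r hr => ?_⟩⟩
  · simpa [mul_assoc] using hs.fx d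
  · rw [c8, red_mm (by simpa using b2.mul (h2 d)) b3, red_mm b2 (h2 d), b4, b5, h3, d3, one_mul,
      mul_one]
  · have e := re_rat c2 h.ne μ'
    have e' : re μ' κ⁻¹ = 1 := by rw [← mul_one (re μ' κ⁻¹), ← e, ← re_mul, inv_mul_cancel, re_one, e]
    rw [d3, re_mul, re_mul, e, e', one_mul, mul_one]
    exact hm d
  · have e : mp r (uu κ) = 1 := (c2 r hr).trans (Matrix.map_one _ (by simp) (by simp))
    have e' : mp r (uu κ⁻¹) = 1 := by
      rw [← mul_one (mp r (uu κ⁻¹)), ← e, ← map_mul, uu_inv_mul, map_one, e]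
    simp only [mt_eq, map_mul, e, e', one_mul, mul_one]

theorem Ti.le_inv {g : M2 (Cp p)} (h : Le g 1) (h' : ‖g.det‖ = 1) : Le g⁻¹ 1 := fun i k => by
  rw [Matrix.inv_def, Ring.inverse_eq_inv', Matrix.smul_apply, smul_eq_mul, norm_mul, norm_inv, h',
    inv_one, one_mul, adjugate_fin_two]
  fin_cases i <;> fin_cases k <;> simp [h _ _]

/-- **frame**, residual version -/
theorem frame_res (h : Lv η N μ μ' ρ) {x : MP D η} {s : Γ →* EE D η} (hs : Lp j x s)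
    (hm : ∀ d : Γ, Mon (η d) (re μ' (s d))) {g : M2 (Kp p)}
    (hg : ∀ i k, ∃ y ∈ c0 μ, ‖y‖ ≤ 1 ∧ red y = g i k) {c : Kp p}
    (hc : ∃ y ∈ c0 μ, ‖y‖ ≤ 1 ∧ red y = c) (h0 : c ≠ 0) (h1 : g.det = c ^ 2)
    (h2 : ∀ d : Γ, (re μ (s d)).map red * g = g * (ρ d : M2 (Kp p))) :
    ∃ (x' : MP D η) (s' : Γ →* EE D η), Lp j x' s' ∧ ∀ d, Lg μ μ' ρ (s' d) ∧
      ∀ r : Pr, r.1 ≠ p → mt (s' d) r = mt (s d) r := by
  choose y a1 a2 a3 using hg
  obtain ⟨c, a4, a5, rfl⟩ := hc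
  have b1 : Le (of y) 1 := a2
  have b2 : (of y).map red = g := Matrix.ext a3
  obtain ⟨b3, b4⟩ := red_det b1
  rw [b2, h1] at b4
  have b5 := norm_red a5 h0
  have b6 := norm_red b3 (b4 ▸ pow_ne_zero _ h0)
  have b7 := Ti.le_inv b1 b6
  have b8 := fun d => h.ok.le_int h.hp μ (hs.int d)
  obtain ⟨x', s', z, c1, -, c2⟩ := frame h hs hm (g := of y) a1 a4 (by
    rw [div_sub_one (pow_ne_zero _ (norm_ne_zero_iff.1 (b5 ▸ one_ne_zero))), norm_div, norm_pow, b5,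
      one_pow, div_one, ← red_eq_iff b3 (by simp [b5]), b4, sq, sq, red_mul a5 a5])
    (fun d => by simpa using (b7.mul (b8 d)).mul b1) fun d => by
      rw [red_mm (by simpa using b7.mul (b8 d)) b1, red_mm b7 (b8 d), b2, mul_assoc, h2,
        ← mul_assoc, ← b2, ← red_mm b7 b1, nonsing_inv_mul _ (norm_ne_zero_iff.1
          (b6 ▸ one_ne_zero)).isUnit, red_m1, one_mul]
  exact ⟨x', s', c1, fun d => ⟨(c2 d).1, (c2 d).2.2⟩⟩

end Vale.Agent.P022K.PM
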