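import Vale.Agent.P022K.PM.Pss
import Vale.Agent.P022K.PM.Twist
import Vale.Agent.P022K.PM.Field
import Vale.Agent.P022K.PM.St2

/-!
# P022K / PM: the local point at the auxiliary prime `q`
-/

set_option autoImplicit false

open NumberField Matrix

noncomputable section

namespace Vale.Agent.P022K.PM

open Vale.Agent.P022
open Vale.Agent.P022.H443 (inP)
open Vale.Agent.P022D.W (dec)
open Vale.Agent.P022E.GW (Ov Fb)
open Vale.Agent.P022K.CH (Cp Kp Id red eps red_eq_iff red_one red_mul)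
open Vale.Agent.P022K.CH.Weil
open QD Sc

variable {D : QD} {η : GQ →* ℤˣ} {N p q : ℕ} [hp : Fact p.Prime] [hq : Fact q.Prime] {P : Id}
  {μ : Em D (Cp p)} {μ' : Em D (Cp q)} {ρ : GQ →* GL (Fin 2) (Kp p)} {y : D.L0}

namespace Lpq

theorem norm_nat {n : ℕ} (h0 : 0 < n) (h : n < q) : ‖(n : Cp q)‖ = 1 :=
  Fld.norm_cop (Nat.not_dvd_of_pos_of_lt h0 h)

theorem norm_add1 {a b : Cp q} (h : ‖a‖ = 1) (h' : ‖b‖ < 1) : ‖a + b‖ = 1 := by
  rw [IsUltrametricDist.norm_add_eq_max_of_norm_ne_norm (h ▸ h'.ne'), h, max_eq_left h'.le]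

/-- an ordinary Weil number which is not a unit at `μ'` -/
structure Oy (μ' : Em D (Cp q)) (y : D.L0) : Prop where
  int : IsIntegral ℤ y
  nrm : y * D.cj y = q
  lt : ‖μ'.zH y‖ < 1
  ord : ∀ f : D.L0 →+* Cp q, ‖f y‖ = 1 ∨ ‖f (D.cj y)‖ = 1

theorem Oy.mul (h : Oy μ' y) {z : D.L0} (hz : Ru z) : Oy μ' (y * z) := by
  have n1 : ∀ f : D.L0 →+* Cp q, ‖f z‖ = 1 := fun f => Ti.norm_ru (hz.imp fun n e =>
    ⟨e.1, by rw [← map_pow, e.2, map_one]⟩)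
  refine ⟨h.int.mul hz.int, by rw [map_mul, mul_mul_mul_comm, h.nrm, hz.cj, mul_one],
    by rw [map_mul, norm_mul, n1, mul_one]; exact h.lt, fun f => ?_⟩
  simpa only [map_mul, norm_mul, n1, mul_one, show ‖f (D.cj z)‖ = 1 from
    n1 (f.comp D.cj.toRingEquiv.toRingHom)] using h.ord f

theorem Oy.tr (h : Oy μ' y) (f : D.L0 →+* Cp q) : ‖f (y + D.cj y)‖ = 1 := by
  have e : ‖f y‖ * ‖f (D.cj y)‖ < 1 := by
    rw [← norm_mul, ← map_mul, h.nrm, map_natCast]; exact CH.norm_p_lt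
  rw [map_add]
  rcases h.ord f with a | a
  · exact norm_add1 a (by rwa [a, one_mul] at e)
  · rw [add_comm]; exact norm_add1 a (by rwa [a, mul_one] at e)

theorem Oy.unit (h : Oy μ' y) : ‖μ'.zH (D.cj y)‖ = 1 := (h.ord _).resolve_left h.lt.ne

theorem Oy.norm (h : Oy μ' y) (hn : p ≠ q) (f : D.L0 →+* Cp p) : ‖f y‖ = 1 := by
  have h1 := Dat.norm_int f h.int
  have h2 := Dat.norm_int f (cj_int h.int)
  have h3 := congrArg (fun a => ‖f a‖) h.nrm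
  simp only [map_mul, norm_mul, map_natCast] at h3
  rw [Fld.norm_cop fun e => hn ((Nat.prime_dvd_prime_iff_eq hp.out hq.out).1 e)] at h3
  nlinarith [norm_nonneg (f y)]

theorem ex_oy (μ' : Em D (Cp q)) (h : q % 4 = 1) : ∃ y, Oy μ' y := by
  obtain ⟨a, b, e⟩ := Nat.Prime.sq_add_sq (p := q) (by omega)
  have a0 : 0 < a := Nat.pos_of_ne_zero fun h0 => by
    have := hq.out
    rw [← e, h0, zero_pow two_ne_zero, zero_add] at this
    simpa using this.eq_one_of_pow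
  have q2 := hq.out.two_le
  have key : ∀ I : D.L0, I ^ 2 = -1 → D.cj I = -I → ‖μ'.zH (a + b * I)‖ < 1 → ∃ y, Oy μ' y :=
    fun I h1 h2 h3 => by
    have c : D.cj (a + b * I) = a - b * I := by simp [h2, sub_eq_add_neg]
    have hi : IsIntegral ℤ (a + b * I) := (isIntegral_natCast a).add
      ((isIntegral_natCast b).mul (.of_pow two_pos (h1 ▸ isIntegral_one.neg)))
    refine ⟨_, hi, by rw [c, ← e]; push_cast; linear_combination (-(b : D.L0) ^ 2) * h1, h3,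
      fun f => ?_⟩
    have h4 := IsUltrametricDist.norm_add_le_max (f (a + b * I)) (f (D.cj (a + b * I)))
    rw [← map_add, show a + b * I + D.cj (a + b * I) = (2 : ℕ) * a by rw [c]; push_cast; ring,
      map_mul, map_natCast, map_natCast, norm_mul, norm_nat two_pos (by omega),
      norm_nat a0 (by nlinarith), mul_one, le_max_iff] at h4
    exact h4.imp (Dat.norm_int f hi).antisymm (Dat.norm_int f (cj_int hi)).antisymm
  by_cases h3 : ‖μ'.zH (a + b * D.I)‖ < 1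
  · exact key _ D.hI D.cjI h3
  refine key (-D.I) (by rw [neg_sq, D.hI]) (by rw [map_neg, D.cjI]) ?_
  have e' : ‖μ'.zH (a + b * D.I)‖ * ‖μ'.zH (a + b * -D.I)‖ < 1 := by
    rw [← norm_mul, ← map_mul, show (a + b * D.I) * (a + b * -D.I) = q by
      rw [← e]; push_cast; linear_combination (-(b : D.L0) ^ 2) * D.hI, map_natCast]
    exact CH.norm_p_lt
  nlinarith [norm_nonneg (μ'.zH (a + b * -D.I))]

theorem lpq0 (hC : CMET) (j : Qb →+* ℂ) (h : Lv η N μ μ' ρ) (hP : Ov q P)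
    (h1 : ∀ d ∈ dec P, ρ d = 1 ∧ η d = 1) (hy : Oy μ' y) (b1 : red (μ.zH y) = 1)
    (b3 : ‖μ'.zH (y + D.cj y) ^ 2 - 1‖ = 1) :
    ∃ (x : MP D η) (s : dec P →* EE D η), (Lp j x s ∧ ∀ d, Lg μ μ' ρ (s d)) ∧ Atq μ μ' P s := by
  obtain ⟨θ, x, s, -, -, a1, a2, a3⟩ :=
    pss hC h.ok h.eta j hP (fun d hd => (h1 d hd).2) hy.int hy.nrm hy.tr
  have tr : ∀ (r : ℕ) [Fact r.Prime], r ≠ q → ∀ (ν : Em D (Cp r)) k (d : dec P), Fb (q ^ k) P d →
      re ν (s d) = diagonal ![ν.zH y ^ k, ν.zH (D.cj y) ^ k] := fun r _ hr ν k d hd => by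
    rw [re_rat ν (a3 k d hd).1 hr, map_pow, ← map_pow ν.zH, ← map_pow ν.zH]; rfl
  have n1 := Dat.norm_int μ.zH hy.int
  have n2 := Dat.norm_int μ.zH (cj_int hy.int)
  have b2 : red (μ.zH (D.cj y)) = 1 := by
    obtain ⟨φ, hφ⟩ := P022D.W.exists_phi hP.1 hP.2.1 hP.2.2
    have f1 : Fb (q ^ 1) P φ := (pow_one q).symm ▸ hφ
    have e := re_eps μ (s ⟨φ, CH.Weil.fb_dec hP f1⟩)
    have e' := h.det φ
    rw [tr p h.ne μ 1 _ f1, det_diagonal, Fin.prod_univ_two, a1.sec.sg] at e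
    simp only [cons_val_zero, cons_val_one, pow_one] at e
    rw [CH.dt, (h1 φ (CH.Weil.fb_dec hP f1)).1, ← e, Units.val_one, det_one, red_mul n1 n2,
      b1, one_mul] at e'
    exact e'.symm
  obtain ⟨m, hm⟩ : ∃ m : D.M0, algebraMap _ _ m = y + D.cj y := by
    obtain ⟨u, v, rfl⟩ := D.gen y
    exact ⟨u + u, by simp [D.cjI, add_add_add_comm]⟩
  have ev : ∀ (r : ℕ) [Fact r.Prime] (ν : Em D (Cp r)),
      ν.ev (algebraMap _ _ m, 0) = ν.zH (y + D.cj y) := fun r _ ν => by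
    rw [← hm, Em.zH_apply, Fld.z0_alg]; simp [Em.ev]
  refine ⟨x, s, ⟨a1, fun d => ⟨a1.int d, ?_, (Gr.nt_mon μ' ⟨a1.int d, .inl
    ⟨by rw [a1.sec.sg, (h1 d d.2).2], a2 d⟩⟩).mon⟩⟩, fun d hd => ?_,
    fun d hd => ⟨(algebraMap _ _ m, 0), fun r _ hr ν => ?_, fun ν => ev q ν ▸ hy.tr _, ev q μ' ▸ b3⟩⟩
  · obtain ⟨U, u1, u2⟩ := a1.sec.cts p hp.out.pos
    obtain ⟨u, u3, d0, u4, k, u5, u6, u7⟩ :=
      dense hP (V := ⊤) isOpen_univ le_rfl inf_le_left u1 d.2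
    obtain rfl : d = ⟨u, u3⟩ * ⟨d0, u4⟩ := Subtype.ext u7
    rw [a1.sec.sg, (h1 _ (Subtype.prop _)).1, map_mul, re_mul,
      Gr.red_mm (h.ok.le_int h.hp μ (a1.int _)) (h.ok.le_int h.hp μ (a1.int _)),
      Gr.cn_red intr h.ok h.hp μ (u2 _ u5), one_mul, tr p h.ne μ k _ u6,
      diagonal_map CH.red_zero, Units.val_one, ← diagonal_one]
    refine congrArg diagonal (funext fun i => ?_)
    fin_cases i
    exacts [(red_pow n1 k).trans (by rw [b1, one_pow]), (red_pow n2 k).trans (by rw [b2, one_pow])]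
  · have f0 := (fb_zero (l := q)).2 hd
    exact ⟨by rw [tr p h.ne μ 0 d f0]; simp [one_add_one_eq_two],
      by rw [((a3 0 d f0).2 μ').2 hy.unit]; simp⟩
  · rw [tr r hr ν 1 d ((pow_one q).symm ▸ hd), trace_diagonal, Fin.sum_univ_two, ev, map_add]
    simp

theorem Oy.sq (h : Oy μ' y) : ‖μ'.zH (y + D.cj y) ^ 2 - 1‖ = 1 ↔ red (μ'.zH (D.cj y)) ^ 2 ≠ 1 := by
  have h1 : red (μ'.zH (y + D.cj y)) = red (μ'.zH (D.cj y)) :=
    (red_eq_iff (h.tr _).le h.unit.le).2 (by simpa using h.lt)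
  have h2 : ‖μ'.zH (y + D.cj y) ^ 2‖ = 1 := by rw [norm_pow, h.tr, one_pow]
  rw [← h1, ← red_pow (h.tr _).le, ← red_one, Ne, red_eq_iff h2.le norm_one.le, not_lt]
  refine ⟨Eq.ge, le_antisymm ?_⟩
  exact (sub_eq_add_neg (_ : Cp q) 1).symm ▸ (IsUltrametricDist.norm_add_le_max _ _).trans
    (max_le h2.le (by simp))

theorem ru_map {R S F : Type} [Monoid R] [Monoid S] [FunLike F R S] [MonoidHomClass F R S] {a : R}
    (h : Ru a) (f : F) : Ru (f a) := h.imp fun _ e => ⟨e.1, by rw [← map_pow, e.2, map_one]⟩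

theorem lpq1 (hC : CMET) (j : Qb →+* ℂ) (h : Lv η N μ μ' ρ) (hP : Ov q P)
    (h1 : ∀ d ∈ dec P, ρ d = 1 ∧ η d = 1) (h4 : q % 4 = 1) (hT : Tei μ)
    (bq : ∀ a : D.L0, IsIntegral ℤ a → a ≠ 0 → (∀ φ : D.L0 →+* ℂ, ‖φ a‖ ≤ 2 * (p + 1) ^ 2) →
      ‖μ'.z0 a‖ = 1) {z : D.L0} (z1 : IsPrimitiveRoot z (p ^ 2)) :
    ∃ (x : MP D η) (s : dec P →* EE D η), (Lp j x s ∧ ∀ d, Lg μ μ' ρ (s d)) ∧ Atq μ μ' P s := by
  obtain ⟨y, o0⟩ := ex_oy μ' h4
  obtain ⟨t, t1, t3⟩ := hT (μ.zH y) ((val D η N p h.ok h.hp μ h.io).2.1 ▸ subset_closure ⟨y, rfl⟩)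
    (o0.norm h.ne μ.zH)
  have t2 := Ti.Pu.ru t1
  have t4 := ru_map t2 D.cj
  have o1 := o0.mul t4
  have n := fun {a : D.L0} (ha : Ru a) => (Ti.norm_ru (ru_map ha μ.zH)).le
  have b1 : red (μ.zH (y * D.cj t)) = 1 := by
    rw [map_mul, red_mul (o0.norm h.ne _).le (n t4), (red_eq_iff (o0.norm h.ne _).le (n t2)).2 t3,
      ← red_mul (n t2) (n t4), ← map_mul, t2.cj, map_one, red_one]
  by_cases b2 : red (μ'.zH (D.cj (y * D.cj t))) ^ 2 = 1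
  swap
  · exact lpq0 hC j h hP h1 o1 b1 (o1.sq.2 b2)
  have z2 : Ru z := ⟨_, pow_pos hp.out.pos 2, z1.pow_eq_one⟩
  have z3 := ru_map z2 D.cj
  have z4 := (Ti.norm_ru (ru_map z3 μ'.zH)).le
  have : ExpChar (Kp p) p := ExpChar.prime hp.out
  refine lpq0 hC j h hP h1 (o1.mul z2) ?_ ((o1.mul z2).sq.2 fun e => ?_)
  · rw [map_mul, red_mul (o1.norm h.ne _).le (n z2), b1, one_mul, ← pow_one (red _),
      ← ExpChar.pow_prime_pow_mul_eq_one_iff p 2, mul_one, ← red_pow (n z2), ← map_pow,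
      z1.pow_eq_one, map_one, red_one]
  rw [map_mul, map_mul μ'.zH, red_mul o1.unit.le z4, mul_pow, b2, one_mul, ← red_pow z4, ← red_one,
    red_eq_iff (by rw [norm_pow]; exact pow_le_one₀ (norm_nonneg _) z4) norm_one.le,
    ← map_pow, ← map_one μ'.zH, ← map_sub] at e
  refine e.ne (bq _ ((z3.int.pow 2).sub isIntegral_one) (sub_ne_zero.2 fun e => ?_) fun φ => ?_)
  · have := Nat.le_of_dvd two_pos (z1.dvd_of_pow_eq_one 2
      (D.cj.injective (by rw [map_pow, e, map_one])))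
    nlinarith [hp.out.two_le]
  · have h5 := norm_sub_le (φ (D.cj z) ^ 2) 1
    rw [norm_pow, Sc.norm_one z3.cj, NormOneClass.norm_one] at h5
    rw [map_sub, map_pow, map_one]
    nlinarith [(Nat.cast_nonneg p : (0 : ℝ) ≤ p)]

end Lpq

/-- **LPQ** -/
theorem lpq (hC : CMET) : LPQ := fun p hp ι ρ _ => by
  have : NeZero (p ^ 2) := ⟨pow_ne_zero 2 hp.out.ne_zero⟩
  obtain ⟨ζ, hζ⟩ := HasEnoughRootsOfUnity.exists_primitiveRoot Qb (p ^ 2)
  refine ⟨∅, {ζ}, by simpa using Fld.cmn_root this.ne hζ.pow_eq_one,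
    fun q _ ι' C ok has h4 P hP h1 => ?_⟩
  obtain ⟨z, hz⟩ := has.2 ζ (by simp)
  obtain ⟨x, s, h2, h3⟩ := Lpq.lpq1 hC C.j ok.lv hP h1 h4 ok.tei ok.bq
    ((show IsPrimitiveRoot (C.ν.zH z) (p ^ 2) by
      rw [Em.zH_apply, hz]; exact hζ).of_map_of_injective C.ν.zH.injective)
  exact ⟨x, s, ⟨h2.1, h2.2⟩, h3⟩

end Vale.Agent.P022K.PM
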