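import Vale.Agent.P022K.MB.Alg
import Vale.Agent.P022K.Glue.Gal

/-!
# P022K / PM: twisted Moret-Bailly, statements (helper22)
-/

namespace Vale.Agent.P022K.PM

open Polynomial Vale.Agent.P022 Vale.Agent.P022K.MB

/-- the decomposition group of an absolute value -/
def stab (v : AbsoluteValue Qb ℝ) : Subgroup GQ where
  carrier := {g | ∀ x, v (g x) = v x}
  mul_mem' {g h} hg hh x := by rw [AlgEquiv.mul_apply, hg, hh]
  one_mem' _ := rfl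
  inv_mem' {g} hg x := by rw [← hg]; exact congrArg v (g.apply_symm_apply x)

/-- `v` is a place above `p` (the infinite place for `p = 0`) -/
def IsPl (p : ℕ) (v : AbsoluteValue Qb ℝ) : Prop :=
  (p = 0 ∧ ∃ φ : Qb →+* ℂ, ∀ x, v x = ‖φ x‖) ∨
    ∃ (_ : Fact p.Prime) (j : Qb →+* PadicAlgCl p), ∀ x, v x = ‖j x‖

/-- `D` is an open normal subgroup of the decomposition group -/
def Dec (v : AbsoluteValue Qb ℝ) (D : Subgroup GQ) : Prop :=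
  D ≤ stab v ∧ (∀ g ∈ stab v, ∀ d ∈ D, g * d * g⁻¹ ∈ D) ∧
    ∃ N : Subgroup GQ, IsOpen (N : Set GQ) ∧ N ⊓ stab v ≤ D

/-- the group of the Galois closure of the field of definition of a point -/
def fixP {R : Type*} [CommRing R] [Algebra ℚ R] (P : R →ₐ[ℚ] Qb) : Subgroup GQ where
  carrier := {h | ∀ (τ : GQ) (r : R), h (τ (P r)) = τ (P r)}
  mul_mem' {g h} hg hh τ r := by rw [AlgEquiv.mul_apply, hh, hg]
  one_mem' _ _ := rfl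
  inv_mem' {g} hg τ r := g.injective ((g.apply_symm_apply _).trans (hg τ r).symm)

/-- MBV: Moret-Bailly over `ℚ` in the language of `ℚ̄` -/
def MBV : Prop :=
  ∀ (ι : Type) [Finite ι] (p : ι → ℕ), Function.Injective p →
    ∀ v : ι → AbsoluteValue Qb ℝ, (∀ i, IsPl (p i) (v i)) →
    ∀ D : ι → Subgroup GQ, (∀ i, Dec (v i) (D i)) →
    ∀ (R : Type) [CommRing R] [IsDomain R] [Algebra ℚ R] [Algebra.FiniteType ℚ R],
    (∀ z : FractionRing R, IsAlgebraic ℚ z → ∃ c : ℚ, algebraMap ℚ (FractionRing R) c = z) →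
    ∀ (J : Type) [Finite J] (g : J → R) (w : ι → J → Qb) (ε : ℝ),
    (∀ i (a : R), a ≠ 0 → ∃ Q : R →ₐ[ℚ] Qb, Q a ≠ 0 ∧ (∀ d ∈ D i, ∀ r, d (Q r) = Q r) ∧
      ∀ n, v i (Q (g n) - w i n) < ε) →
    ∀ δ : R, δ ≠ 0 → ∀ U : Subgroup GQ, IsOpen (U : Set GQ) →
    ∃ P : R →ₐ[ℚ] Qb, P δ ≠ 0 ∧ Glue.Dsj (fixP P) U ∧ ∀ (i : ι) (σ : GQ),
      (∀ d ∈ D i, ∀ r, d (σ (P r)) = σ (P r)) ∧
        ∃ d ∈ stab (v i), ∀ n, v i (d (σ (P (g n))) - w i n) < ε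

/-- `y` lies in a standard etale chart of `Spec A` -/
def Sm {K A : Type} [Field K] [CommRing A] [Algebra K A] (y : A →ₐ[K] K) : Prop :=
  ∃ (n : ℕ) (t : Fin n → A) (u : A) (f h : (MvPolynomial (Fin n) K)[X]),
    (∀ q, evl K t u q = 0 ↔ f ∣ q) ∧ (∀ r, ∃ (m : ℕ) (q : _), evl K t u h ^ m * r = evl K t u q) ∧
      y (evl K t u h) ≠ 0 ∧ y (evl K t u (derivative f)) ≠ 0

/-- TWMB: twisted Moret-Bailly.  The point `e ⋆ Y` is `r ↦ π e (Y (e⁻¹ • r))`. -/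
def TWMB : Prop :=
  ∀ (A : Type) [CommRing A] [IsDomain A] [Algebra Qb A] (E : Type) [Group E]
    [MulSemiringAction E A] (π : E →* GQ), Function.Surjective π →
    (∀ (e : E) (c : Qb), e • algebraMap Qb A c = algebraMap Qb A (π e c)) →
    ∀ (Eb : Type) [Group Eb] [Finite Eb] (κ : E →* Eb), (∀ e, π e = 1 → κ e = 1 → e = 1) →
    ∀ (J : Type) [Finite J] (a : J → A), Algebra.adjoin Qb (Set.range a) = ⊤ →
    (∃ N : Subgroup GQ, IsOpen (N : Set GQ) ∧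
      ∀ σ ∈ N, ∃ e, π e = σ ∧ κ e = 1 ∧ ∀ j, e • a j = a j) →
    ∀ (ι : Type) [Finite ι] (p : ι → ℕ), Function.Injective p →
    ∀ v : ι → AbsoluteValue Qb ℝ, (∀ i, IsPl (p i) (v i)) →
    ∀ D : ι → Subgroup GQ, (∀ i, Dec (v i) (D i)) →
    ∀ s : ∀ i, D i →* E, (∀ i d, π (s i d) = d) →
    (∀ i, ∃ N : Subgroup GQ, IsOpen (N : Set GQ) ∧ ∀ d : D i, (d : GQ) ∈ N → κ (s i d) = 1) →
    ∀ y : ι → (A →ₐ[Qb] Qb), (∀ i, Sm (y i)) →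
    (∀ i (d : D i) r, y i (s i d • r) = (d : GQ) (y i r)) →
    ∀ ε : ℝ, 0 < ε → ∀ δ : A, δ ≠ 0 → ∀ U : Subgroup GQ, IsOpen (U : Set GQ) →
    ∃ (H : Subgroup GQ) (S : H →* E) (Y : A →ₐ[Qb] Qb), H.Normal ∧ IsOpen (H : Set GQ) ∧
      Glue.Dsj H U ∧ (∀ h, π (S h) = h) ∧
      (∃ N : Subgroup GQ, IsOpen (N : Set GQ) ∧ ∀ h : H, (h : GQ) ∈ N → κ (S h) = 1) ∧
      (∀ (h : H) r, Y (S h • r) = (h : GQ) (Y r)) ∧ (∀ e : E, Y (e • δ) ≠ 0) ∧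
      ∀ (i : ι) (g : GQ), ∃ e : E, π e * g⁻¹ ∈ stab (v i) ∧ (D i = stab (v i) → π e = g) ∧
        (∀ d : D i, ∃ h : H, e * S h * e⁻¹ = s i d) ∧
        ∀ j, v i (π e (Y (e⁻¹ • a j)) - y i (a j)) < ε

end Vale.Agent.P022K.PM
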