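import Vale.Agent.P022K.MB.MBV
import Vale.Agent.P022K.PM.TwSt

/-!
# P022K / PM: the statement `PM.MBV` holds (bridge to `MB.mbv`)
-/

namespace Vale.Agent.P022K.PM

theorem stab_eq : @stab = @MB.stab := rfl

theorem isPl_eq : @IsPl = @MB.IsPl := rfl

theorem dec_eq : @Dec = @MB.Dec := rfl

theorem mbv : MBV := MB.mbv

end Vale.Agent.P022K.PM
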