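import Vale.Agent.P022K.PM.Cm2
import Vale.Agent.P022K.PM.St

/-!
# P022K / PM: rows CMEX, THETA, CMFIX; the type of a marked point (helper99)
-/

open NumberField Matrix Quaternion Polynomial

noncomputable section

namespace Vale.Agent.P022K.TP

open P010MR P010M71 P010MT8

/-- the type is determined by one element -/
theorem ty_of_one {g : ℕ} {τ : Mc g} {L : Type} [Field L] [NumberField L] (l : L →+* Mi g ℚ)
    (hτ : τ ∈ Hg g) {θ : L} (hθ : Hm τ τ (l θ)) (h : ∀ a, La τ τ (l θ) a →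
      ∀ (c : ℂ) (y : Fin g → ℂ), y ≠ 0 → a *ᵥ y = c • y → 0 < c.im) :
    Ty τ l {ψ | 0 < (ψ θ).im} := by
  classical
  obtain ⟨a, ha⟩ := exists_la hθ
  have h1 : ∀ (s : Finset (L →+* ℂ)) (c : (L →+* ℂ) → ℂ), (∀ i ∈ s, ¬ 0 < (c i).im) → ∀ v,
      aeval (cm (l θ)) (∏ i ∈ s, (X - C (c i))) *ᵥ v = 0 → zc τ v = 0 := fun s c hs v e => by
    by_contra h0
    obtain ⟨i, hi, Q, h1, h2⟩ := exists_eig a s c h0
      (by rw [← ha.aeval, e]; exact (zl τ).map_zero)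
    exact hs i hi (h a ha _ _ h1 h2)
  have h2 : ∀ z, Hm τ τ (l z) := fun z => hm_iff_zc.2 fun v hv => by
    refine h1 (Finset.univ.filter fun ψ => ¬ 0 < (ψ θ).im) (fun ψ => ψ θ)
      (fun _ hi => (Finset.mem_filter.1 hi).2) _ ?_
    rw [mulVec_mulVec, ← aeval_comm (A := cm (l θ))
      (by rw [← cm_mul, ← cm_mul, ← map_mul, ← map_mul, mul_comm]), ← mulVec_mulVec,
      eq_zero_of_zc hτ (v := aeval _ _ *ᵥ v) (by rw [ha.aeval, hv, mulVec_zero]) ?_, mulVec_zero]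
    refine h1 (Finset.univ.filter fun ψ => 0 < (ψ θ).im) (fun ψ => star (ψ θ))
      (fun ψ hψ => by simpa using (Finset.mem_filter.1 hψ).2.le) _ ?_
    refine (star_aeval _ _ (fun ψ : L →+* ℂ => ψ θ) _).symm.trans ?_
    rw [mulVec_mulVec, ← map_mul, Finset.prod_filter_mul_prod_filter_not, kill, zero_mulVec,
      star_zero]
  refine ⟨hτ, h2, fun z a' ha' c y hy e => ?_⟩
  obtain ⟨v, hv, e1, e2⟩ := ha'.lift hτ hy e
  obtain ⟨ψ, w, ⟨e3, e4⟩, hw, h8⟩ := Cme.exists_eig l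
    (LinearMap.eqLocus (cx (Jm τ)).mulVecLin (Complex.I • .id) ⊓
      LinearMap.eqLocus (Cme.lc l z).mulVecLin (c • .id)) (fun x u ⟨h, h'⟩ => ⟨by
      change cx (Jm τ) *ᵥ Cme.lc l x *ᵥ u = Complex.I • Cme.lc l x *ᵥ u
      rw [mulVec_mulVec, ← Cme.cx_lr, ← cx_mul, show Jm τ * Cme.lr l x = Cme.lr l x * Jm τ from
        ((hm_iff_jm hτ hτ).1 (h2 x)).symm, cx_mul, ← mulVec_mulVec,
        show cx (Jm τ) *ᵥ u = Complex.I • u from h, mulVec_smul], by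
      change Cme.lc l z *ᵥ Cme.lc l x *ᵥ u = c • Cme.lc l x *ᵥ u
      rw [mulVec_mulVec, ← map_mul, mul_comm, map_mul, ← mulVec_mulVec,
        show Cme.lc l z *ᵥ u = c • u from h', mulVec_smul]⟩) (v := v) ⟨e1, e2⟩ hv
  refine ⟨ψ, h a ha _ (zc τ w) (fun e => hw ?_) ?_, smul_left_injective ℂ hw (e4.symm.trans (h8 z))⟩
  · have h3 : Complex.I • w = -Complex.I • w := e3.symm.trans (jm_per hτ e)
    have h4 : (2 * Complex.I) • w = 0 := by linear_combination (norm := module) h3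
    exact (smul_eq_zero.1 h4).resolve_left (by simp)
  · rw [← ha, ← zc_smul, ← h8]; rfl

end Vale.Agent.P022K.TP

namespace Vale.Agent.P022K.PM

open Vale.Agent.P022 Vale.Agent.P010MR Vale.Agent.P010MT8 Vale.Agent.P022K.TP

namespace QD

variable (D : QD)

/-- `w ^ ε` -/
def ww (s : ℤˣ) : Mi D.g ℚ := if s = 1 then 1 else D.wm

/-- `cj ^ ε` -/
def cs (s : ℤˣ) : D.L0 ≃ₐ[D.M0] D.L0 := if s = 1 then 1 else D.cj

theorem ww_one : D.ww 1 = 1 := if_pos rfl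
theorem ww_neg : D.ww (-1) = D.wm := if_neg (by decide)
theorem cs_one (z : D.L0) : D.cs 1 z = z := by simp [cs]
theorem cs_neg : D.cs (-1) = D.cj := if_neg (by decide)

theorem ww_ap (s : ℤˣ) (x : D.B) : D.ww s *ᵥ D.e x = D.e (al s x) := by
  rcases Int.units_eq_one_or s with rfl | rfl
  · rw [ww_one, al_one, one_mulVec]
  · rw [ww_neg, wm, ← mulVec_mulVec, rm_ap, lm_ap]
    have := D.beta_ne
    congr 1
    ext <;> simp [al, sc_eq, bj] <;> field_simp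

theorem ww_lm (s : ℤˣ) (b : D.B) : D.ww s * D.lm b = D.lm (al s b) * D.ww s :=
  D.ext_e fun x => by rw [← mulVec_mulVec, ← mulVec_mulVec, lm_ap, ww_ap, ww_ap, lm_ap, al_mul]

theorem ww_rm (s : ℤˣ) (b : D.B) : D.ww s * D.rm b = D.rm (al s b) * D.ww s :=
  D.ext_e fun x => by rw [← mulVec_mulVec, ← mulVec_mulVec, rm_ap, ww_ap, ww_ap, rm_ap, al_mul]

theorem ww_mul (s t : ℤˣ) : D.ww (s * t) = D.ww s * D.ww t := D.ext_e fun x => by
  rw [← mulVec_mulVec, ww_ap, ww_ap, ww_ap]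
  congr 1
  ext <;> simp [al, mul_assoc]

theorem ww_sq (s : ℤˣ) : D.ww s * D.ww s = 1 := by rw [← ww_mul, Int.units_mul_self, ww_one]

theorem ww_form (s : ℤˣ) :
    (D.ww s)ᵀ * J (Fin D.g) ℚ * D.ww s = ((s : ℤ) : ℚ) • J (Fin D.g) ℚ := by
  rw [D.adj_of (Y := ((s : ℤ) : ℚ) • D.ww s) fun x y => ?_, mul_assoc, smul_mul_assoc, ww_sq,
    mul_smul_comm, mul_one]
  rw [smul_mulVec, ww_ap, ww_ap, ← map_smul, sym', sym']
  congr 2
  rcases Int.units_eq_one_or s with rfl | rfl 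
  · simp [al, δ]
  · simp [al, δ]
    ring

theorem em_cs (s : ℤˣ) (z : D.L0) : D.em (D.cs s z) = al s (D.em z) := by
  rcases Int.units_eq_one_or s with rfl | rfl
  · rw [cs_one, al_one]
  · have := D.inL_em z
    rw [cs_neg, ← star_em]
    ext <;> simp [al, this.1]

theorem ww_l0 (s : ℤˣ) (z : D.L0) : D.ww s * D.l0 z = D.l0 (D.cs s z) * D.ww s := by
  rw [l0, l0, ww_lm, em_cs]

theorem l0_mul (y z : D.L0) : D.l0 (y * z) = D.l0 y * D.l0 z := by rw [l0, map_mul, lm_mul]; rfl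

theorem l0_one : D.l0 1 = 1 := by rw [l0, map_one, lm_one]

variable {D}

theorem ta_l0 (z : D.L0) : am (D.l0 z) ∈ TA D := Submodule.subset_span ⟨z, rfl⟩

theorem ta_map {ι : Type} {l : ι → Mi D.g ℚ} {t : Mi D.g Af} (A B : Mi D.g Af)
    (ht : t ∈ Submodule.span Af (Set.range fun z => am (l z)))
    (h : ∀ z, A * am (l z) * B ∈ TA D) : A * t * B ∈ TA D := by
  induction ht using Submodule.span_induction with
  | mem _ h' => obtain ⟨z, rfl⟩ := h'; exact h z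
  | zero => simp
  | add x y _ _ hx hy => rw [mul_add, add_mul]; exact add_mem hx hy
  | smul c x _ hx => rw [mul_smul_comm, smul_mul_assoc]; exact Submodule.smul_mem _ _ hx

theorem ta_mul {t t' : Mi D.g Af} (h : t ∈ TA D) (h' : t' ∈ TA D) : t * t' ∈ TA D := by
  rw [← mul_one (t * t')]
  refine ta_map _ _ h' fun z => ?_
  rw [mul_one, ← one_mul t]
  exact ta_map _ _ h fun y => by rw [one_mul, ← am_mul, ← l0_mul]; exact ta_l0 _

theorem ta_ww (s : ℤˣ) {t : Mi D.g Af} (h : t ∈ TA D) : am (D.ww s) * t * am (D.ww s) ∈ TA D :=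
  ta_map _ _ h fun z => by
    rw [← am_mul, ← am_mul, ww_l0, mul_assoc, ww_sq, mul_one]; exact ta_l0 _

theorem ta_comm {t t' : Mi D.g Af} (h : t ∈ TA D) (h' : t' ∈ TA D) : t * t' = t' * t := by
  induction h using Submodule.span_induction with
  | mem _ h => obtain ⟨z, rfl⟩ := h; exact span_comm h' fun y => by rw [← l0_mul, ← l0_mul, mul_comm]
  | zero => simp
  | add x y _ _ hx hy => rw [mul_add, add_mul, hx, hy]
  | smul c x _ hx => rw [mul_smul_comm, smul_mul_assoc, hx]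

theorem ma_comm {a t : Mi D.g Af} (h : a ∈ D.MA) (h' : t ∈ TA D) : t * a = a * t := by
  induction h' using Submodule.span_induction with
  | mem _ h' =>
    obtain ⟨z, rfl⟩ := h'
    exact span_comm h fun y => by rw [l0, ← lm_mul, ← lm_mul, sc_comm]
  | zero => simp
  | add x y _ _ hx hy => rw [mul_add, add_mul, hx, hy]
  | smul c x _ hx => rw [mul_smul_comm, smul_mul_assoc, hx]

theorem ma_ww (s : ℤˣ) {a : Mi D.g Af} (h : a ∈ D.MA) : am (D.ww s) * a = a * am (D.ww s) :=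
  span_comm h fun y => by rw [ww_lm, al_sc]

theorem lm_inv (b : D.Bˣ) : D.lm b * D.lm (↑b⁻¹) = 1 := by rw [← lm_mul, b.mul_inv, lm_one]

theorem inv_lm (b : D.Bˣ) : D.lm (↑b⁻¹) * D.lm b = 1 := by rw [← lm_mul, b.inv_mul, lm_one]

/-- the conjugate of `w ^ ε` -/
def wb (b : D.Bˣ) (s : ℤˣ) : Mi D.g ℚ := D.lm b * D.ww s * D.lm (↑b⁻¹)

theorem wb_form (b : D.Bˣ) (s : ℤˣ) :
    (wb b s)ᵀ * J (Fin D.g) ℚ * wb b s = ((s : ℤ) : ℚ) • J (Fin D.g) ℚ := by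
  have h : wb b s = D.ww s * D.lm (al s b.1 * b⁻¹.1) := by
    rw [wb, lm_mul, ← mul_assoc, ww_lm, al_al]
  have h1 : D.nrd (al s b.1) = D.nrd b := by
    rcases Int.units_eq_one_or s with rfl | rfl <;> simp [al, nrd_eq, F0.Fuj.nrd]
  rw [h, transpose_mul, mul_assoc, mul_assoc, ← mul_assoc (J _ _), ← mul_assoc _ _ (D.lm _),
    ← mul_assoc _ (J _ _), ww_form, smul_mul_assoc, mul_smul_comm, ← mul_assoc, lm_form, nrd_mul,
    h1, ← nrd_mul, b.mul_inv, nrd_one, sc_one, lm_one, mul_one]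

theorem wb_lb (b : D.Bˣ) (s : ℤˣ) (z : D.L0) :
    wb b s * D.lb b z = D.lb b (D.cs s z) * wb b s := by
  rw [wb, lb_apply, lb_apply, mul_assoc _ _ (D.lm _), ← lm_mul, ← mul_assoc, ← mul_assoc,
    b.inv_mul, one_mul, lm_mul, mul_assoc (D.lm _), ← mul_assoc (D.ww s), ww_lm, ← em_cs,
    ← mul_assoc, ← mul_assoc, ← mul_assoc, ← mul_assoc, ← lm_mul, ← lm_mul,
    Units.inv_mul_cancel_right]

theorem wb_rm (b : D.Bˣ) (s : ℤˣ) (c : D.B) : wb b s * D.rm c = D.rm (al s c) * wb b s := by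
  rw [wb, mul_assoc, lm_rm, mul_assoc, ← mul_assoc (D.ww s), ww_rm, ← mul_assoc, ← mul_assoc, lm_rm]
  simp only [mul_assoc]

theorem ex_mul_I {θ : D.L0} (h : D.cj θ = -θ) : ∃ m, θ = algebraMap D.M0 _ m * D.I := by
  obtain ⟨x, y, rfl⟩ := D.gen θ
  rw [map_add, map_mul, D.cj.commutes, D.cj.commutes, D.cjI] at h
  exact ⟨y, by linear_combination (1 / 2 : D.L0) * h⟩

theorem cj_mul_I (m : D.M0) : D.cj (algebraMap _ _ m * D.I) = -(algebraMap _ _ m * D.I) := by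
  rw [map_mul, D.cj.commutes, D.cjI, mul_neg]

end QD

variable {D : QD} {η : GQ →* ℤˣ}

open QD

theorem typ_eq (j : Qb →+* ℂ) (m : D.M0) :
    D.typ m = j.comp '' Ty j (algebraMap _ _ m * D.I) := Set.ext fun ψ => by
  obtain ⟨φ, rfl⟩ := emb_surj j ψ
  exact ⟨fun h => ⟨φ, h, rfl⟩, fun ⟨_, h, e⟩ => e ▸ h⟩

/-- the type of a point with complex multiplication -/
theorem MP.Ck.ty {x : MP D η} {θ : D.L0} (h : x.Ck θ) : ∃ (b : D.Bˣ) (m : D.M0), m ≠ 0 ∧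
    θ = algebraMap _ _ m * D.I ∧ x.Mk b ∧ TP.Ty x.τ (D.lb b) (D.typ m) := by
  obtain ⟨h0, h1, b, h2, h3, h4⟩ := h
  obtain ⟨m, rfl⟩ := ex_mul_I h1
  exact ⟨b, m, fun e => h0 (by simp [e]), rfl, h2, ty_of_one (D.lb b) x.loc.1 h3 h4⟩

theorem cmex : CMEX := fun D η N h θ h0 h1 => by
  have := D.ix_ne
  obtain ⟨m, rfl⟩ := ex_mul_I h1
  obtain ⟨b, k, t, a1, a2, a3, a4⟩ := h.typ (-m) (neg_ne_zero.2 fun e => h0 (by simp [e]))
  obtain ⟨τ, T, hl, -⟩ := exists_cm b (m := m) fun φ => by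
    have := a2 φ
    simp only [map_mul, map_neg] at this ⊢
    linarith
  obtain ⟨e, e1, rfl⟩ := exists_EE (η := η) 1 (u := k) (by rwa [map_one, map_one])
  refine ⟨⟨τ, e, hl, T.algp (nor D.hI D.gen D.cjI D.z3 _) (fix_cj D.gen D.cjI) (D.lb_adj b)
    (D.typ_conj m), e1⟩, h0, h1, b, ⟨a3, t, a4⟩, T.hm _, fun a ha c y hy e => ?_⟩
  obtain ⟨ψ, h2, rfl⟩ := T.eig _ a ha c y hy e
  exact h2

theorem theta : THETA := fun D j Φ hΦ => by
  obtain ⟨m, hm, H⟩ := D.ex_typ (Ψ := j.comp '' Φ) fun ψ h => by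
    obtain ⟨φ, rfl⟩ := emb_surj j ψ
    exact ⟨φ, (hΦ φ).2 fun e => h ⟨_, e, rfl⟩, rfl⟩
  have h1 : ∀ φ ∈ Ty j (algebraMap _ _ m * D.I), φ ∈ Φ := fun φ h => by
    obtain ⟨φ', h1, h2⟩ := H (show j.comp φ ∈ D.typ m from h)
    rwa [← show φ' = φ from RingHom.ext fun y => j.injective (RingHom.congr_fun h2 y)]
  refine ⟨_, mul_ne_zero ((_root_.map_ne_zero _).2 hm) fun e => by simpa [e] using D.hI, cj_mul_I m,
    Set.ext fun φ => ⟨h1 φ, fun h => ?_⟩⟩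
  exact (D.typ_cj hm (j.comp φ)).2 fun e => (hΦ φ).1 h (h1 _ e)

theorem ex_ext (j : Qb →+* ℂ) (σ : GQ) : ∃ s, Ext j σ s :=
  P010M6.exists_equiv j (j.comp σ.toRingEquiv.toRingHom)
    (Cardinal.mk_complex ▸ Cardinal.aleph0_lt_continuum) rfl

/-- one extension of the Galois element is enough -/
theorem MP.fx_of (x : MP D η) {j : Qb →+* ℂ} {e : EE D η} {s : ℂ ≃+* ℂ} (hs : Ext j (sg e) s)
    (h : Rel s x.τ x.τ (uu (x.k * e * x.k⁻¹))) : x.Fx j e := fun s' hs' =>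
  h.congr x.alg fun y hy => by
    have : FiniteDimensional ℚ (IntermediateField.adjoin ℚ {y}) :=
      IntermediateField.adjoin.finiteDimensional hy.isIntegral
    have : NumberField (IntermediateField.adjoin ℚ {y}) := {}
    obtain ⟨φ, h⟩ := emb_surj j (IntermediateField.adjoin ℚ {y}).val.toRingHom
    rw [← show j (φ (IntermediateField.AdjoinSimple.gen ℚ y)) = y from RingHom.congr_fun h _,
      hs, hs']

theorem uu_inv_mul (e : EE D η) : uu e⁻¹ * uu e = 1 := by rw [← map_mul, inv_mul_cancel, map_one]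

theorem MP.Mk.l0 {x : MP D η} {b : D.Bˣ} (h : x.Mk b) (z : D.L0) :
    uu x.k * am (D.l0 z) * uu x.k⁻¹ = am (D.lb b z) := by
  rw [QD.l0, h.1 _ (D.inL_em z), mul_assoc, ← map_mul, mul_inv_cancel, map_one, mul_one, lb_apply]

theorem MP.Mk.lb {x : MP D η} {b : D.Bˣ} (h : x.Mk b) (z : D.L0) :
    uu x.k⁻¹ * am (D.lb b z) * uu x.k = am (D.l0 z) := by
  rw [← h.l0, ← mul_assoc, ← mul_assoc, uu_inv_mul, one_mul, mul_assoc, uu_inv_mul, mul_one]

theorem MP.Mk.ta {x : MP D η} {b : D.Bˣ} (h : x.Mk b) {t : Mi D.g Af}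
    (ht : t ∈ Submodule.span Af (Set.range fun z => am (D.lb b z))) :
    uu x.k⁻¹ * t * uu x.k ∈ TA D := ta_map _ _ ht fun z => h.lb z ▸ ta_l0 z

theorem cmfix : CMFIX := fun D η j x θ h σ h1 h2 => by
  have := D.ix_ne
  obtain ⟨b, m, -, rfl, hb, T⟩ := h.ty
  obtain ⟨s, hs⟩ := ex_ext j σ
  obtain ⟨t, ht, H⟩ := TP.cmfix (nor D.hI D.gen D.cjI D.z3 _) (fix_cj D.gen D.cjI) (D.lb_adj b) T
    (D.typ_conj m) (w := 1) (s := 1) (by simp) (RingEquiv.refl _) (by simp) (σ := s) fun ψ hψ => by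
      obtain ⟨φ, rfl⟩ := emb_surj j ψ
      exact ⟨s.toRingHom.comp (j.comp φ), (h2 φ hψ).trans_eq (congrArg _ (hs _).symm), fun _ => rfl⟩
  rw [am_one, mul_one] at H
  obtain ⟨e, e1, rfl⟩ := exists_EE (η := η) σ (u := t) (At.of_comm (chi_ext hs ▸ H.sim) fun c => by
    rw [h1, al_one, span_comm ht fun z => (D.lm_rm _ _).symm])
  have e2 : sg (x.k⁻¹ * e * x.k) = σ := by simp [x.one, e1]
  refine ⟨_, e2, by rw [map_mul, map_mul]; exact hb.ta ht, x.fx_of (e2.symm ▸ hs) ?_⟩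
  rwa [show x.k * (x.k⁻¹ * e * x.k) * x.k⁻¹ = e by group]

end Vale.Agent.P022K.PM
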