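import Vale.Agent.P022K.PM.Rh

/-!
# P022K / PM / Rh2: bounds, continuity, torus values of the representations (helper4)
-/

set_option linter.all false

open NumberField Matrix Quaternion Module Filter Topology

noncomputable section

namespace Vale.Agent.P022K.PM

open Vale.Agent.P022 Vale.Agent.P010MR Vale.Agent.P010MT8
open Vale.Agent.P022K.CH (Cp eps)
open Vale.Agent.P022K.TP (Af Pr am Mn)

variable {D : QD} {p : ℕ} [Fact p.Prime] (μ : Em D (Cp p)) {η : GQ →* ℤˣ}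

theorem Rh.sub {μ : Em D (Cp p)} {u u' ρ ρ'} (h : Rh μ u ρ) (h' : Rh μ u' ρ') :
    Rh μ (u - u') (ρ - ρ') := by
  simpa [sub_eq_add_neg] using h.add (h'.smul (-1))

theorem rh_zero' : Rh μ 0 0 := by simpa using (rh_one' (μ := μ)).smul 0

theorem Rh.pow {μ : Em D (Cp p)} {u ρ} (h : Rh μ u ρ) (k : ℕ) : Rh μ (u ^ k) (ρ ^ k) := by
  induction k with
  | zero => simpa using rh_one'
  | succ k ih => simpa [pow_succ] using ih.mul h

theorem Rh.aeval {μ : Em D (Cp p)} {u ρ} (h : Rh μ u ρ) (f : Polynomial ℤ) :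
    Rh μ (Polynomial.aeval u f) (Polynomial.aeval ρ f) := by
  induction f using Polynomial.induction_on' with
  | add f g a b => simpa using a.add b
  | monomial k c =>
    rw [Polynomial.aeval_monomial, Polynomial.aeval_monomial, eq_intCast, eq_intCast,
      ← zsmul_eq_mul, ← zsmul_eq_mul]
    simpa [Int.cast_smul_eq_zsmul] using (h.pow k).smul c

theorem nmul {a b c : Type} [Fintype b] {X : Matrix a b (Cp p)} {Y : Matrix b c (Cp p)} {s t : ℝ}
    (hs : 0 ≤ s) (ht : 0 ≤ t) (hX : ∀ i j, ‖X i j‖ ≤ s) (hY : ∀ i j, ‖Y i j‖ ≤ t) (i : a) (j : c) :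
    ‖(X * Y) i j‖ ≤ s * t :=
  IsUltrametricDist.norm_sum_le_of_forall_le_of_nonneg (mul_nonneg hs ht) fun k _ => by
    rw [norm_mul]; exact mul_le_mul (hX i k) (hY k j) (norm_nonneg _) hs

theorem exists_bd : ∃ C : ℝ, 0 < C ∧ ∀ u ρ, Rh μ u ρ → ∀ c, 0 ≤ c → Nle u c → Le ρ (C * c) := by
  obtain ⟨P, hP, -⟩ := μ.fm.idem D.sy
  obtain ⟨s, hs⟩ := Finite.bddAbove_range fun x : Fin 2 × Ix D.g => ‖μ.Qm x.1 x.2‖ + ‖P x.2 x.1‖
  have h1 := fun i j => hs (Set.mem_range_self (i, j))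
  have h0 : 0 < |s| + 1 := by positivity
  have h2 : ∀ i j, ‖μ.Qm i j‖ ≤ |s| + 1 := fun i j => by
    linarith [h1 i j, norm_nonneg (P j i), le_abs_self s]
  have h3 : ∀ i j, ‖P i j‖ ≤ |s| + 1 := fun i j => by
    linarith [h1 j i, norm_nonneg (μ.Qm j i), le_abs_self s]
  refine ⟨(|s| + 1) * (|s| + 1), mul_pos h0 h0, fun u ρ h c hc hu i j => ?_⟩
  rw [← Matrix.mul_one ρ, ← hP, ← Matrix.mul_assoc, ← h, mul_right_comm]
  exact nmul (mul_nonneg h0.le hc) h0.le (nmul h0.le hc h2 fun i j =>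
    (norm_algebraMap' _ _).trans_le (hu i j)) h3 i j

theorem re_sub : ∃ C : ℝ, 0 < C ∧ ∀ (η : GQ →* ℤˣ) (e e' : EE D η) (n : ℕ), Mn n (uu e - uu e') →
    Le (re μ e - re μ e') (C * ‖(n : ℚ_[p])‖) := by
  obtain ⟨C, h0, h⟩ := exists_bd μ
  refine ⟨C, h0, fun η e e' n hn => h _ _ ((re_rh μ e).sub (re_rh μ e')) _ (norm_nonneg _) ?_⟩
  rw [mt_eq, mt_eq, ← map_sub]
  exact fun i j => hn i j (pp p)

/-- the representation with values in the general linear group -/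
def reU : EE D η →* GL (Fin 2) (Cp p) := (reH μ).toHomUnits

theorem reU_val (e : EE D η) : (reU μ e : Matrix (Fin 2) (Fin 2) (Cp p)) = re μ e := rfl

theorem re_eps (e : EE D η) : (re μ e).det = eps p (sg e) := re_det μ e

theorem Sec.dt {Γ : Subgroup GQ} {s : Γ →* EE D η} (h : Sec s) (d : Γ) :
    CH.dt ((reU μ).comp s) d = eps p d := (re_eps μ _).trans (by rw [h.sg])

theorem Sec.near {Γ : Subgroup GQ} {s : Γ →* EE D η} (h : Sec s) {ε : ℝ} (hε : 0 < ε) :
    ∃ N : Subgroup GQ, IsOpen (N : Set GQ) ∧ ∀ d : Γ, d.1 ∈ N → Le (re μ (s d) - 1) ε := by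
  obtain ⟨C, h0, hC⟩ := re_sub μ
  obtain ⟨k, hk⟩ := exists_pow_lt_of_lt_one (div_pos hε h0) (Padic.norm_p_lt_one (p := p))
  obtain ⟨N, h1, h2⟩ := h.cts (p ^ k) (pow_pos (Fact.out : p.Prime).pos k)
  refine ⟨N, h1, fun d hd i j => ?_⟩
  rw [← re_one μ (η := η)]
  refine (hC η _ 1 (p ^ k) (by rw [map_one]; exact h2 d hd) i j).trans ?_
  rw [Nat.cast_pow, norm_pow, mul_comm]
  exact ((lt_div_iff₀ h0).1 hk).le

theorem Sec.cont {Γ : Subgroup GQ} {s : Γ →* EE D η} (h : Sec s) :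
    Continuous ((reU μ).comp s) := by
  have h1 : Continuous fun d => re μ (s d) := by
    refine continuous_iff_continuousAt.2 fun d => ?_
    have h2 : Tendsto (fun d => re μ (s d)) (𝓝 1) (𝓝 1) := by
      refine tendsto_pi_nhds.2 fun i => tendsto_pi_nhds.2 fun j => Metric.tendsto_nhds.2 fun ε hε => ?_
      obtain ⟨N, h1, h2⟩ := h.near μ (half_pos hε)
      filter_upwards [(h1.preimage continuous_subtype_val).mem_nhds (one_mem N)] with d hd
      rw [dist_eq_norm]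
      exact (h2 d hd i j).trans_lt (half_lt_self hε)
    have h3 : Tendsto (fun x => d⁻¹ * x) (𝓝 d) (𝓝 1) :=
      inv_mul_cancel d ▸ (continuous_const_mul d⁻¹).tendsto d
    have h4 := (h2.comp h3).const_mul (re μ (s d))
    simpa [ContinuousAt, Function.comp_def, ← re_mul, ← map_mul] using h4
  refine Units.continuous_iff.2 ⟨h1, ?_⟩
  simp only [← map_inv]
  exact h1.comp continuous_inv

/-- bounded powers give an integral trace -/
theorem tr_le {ρ : Matrix (Fin 2) (Fin 2) (Cp p)} {C : ℝ} (h : ∀ k : ℕ, Le (ρ ^ k) C) :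
    ‖ρ.trace‖ ≤ 1 := by
  have h1 : ∀ z ∈ ρ.charpoly.roots, ‖z‖ ≤ 1 := fun z hz => by
    obtain ⟨v, hv⟩ := (Module.End.hasEigenvalue_iff_mem_spectrum.2 ((spectrum_toLin' ρ).symm ▸
      (mem_spectrum_of_isRoot_charpoly (Polynomial.isRoot_of_mem_roots hz)))).exists_hasEigenvector
    obtain ⟨i, hi⟩ := Function.ne_iff.1 hv.2
    by_contra! h2
    obtain ⟨k, hk⟩ := pow_unbounded_of_one_lt (C * ‖v‖ / ‖v i‖) h2
    have h3 := congrFun (hv.pow_apply k) i
    rw [← toLin'_pow, toLin'_apply, Pi.smul_apply, smul_eq_mul] at h3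
    rw [div_lt_iff₀ (norm_pos_iff.2 hi), ← norm_pow, ← norm_mul, ← h3] at hk
    have h0 : 0 ≤ C := (norm_nonneg _).trans (h 0 0 0)
    refine hk.not_ge ?_
    rw [mulVec, dotProduct]
    refine IsUltrametricDist.norm_sum_le_of_forall_le_of_nonneg (mul_nonneg h0 (norm_nonneg v))
      fun l _ => ?_
    rw [norm_mul]; exact mul_le_mul (h k i l) (norm_le_pi_norm v l) (norm_nonneg _) h0
  rw [trace_eq_sum_roots_charpoly]
  exact Multiset.sum_induction (‖·‖ ≤ 1) _ (fun a b ha hb =>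
    (IsUltrametricDist.norm_add_le_max a b).trans (max_le ha hb))
    (norm_zero.trans_le zero_le_one) h1

theorem Int.pow {e : EE D η} (h : Int e) (k : ℕ) : Int (e ^ k) := by
  induction k with
  | zero => rw [pow_zero, Int, map_one]; exact TP.mn_one
  | succ k ih => rw [pow_succ, Int, map_mul]; exact TP.Mn.mul (a := 1) (b := 1) ih h

theorem Int.tr {e : EE D η} (h : Int e) : ‖(re μ e).trace‖ ≤ 1 := by
  obtain ⟨C, -, hC⟩ := exists_bd μ
  refine tr_le (C := C * 1) fun k => hC _ _ ((re_rh μ e).pow k) _ zero_le_one fun i j => ?_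
  rw [mt_eq, ← map_pow, ← map_pow]
  have := h.pow k i j (pp p)
  rw [Nat.cast_one, norm_one] at this
  exact this

theorem em_eq (z : D.L0) : (D.em z).imJ = 0 ∧ (D.em z).imK = 0 := by
  obtain ⟨x, y, rfl⟩ := D.gen z
  simp [D.emA, D.emI]

theorem em_cj (z : D.L0) : D.em (D.cj z) = star (D.em z) := by
  obtain ⟨x, y, rfl⟩ := D.gen z
  ext <;> simp [D.emA, D.emI, D.cjI]

/-- the torus is diagonal -/
theorem Em.lB_em {K : Type} [Field K] (μ : Em D K) (z : D.L0) :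
    μ.lB (D.em z) = diagonal ![μ.z0 z, μ.z0 (D.cj z)] := by
  ext i j
  fin_cases i <;> fin_cases j <;> simp [Em.lB, Em.z0, Em.la, em_eq, em_cj, sub_eq_add_neg]

theorem rh_l0' (z : D.L0) : Rh μ (ql p (D.l0 z)) (diagonal ![μ.z0 z, μ.z0 (D.cj z)]) :=
  μ.lB_em z ▸ rh_lm' _

/-- the involution `w` exchanges the two coordinates -/
theorem rh_wm' : Rh μ (ql p D.wm) !![0, 1; 1, 0] := by
  have h := (rh_lm' (μ := μ) (D.sc D.β⁻¹ * D.bj)).mul (rh_rm' (μ := μ) (0, 1))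
  have h1 : μ.s * (μ.φ D.β)⁻¹ * μ.s = 1 := by
    rw [mul_right_comm, ← sq, μ.hs, mul_inv_cancel₀ ((map_ne_zero _).2 D.beta_ne)]
  convert h using 1
  · exact Matrix.map_mul (f := Rat.castHom _)
  · ext i j
    fin_cases i <;> fin_cases j <;> simp [Em.lB, Em.ev, QD.sc_eq, QD.bj, h1, mul_comm μ.s] <;>
      linear_combination -h1

end Vale.Agent.P022K.PM
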