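import Vale.Agent.P022K.PM.Locg
import Vale.Agent.P022K.PM.Rh2

/-!
# P022K / PM: rigidity of traces
-/

set_option autoImplicit false

open Matrix NumberField

noncomputable section

namespace Vale.Agent.P022K.PM

open Vale.Agent.P022 Vale.Agent.P010MR Vale.Agent.P010MT8
open Vale.Agent.P022K.TP hiding Cn
open Vale.Agent.P022K.CH (Cp)

theorem rig0 (E : Type) [Field E] [NumberField E] (p : ℕ) [Fact p.Prime] (B : ℝ) :
    ∃ ε : ℝ, 0 < ε ∧ ∀ (μ : E →+* Cp p) (a : E), IsIntegral ℤ a → (∀ φ : E →+* ℂ, ‖φ a‖ ≤ B) →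
      ‖μ a‖ < ε → a = 0 := by
  have h1 := ((Embeddings.finite_of_norm_le E ℂ B).prod
    (Set.finite_univ (α := E →+* Cp p))).image fun x => ‖x.2 x.1‖
  obtain ⟨ε, h0, h⟩ := (h1.sdiff (t := {0})).isClosed.isOpen_compl.mem_nhds
    (x := 0) (by simp) |> Metric.mem_nhds_iff.1
  refine ⟨ε, h0, fun μ a ha hB hμ => ?_⟩
  by_contra h2
  exact h (show ‖μ a‖ ∈ Metric.ball 0 ε by simpa using hμ)
    ⟨⟨(a, μ), ⟨⟨ha, hB⟩, trivial⟩, rfl⟩, by simpa using h2⟩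

/-- the conjugate place -/
def plc (v : AbsoluteValue Qb ℝ) (σ : GQ) : AbsoluteValue Qb ℝ :=
  v.comp (f := σ.toRingEquiv.toRingHom) σ.injective

theorem plc_apply (v : AbsoluteValue Qb ℝ) (σ : GQ) (x : Qb) : plc v σ x = v (σ x) := rfl

theorem IsPl.plc {l : ℕ} {v : AbsoluteValue Qb ℝ} (h : IsPl l v) (σ : GQ) : IsPl l (plc v σ) :=
  h.imp (fun ⟨h0, φ, hφ⟩ => ⟨h0, φ.comp σ.toRingEquiv.toRingHom, fun _ => hφ _⟩)
    fun ⟨hl, φ, hφ⟩ => ⟨hl, φ.comp σ.toRingEquiv.toRingHom, fun _ => hφ _⟩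

theorem wl_plc {l k : ℕ} {v : AbsoluteValue Qb ℝ} {σ a : GQ} :
    Wl (plc v σ) l k a ↔ Wl v l k (σ * a * σ⁻¹) := by
  have e : ∀ x, (σ * a * σ⁻¹) (σ x) = σ (a x) := fun x => congrArg (fun y => σ (a y))
    (σ.symm_apply_apply x)
  refine and_congr ⟨fun h x => ?_, fun h x => ?_⟩ ⟨fun h x => ?_, fun h x hx => ?_⟩
  · obtain ⟨x, rfl⟩ := σ.surjective x
    exact e x ▸ h x
  · exact (congrArg v (e x).symm).trans (h _)
  · obtain ⟨x, rfl⟩ := σ.surjective x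
    rw [e, ← map_pow, ← map_sub]
    exact h x
  · rw [plc_apply, map_sub, map_pow, ← e]
    exact h _ hx

variable {D : QD} {η : GQ →* ℤˣ}

theorem Int.bd {e : EE D η} (h : Int e) : ∃ N : ℕ, N ≠ 0 ∧ ∀ i, Mn 1 (N • uu e ^ i) :=
  ⟨1, one_ne_zero, fun i => by rw [one_smul, ← map_pow]; exact h.pow i⟩

theorem tr_conj {p : ℕ} [Fact p.Prime] (μ : Em D (Cp p)) (c e : EE D η) :
    (re μ (c * e * c⁻¹)).trace = (re μ e).trace := by
  rw [re_mul, re_mul, trace_mul_cycle, ← re_mul, inv_mul_cancel, re_one, one_mul]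

/-- the trace of an integral Weil element is determined by an approximation at one place -/
theorem rig1 (D : QD) (p : ℕ) [Fact p.Prime] (B : ℝ) : ∃ ε : ℝ, 0 < ε ∧
    ∀ (η : GQ →* ℤˣ) (j : Qb →+* ℂ) (l k : ℕ) [Fact l.Prime] (v : AbsoluteValue Qb ℝ) (x : MP D η)
      (e : EE D η) (μ : Em D (Cp p)) (b : D.Ef), p ≠ l → (l : ℝ) ^ k ≤ B → IsPl l v →
      Wl v l k (sg e) → x.Fx j e → Int e → IsIntegral ℤ b →
      (∀ φ : D.Ef →+* ℂ, ‖φ b‖ ^ 2 ≤ 4 * B) → ‖(re μ e).trace - μ.eE b‖ < ε →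
      (∀ r : Pr, r.1 ≠ l → mt e r * mt e r + ((l : ℚ) ^ k) • 1 = ql r.1 (D.rE b) * mt e r) ∧
      ∀ (q : ℕ) [Fact q.Prime], q ≠ l → ∀ ν : Em D (Cp q), (re ν e).trace = ν.eE b := by
  have : CharZero D.Ef := algebraRat.charZero _
  have : NumberField D.Ef := ⟨⟩
  obtain ⟨ε, h0, h⟩ := rig0 D.Ef p (4 * B + 2)
  refine ⟨ε, h0, fun η j l k _ v x e μ b hp hB hv hw hx hi hb hb' hε => ?_⟩
  obtain ⟨a, h1, h2, h3, h4⟩ := locg_tr hv x hw hx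
  obtain rfl : a = b := sub_eq_zero.1 (h μ.eE _ ((h4 hi.bd).sub hb) (fun φ => by
    rw [map_sub]
    refine (norm_sub_le _ _).trans ?_
    nlinarith [h3 φ, hb' φ, sq_nonneg (‖φ a‖ - 2), sq_nonneg (‖φ b‖ - 2)])
    (by rwa [map_sub, ← h2 p hp]))
  exact ⟨h1, h2⟩

/-- **RIG**: two Weil elements of the same degree that are close at one place have the same
traces at all places -/
theorem rig (D : QD) (p : ℕ) [Fact p.Prime] (B : ℝ) : ∃ ε : ℝ, 0 < ε ∧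
    ∀ (η : GQ →* ℤˣ) (j : Qb →+* ℂ) (l k : ℕ) [Fact l.Prime] (v v' : AbsoluteValue Qb ℝ)
      (x x' : MP D η) (e e' : EE D η) (μ : Em D (Cp p)), p ≠ l → (l : ℝ) ^ k ≤ B → IsPl l v →
      IsPl l v' → Wl v l k (sg e) → Wl v' l k (sg e') → x.Fx j e → x'.Fx j e' → Int e → Int e' →
      ‖(re μ e).trace - (re μ e').trace‖ < ε →
      ∀ (q : ℕ) [Fact q.Prime], q ≠ l → ∀ ν : Em D (Cp q), (re ν e).trace = (re ν e').trace := by
  obtain ⟨ε, h0, h⟩ := rig1 D p B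
  refine ⟨ε, h0, fun η j l k _ v v' x x' e e' μ hp hB hv hv' hw hw' hx hx' hi hi' hε q _ hq ν => ?_⟩
  obtain ⟨a, -, h2, h3, h4⟩ := locg_tr hv' x' hw' hx'
  rw [h2 q hq]
  exact (h η j l k v x e μ a hp hB hv hw hx hi (h4 hi'.bd) (fun φ => (h3 φ).trans (by linarith))
    (by rwa [← h2 p hp])).2 q hq ν

theorem Le.trace {p : ℕ} [Fact p.Prime] {a : Matrix (Fin 2) (Fin 2) (Cp p)} {c : ℝ} (h : Le a c) :
    ‖a.trace‖ ≤ c := by
  rw [trace_fin_two]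
  exact (IsUltrametricDist.norm_add_le_max _ _).trans (max_le (h 0 0) (h 1 1))

/-- **RIG** in the shape of the output of `twm`: `c * e * c⁻¹` is congruent to `e'` -/
theorem rig_mn (D : QD) (p : ℕ) [hp : Fact p.Prime] (μ : Em D (Cp p)) (B : ℝ) : ∃ m : ℕ,
    ∀ (η : GQ →* ℤˣ) (j : Qb →+* ℂ) (l k n : ℕ) [Fact l.Prime] (v : AbsoluteValue Qb ℝ)
      (x x' : MP D η) (c e e' : EE D η), p ≠ l → (l : ℝ) ^ k ≤ B → p ^ m ∣ n → IsPl l v →
      Wl v l k (sg e') → sg c * sg e * (sg c)⁻¹ = sg e' → x.Fx j e → x'.Fx j e' → Int e → Int e' →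
      Mn n (uu (c * e * c⁻¹) - uu e') →
      ∀ (q : ℕ) [Fact q.Prime], q ≠ l → ∀ ν : Em D (Cp q), (re ν e).trace = (re ν e').trace := by
  obtain ⟨ε, h0, h⟩ := rig D p B
  obtain ⟨C, h1, hC⟩ := re_sub μ
  obtain ⟨m, hm⟩ := exists_pow_lt_of_lt_one (div_pos h0 h1) (Padic.norm_p_lt_one (p := p))
  refine ⟨m, fun η j l k n _ v x x' c e e' hl hB hn hv hw hs hx hx' hi hi' hc =>
    h η j l k (plc v (sg c)) v x x' e e' μ hl hB (hv.plc _) hv (wl_plc.2 (hs ▸ hw)) hw hx hx' hi hi' ?_⟩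
  rw [← tr_conj μ c e, ← trace_sub]
  refine (hC η _ _ _ (hc.anti hn)).trace.trans_lt ?_
  rwa [Nat.cast_pow, norm_pow, mul_comm, ← lt_div_iff₀ h1]

end Vale.Agent.P022K.PM
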