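import Vale.Agent.P022K.PM.Dic3
import Vale.Agent.P022K.PM.Rig
import Vale.Agent.P022K.PM.Mbv
import Vale.Agent.P022K.PM.Cmex

/-!
# P022K / PM / Cmp: primes as places; the rows COMPAT, INER, RATL (helper4)
-/

set_option linter.all false

open NumberField IsDedekindDomain Matrix Quaternion Module

noncomputable section

namespace Vale.Agent.P022K.PM

open Vale.Agent.P022 Vale.Agent.P010MR Vale.Agent.P010MT8
open Vale.Agent.P022.H443 (inP)
open Vale.Agent.P022D.W (dec)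
open Vale.Agent.P022E.GW (Ov Fb)
open Vale.Agent.P022K.CH (Cp eps Id)
open Vale.Agent.P022K.TP (Af Pr am Mn pr)

theorem frac_or {l : ℕ} {P : Id} (h : Ov l P) (x : Qb) :
    ∃ n d : 𝓞 Qb, d ∉ P ∧ (x * d = n ∨ x * n = d) := by
  let L : IntermediateField ℚ Qb := IntermediateField.adjoin ℚ {x}
  have hL : FiniteDimensional ℚ L :=
    IntermediateField.adjoin.finiteDimensional (Algebra.IsIntegral.isIntegral x)
  have hN : NumberField L := {}
  let f : 𝓞 L →+* 𝓞 Qb := RingOfIntegers.mapRingHom L.val.toRingHom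
  have hpr := h.2.1
  let v : HeightOneSpectrum (𝓞 L) := ⟨P.comap f, Ideal.comap_isPrime _ _, fun e => by
    have h1 : (l : 𝓞 L) ∈ P.comap f := by
      rw [Ideal.mem_comap, map_natCast]
      exact h.2.2
    rw [e, Ideal.mem_bot] at h1
    exact h.1.ne_zero (by exact_mod_cast h1)⟩
  obtain ⟨n, d, H⟩ := v.exists_primeCompl_mul_eq_or_mul_eq
    (K := L) ⟨x, IntermediateField.mem_adjoin_simple_self ℚ x⟩
  exact ⟨f n, f d, d.2, H.imp (congrArg L.val) (congrArg L.val)⟩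

theorem fb_dec {q : ℕ} {P : Id} (hP : P.IsPrime) (hq : q ≠ 0) {σ : GQ} (h : Fb q P σ) :
    σ ∈ dec P := fun x => by
  rw [← hP.pow_mem_iff_mem (r := x) q (Nat.pos_of_ne_zero hq), ← sub_add_cancel (σ • x) (x ^ q)]
  exact P.add_mem_iff_right (h x)

theorem fb_one {P : Id} {σ : GQ} : Fb 1 P σ ↔ σ ∈ inP P := by
  simp only [Fb, pow_one]; rfl

/-- **primes as places** -/
theorem exists_wl {l : ℕ} {P : Id} (h : Ov l P) : ∃ v, IsPl l v ∧ stab v = dec P ∧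
    (∀ z : 𝓞 Qb, v z ≤ 1) ∧ (∀ z : 𝓞 Qb, v z < 1 ↔ z ∈ P) ∧
    ∀ k σ, Wl v l k σ ↔ Fb (l ^ k) P σ := by
  have : Fact l.Prime := ⟨h.1⟩
  obtain ⟨j, hj⟩ := MB.exists_emb h
  let v := (NormedField.toAbsoluteValue (PadicAlgCl l)).comp j.toRingHom.injective
  have e : ∀ x, v x = ‖j x‖ := fun _ => rfl
  have h1 : stab v = dec P := MB.stab_padic hj e
  refine ⟨v, .inr ⟨this, j.toRingHom, e⟩, h1, MB.norm_int' j, fun z => (hj z).symm,
    fun k σ => ⟨fun H x => (hj _).2 (H.2 x (MB.norm_int' j x)), fun H => ?_⟩⟩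
  have h2 := fb_dec h.2.1 (pow_ne_zero k h.1.ne_zero) H
  refine ⟨h1 ▸ h2, fun x hx => ?_⟩
  obtain ⟨n, d, h3, h4⟩ : ∃ n d : 𝓞 Qb, d ∉ P ∧ x * d = n := by
    obtain ⟨n, d, h3, h4 | h4⟩ := frac_or h x
    · exact ⟨n, d, h3, h4⟩
    have h5 := hj.norm_eq_one h3
    rw [← h4, map_mul, norm_mul] at h5
    exact ⟨d, n, fun hn => (mul_lt_one_of_nonneg_of_lt_one_right hx (norm_nonneg _)
      ((hj n).1 hn)).ne h5, h4⟩
  have h5 : (σ x - x ^ l ^ k) * ((σ • d : 𝓞 Qb) * (d ^ l ^ k : 𝓞 Qb)) =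
      ((σ • n - n ^ l ^ k) * d ^ l ^ k - n ^ l ^ k * (σ • d - d ^ l ^ k) : 𝓞 Qb) := by
    have a : σ • (n : Qb) = σ x * σ • (d : Qb) := (congrArg σ h4.symm).trans (map_mul ..)
    push_cast
    have b : algebraMap (𝓞 Qb) Qb n = x * algebraMap (𝓞 Qb) Qb d := h4.symm
    rw [a]
    simp only [b, RingOfIntegers.coe_eq_algebraMap]
    ring
  have h6 := (hj _).1 (P.sub_mem (P.mul_mem_right (d ^ l ^ k) (H n)) (P.mul_mem_left (n ^ l ^ k) (H d)))
  rwa [← h5, map_mul, map_mul, norm_mul, norm_mul, hj.norm_eq_one fun a => h3 ((h2 d).1 a),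
    hj.norm_eq_one fun a => h3 (h.2.1.mem_of_pow_mem _ a), mul_one, mul_one] at h6

variable {D : QD} {η : GQ →* ℤˣ}

/-- **COMPAT** -/
theorem compat_row : COMPAT := fun D η j x e l k P hP hx hf => by
  have : Fact l.Prime := ⟨hP.1⟩
  obtain ⟨v, hv, -, -, -, h⟩ := exists_wl hP
  obtain ⟨a, -, h1, h2, h3⟩ := locg_tr hv x ((h _ _).2 hf) hx
  exact ⟨(a.re, a.im), h1, fun he μ => ⟨(h3 he.bd).map μ.eE.toIntAlgHom, h2 μ.eE⟩⟩

theorem closed_dec {l : ℕ} {P : Id} (h : Ov l P) : IsClosed (dec P : Set GQ) :=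
  (exists_wl h).elim fun v hv => hv.2.1 ▸ closed_stab v

theorem closed_inf {l : ℕ} {P : Id} (h : Ov l P) {Γ : Subgroup GQ}
    (hΓ : IsOpen ((Γ.subgroupOf (dec P) : Subgroup (dec P)) : Set (dec P))) :
    IsClosed ((Γ ⊓ dec P : Subgroup GQ) : Set GQ) := by
  convert (closed_dec h).isClosedEmbedding_subtypeVal.isClosedMap _
    ((Γ.subgroupOf (dec P)).isClosed_of_isOpen hΓ) using 1
  exact Set.ext fun x => ⟨fun a => ⟨⟨x, a.2⟩, a.1, rfl⟩, fun ⟨y, a, b⟩ => b ▸ ⟨a, y.2⟩⟩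

theorem Sec.res {Γ Γ' : Subgroup GQ} {s : Γ →* EE D η} (h : Sec s) (hle : Γ' ≤ Γ) :
    Sec (s.comp (Subgroup.inclusion hle)) :=
  ⟨fun d => h.sg _, fun n hn => (h.cts n hn).imp fun N H => ⟨H.1, fun d hd => H.2 _ hd⟩⟩

theorem ql_one' (r : ℕ) [Fact r.Prime] {g : ℕ} : ql r (1 : Mi g ℚ) = 1 :=
  Matrix.map_one _ (by simp) (by simp)

/-- **INER** -/
theorem iner : INER := fun D η j x Γ s l P hP hΓ h => by
  have : Fact l.Prime := ⟨hP.1⟩
  obtain ⟨v, hv, -, -, -, h1⟩ := exists_wl hP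
  obtain ⟨N, -, h2, h3⟩ := locg_fin hv x (closed_inf hP hΓ) (h.sec.res inf_le_left) fun d => h.fx _
  refine ⟨N, h2, fun d hd r hr => ?_⟩
  have h4 := fb_one.2 hd.2
  exact (h3 ⟨d, d.2, fb_dec hP.2.1 one_ne_zero h4⟩ hd.1 ((h1 0 _).2 h4) r hr).trans (ql_one' _).symm

theorem exists_pr_ne (l : ℕ) : ∃ r : Pr, r.1 ≠ l :=
  (Nat.exists_infinite_primes (l + 1)).elim fun r hr => ⟨⟨r, hr.2⟩, (Nat.lt_of_succ_le hr.1).ne'⟩

theorem Rat.re {l p : ℕ} [Fact p.Prime] (hp : p ≠ l) (μ : Em D (Cp p)) {e : EE D η} {a : D.L0}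
    (h : Rat l e (D.l0 a)) : re μ e = diagonal ![μ.z0 a, μ.z0 (D.cj a)] :=
  Rh.eq (h (pp p) hp ▸ rh_l0' μ a)

/-- **RATL** -/
theorem ratl : RATL := fun D η j x θ e l k P hθ hP hx hf ht => by
  have : Fact l.Prime := ⟨hP.1⟩
  obtain ⟨v, hv, -, -, -, h⟩ := exists_wl hP
  have hw := (h _ _).2 hf
  obtain ⟨b, m, -, -, hb, hT⟩ := hθ.ty
  obtain ⟨S, H⟩ := QD.lc j hv x.loc
  obtain ⟨r0, h0⟩ := exists_pr_ne l
  obtain ⟨c, hc⟩ := ta_ex (finBasis ℚ D.L0) ht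
  obtain ⟨a, ha⟩ := H.te.rat' h0 (fun i => H.rat _ (hT.hm (finBasis ℚ D.L0 i))) (H.mem hw hx)
    (c := fun i => pr r0 (c i)) (by
      rw [map_mul uu, map_mul uu, ← hc]
      simp only [Finset.mul_sum, Finset.sum_mul, mul_smul_comm, smul_mul_assoc, hb.l0, map_sum]
      exact Finset.sum_congr rfl fun i _ => Matrix.map_smul' _ _ _ (map_mul _))
  have h1 : Rat l e (D.l0 (∑ i, a i • finBasis ℚ D.L0 i)) := fun r hr => by
    have e1 : uu e = uu x.k⁻¹ * uu (x.k * e * x.k⁻¹) * uu x.k := by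
      rw [← map_mul, ← map_mul]; congr 1; group
    rw [mt_eq, e1, map_mul, map_mul, ha r hr, ← map_mul, ← map_mul, ← D.l0A_apply, map_sum]
    simp only [Finset.mul_sum, Finset.sum_mul, mul_smul_comm, smul_mul_assoc, hb.lb]
    ext i j
    simp [mp_apply, am, ql, Matrix.sum_apply, TP.pr_cA, QD.l0A_apply,
      Rat.smul_def (K := ℚ_[r.1])]
  generalize ∑ i, a i • finBasis ℚ D.L0 i = z at h1
  obtain ⟨μ, -⟩ := emx D (Cp r0.1) (IsAlgClosed.lift (R := ℚ)).toRingHom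
  have h2 : z * D.cj z = (l : D.L0) ^ k := μ.zH.injective (by
    have := re_det μ e
    rw [h1.re h0, cyc_wl hv hw h0] at this
    rw [map_mul, map_pow, map_natCast]
    simpa [Em.zH_apply] using this)
  refine ⟨z, h1, h2, fun he => ?_⟩
  obtain ⟨t, -, h3, -, h4⟩ := locg_tr hv x hw hx
  have h5 : IsIntegral ℤ (z + D.cj z) := (isIntegral_algHom_iff μ.zH.toIntAlgHom μ.zH.injective).1 (by
    have h6 := h3 r0.1 h0 μ
    rw [h1.re h0, trace_fin_two] at h6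
    rw [map_add]
    have h7 : IsIntegral ℤ (μ.eE t) := (h4 he.bd).map μ.eE.toIntAlgHom
    rwa [← h6] at h7)
  let y : integralClosure ℤ D.L0 := ⟨_, h5⟩
  refine isIntegral_trans (A := integralClosure ℤ D.L0) z ⟨Polynomial.X ^ 2 - (Polynomial.C y *
    Polynomial.X - Polynomial.C ((l : integralClosure ℤ D.L0) ^ k)), by monicity!, ?_⟩
  have e : algebraMap _ D.L0 y = z + D.cj z := rfl
  simp [← h2, e]
  ring

end Vale.Agent.P022K.PM
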