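import Vale.Agent.P022K.PM.Sec
import Vale.Agent.P022K.PM.Ck
import Vale.Agent.P022K.PM.Cmp

/-!
# P022K / PM: ordinary local points with complex multiplication (helper44)
-/

set_option autoImplicit false

open NumberField Matrix

noncomputable section

namespace Vale.Agent.P022K.PM

open Vale.Agent.P022 Vale.Agent.P010MR Vale.Agent.P010MT8
open Vale.Agent.P022.H443 (inP)
open Vale.Agent.P022D.W (dec)
open Vale.Agent.P022E.GW (Ov Fb)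
open Vale.Agent.P022K.CH (Cp Kp Id red eps)
open Vale.Agent.P022K.TP hiding Cn Ty
open QD Sc

variable {D : QD} {η : GQ →* ℤˣ} {j : Qb →+* ℂ} {x : MP D η} {θ : D.L0} {N l : ℕ} {P : Id}

/-- the conjugate embedding -/
def Em.bar {C : Type} [Field C] (μ : Em D C) : Em D C :=
  ⟨μ.φ, -μ.ι, μ.s, by rw [neg_sq, μ.hι], μ.hs⟩

theorem Em.z0_bar {C : Type} [Field C] (μ : Em D C) (z : D.L0) : μ.bar.z0 z = μ.z0 (D.cj z) := by
  simp [Em.z0, Em.la, Em.bar, em_cj, em_eq]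

theorem re_bar {r : ℕ} [Fact r.Prime] (μ : Em D (Cp r)) (e : EE D η) :
    re μ.bar e = (re μ e).submatrix Fin.rev Fin.rev := by
  have h : μ.bar.Qm = μ.Qm.submatrix Fin.rev id := by
    ext a k
    fin_cases a <;> simp [Em.Qm, Em.la, Em.bar]
  refine Rh.eq ?_
  have := congrArg (fun a => a.submatrix Fin.rev id) (re_rh μ e)
  rw [Rh, h]
  ext a k
  simpa [mul_apply, add_comm] using congrFun (congrFun this a) k

namespace Sc

theorem cj_cj (z : D.L0) : D.cj (D.cj z) = z := by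
  obtain ⟨a, c, rfl⟩ := D.gen z
  simp [D.cjI]

theorem cj_int {z : D.L0} (h : IsIntegral ℤ z) : IsIntegral ℤ (D.cj z) :=
  h.map D.cj.toRingEquiv.toRingHom.toIntAlgHom

theorem emb_fac {L C : Type} [Field L] [NumberField L] [Field C] [CharZero C] [IsAlgClosed C]
    (ι : Qb →+* C) (ψ : L →+* C) : ∃ φ : L →+* Qb, ι.comp φ = ψ :=
  ((Fintype.bijective_iff_injective_and_card _).2 ⟨fun a b h => RingHom.ext fun x =>
    ι.injective (RingHom.congr_fun h x), by rw [Embeddings.card, Embeddings.card]⟩).2 ψ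

/-- an embedding which induces `P` -/
theorem ex_emb [Fact l.Prime] (hP : Ov l P) : ∃ ι : Qb →+* Cp l, ∀ (φ : D.L0 →+* Qb) y,
    IsIntegral ℤ y → (InP P (φ y) ↔ ‖ι (φ y)‖ < 1) := by
  obtain ⟨ι, h⟩ := MB.exists_emb hP
  exact ⟨ι, fun φ y hy => ⟨fun ⟨z, a, b⟩ => b ▸ (h z).1 a,
    fun a => ⟨⟨φ y, hy.map φ.toIntAlgHom⟩, (h _).2 a, rfl⟩⟩⟩

theorem inP_dec {d : GQ} (hd : d ∈ dec P) {y : Qb} (h : InP P y) : InP P (d y) := by
  obtain ⟨z, a, rfl⟩ := h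
  exact ⟨d • z, (hd z).2 a, rfl⟩

theorem ty_cj (ck : x.Ck θ) (φ : D.L0 →+* Qb) :
    φ ∈ Ty j θ ↔ φ.comp D.cj.toRingEquiv.toRingHom ∉ Ty j θ := by
  obtain ⟨m, rfl⟩ := ex_mul_I ck.2.1
  exact D.typ_cj (fun e => ck.1 (by simp [e])) (j.comp φ)

/-- elements of the geometric stabiliser -/
theorem ex_z (ck : x.Ck θ) {z : D.L0} (h : z * D.cj z = 1) : ∃ e : EE D η, sg e = 1 ∧
    uu e = am (D.l0 z) ∧ x.Fx j e := (stab_row D η j x θ ck).1 z h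

theorem int_of (ok : D.Ok N) [Fact l.Prime] {e : EE D η} (ht : uu e ∈ TA D) {a : D.L0}
    (h : Rat l e (D.l0 a)) (ha : IsIntegral ℤ a) (hl : ∀ μ : Em D (Cp l), ‖re μ e 0 0‖ ≤ 1) :
    Int e := fun i k => mem_Z1.2 fun r => by
  rcases eq_or_ne r.1 l with rfl | hr
  · simpa using ((intt D N r.1 ok _ ht).2.2 1).2 
      (fun μ => (hl μ).trans_eq (by simp)) i k
  · exact (congrArg norm (congrFun (congrFun ((h r hr).trans (mp_cA r _).symm) i) k)).trans_le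
      (mem_Z1.1 (ok.lz a ha i k) r)

theorem norm_eps {p : ℕ} [Fact p.Prime] (g : GQ) : ‖eps p g‖ = 1 := by
  rw [eps, norm_algebraMap']
  exact PadicInt.norm_units _

end Sc

/-- **PSS**: the ordinary point with Frobenius `y` -/
theorem pss0 (hC : CMET) [Fact l.Prime] (ok : D.Ok N) (ck : x.Ck θ) (hη : IsOpen {g | η g = 1})
    (hP : Ov l P) (h1 : ∀ d ∈ dec P, η d = 1) {y : D.L0} (hy : IsIntegral ℤ y)
    (hn : y * D.cj y = l) (ty : ∀ φ, φ ∈ Ty j θ ↔ InP P (φ y)) :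
    ∃ s : dec P →* EE D η, Lp j x s ∧ (∀ d, uu (s d) ∈ TA D) ∧
      ∀ k (d : dec P), Fb (l ^ k) P d → Rat l (s d) (D.l0 (y ^ k)) ∧ ∀ μ : Em D (Cp l),
        (‖μ.z0 y‖ = 1 → re μ (s d) 0 0 = μ.z0 y ^ k) ∧
        (‖μ.z0 (D.cj y)‖ = 1 → re μ (s d) 1 1 = μ.z0 (D.cj y) ^ k) := by
  have met : ∀ {e k}, x.Fx j e → Fb (l ^ k) P (sg e) → uu e ∈ TA D → Rat l e (D.l0 (y ^ k)) →
      ∀ μ : Em D (Cp l), (‖μ.z0 y‖ = 1 → re μ e 0 0 = μ.z0 y ^ k) ∧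
        (‖μ.z0 (D.cj y)‖ = 1 → re μ e 1 1 = μ.z0 (D.cj y) ^ k) := fun {e k} a b c d μ => by
    have H := fun μ h => (hC N D η j x θ e l k P _ y μ ok ck hP a b c d hy h
      fun φ => (ty φ).1).trans (map_pow μ.zH y k)
    refine ⟨H μ, fun h => ?_⟩
    have := H μ.bar (by rwa [Em.z0_bar])
    rwa [re_bar, Em.zH_apply, Em.z0_bar] at this
  have ord : ∀ μ : Em D (Cp l), ‖μ.z0 y‖ = 1 ∨ ‖μ.z0 (D.cj y)‖ = 1 := fun μ => by
    obtain ⟨ι, hι⟩ := ex_emb (D := D) hP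
    obtain ⟨φ, hφ⟩ := emb_fac ι μ.zH
    have h2 := ty_cj (j := j) ck φ
    rw [ty, ty, hι _ _ hy, hι _ _ hy] at h2
    have h3 : ∀ z, ι (φ z) = μ.zH z := RingHom.congr_fun hφ
    by_cases h : ‖ι (φ y)‖ < 1
    · exact .inr ((Dat.norm_int μ.zH (cj_int hy)).antisymm (h3 _ ▸ not_lt.1 (h2.1 h)))
    · exact .inl ((Dat.norm_int μ.zH hy).antisymm (h3 _ ▸ not_lt.1 h))
  have l0 : (l : D.L0) ≠ 0 := Nat.cast_ne_zero.2 hP.1.ne_zero
  refine (sec_ext (j := j) stab_row deep ok ck hη hP (V := ⊤) isOpen_univ le_rfl inf_le_left y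
    (fun k d hd hf => ?_) hy hn).imp fun s ⟨s1, s2, s3⟩ => ⟨s1, s2, fun k d h => ⟨s3 k d h,
      met (s1.fx d) ((s1.sec.sg d).symm ▸ h) (s2 d) (s3 k d h)⟩⟩
  obtain ⟨e0, rfl, a1, a2⟩ := cmfix D η j x θ ck d (h1 d hd) fun φ hφ =>
    (ty ((d : Qb →+* Qb).comp φ)).2 (inP_dec hd ((ty φ).1 hφ))
  obtain ⟨a, a3, a4, -⟩ := ratl D η j x θ e0 l k P ck hP a2 hf a1
  have a0 : a ≠ 0 := left_ne_zero_of_mul (a4 ▸ pow_ne_zero k l0)
  obtain ⟨z, z1, z2, z3⟩ := ex_z (j := j) ck (z := y ^ k / a) (by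
    rw [map_div₀, div_mul_div_comm, a4, map_pow, ← mul_pow, hn, div_self (pow_ne_zero k l0)])
  have b1 : sg (e0 * z) = sg e0 := by rw [map_mul, z1, mul_one]
  have b2 := (fxg D η j x).2.1 _ _ a2 z3
  have b3 : uu (e0 * z) ∈ TA D := by rw [map_mul, z2]; exact ta_mul a1 (ta_l0 _)
  have b4 := rat_mul a3 (rat_of z2 l)
  rw [← l0_mul, mul_div_cancel₀ _ a0] at b4
  refine ⟨_, b1, ⟨b2, b3, int_of ok b3 b4 (hy.pow k) fun μ => ?_⟩, b4⟩
  obtain ⟨c1, c2⟩ := met b2 (b1.symm ▸ hf) b3 b4 μ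
  rcases ord μ with h | h
  · rw [c1 h, norm_pow, h, one_pow]
  · have := congrArg norm (re_eps μ (e0 * z))
    rw [re_diag μ b3, det_diagonal, Fin.prod_univ_two, norm_eps, norm_mul] at this
    simp only [cons_val_zero, cons_val_one, c2 h, norm_pow, h, one_pow, mul_one] at this
    exact this.le

/-- **PSS** with the choice of the point -/
theorem pss (hC : CMET) [Fact l.Prime] (ok : D.Ok N) (hη : IsOpen {g | η g = 1}) (j : Qb →+* ℂ)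
    (hP : Ov l P) (h1 : ∀ d ∈ dec P, η d = 1) {y : D.L0} (hy : IsIntegral ℤ y)
    (hn : y * D.cj y = l) (ord : ∀ f : D.L0 →+* Cp l, ‖f (y + D.cj y)‖ = 1) :
    ∃ (θ : D.L0) (x : MP D η) (s : dec P →* EE D η), x.Ck θ ∧ (∀ φ, φ ∈ Ty j θ ↔ InP P (φ y)) ∧
      Lp j x s ∧ (∀ d, uu (s d) ∈ TA D) ∧
      ∀ k (d : dec P), Fb (l ^ k) P d → Rat l (s d) (D.l0 (y ^ k)) ∧ ∀ μ : Em D (Cp l),
        (‖μ.z0 y‖ = 1 → re μ (s d) 0 0 = μ.z0 y ^ k) ∧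
        (‖μ.z0 (D.cj y)‖ = 1 → re μ (s d) 1 1 = μ.z0 (D.cj y) ^ k) := by
  obtain ⟨ι, hι⟩ := ex_emb (D := D) hP
  obtain ⟨θ, t1, t2, t3⟩ := theta D j {φ | InP P (φ y)} fun φ => by
    have h2 := ord (ι.comp φ)
    have h3 := congrArg (fun a => ‖ι (φ a)‖) hn
    have h4 := Dat.norm_int (ι.comp φ) hy
    have h5 := Dat.norm_int (ι.comp φ) (cj_int hy)
    have h6 := IsUltrametricDist.norm_add_le_max (ι (φ y)) (ι (φ (D.cj y)))
    have h7 := CH.norm_p_lt (p := l)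
    simp only [map_mul, map_add, norm_mul, map_natCast, RingHom.comp_apply] at h2 h3 h4 h5
    change InP P (φ y) ↔ ¬ InP P (φ (D.cj y))
    rw [hι _ _ hy, hι _ _ (cj_int hy)]
    rw [h2, le_max_iff] at h6
    refine ⟨fun a b => h6.elim a.not_ge b.not_ge, fun a => ?_⟩
    rwa [← h3, h5.antisymm (not_lt.1 a), mul_one] at h7
  obtain ⟨x, ck⟩ := cmex D η N ok θ t1 t2
  have ty : ∀ φ, φ ∈ Ty j θ ↔ InP P (φ y) := fun φ => by rw [t3]; rfl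
  obtain ⟨s, h⟩ := pss0 hC ok ck hη hP h1 hy hn ty
  exact ⟨θ, x, s, ck, ty, h⟩

end Vale.Agent.P022K.PM
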