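import Vale.Agent.P022K.PM.Lpr0
import Vale.Agent.P022K.PM.St2
import Vale.Agent.P022K.PM.Pss
import Vale.Agent.P022K.PM.Fld0
import Vale.Agent.P022K.PM.Mbv
import Vale.Agent.P022K.CH.Eps

/-!
# P022K / PM: the point at `p`, triangular case (helper22)
-/

open NumberField Matrix

noncomputable section

namespace Vale.Agent.P022K.PM

open Vale.Agent.P022 Vale.Agent.P010MR Vale.Agent.P010MT8
open Vale.Agent.P022.H443 (inP)
open Vale.Agent.P022D.W (dec)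
open Vale.Agent.P022E.GW (Ov Fb)
open Vale.Agent.P022K.CH (Cp Kp Op Id red eps dt)
open Vale.Agent.P022K.CH.Weil
open Vale.Agent.P022K.Top (GI iC UU)
open Vale.Agent.P022K.TP (Mn am)
open Gr Ti QD

namespace Lrr

variable {D : QD} {η : GQ →* ℤˣ} {N p q : ℕ} [Fact p.Prime] [Fact q.Prime] {μ : Em D (Cp p)}
  {μ' : Em D (Cp q)} {ρ : GQ →* GL (Fin 2) (Kp p)} {P : Id}

theorem ord_mul {y c : D.L0} (hy : IsIntegral ℤ y) (hn : y * D.cj y = p) (hc : Ru c)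
    (f : D.L0 →+* Cp p) (h : ‖f (y + D.cj y)‖ = 1) : ‖f (c * y + D.cj (c * y))‖ = 1 := by
  obtain ⟨n, h1, h2⟩ := hc
  rw [map_mul D.cj, map_add, map_mul, map_mul]
  exact norm_comb (Dat.norm_int f hy) (by rw [← norm_mul, ← map_mul, hn, map_natCast]; exact CH.norm_p_lt)
    (map_add f _ _ ▸ h) (norm_ru ⟨n, h1, by rw [← map_pow, h2, map_one]⟩)
    (norm_ru ⟨n, h1, by rw [← map_pow, ← map_pow, h2, map_one, map_one]⟩)

/-- the point -/
theorem core (hC : CMET) (hS : ST) (hT : TRI) (h : Lv η N μ μ' ρ) (j : Qb →+* ℂ) (hP : Ov p P)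
    (h1 : ∀ g ∈ dec P, η g = 1) {y : D.L0} (hy : IsIntegral ℤ y) (hn : y * D.cj y = p)
    (ord : ∀ f : D.L0 →+* Cp p, ‖f (y + D.cj y)‖ = 1) (h2 : ‖μ.z0 (D.cj y)‖ = 1) {ξ : GQ → Cp p}
    (hξ : Fc P ξ) {c : dec P → D.L0} (hc : ∀ d, μ.zH (D.cj (c d)) = ξ d) {k : GI p}
    (hk : ∀ i l, iC k i l ∈ c0 μ) (h3 : ∀ g ∈ dec P, fr ρ k g 1 0 = 0)
    (lat : ∀ E : IntermediateField ℚ_[p] (Cp p), FiniteDimensional ℚ_[p] E →
      (E : Set (Cp p)) = c0 μ → ∀ W, Tri P E ξ (μ.z0 (D.cj y)) W → ∃ t ∈ E, ∃ x ∈ E, t ≠ 0 ∧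
        ∀ g ∈ dec P, ‖t * W g 0 1 + x * (W g 1 1 - W g 0 0)‖ ≤ 1 ∧
        red (t * W g 0 1 + x * (W g 1 1 - W g 0 0)) = fr ρ k g 0 1 ∧ red (W g 1 1) = fr ρ k g 1 1) :
    ∃ (x : MP D η) (s : dec P →* EE D η), Lp j x s ∧ (∀ d, Lg μ μ' ρ (s d)) ∧
      ∀ (d : dec P) n, n ≤ 1 → Fb (p ^ n) P d →
        (re μ' (s d)).trace = μ'.z0 (c d * y ^ n + D.cj (c d * y ^ n)) := by
  have inj : Function.Injective fun z => μ.zH (D.cj z) := μ.zH.injective.comp D.cj.injective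
  obtain ⟨n, hn0, hn1⟩ := hξ.fin
  have ru : ∀ d, Ru (c d) := fun d => ⟨n, hn0, inj (by simp [hc, hn1 _ d.2])⟩
  obtain ⟨θ, x, s0, a1, a2, a3, a4, a5⟩ := pss hC h.ok h.eta j hP h1 hy hn ord
  obtain ⟨s1, b1, b2⟩ := twist h.ok a1 a3
    (fun d => ⟨a3.int d, .inl ⟨by rw [a3.sec.sg, h1 _ d.2], a4 d⟩⟩) ru
    (fun d d' => inj (by simp [h1 _ d.2, cs_one, hc, hξ.mul _ d.2 _ d'.2]))
    (hξ.opn.imp fun U hU => ⟨hU.1, fun d hd => inj (by simp [hc, hU.2 d ⟨hd, d.2⟩])⟩)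
  have b3 : ∀ d, uu (s1 d) ∈ TA D := fun d => (b2 d).2 ▸ ta_mul (ta_l0 _) (a4 d)
  have b4 : ∀ n (d : dec P), Fb (p ^ n) P d → Rat p (s1 d) (D.l0 (c d * y ^ n)) := fun n d hd =>
    D.l0_mul _ _ ▸ rat_tw (b2 d).2 (a5 n d hd).1
  obtain ⟨m1, c1, c2⟩ := hT N D η j p μ P x s1 ξ _ h.ok h.hp h.io hP b1 hξ h2 fun d hd =>
    ⟨c d * y, by simpa using b4 1 d (by simpa using hd),
      by rw [map_mul, ← hc, ← Em.zH_apply, map_mul]; rfl, fun f => ord_mul hy hn (ru d) f (ord f)⟩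
  obtain ⟨m2, c3, c4⟩ := frame2 h j
  obtain ⟨x', s', d1, d2, d3⟩ := hS N D η j x θ p P s1 y h.ok h.hp a1 hP b1 b3 hy hn a2 μ (m1 * m2)
    (Nat.mul_pos c1 c3)
  obtain ⟨e1, g, e2, e3, e4⟩ := c2 x' s' d1 fun d => (d2 d).anti (dvd_mul_right _ _)
  obtain ⟨e5, -, E, hE, e6⟩ := val D η N p h.ok h.hp μ h.io
  have kf := fun x => h.ok.kf h.hp μ (x := x)
  have gu : IsUnit g.det := e2 ▸ isUnit_one
  classical
  let W : GQ → M2 (Cp p) := fun a => if ha : a ∈ dec P then g⁻¹ * re μ (s' ⟨a, ha⟩) * g else 0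
  have w : ∀ d : dec P, W d = g⁻¹ * re μ (s' d) * g := fun d => dif_pos d.2
  have w1 : ∀ d : dec P, (W d).det = eps p d := fun d => by
    rw [w, det_mul, det_mul, det_nonsing_inv, e2, re_eps, d1.sec.sg]; simp
  obtain ⟨t, f1, z, f2, f3, f4⟩ := lat E hE e6 W
    { mul := fun a ha b hb => by
        rw [w ⟨a, ha⟩, w ⟨b, hb⟩, show W (a * b) = _ from w (⟨a, ha⟩ * ⟨b, hb⟩), map_mul, re_mul]
        simp only [mul_assoc, mul_nonsing_inv_cancel_left _ _ gu]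
      cont := continuousOn_iff_continuous_domRestrict.2 <| ((continuous_const.mul
        (Units.continuous_val.comp (d1.sec.cont μ))).mul continuous_const).congr fun d => (w d).symm
      mem := fun a ha i l => by
        rw [w ⟨a, ha⟩, ← SetLike.mem_coe, e6, ← kf]
        exact mem_mul _ (mem_mul _ (mem_inv _ fun _ _ => (kf _).2 (e3 _ _)) fun _ _ =>
          (kf _).2 (e5 _ _ _)) (fun _ _ => (kf _).2 (e3 _ _)) _ _
      tri := fun a ha => w ⟨a, ha⟩ ▸ (e4 _).1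
      det := fun a ha => w1 ⟨a, ha⟩
      et := fun n a ha => w ⟨a, CH.Weil.fb_dec hP ha⟩ ▸ (e4 ⟨a, CH.Weil.fb_dec hP ha⟩).2 n ha
      ns := fun ⟨z, hz⟩ => d3 ⟨GeneralLinearGroup.mk'' (g * !![1, - -z; 0, 1]) (by simp [e2]),
        fun d => by
          have := tri_conj (w d ▸ (e4 d).1 : W d 1 0 = 0) (-z) one_ne_zero
          rw [hz _ d.2, w] at this
          rw [coe_units_inv, GeneralLinearGroup.val_mk'', Matrix.mul_inv_rev]
          simp only [mul_assoc] at this ⊢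
          rw [this]
          simp⟩ }
  rw [← SetLike.mem_coe, e6, ← kf] at f1 f2
  have g1 : ∀ d : dec P, (g * !![1, -z; 0, t] * (iC k⁻¹).val)⁻¹ * re μ (s' d) *
      (g * !![1, -z; 0, t] * (iC k⁻¹).val) = (iC k).val *
        !![W d 0 0, t * W d 0 1 + z * (W d 1 1 - W d 0 0); 0, W d 1 1] * (iC k⁻¹).val := fun d => by
    rw [← tri_conj (w d ▸ (e4 d).1 : W d 1 0 = 0) z f3, w, Matrix.mul_inv_rev, Matrix.mul_inv_rev,
      ← coe_units_inv, map_inv, inv_inv]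
    simp only [mul_assoc]
  have g2 := fun d : dec P => tri_red (w d ▸ (e4 d).1 : W d 1 0 = 0) (h3 _ d.2)
    (by rw [w1, Sc.norm_eps]) (by
      rw [w1, ← h.det, fr, Units.val_mul, Units.val_mul, det_units_conj']; rfl)
    (f4 _ d.2).1 (f4 _ d.2).2.1 (f4 _ d.2).2.2
  have g3 : ∀ k : GI p, Le (iC k).val 1 := le_gl
  have g4 : ∀ k : GI p, (iC k).val.map red = (Top.rd k).val := red_gl
  obtain ⟨x'', s'', v, i1, i2⟩ := c4 x' _ s' d1
    (fun d => ⟨h1 _ d.2, _, b3 d, (d2 d).anti (dvd_mul_left _ _)⟩)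
    (g * !![1, -z; 0, t] * (iC k⁻¹).val)
    (fun i l => (kf _).1 (mem_mul _ (mem_mul _ (fun _ _ => (kf _).2 (e3 _ _)) fun i l => by
      fin_cases i <;> fin_cases l <;> simp [f1, f2]) (fun i l => by
        rw [map_inv, coe_units_inv]; exact mem_inv _ (fun _ _ => (kf _).2 (hk _ _)) _ _) _ _))
    (by rw [det_mul, det_mul, e2]; exact mul_ne_zero (by simp [f3]) (iC k⁻¹).det_ne_zero)
    (fun d => by rw [g1]; simpa only [mul_one] using ((g3 k).mul (g2 d).1).mul (g3 k⁻¹)) fun d => by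
      rw [g1, red_mm (by simpa only [mul_one] using (g3 k).mul (g2 d).1) (g3 k⁻¹),
        red_mm (g3 k) (g2 d).1, (g2 d).2, g4, g4, ← Units.val_mul, ← Units.val_mul, map_inv]
      exact congrArg _ (by rw [fr]; group)
  refine ⟨x'', s'', i1, fun d => (i2 d).1, fun d n hn hd => ?_⟩
  rw [F2.re_cz μ' ((i2 d).2 (pp q) h.ne.symm), trace_mul_cycle, inv_eq_right_inv (F2.lB_inv μ' v),
    mul_eq_one_comm.1 (F2.lB_inv μ' v), one_mul, e1 d (by
      interval_cases n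
      exacts [.inl (fb_zero.1 hd), .inr (by simpa using hd)]) q h.ne.symm μ',
    Sc.re_rat μ' (b4 n d hd) h.ne.symm, ← Em.zH_apply μ' (_ + _), map_add]
  simp [Em.zH_apply]

theorem z0_map {C C' : Type} [Field C] [Field C'] (ν : Em D C) (f : C →+* C') (z : D.L0) :
    (ν.map f).z0 z = f (ν.z0 z) := by simp [Em.z0, Em.la, Em.map]

theorem fc_pow {ξ : GQ → Cp p} (h : Fc P ξ) {g : GQ} (hg : g ∈ dec P) (n : ℕ) :
    ξ (g ^ n) = ξ g ^ n := by
  induction n with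
  | zero => exact h.opn.elim fun U hU => by simpa using hU.2 1 (one_mem _)
  | succ n ih => rw [pow_succ, h.mul _ (pow_mem hg n) _ hg, ih, pow_succ]

theorem not_dvd {L : Type} [Field L] (f : L →+* Cp q) {B : ℝ} (hB : 2 ≤ B)
    (h : ∀ a : L, IsIntegral ℤ a → a ≠ 0 → (∀ φ : L →+* ℂ, ‖φ a‖ ≤ B) → ‖f a‖ = 1) {z : L} {n : ℕ}
    (hn : 0 < n) (hz : IsPrimitiveRoot z n) : ¬ q ∣ n := by
  rintro ⟨m, rfl⟩
  have h1 := hz.pow hn (mul_comm q m)
  have h0 := (Fact.out : q.Prime).pos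
  have h2 : Ru (z ^ m) := ⟨q, h0, h1.pow_eq_one⟩
  have h3 := h _ (h2.int.sub isIntegral_one)
    (sub_ne_zero.2 (h1.ne_one (Fact.out : q.Prime).one_lt)) fun φ => by
      have := (h1.map_of_injective φ.injective).norm'_eq_one h0.ne'
      rw [map_sub, map_one]
      exact (norm_sub_le _ _).trans (by rw [this, norm_one]; linarith)
  have h4 := norm_ru (x := f (z ^ m)) ⟨q, h0, by rw [← map_pow, h1.pow_eq_one, map_one]⟩
  have h5 : (red (f (z ^ m)) - 1) ^ q = 0 := by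
    rw [sub_pow_char, ← Sc.red_pow h4.le, ← map_pow, h1.pow_eq_one, map_one, CH.red_one, one_pow,
      sub_self]
  rw [pow_eq_zero_iff h0.ne', sub_eq_zero, ← CH.red_one, CH.red_eq_iff h4.le (by simp)] at h5
  exact h5.ne (by simpa using h3)

theorem wn_ord {α : Qb} (h : Wn p α) {c : GQ} (hc : IsConj c) (f : Qb →+* Cp p) :
    ‖f (α + c α)‖ = 1 := by
  have h1 : IsIntegral ℤ (α + c α) := h.int.add (h.int.map c.toRingEquiv.toRingHom.toIntAlgHom)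
  obtain ⟨Q, hQ⟩ := MB.exists_emb' f.toRatAlgHom
  exact (Dat.norm_int f h1).antisymm (not_lt.1 fun e => h.ord c hc Q hQ.ov ⟨⟨_, h1⟩, (hQ _).2 e, rfl⟩)

omit [Fact p.Prime] in
theorem small {a : D.L0} (h : a * D.cj a = p) (φ : D.L0 →+* ℂ) :
    ‖φ (a + D.cj a)‖ ^ 2 ≤ 4 * p := by
  have h1 := congrArg (fun z => ‖φ z‖) h
  simp only [map_mul, D.conj_cj, norm_mul, Complex.norm_conj, map_natCast, Complex.norm_natCast] at h1
  have h2 := norm_add_le (φ a) (φ (D.cj a))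
  rw [← map_add, D.conj_cj, Complex.norm_conj] at h2
  nlinarith [norm_nonneg (φ (a + D.cj a))]

theorem alt (f : D.L0 →+* Cp q) (bq : ∀ a : D.L0, IsIntegral ℤ a → a ≠ 0 →
    (∀ φ : D.L0 →+* ℂ, ‖φ a‖ ≤ 2 * (p + 1) ^ 2) → ‖f a‖ = 1) {a : D.L0} (ha : IsIntegral ℤ a)
    (h : a * D.cj a = p) : ‖f (a + D.cj a) ^ 2 - (p + 1) ^ 2‖ = 1 := by
  have p2 : (2 : ℝ) ≤ p := by exact_mod_cast (Fact.out : p.Prime).two_le
  have e : ‖((p : ℂ) + 1) ^ 2‖ = (p + 1) ^ 2 := by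
    rw [norm_pow, ← Nat.cast_succ, Complex.norm_natCast, Nat.cast_succ]
  have := bq ((a + D.cj a) ^ 2 - (p + 1) ^ 2)
    (((ha.add (Sc.cj_int ha)).pow 2).sub (((isIntegral_natCast p).add isIntegral_one).pow 2))
    (fun e0 => by
      obtain ⟨φ⟩ : Nonempty (D.L0 →+* ℂ) := inferInstance
      have h1 := small h φ
      rw [← norm_pow, ← map_pow, sub_eq_zero.1 e0, map_pow, map_add, map_natCast, map_one, e] at h1
      nlinarith) fun φ => by
      have h1 := small h φ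
      rw [map_sub, map_pow, map_pow, map_add φ (p : D.L0), map_natCast, map_one]
      refine (norm_sub_le _ _).trans ?_
      rw [e, norm_pow]
      nlinarith
  rwa [map_sub, map_pow, map_pow, map_add f (p : D.L0), map_natCast, map_one] at this

theorem ex_conj : ∃ c : GQ, IsConj c := by
  let φ : Qb →ₐ[ℚ] ℂ := IsAlgClosed.lift
  let _ := φ.toRingHom.toAlgebra
  have : IsScalarTower ℚ Qb ℂ := IsScalarTower.of_algebraMap_eq fun x => (φ.commutes x).symm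
  exact ⟨((starRingAut : ℂ ≃+* ℂ).toRatAlgEquiv).restrictNormal Qb, φ, fun x =>
    AlgEquiv.restrictNormal_commutes _ Qb x⟩

end Lrr

open Lrr

/-- **LPR** -/
theorem lpr (hC : CMET) (hS : ST) (hT : TRI) (hL : LATP) (hW : WEIL) : LPR := by
  intro p _ ι ρ hρ P k hp hP _ h3
  classical
  let r : GQ →* GL (Fin 2) (Kp p) := (MulAut.conj (Top.rd k)⁻¹).toMonoidHom.comp ρ
  have hr : ∀ g, r g = fr ρ k g := fun g => by simp [r, fr]
  obtain ⟨ξ, u, ε, A, a1, a2, a3, a4, a5⟩ := hL p hp P r hP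
    ⟨by simpa only [r, MonoidHom.comp_apply, MulEquiv.coe_toMonoidHom, EmbeddingLike.map_eq_one_iff]
      using hρ.opn, fun g => by
      rw [← hρ.det, CH.dt, hr, fr, Units.val_mul, Units.val_mul, det_units_conj']; rfl⟩
    fun g hg => hr g ▸ h3 g hg
  obtain ⟨α, b1, b2⟩ := hW p ι p u (min ε 1) hP.1 a2 (lt_min a3 one_pos)
  have b3 : ‖ι α‖ = 1 := by
    have := b2.trans_le (min_le_right _ _)
    rw [← sub_add_cancel (ι α) u, IsUltrametricDist.norm_add_eq_max_of_norm_ne_norm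
      (by rw [a2]; exact this.ne), a2, max_eq_right this.le]
  obtain ⟨n, hn, a6⟩ := a1.fin
  have : NeZero n := ⟨hn.ne'⟩
  obtain ⟨ζ, hζ⟩ := HasEnoughRootsOfUnity.exists_primitiveRoot Qb n
  refine (Ev.has (A ∪ Finset.univ.image fun i : Fin 2 × Fin 2 => iC k i.1 i.2) (B := {α, ζ}) (by
    simpa using ⟨b1.cm, Fld.cmn_root hn.ne' hζ.pow_eq_one⟩)).mono fun q _ ι' C ok has h1 => ?_
  obtain ⟨a, ha⟩ := has.2 α (by simp)
  obtain ⟨z, hz⟩ := has.2 ζ (by simp)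
  obtain ⟨κ, hκ⟩ := ex_conj
  have hζ' : IsPrimitiveRoot z n := .of_map_of_injective (f := C.ν.zH) (by rwa [Em.zH_apply, hz])
    C.ν.zH.injective
  choose i _ hi using fun d : dec P =>
    (hζ.map_of_injective ι.injective).eq_pow_of_pow_eq_one (a6 _ d.2)
  have c1 : IsIntegral ℤ (C.D.cj a) := Sc.cj_int ((isIntegral_algHom_iff C.ν.zH.toIntAlgHom
    C.ν.zH.injective).1 (ha.symm ▸ b1.int : IsIntegral ℤ (C.ν.z0 a)))
  have c2 : C.D.cj a * C.D.cj (C.D.cj a) = p := C.ν.zH.injective (by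
    rw [map_mul, Sc.cj_cj, Em.zH_apply, Em.zH_apply, ok.cj κ hκ, ha, mul_comm, b1.nrm κ hκ,
      map_natCast])
  have c3 : ∀ f : C.D.L0 →+* Cp p, ‖f (C.D.cj a + C.D.cj (C.D.cj a))‖ = 1 := fun f => by
    obtain ⟨σ, hσ⟩ := Fld.exists_gal C.ν.zH f ι
    rw [hσ, map_add, Sc.cj_cj, Em.zH_apply, Em.zH_apply, ok.cj κ hκ, ha, add_comm]
    exact wn_ord b1 hκ (ι.comp σ.toRingEquiv.toRingHom)
  have c4 : (C.ν.map ι).z0 (C.D.cj (C.D.cj a)) = ι α := by rw [Sc.cj_cj, z0_map, ha]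
  have c5 : ∀ d, (C.ν.map ι).zH (C.D.cj (C.D.cj (z ^ i d))) = ξ d := fun d => by
    rw [Sc.cj_cj, map_pow, Em.zH_apply, z0_map, hz, hi]
  obtain ⟨x, s, d1, d2, d3⟩ := core hC hS hT ok.lv C.j hP h1 c1 c2 c3 (c4 ▸ b3) a1 c5 (k := k)
    (fun i l => has.1 _ (Finset.mem_union_right _ (Finset.mem_image_of_mem _ (Finset.mem_univ (i, l)))))
    h3 fun E hE e W hW => by
      simpa only [hr] using a5 _ (b2.trans_le (min_le_left _ _)) E hE
        (fun b hb => e.ge (has.1 b (Finset.mem_union_left _ hb))) W (c4 ▸ hW)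
  have d4 : ∀ d : dec P, d.1 ∈ inP P → ξ d = 1 → (re (C.ν.map ι') (s d)).trace = 2 :=
    fun d hd e => by
      rw [← c5, map_eq_one_iff _ (RingHom.injective _), map_eq_one_iff _ C.D.cj.injective] at e
      rw [d3 d 0 zero_le_one (fb_zero.2 hd), e, ← Em.zH_apply]
      simp [one_add_one_eq_two, map_ofNat]
  have ru : ∀ d, Ru (C.D.cj (z ^ i d)) := fun d => ⟨n, hn, by
    rw [← map_pow, ← pow_mul, mul_comm, pow_mul, hζ'.pow_eq_one, one_pow, map_one]⟩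
  have p2 : (2 : ℝ) ≤ p := by exact_mod_cast hP.1.two_le
  refine ⟨x, s, ⟨d1, d2⟩, ⟨n, not_dvd (C.ν.map ι').zH (by nlinarith) ok.bq hn hζ', fun d hd => ?_⟩,
    .inr ?_, fun h d => ⟨fun hd => d4 d hd (a4 ⟨h.1, fun g hg => by simp [r, h.2.1 g hg],
      fun g hg => ?_⟩ _ hd), fun hd => ⟨C.ν.z0 _, (d3 d 1 le_rfl (by simpa using hd)).trans
        (z0_map _ _ _), ?_⟩⟩⟩
  · obtain ⟨U, hU, e⟩ := iner C.D C.η C.j x _ s p P hP (by simp) d1
    obtain ⟨m, hm, e'⟩ := ex_pow hU (d.1 ^ n)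
    have e1 : ∀ (d : dec P) (n : ℕ), re (C.ν.map ι') (s d) ^ n = re (C.ν.map ι') (s (d ^ n)) :=
      fun d n => by rw [map_pow]; exact (map_pow (reH _) _ _).symm
    rw [e1]
    refine uni (d4 _ (pow_mem hd n) ((fc_pow a1 d.2 n).trans (a6 _ d.2))) ?_ hm ?_
    · rw [re_eps, d1.sec.sg]
      exact CH.eps_inert hP ok.lv.ne (pow_mem hd n)
    · rw [e1]
      exact Gr.re_rat (e _ ⟨e', pow_mem (pow_mem hd n) m⟩) ok.lv.ne _
  · obtain ⟨φ, hφ⟩ := P022D.W.exists_phi hP.1 hP.2.1 hP.2.2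
    have e0 : Fb (p ^ 1) P φ := (pow_one p).symm ▸ hφ
    refine ⟨⟨φ, CH.Weil.fb_dec hP e0⟩, hφ, ?_⟩
    rw [d3 _ 1 le_rfl e0, pow_one]
    exact alt (C.ν.map ι').zH ok.bq ((ru _).int.mul c1) (by
      rw [map_mul C.D.cj, mul_mul_mul_comm, (ru _).cj, one_mul, c2])
  · rw [hr, fr, Units.val_mul, Units.val_mul, trace_units_conj', h.2.2 g hg]
  · rw [← z0_map, pow_one]
    exact ord_mul c1 c2 (ru d) (C.ν.map ι).zH (c3 _)

end Vale.Agent.P022K.PM
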