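import Vale.Agent.P022K.PM.Cmp
import Vale.Agent.P022K.PM.Fxg
import Vale.Agent.P022K.CH.Exf
import Vale.Agent.P022K.Gd.Ord

/-!
# P022K / PM / Ord: the row ORD (helper71)
-/

set_option linter.all false

open NumberField Matrix Module Polynomial

noncomputable section

namespace Vale.Agent.P022K.PM

open Vale.Agent.P022 Vale.Agent.P010MR Vale.Agent.P010MT8
open Vale.Agent.P022.H443 (inP)
open Vale.Agent.P022D.W (dec)
open Vale.Agent.P022E.GW (Ov Fb)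
open Vale.Agent.P022K.CH (Cp eps Id)
open Vale.Agent.P022K.TP (Af Pr am Mn pr Rel)

variable {D : QD} {η : GQ →* ℤˣ} {l : ℕ} [hl : Fact l.Prime] {v : AbsoluteValue Qb ℝ}
  {j : Qb →+* ℂ}

theorem QD.good' (D : QD) (j : Qb →+* ℂ) (hv : IsPl l v) : ∃ ι : ℂ ≃+* ℂ_[l],
    (∀ a, ‖ι (j a)‖ = v a) ∧ (∀ k σ, Wl v l k σ → ∃ s, Ext j σ s ∧ Gd.Fb ι l k s) ∧
      (∀ σ ∈ stab v, ∃ s, Ext j σ s ∧ ∀ z, ‖ι (s z)‖ = ‖ι z‖) ∧
      ∀ τ ∈ D.Loc, ∃ N T, 2 ≤ N ∧ IsB ι τ N T ∧ T.Good := by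
  obtain ⟨h0, -⟩ | ⟨_, jp, hj⟩ := hv
  · exact absurd h0 hl.out.ne_zero
  obtain ⟨ι, h1, h2⟩ := exists_iso j jp
  refine ⟨ι, fun a => by rw [h1, norm_cpl, hj], fun k σ h => ?_, fun σ h => ?_, fun τ hτ => ?_⟩
  · obtain ⟨s, h3, h4, h5⟩ := h2 σ fun a => by rw [← hj, ← hj]; exact h.1 a
    refine ⟨s, h3, h4, fun z hz => ?_⟩
    rw [← map_pow, ← map_sub]
    exact h5 _ (fun a ha => hj _ ▸ h.2 a (hj a ▸ ha)) z hz
  · exact (h2 σ fun a => by rw [← hj, ← hj]; exact h a).imp fun s hs => ⟨hs.1, hs.2.1⟩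
  · obtain ⟨n, h3, h4, h5⟩ := D.un' hl.out hτ (ι : ℂ →+* ℂ_[l]) norm_p_lt
    exact Gd.good_of_un hτ.1 h3 h4 h5

theorem exists_eE {K : Type} [Field K] [CharZero K] [IsAlgClosed K] (ψ : D.Ef →+* K) :
    ∃ μ : Em D K, μ.eE = ψ := by
  obtain ⟨i, hi⟩ := IsAlgClosed.exists_pow_nat_eq (-1 : K) two_pos
  refine ⟨⟨ψ.comp (algebraMap _ _), i, ψ ⟨0, 1⟩, hi, ?_⟩, RingHom.ext fun a => ?_⟩
  · rw [← map_pow]
    exact congrArg ψ (by ext <;> simp [sq])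
  · exact ((map_add ..).trans (congrArg _ (map_mul ..))).symm.trans
      (congrArg ψ (by ext <;> simp))

theorem cop_of_unit {E : Type} [Field E] [Algebra ℚ E] [FiniteDimensional ℚ E] {a : E}
    (ha : IsIntegral ℤ a) (h : ∀ ψ : E →+* Cp l, ‖ψ a‖ = 1) (k : ℕ) :
    IsCoprime ((minpoly ℤ a).coeff 0) (l ^ k : ℕ) := by
  have : CharZero E := algebraRat.charZero E
  obtain rfl : ‹Algebra ℚ E› = DivisionRing.toRatAlgebra := Subsingleton.elim _ _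
  have : NumberField E := ⟨⟩
  have hm := (minpoly.monic ha).map (algebraMap ℤ (Cp l))
  have h1 := congrArg norm ((IsAlgClosed.splits _).coeff_zero_eq_prod_roots_of_monic hm)
  rw [norm_mul, norm_pow, norm_neg, norm_one, one_pow, one_mul, coeff_map,
    Multiset.prod_induction (‖·‖ = 1) _ (fun a b ha hb => by rw [norm_mul, ha, hb, one_mul])
      norm_one fun z hz => ?_, eq_intCast, ← map_intCast (algebraMap ℚ_[l] (Cp l)),
    PadicAlgCl.norm_extends, Padic.norm_intCast_eq_one_iff] at h1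
  · simpa using h1.pow_right
  have h2 : z ∈ (minpoly ℚ a).rootSet (Cp l) := by
    rw [minpoly.isIntegrallyClosed_eq_field_fractions' ℚ ha, mem_rootSet, aeval_map_algebraMap]
    exact ⟨((minpoly.monic ha).map _).ne_zero, (eval₂_eq_eval_map _).trans
      ((mem_roots hm.ne_zero).1 hz)⟩
  obtain ⟨ψ, rfl⟩ := (Embeddings.range_eval_eq_rootSet_minpoly E (Cp l) a).ge h2
  exact h ψ

theorem Rh.ap {μ : Em D (Cp l)} {u ρ} (h : Rh μ u ρ) (x : Ix D.g → ℚ_[l]) :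
    μ.Qm *ᵥ (algebraMap _ (Cp l) ∘ (u *ᵥ x)) = ρ *ᵥ μ.Qm *ᵥ (algebraMap _ _ ∘ x) := by
  rw [mulVec_mulVec, ← h, ← mulVec_mulVec]
  exact congrArg _ (funext fun i => RingHom.map_mulVec _ _ _ i)

theorem row_zero (μ : Em D (Cp l)) {w : Fin 2 → Cp l}
    (h : ∀ x : Ix D.g → ℚ_[l], w ⬝ᵥ μ.Qm *ᵥ (algebraMap _ _ ∘ x) = 0) : w = 0 :=
  μ.fm.ind _ (funext fun i => by
    have := h (Pi.single i 1)
    rw [dotProduct_mulVec] at this
    simpa [dotProduct, Pi.single_apply, apply_ite] using this)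

theorem prop_of_perp {K : Type} [Field K] {w w' y : Fin 2 → K} (hw : w ≠ 0) (hy : y ≠ 0)
    (h : w ⬝ᵥ y = 0) (h' : w' ⬝ᵥ y = 0) : ∃ c : K, w' = c • w := by
  simp only [dotProduct, Fin.sum_univ_two] at h h'
  have h1 : w 0 * w' 1 = w 1 * w' 0 := by
    by_contra e
    refine hy (funext (Fin.forall_fin_two.2 ⟨?_, ?_⟩)) <;>
      refine mul_left_cancel₀ (sub_ne_zero.2 e) ?_ <;> rw [Pi.zero_apply, mul_zero]
    · linear_combination w' 1 * h - w 1 * h'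
    · linear_combination w 0 * h' - w' 0 * h
  by_cases h0 : w 0 = 0
  · have h2 : w 1 ≠ 0 := fun e => hw (funext (Fin.forall_fin_two.2 ⟨h0, e⟩))
    refine ⟨w' 1 / w 1, funext (Fin.forall_fin_two.2 ⟨?_, by simp [h2]⟩)⟩
    simpa [h0, h2] using h1
  · refine ⟨w' 0 / w 0, funext (Fin.forall_fin_two.2 ⟨by simp [h0], ?_⟩)⟩
    simp only [Pi.smul_apply, smul_eq_mul]
    field_simp
    linear_combination h1

theorem eig_le (μ : Em D (Cp l)) {e : EE D η} (he : Int e) {w : Fin 2 → Cp l} (hw : w ≠ 0) {c : Cp l}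
    (h : w ᵥ* re μ e = c • w) : ‖c‖ ≤ 1 := by
  obtain ⟨C, h0, hC⟩ := exists_bd μ
  obtain ⟨i, hi⟩ := Function.ne_iff.1 hw
  by_contra! h2
  obtain ⟨k, hk⟩ := pow_unbounded_of_one_lt (‖w‖ * (C * 1) / ‖w i‖) h2
  have h3 : w ᵥ* re μ e ^ k = c ^ k • w := by
    clear hk
    induction k with
    | zero => simp
    | succ k ih => rw [pow_succ, ← vecMul_vecMul, ih, smul_vecMul, h, smul_smul, pow_succ]
  rw [div_lt_iff₀ (norm_pos_iff.2 hi), ← norm_pow, ← norm_mul] at hk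
  refine hk.not_ge (((congrArg norm (congrFun h3 i)).symm.trans_le ?_))
  change ‖∑ a, w a * (re μ e ^ k) a i‖ ≤ _
  refine IsUltrametricDist.norm_sum_le_of_forall_le_of_nonneg (by positivity) fun a _ => ?_
  rw [norm_mul]
  refine mul_le_mul (norm_le_pi_norm w a) (hC _ _ ((re_rh μ e).pow k) _ zero_le_one
    (fun a b => ?_) a i) (norm_nonneg _) (norm_nonneg _)
  rw [mt_eq, ← map_pow (mp (pp l)), ← map_pow]
  exact (he.pow k a b (pp l)).trans_eq (by simp)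

theorem ord0 (hv : IsPl l v) {x : MP D η} (hk : x.k = 1) {Γ : Subgroup GQ} {s : Γ →* EE D η}
    (hΓ : Γ ≤ stab v) (h1 : ∀ d, sg (s d) = d) (h2 : ∀ d, x.Fx j (s d)) (h3 : ∀ d, Int (s d))
    {d0 : Γ} (i1 : Wl v l 0 d0) (i2 : eps l d0 ≠ 1) (i3 : Rat l (s d0) 1) {d1 : Γ} {k1 : ℕ}
    {a1 : D.M × D.M} (o1 : 0 < k1) (o2 : Wl v l k1 d1) (o3 : Trc l (s d1) a1)
    (o4 : ∀ μ : Em D (Cp l), ‖μ.ev a1‖ = 1) (μ : Em D (Cp l)) :
    ∃ (w : Fin 2 → Cp l) (u : Γ → Cp l), w ≠ 0 ∧ (∀ d, w ᵥ* re μ (s d) = u d • w ∧ ‖u d‖ = 1) ∧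
      ∀ (d : Γ) k a, Wl v l k d → Trc l (s d) a → u d ^ 2 - μ.ev a * u d + (l : Cp l) ^ k = 0 := by
  obtain ⟨ι, -, g1, g2, g3⟩ := D.good' j hv
  obtain ⟨N, T, hN, hB, hT⟩ := g3 _ x.loc
  obtain ⟨W, S, E⟩ : ∃ (W : Submodule ℚ_[l] (Ix D.g → ℚ_[l])) (S : _), Gd.Et ι (pp l) x.τ W S :=
    ⟨_, _, Gd.et hB hT norm_p_lt x.loc.1 hN⟩
  obtain ⟨r, hr⟩ := exists_pr_ne l
  have fx : ∀ (d : Γ) t, Ext j d t → Rel t x.τ x.τ (uu (s d)) := fun d t ht => by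
    simpa [hk] using h2 d t (by rwa [h1])
  have mem : ∀ (d : Γ) k, Wl v l k d → uu (s d) ∈ S := fun d k h =>
    (g1 k d h).elim fun t ht => E.frb k t _ ht.2 (fx d t ht.1)
  have quad : ∀ (d : Γ) k a, Wl v l k d → Trc l (s d) a → IsIntegral ℤ (⟨a.1, a.2⟩ : D.Ef) ∧
      mt (s d) r ^ 2 + ((l ^ k : ℕ) : ℤ) = ql r.1 (D.rE ⟨a.1, a.2⟩) * mt (s d) r :=
    fun d k a h ha => by
      obtain ⟨b, b1, b2, -, b3⟩ := locg_tr hv x ((h1 d).symm ▸ h) (h2 d)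
      obtain ⟨ν, -⟩ := emx D (Cp r.1) (IsAlgClosed.lift (R := ℚ)).toRingHom
      obtain rfl : b = ⟨a.1, a.2⟩ := ν.eE.injective ((b2 _ hr ν).symm.trans (ha _ hr ν))
      refine ⟨b3 (h3 d).bd, Eq.trans ?_ (b1 r hr)⟩
      rw [sq, ← Nat.cast_pow, Nat.cast_smul_eq_nsmul, nsmul_one, Int.cast_natCast]
  have rE : ∀ a, am (D.rE a) ∈ S := fun a => E.rat _ (x.loc.2 _)
  have ne : ∀ μ : Em D (Cp l), ∃ y ∈ W, μ.Qm *ᵥ (algebraMap _ (Cp l) ∘ y) ≠ 0 := fun μ => by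
    by_contra! h
    refine i2 (h1 d0 ▸ (re_eps μ _).symm.trans ?_)
    rw [sub_eq_zero.1 (funext fun i => row_zero μ fun y => ?_ : re μ (s d0) - 1 = 0), det_one]
    have := h _ (E.kill _ (sub_mem (mem d0 0 i1) (one_mem _)) r hr (by
      rw [map_sub, map_one, ← mt_eq, i3 r hr, ql_one', sub_self]) y)
    rw [map_sub, map_one, ← mt_eq, ((re_rh μ _).sub rh_one').ap] at this
    exact congrFun this i
  obtain ⟨w, w0, hw⟩ := Gd.exists_row (W := W) D.sy (by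
    obtain ⟨t, t1, t2⟩ := g1 _ _ o2
    obtain ⟨q1, q2⟩ := quad _ _ _ o2 o3
    have := E.dim k1 t _ (minpoly ℤ (⟨a1.1, a1.2⟩ : D.Ef)) r o1 t2 (fx _ t t1) (h3 d1) hr
      (cop_of_unit q1 (fun ψ => (exists_eE ψ).elim fun μ h => h ▸ o4 μ) k1)
      (Gd.aeval_op (mt_cf _ r _).symm q2 ((aeval_algHom_apply (RingHom.comp (RingHom.mapMatrix
        (m := Ix D.g) (Rat.castHom ℚ_[r.1])) D.rE.toRingHom).toIntAlgHom _ _).trans
          ((congrArg _ (minpoly.aeval ℤ _)).trans (map_zero _))))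
    simp only [Fintype.card_sum, Fintype.card_fin]
    exact (Nat.mul_le_mul_right 2 this).trans_eq (mul_two _))
    (fun a y hy => mp_cA (pp l) (D.rE a) ▸ E.stab _ (rE a) y hy)
    (fun ψ => (exists_eE ψ).elim fun μ h => ⟨_, h ▸ μ.fm, ne μ⟩) μ.fm
  obtain ⟨y, hy, y0⟩ := ne μ
  choose u hu using fun d : Γ => prop_of_perp (w' := w ᵥ* re μ (s d)) w0 y0 (hw y hy) (by
    obtain ⟨t, t1, t2⟩ := g2 _ (hΓ d.2)
    rw [← dotProduct_mulVec, ← (re_rh μ _).ap]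
    exact hw _ (E.iso t _ t2 (fx d t t1) (h3 d) y hy))
  refine ⟨w, u, w0, fun d => ⟨hu d, le_antisymm (eig_le μ (h3 d) w0 (hu d)) ?_⟩,
    fun d k a h ha => ?_⟩
  · have h4 := congrArg (· ᵥ* re μ (s d⁻¹)) (hu d)
    rw [vecMul_vecMul, ← re_mul, ← map_mul, mul_inv_cancel, map_one, re_one, vecMul_one,
      smul_vecMul, hu, smul_smul] at h4
    have h5 := congrArg norm (smul_left_injective _ w0 ((one_smul _ _).trans h4))
    rw [norm_one, norm_mul] at h5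
    exact h5.trans_le (mul_le_of_le_one_right (norm_nonneg _) (eig_le μ (h3 _) w0 (hu _)))
  have h4 := ((((re_rh μ (s d)).pow 2).add (rh_one'.smul (l ^ k))).sub
    ((rh_rm' a).mul (re_rh μ (s d))))
  have h5 := row_zero μ (w := w ᵥ* _) fun y => by
    rw [← dotProduct_mulVec, ← h4.ap]
    have := hw _ (E.kill _ (sub_mem (add_mem (pow_mem (mem d k h) 2) (natCast_mem S (l ^ k)))
      (mul_mem (rE ⟨a.1, a.2⟩) (mem d k h))) r hr (by
        rw [map_sub, map_add, map_mul, map_pow, map_natCast, am, mp_cA, sub_eq_zero,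
          ← Int.cast_natCast]
        exact (quad d k a h ha).2) y)
    rw [map_sub, map_add, map_mul, map_pow, map_natCast, am, mp_cA] at this
    rw [← Nat.cast_pow, Nat.cast_smul_eq_nsmul, nsmul_one]
    exact this
  refine smul_left_injective _ w0 (Eq.trans ?_ (h5.trans (zero_smul _ _).symm))
  simp only [vecMul_sub, vecMul_add, sq, ← vecMul_vecMul, hu, smul_vecMul, vecMul_smul,
    vecMul_one, smul_smul, ← algebraMap_smul (Cp l) ((l : ℚ_[l]) ^ k), map_pow, map_natCast]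
  module

/-- **ORD** -/
theorem ord : ORD := by
  intro D η j x Γ s l _ P hP hΓ ho h ⟨d1, k1, a1, o1, o2, o3, o4⟩ μ
  obtain ⟨v, hv, e1, -, -, e2⟩ := exists_wl hP
  obtain ⟨N, n1, n2⟩ := iner D η j x Γ s l P hP ho h
  obtain ⟨U, u1, u2⟩ := isOpen_induced_iff.1 ho
  obtain ⟨N', n3⟩ := ProfiniteGrp.exist_openNormalSubgroup_sub_open_nhds_of_one u1
    (show (1 : dec P) ∈ Subtype.val ⁻¹' U from u2 ▸ one_mem _)
  obtain ⟨d, ⟨d2, d3⟩, d4, d5⟩ := CH.Sy.eps_ne l hP (U := N ⊓ N'.toSubgroup) (n1.inter N'.isOpen)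
  have d6 := fb_one.2 d4
  have d7 : d ∈ Γ := (Set.ext_iff.1 u2 ⟨d, fb_dec hP.2.1 one_ne_zero d6⟩).1 (n3 d3)
  obtain ⟨y, y1, y2⟩ := move_row D η j x 1 one_pos
  have y3 : Int y.k := by simpa [Int] using y1.add TP.mn_one
  have y4 : Int y.k⁻¹ := y3.inv
  have tr : ∀ e a, Trc l e a → Trc l (y.k * e * y.k⁻¹) a := fun e a h r _ hr μ =>
    (tr_conj μ _ _).trans (h r hr μ)
  obtain ⟨w, u, w0, h1, h2⟩ := ord0 (j := j) hv (x := y.mv y.k⁻¹ (by rw [map_inv, y.one, inv_one]))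
    (mul_inv_cancel _) (s := (MulAut.conj y.k).toMonoidHom.comp s) (e1 ▸ hΓ)
    (fun d => (sg_conj y _).trans (h.sec.sg d))
    (fun d => (y.fx_mv j _ _).2 (by simpa [mul_assoc] using (y2 _).2 (h.fx d)))
    (fun d => by
      change Mn 1 (uu (y.k * s d * y.k⁻¹))
      rw [map_mul, map_mul]
      exact TP.Mn.mul (a := 1) (b := 1) (TP.Mn.mul (a := 1) (b := 1) y3 (h.int d)) y4)
    (d0 := ⟨d, d7⟩) ((e2 0 _).2 d6) d5 (fun r hr => by
      change mt (y.k * s _ * y.k⁻¹) r = _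
      rw [mt_mul, mt_mul, n2 ⟨d, d7⟩ ⟨d2, d4⟩ r hr, ql_one', mul_one, ← mt_mul, mul_inv_cancel,
        mt_one]) o1 ((e2 _ _).2 o2) (tr _ _ o3) o4 μ
  refine ⟨w ᵥ* re μ y.k, u, fun e => w0 ?_, fun d => ⟨?_, (h1 d).2⟩,
    fun d k a hd ha => h2 d k a ((e2 _ _).2 hd) (tr _ _ ha)⟩
  · rw [← vecMul_one w, ← re_one μ (η := η), ← mul_inv_cancel y.k, re_mul, ← vecMul_vecMul, e,
      zero_vecMul]
  · rw [← smul_vecMul, ← (h1 d).1, vecMul_vecMul, vecMul_vecMul, ← re_mul, ← re_mul]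
    exact congrArg (w ᵥ* re μ ·) (inv_mul_cancel_right _ _).symm

end Vale.Agent.P022K.PM
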