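import Vale.Agent.P022K.PM.Out0

/-!
# P022K / PM: the row `OUT`
-/

set_option autoImplicit false

open NumberField Matrix Pointwise

noncomputable section

namespace Vale.Agent.P022K.PM

open Vale.Agent.P022
open Vale.Agent.P022.H443 (inP)
open Vale.Agent.P022D.W (dec inP_le_dec)
open Vale.Agent.P022E.GW (Ov Fb)
open Vale.Agent.P022K.Glue (Dsj)
open Vale.Agent.P022K.CH (Cp Kp Op Id red eps mem_op red_coe red_eq_iff Spl)
open Vale.Agent.P022K.CH.Fld (ov_conj ov_smul mem_dec_smul)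
open Vale.Agent.P022K.TP (Mn)
open Vale.Agent.P022K.Top (GI iC tc Rp cg UU Odn)
open Vale.Agent.P022K.Top.Pm (Qd Px Aq)

namespace Out

theorem fb_smul {a : ℕ} {P : Id} {φ : GQ} (h : Fb a P φ) (g : GQ) :
    Fb a (g • P) (g * φ * g⁻¹) := fun x => by
  rw [Ideal.mem_pointwise_smul_iff_inv_smul_mem, smul_sub, smul_pow', mul_smul, mul_smul,
    inv_smul_smul]
  exact h _

theorem fb_back {l a : ℕ} {P : Id} (hP : Ov l P) (ha : a ≠ 0) {t g : GQ} (h : Fb a (t • P) g) :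
    ∃ d : dec P, Fb a P d ∧ g = t * d * t⁻¹ := by
  have := fb_smul h t⁻¹
  rw [inv_smul_smul] at this
  exact ⟨⟨_, fb_dec hP.2.1 ha this⟩, this, by simp [mul_assoc]⟩

theorem in_back {l : ℕ} {P : Id} (hP : Ov l P) {t g : GQ} (h : g ∈ inP (t • P)) :
    ∃ d : dec P, d.1 ∈ inP P ∧ g = t * d * t⁻¹ :=
  (fb_back hP one_ne_zero (fb_one.2 h)).imp fun _ h => ⟨fb_one.1 h.1, h.2⟩

theorem in_smul {P : Id} {φ : GQ} (h : φ ∈ inP P) (g : GQ) : g * φ * g⁻¹ ∈ inP (g • P) :=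
  fb_one.1 (fb_smul (fb_one.2 h) g)

variable {D : QD} {η : GQ →* ℤˣ} {j : Qb →+* ℂ} {p q : ℕ} [hp : Fact p.Prime] [hq : Fact q.Prime]
  {M : ℕ}

section gi

variable (ok : D.Ok M) (hM : p ∣ M) (μ : Em D (Cp p)) {a b : EE D η}

include ok hM

theorem gi_cj (ha : Int a) (hb : Int b) : gi μ (a * b * a⁻¹) = gi μ a * gi μ b * (gi μ a)⁻¹ :=
  iC_inj (by
    rw [map_mul, map_mul, map_inv, iC_gi ok hM μ ha, iC_gi ok hM μ hb,
      iC_gi ok hM μ ((ha.mul hb).mul ha.inv), map_mul, map_mul, map_inv])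

theorem rd_gi (ha : Int a) : (Top.rd (gi μ a)).val = (re μ a).map red := by
  rw [rd_val, iC_gi ok hM μ ha]; rfl

theorem rd_cj (ha : Int a) (hb : Int b) {c : EE D η} (hc : Int c) {n : ℕ} (hn : p ∣ n)
    (h : Mn n (uu (a * b * a⁻¹) - uu c)) :
    Top.rd (gi μ c) * Top.rd (gi μ a) = Top.rd (gi μ a) * Top.rd (gi μ b) := by
  have hi := (ha.mul hb).mul ha.inv
  rw [← eq_mul_inv_iff_mul_eq, ← map_inv, ← map_mul, ← map_mul, ← gi_cj ok hM μ ha hb]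
  refine Units.ext (Eq.symm ?_)
  rw [rd_gi ok hM μ hc, rd_gi ok hM μ hi, Gr.red_congr (ok.le_int hM μ hi) (ok.le_int hM μ hc)]
  refine fun i k => (mn_le ok hM μ (k := 1) (by rwa [pow_one]) h i k).trans_lt ?_
  rw [pow_one, ← map_natCast (algebraMap ℚ_[p] (Cp p)), norm_algebraMap']
  exact Padic.norm_p_lt_one

theorem rp_pow {H : Subgroup GQ} {r : H →* EE D η} {y : MP D η} (hy : Lp j y r) {g : GQ}
    (h : g ∈ H) {n : ℕ} (e : re μ (r ⟨g, h⟩) ^ n = 1) : rp μ r g ^ n = 1 :=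
  iC_inj (by rw [map_pow, iC_rp ok hM μ hy h, map_one]; exact Units.ext e)

theorem rp_one {H : Subgroup GQ} {r : H →* EE D η} {y : MP D η} (hy : Lp j y r) {g : GQ}
    (h : g ∈ H) (e : re μ (r ⟨g, h⟩) = 1) : rp μ r g = 1 :=
  iC_inj (by rw [iC_rp ok hM μ hy h, map_one]; exact Units.ext e)

theorem tc_rp {H : Subgroup GQ} {r : H →* EE D η} {y : MP D η} (hy : Lp j y r) {g : GQ}
    (h : g ∈ H) : tc (rp μ r) g = (re μ (r ⟨g, h⟩)).trace := by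
  rw [tc, iC_rp ok hM μ hy h]; rfl

end gi

theorem rp_mem (μ : Em D (Cp p)) {H : Subgroup GQ} (r : H →* EE D η) {g : GQ} (h : g ∈ H) :
    rp μ r g = gi μ (r ⟨g, h⟩) := dif_pos h

/-- the global point -/
structure Gl (j : Qb →+* ℂ) (μ : Em D (Cp p)) (μ' : Em D (Cp q)) (ρ : GQ →* GL (Fin 2) (Kp p))
    (Z : Finset ℕ) (N : ℕ) (P : ℕ → Id) (s : ∀ l, dec (P l) →* EE D η) (H : Subgroup GQ)
    (r : H →* EE D η) (y : MP D η) : Prop where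
  opn : IsOpen (H : Set GQ)
  lp : Lp j y r
  lg : ∀ h, Lg μ μ' ρ (r h)
  key : ∀ l ∈ Z, l.Prime → ∀ t : GQ, ∃ e, Lg μ μ' ρ e ∧ sg e = t⁻¹ ∧ ∀ d : dec (P l),
    ∃ h : t * d * t⁻¹ ∈ H, Mn (p ^ N * q) (uu (e * r ⟨_, h⟩ * e⁻¹) - uu (s l d)) ∧
      ∀ k, l ^ k ≤ p + q → Fb (l ^ k) (P l) d → ∀ (u : ℕ) [Fact u.Prime], u ≠ l →
        ∀ ν : Em D (Cp u), (re ν (r ⟨_, h⟩)).trace = (re ν (s l d)).trace

variable {ι : Qb →+* Cp p} {μ : Em D (Cp p)} {ι' : Qb →+* Cp q} {μ' : Em D (Cp q)}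
  {S T : Finset ℕ} {ρ : GQ →* GL (Fin 2) (Kp p)} {V : ℕ → GQ → GI p} {N : ℕ} {P : ℕ → Id}
  {x : ℕ → MP D η} {s : ∀ l, dec (P l) →* EE D η} {H : Subgroup GQ} {r : H →* EE D η} {y : MP D η}
  (L : Lv η M μ μ' ρ) (A : Pts j ι μ ι' μ' S T ρ V N P x s)

include L A

theorem exists_gl {x0 : MP D η} {e0 : EE D η} (h1 : ∀ a, j (sg e0 a) = starRingEnd ℂ (j a))
    (h2 : e0 * e0 = 1) (h3 : x0.Fx j e0) (h4 : Lg μ μ' ρ e0) {U : Subgroup GQ}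
    (hU : IsOpen (U : Set GQ)) : ∃ (H : Subgroup GQ) (r : H →* EE D η) (y : MP D η), H.Normal ∧
      Dsj H U ∧ (∀ c, IsConj c → c ∈ H) ∧ Spl H (insert p (insert q (S ∪ T))) ∧
      Gl j μ μ' ρ (insert p (insert q (S ∪ T))) N P s H r y := by
  obtain ⟨m, hm⟩ := tr_eq D L.ne μ μ'
  have h0 := Nat.mul_pos hp.out.pos hq.out.pos
  obtain ⟨H, r, y, a1, a2, a3, a4, a5, a6, a7, a8⟩ := gtw lift val intr D η j p q M μ μ' ρ L
    ((insert p (insert q (S ∪ T))).filter Nat.Prime) P x s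
    (fun l hl => A.loc l (Finset.mem_filter.1 hl).1 (Finset.mem_filter.1 hl).2) x0 e0 h1 h2 h3 h4
    U hU ((p * q) ^ m * (p ^ N * q))
    (Nat.mul_pos (pow_pos h0 m) (Nat.mul_pos (pow_pos hp.out.pos N) hq.out.pos))
  refine ⟨H, r, y, a1, a3, a4, fun l hl Q hQ => a5 l (Finset.mem_filter.2 ⟨hl, hQ.1⟩) Q hQ,
    a2, a6, a7, fun l hl h t => ?_⟩
  obtain ⟨e, b1, b2, b3⟩ := a8 l (Finset.mem_filter.2 ⟨hl, h⟩) t⁻¹
  obtain ⟨c1, c2, -⟩ := A.loc l hl h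
  refine ⟨e, b1, b2, fun d => ?_⟩
  have hd := a1.conj_mem _ (a5 l (Finset.mem_filter.2 ⟨hl, h⟩) _ c1 d.2) t
  have := b3 d ⟨_, hd⟩ (by simp [mul_assoc])
  exact ⟨hd, this.anti (dvd_mul_left _ _), fun k hk hf => hm η j l k _ (P l) y (x l) e _ _ c1 hk
    (dvd_mul_right _ _) ((c2.sec.sg d).symm ▸ hf)
    (by rw [b2, a6.sec.sg, c2.sec.sg]; simp [mul_assoc]) (a6.fx _) (c2.fx _) (a6.int _) (c2.int _)
    this⟩

variable (G : Gl j μ μ' ρ (insert p (insert q (S ∪ T))) N P s H r y)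

include G

theorem near {l : ℕ} (hl : l ∈ S) (h : l.Prime) (σ : GQ) : ∃ z : GI p, Top.rd z = ρ σ ∧
    ∀ g ∈ dec (P l), ∀ i k, ‖iC (V l g) i k - iC (cg z σ (rp μ r) g) i k‖ ≤ ‖(p : Cp p)‖ ^ N := by
  obtain ⟨z, a1, a2⟩ := A.near l hl
  obtain ⟨e, b1, b2, b3⟩ := G.key l (by simp [hl]) h σ
  refine ⟨(gi μ e)⁻¹ * z, ?_, fun g hg => ?_⟩
  · rw [map_mul, a1, mul_one, map_inv, inv_eq_iff_eq_inv, ← map_inv, ← b2]
    exact Units.ext ((rd_gi L.ok L.hp μ b1.1).trans b1.2.1)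
  obtain ⟨c1, c2, -⟩ := b3 ⟨g, hg⟩
  have e1 : (iC (cg ((gi μ e)⁻¹ * z) σ (rp μ r) g)).val =
      (iC z⁻¹).val * re μ (e * r ⟨_, c1⟩ * e⁻¹) * (iC z).val := by
    rw [← reU_val, ← iC_gi L.ok L.hp μ ((b1.1.mul (G.lp.int _)).mul b1.1.inv),
      gi_cj L.ok L.hp μ b1.1 (G.lp.int _), ← Units.val_mul, ← Units.val_mul, ← map_mul, ← map_mul,
      cg, rp_mem μ r c1]
    congr 2
    group
  have c3 := c2.neg
  rw [neg_sub] at c3
  have c4 := ((le_iC z⁻¹).mul (mn_le L.ok L.hp μ (dvd_mul_right _ q) c3)).mul (le_iC z)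
  rw [one_mul, mul_one] at c4
  have := (a2 ⟨g, hg⟩).add c4
  rw [mul_sub, sub_mul, sub_add_sub_cancel, ← e1] at this
  exact this

theorem unr {l : ℕ} (hl : l ∈ T) (h : l ∉ insert p (insert q S)) {Q : Id} (hQ : Ov l Q) {g : GQ}
    (hg : g ∈ inP Q) : rp μ' r g = 1 := by
  have hz : l ∈ insert p (insert q (S ∪ T)) := by simp [hl]
  have ne : q ≠ l := fun e => h (by simp [e])
  obtain ⟨c1, -⟩ := A.loc l hz hQ.1
  obtain ⟨t, rfl⟩ := ov_conj c1 hQ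
  obtain ⟨d, hd, rfl⟩ := in_back c1 hg
  obtain ⟨e, -, -, b⟩ := G.key l hz hQ.1 t
  obtain ⟨b1, -, b2⟩ := b d
  exact rp_one L.ok L.hq μ' G.lp b1 (mt_one G.lp G.opn hQ hg ne ((b2 0 (le_add_right hp.out.pos)
    (fb_one.2 hd) q ne μ').trans (A.unr l hl hQ.1 h d hd)) ne μ')

theorem atp {Q : Id} (hQ : Ov p Q) : (∃ n, ¬ q ∣ n ∧ ∀ g ∈ inP Q, rp μ' r g ^ n = 1) ∧
    ((∃ g ∈ inP Q, Top.rd (rp μ' r g) ^ 2 ≠ 1) ∨
      ∃ φ, Fb p Q φ ∧ ‖tc (rp μ' r) φ ^ 2 - (p + 1) ^ 2‖ = 1) := by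
  obtain ⟨c1, c2, -⟩ := A.loc p (by simp) hQ.1
  obtain ⟨t, rfl⟩ := ov_conj c1 hQ
  obtain ⟨e, b0, -, b⟩ := G.key p (by simp) hQ.1 t
  refine ⟨A.tam.imp fun n hn => ⟨hn.1, fun g hg => ?_⟩, A.alt.imp (fun ⟨d, hd, h⟩ => ?_)
    fun ⟨d, hd, h⟩ => ?_⟩
  · obtain ⟨d, hd, rfl⟩ := in_back c1 hg
    obtain ⟨b1, -, b2⟩ := b (d ^ n)
    have h1 := (b d).1
    refine rp_pow L.ok L.hq μ' G.lp h1 ?_
    have h2 : (d ^ n).1 ∈ inP (P p) := pow_mem hd n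
    have h3 := mt_one G.lp G.opn hQ (h := ⟨_, b1⟩) (in_smul h2 t) L.ne.symm
      ((b2 0 (le_add_right hp.out.pos) (fb_one.2 h2) q L.ne.symm μ').trans (by
        rw [map_pow, show re μ' (s p d ^ n) = _ from (reH μ').map_pow _ n]
        exact (congrArg trace (hn.2 d hd)).trans (by simp))) L.ne.symm μ'
    rw [← h3, show (⟨_, b1⟩ : H) = ⟨_, h1⟩ ^ n from Subtype.ext conj_pow.symm, map_pow]
    exact ((reH μ').map_pow _ n).symm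
  · obtain ⟨b1, b2, -⟩ := b d
    refine ⟨_, in_smul hd t, fun h1 => h ?_⟩
    have := rd_cj L.ok L.hq μ' b0.1 (G.lp.int _) (c2.int d) (dvd_mul_left _ _) b2
    rw [← rd_gi L.ok L.hq μ' (c2.int d), ← Units.val_pow_eq_pow_val, eq_mul_inv_of_mul_eq this,
      conj_pow, ← rp_mem μ' r b1, h1, mul_one, mul_inv_cancel, Units.val_one]
  · obtain ⟨b1, -, b2⟩ := b d
    refine ⟨_, fb_smul hd t, ?_⟩
    rwa [tc_rp L.ok L.hq μ' G.lp b1, b2 1 (by simp) (by rwa [pow_one]) q L.ne.symm μ']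

theorem uu' (h : ∀ Q, Ov p Q → UU Q ρ) {Q : Id} (hQ : Ov p Q) : (∀ g ∈ inP Q, rp μ' r g = 1) ∧
    ∀ φ, Fb p Q φ → ∃ a : Qb, tc (rp μ' r) φ = ι' a ∧ ‖ι a‖ = 1 := by
  obtain ⟨c1, c2, -⟩ := A.loc p (by simp) hQ.1
  obtain ⟨t, rfl⟩ := ov_conj c1 hQ
  obtain ⟨e, -, -, b⟩ := G.key p (by simp) hQ.1 t
  refine ⟨fun g hg => ?_, fun g hg => ?_⟩
  · obtain ⟨d, hd, rfl⟩ := in_back c1 hg
    obtain ⟨b1, -, b2⟩ := b d
    exact rp_one L.ok L.hq μ' G.lp b1 (mt_one G.lp G.opn hQ hg L.ne.symm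
      ((b2 0 (le_add_right hp.out.pos) (fb_one.2 hd) q L.ne.symm μ').trans
        ((A.uu (h _ c1) d).1 hd)) L.ne.symm μ')
  · obtain ⟨d, hd, rfl⟩ := fb_back c1 hp.out.ne_zero hg
    obtain ⟨b1, -, b2⟩ := b d
    rw [tc_rp L.ok L.hq μ' G.lp b1, b2 1 (by simp) (by rwa [pow_one]) q L.ne.symm μ']
    exact (A.uu (h _ c1) d).2 hd

theorem atq {Δ : ℕ} (hΔ : ∀ g, η g = 1 ↔ g ∈ Qd Δ) : Aq Δ fun g => Top.rd (rp μ' r g) := by
  obtain ⟨c1, c2, c3⟩ := A.loc q (by simp) hq.out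
  refine ⟨P q, c1, fun g hg => (hΔ g).1 (A.spq g hg), fun σ g hg => ?_⟩
  obtain ⟨e, b0, b1, b⟩ := G.key q (by simp) hq.out σ
  obtain ⟨b2, b3, -⟩ := b ⟨g, inP_le_dec hg⟩
  have h1 := rd_cj L.ok L.hq μ' b0.1 (G.lp.int _) (c2.int _) (dvd_mul_left _ _) b3
  rw [← rp_mem μ' r b2] at h1
  have h2 := (Gr.mon_iff (L.ok.le_int L.hq μ' b0.1)).1 b0.2.2
  rw [← rd_gi L.ok L.hq μ' b0.1, b1, map_inv, Int.units_inv_eq_self] at h2
  have h3 := ((Gr.mon_iff (L.ok.le_int L.hq μ' (c2.int _))).1 (c3 ⟨g, inP_le_dec hg⟩).2.2).1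
    (by rw [c2.sec.sg]; exact A.spq g (inP_le_dec hg))
  have h4 := (red_eq_iff (L.ok.le_int L.hq μ' (c2.int _) 1 1) norm_one.le).2
    (A.inq ⟨g, inP_le_dec hg⟩ hg).2
  rw [CH.red_one, ← map_apply (f := red), ← rd_gi L.ok L.hq μ' (c2.int _)] at h4
  rw [← rd_gi L.ok L.hq μ' (c2.int _)] at h3
  have h5 := (Top.rd (gi μ' e)).det_ne_zero
  have h6 := fun i k => congrArg (fun a : GL (Fin 2) (Kp q) => a.val i k) h1
  simp only [Units.val_mul, mul_apply, Fin.sum_univ_two] at h6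
  rw [det_fin_two] at h5
  refine ⟨fun h => ?_, fun h => ?_⟩
  · obtain ⟨h7, h8⟩ := h2.1 ((hΔ σ).2 h)
    have := h6 1 1
    rw [h7, h8, h4] at this
    rw [h7] at h5
    exact mul_left_cancel₀ (a := (Top.rd (gi μ' e)).val 1 1) (fun e => h5 (by simp [e]))
      (by linear_combination -this)
  · obtain ⟨h7, h8⟩ := h2.2 ((Int.units_eq_one_or _).resolve_left fun e => h ((hΔ σ).1 e))
    have := h6 1 0
    rw [h7, h8, h4] at this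
    rw [h7] at h5
    exact mul_left_cancel₀ (a := (Top.rd (gi μ' e)).val 1 0) (fun e => h5 (by simp [e]))
      (by linear_combination -this)

theorem odn (hO : ORD) (hs : Spl H (insert p (insert q (S ∪ T)))) {Q : Id} (hQ : Ov q Q) :
    Odn Q (rp μ' r) := by
  obtain ⟨c1, c2, -⟩ := A.loc q (by simp) hQ.1
  have le := hs q (by simp) Q hQ
  obtain ⟨t, rfl⟩ := ov_conj c1 hQ
  obtain ⟨e, -, -, b⟩ := G.key q (by simp) hQ.1 t
  have h1 : ∀ g (hg : Fb q (t • P q) g), ∃ a, Trc q (r ⟨g, le (fb_dec hQ.2.1 hQ.1.ne_zero hg)⟩) a ∧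
      (∀ μ'' : Em D (Cp q), ‖μ''.ev a‖ = 1) ∧ ‖μ'.ev a ^ 2 - 1‖ = 1 := fun g hg => by
    obtain ⟨d, hd, rfl⟩ := fb_back c1 hq.out.ne_zero hg
    obtain ⟨b1, -, b2⟩ := b d
    exact (A.frq d hd).imp fun a h => ⟨fun u _ hu ν =>
      (b2 1 (by simp) (by rwa [pow_one]) u hu ν).trans (h.1 u hu ν), h.2⟩
  have h2 : ∀ g (hg : g ∈ inP (t • P q)), Trc q (r ⟨g, le (inP_le_dec hg)⟩) (2, 0) :=
    fun g hg u _ hu ν => by
      obtain ⟨d, hd, rfl⟩ := in_back c1 hg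
      obtain ⟨b1, -, b2⟩ := b d
      rw [mt_one G.lp G.opn hQ hg L.ne
        ((b2 0 (le_add_right hp.out.pos) (fb_one.2 hd) p L.ne μ).trans (A.inq d hd).1) hu ν]
      simp [Em.ev, map_ofNat]
  intro φ hφ
  obtain ⟨a, a1, a2, a3⟩ := h1 φ hφ
  have hd := fb_dec hQ.2.1 hQ.1.ne_zero hφ
  obtain ⟨w, u, w0, w1, w2⟩ := hO D η j y (dec (t • P q)) (r.comp (Subgroup.inclusion le)) q _ hQ
    le_rfl (by rw [Subgroup.subgroupOf_self]; exact isOpen_univ)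
    ⟨G.lp.sec.res le, fun _ => G.lp.fx _, fun _ => G.lp.int _⟩
    ⟨⟨φ, hd⟩, 1, a, one_pos, by rwa [pow_one], a1, a2⟩ μ'
  obtain ⟨c, c0, hc⟩ : ∃ c : Cp q, c ≠ 0 ∧ ∀ i, ‖c * w i‖ ≤ 1 := by
    obtain ⟨c, c0, hc⟩ := NormedField.exists_norm_lt (Cp q) (r := (‖w‖ + 1)⁻¹) (by positivity)
    refine ⟨c, norm_pos_iff.1 c0, fun i => ?_⟩
    rw [norm_mul, ← inv_mul_cancel₀ (show ‖w‖ + 1 ≠ 0 by positivity)]
    exact mul_le_mul hc.le ((norm_le_pi_norm w i).trans (lt_add_one _).le) (norm_nonneg _)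
      (by positivity)
  have h3 : ∀ (d : dec (t • P q)) (α : Op q), (α : Cp q) = u d →
      (fun i => (⟨c * w i, mem_op.2 (hc i)⟩ : Op q)) ᵥ* (rp μ' r d).val =
        α • fun i => (⟨c * w i, mem_op.2 (hc i)⟩ : Op q) := fun d α hα => by
    funext i
    have e1 := congrFun (w1 d).1 i
    have e2 := fun k => congrArg (fun a : GL (Fin 2) (Cp q) => a.val k i)
      (iC_rp L.ok L.hq μ' G.lp (le d.2))
    refine Subtype.ext ?_
    change c * w 0 * (iC (rp μ' r d)).val 0 i + (c * w 1 * (iC (rp μ' r d)).val 1 i + 0) =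
      α * (c * w i)
    rw [e2, e2, hα]
    change w 0 * (reU μ' (r ⟨d, le d.2⟩)).val 0 i +
      (w 1 * (reU μ' (r ⟨d, le d.2⟩)).val 1 i + 0) = u d * w i at e1
    linear_combination c * e1
  have h4 : ‖u ⟨φ, hd⟩ ^ 2 - 1‖ = 1 := by
    have e1 := w2 ⟨φ, hd⟩ 1 a (by rwa [pow_one]) a1
    have e2 := (w1 ⟨φ, hd⟩).2
    have e3 : ‖u ⟨φ, hd⟩ - μ'.ev a‖ < 1 := by
      rw [← one_mul ‖_‖, ← e2, ← norm_mul, show u ⟨φ, hd⟩ * (u ⟨φ, hd⟩ - μ'.ev a) = -q by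
        linear_combination e1, norm_neg, e2, ← map_natCast (algebraMap ℚ_[q] (Cp q)),
        norm_algebraMap']
      exact Padic.norm_p_lt_one
    rw [← sub_add_sub_cancel _ (μ'.ev a ^ 2), IsUltrametricDist.norm_add_eq_max_of_norm_ne_norm
      (a3 ▸ ((pow_cong e2.le (a2 μ').le 2).trans_lt e3).ne), a3,
      max_eq_right ((pow_cong e2.le (a2 μ').le 2).trans e3.le)]
  refine ⟨_, ⟨u ⟨φ, hd⟩, mem_op.2 (w1 _).2.le⟩, fun h => w0 (funext fun i => ?_), fun h => ?_,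
    fun _ => ?_, fun g hg => ?_, h3 ⟨φ, hd⟩ _ rfl⟩
  · exact (mul_eq_zero.1 (congrArg Subtype.val (congrFun h i))).resolve_left c0
  · rw [show u ⟨φ, hd⟩ ^ 2 = 1 from congrArg Subtype.val h] at h4
    simp at h4
  · by_contra h
    exact ((CH.res_eq_zero _).1 ((IsLocalRing.residue_eq_zero_iff _).2 h)).ne h4
  · refine (h3 ⟨g, inP_le_dec hg⟩ 1 ?_).trans (one_smul _ _)
    have := w2 ⟨g, inP_le_dec hg⟩ 0 _ (fb_one.2 hg) (h2 g hg)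
    simp only [Em.ev, map_ofNat, map_zero] at this
    exact (sub_eq_zero (b := 1).1 ((pow_eq_zero_iff two_ne_zero).1
      (by linear_combination this))).symm

end Out

open Out

/-- **OUT** -/
theorem out (hO : ORD) : OUT := by
  intro D η j p q _ _ ι ι' ν M S T ρ P V et N Δ L h1 h2 h3 h4 h5 h6 x0 e0 h7 h8 h9 h10 P' x s hP A
    U hn hU
  obtain ⟨H, r, y, a1, a2, a3, a4, G⟩ := exists_gl L A h7 h8 h9 h10 hU
  obtain ⟨W, b1, b2, b3⟩ := deep G.lp G.opn (ν.map ι')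
  obtain ⟨R, -, hR⟩ := P022E.GW.Hy.ex_ram b2
  obtain ⟨K, c1, c2, c3, c4, c5, c6⟩ := kill (insert p (insert q (S ∪ T)))
    (R \ insert p (insert q (S ∪ T))) Finset.sdiff_disjoint b1 b2 (H ⊓ U) inferInstance
    (G.opn.inter hU)
  refine ⟨H ⊓ K, Out.rp (ν.map ι) r, Out.rp (ν.map ι') r, fun g => ?_, h1, h2, inferInstance,
    G.opn.inter c2, fun c hc => ⟨a3 c hc, c3 c hc⟩,
    fun l hl Q hQ => le_inf (a4 l hl Q hQ) (c4 l hl Q hQ), rp_rp L.ok L.hp _ G.lp inf_le_left,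
    fun g hg => ?_, rp_rp L.ok L.hq _ G.lp inf_le_left, fun g hg => ?_,
    fun l k Q g hQ hp hq hg hf => ?_, fun l hl Q hQ g hg => ?_, fun l hl Q hQ => ?_,
    fun l hl g hg => by rw [← h3, h6 l hl g hg], fun l hl => hP l hl ▸ near L A G hl (h4 l hl),
    fun Q => atp L A G, fun h Q => uu' L A G h, fun Q => odn L A G hO a4, atq L A G h3⟩
  · obtain ⟨a, d1, d2⟩ := a2 g
    obtain ⟨b, d3, d4⟩ := c5 a
    exact ⟨b, ⟨(H.mul_mem_cancel_left (H.inv_mem d1)).1 d4.1, d3⟩, by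
      simpa [mul_assoc] using U.mul_mem d2 d4.2⟩
  · rw [rp_mem _ r hg.1]
    exact Units.ext ((rd_gi L.ok L.hp _ (G.lp.int _)).trans ((G.lg _).2.1.trans (by
      rw [G.lp.sec.sg])))
  · have := (Gr.mon_iff (L.ok.le_int L.hq _ (G.lp.int ⟨g, hg.1⟩))).1 (G.lg _).2.2
    rw [← rd_gi L.ok L.hq _ (G.lp.int _), ← rp_mem _ r hg.1, G.lp.sec.sg] at this
    exact ⟨fun h => this.1 ((h3 g).2 h), fun h =>
      this.2 ((Int.units_eq_one_or _).resolve_left fun e => h ((h3 g).1 e))⟩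
  · obtain ⟨a, ha, -⟩ := compat_row D η j y (r ⟨g, hg.1⟩) l k Q hQ (G.lp.fx _)
      ((G.lp.sec.sg _).symm ▸ hf)
    refine ⟨ν.ev a, ?_, ?_⟩
    · rw [tc_rp L.ok L.hp _ G.lp hg.1, ha p hp.symm]; simp [Em.ev, Em.map]
    · rw [tc_rp L.ok L.hq _ G.lp hg.1, ha q hq.symm]; simp [Em.ev, Em.map]
  · by_cases h : l ∈ T
    · exact unr L A G h hl hQ hg.2
    have hz : l ∉ insert p (insert q (S ∪ T)) := by simpa [h] using hl
    refine rp_one L.ok L.hq _ G.lp hg.1.1 (b3 l Q hQ (fun e => hl (by simp [e])) _ ⟨?_, hg.2⟩)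
    by_cases h' : l ∈ R
    exacts [c6 l (Finset.mem_sdiff.2 ⟨h', hz⟩) Q hQ ⟨hg.1.2, inP_le_dec hg.2⟩, hR l h' Q hQ g hg.2]
  · obtain ⟨n, h0, hn⟩ := fin_ord G.lp G.opn hQ (fun e : q = l => h5 (e ▸ hl)) (ν.map ι')
    exact ⟨n, h0, fun g hg => rp_pow L.ok L.hq _ G.lp (a4 l (by simp [hl]) Q hQ (inP_le_dec hg))
      (hn _ hg)⟩

end Vale.Agent.P022K.PM
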