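import Vale.Agent.P022K.CH.Fld
import Vale.Agent.P022K.CH.Defs
import Vale.Agent.P022K.Cheb.Main
import Vale.Agent.P022E.GW.TauG
import Vale.Agent.P022E.GW.Fix

/-!
# P022K / PM: imaginary quadratic fields with prescribed local behaviour, split primes
-/

set_option autoImplicit false
set_option linter.all false

open NumberField
open scoped Pointwise

noncomputable section

namespace Vale.Agent.P022K.PM.L1

open Vale.Agent.P022
open Vale.Agent.P022.H443 (inP)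
open Vale.Agent.P022D.W (dec dec_gen phi_mem exists_phi inP_le_dec)
open Vale.Agent.P022E.GW (Ov Fb Gn)
open Vale.Agent.P022E.GW.Kc
open Vale.Agent.P022K.CH (Id)

variable {l : ℕ} {P : Id}

theorem int_mem (h : Ov l P) {n : ℤ} : (n : 𝓞 Qb) ∈ P ↔ (l : ℤ) ∣ n := by
  refine ⟨fun hn => by_contra fun e => h.2.1.ne_top ((Ideal.eq_top_iff_one _).2 ?_), ?_⟩
  · obtain ⟨a, b, hab⟩ := (Nat.prime_iff_prime_int.1 h.1).irreducible.coprime_iff_not_dvd.2 e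
    have := P.add_mem (P.mul_mem_left (a : 𝓞 Qb) h.2.2) (P.mul_mem_left (b : 𝓞 Qb) hn)
    have e : ((a * l + b * n : ℤ) : 𝓞 Qb) ∈ P := by push_cast; exact this
    rwa [hab, Int.cast_one] at e
  · rintro ⟨c, rfl⟩
    push_cast
    exact P.mul_mem_right _ h.2.2

/-- everything is in an open subgroup which contains a Frobenius element and the inertia group -/
theorem dec_le (h : Ov l P) {φ : GQ} (hφ : Fb l P φ) {U V : Subgroup GQ}
    (hU : IsOpen (U : Set GQ)) (h0 : U ⊓ dec P ≤ V) (h1 : φ ∈ V) (h2 : inP P ≤ V) : dec P ≤ V :=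
  fun g hg => by
    obtain ⟨k, s, u, hs, hu, rfl⟩ := dec_gen h.1 h.2.1 h.2.2 hφ hg U hU
    refine mul_mem (mul_mem (h0 ⟨hu, ?_⟩) (pow_mem h1 k)) (h2 hs)
    exact (mul_mem_cancel_right (pow_mem (phi_mem h.1 h.2.1 hφ) k)).1
      ((mul_mem_cancel_right (inP_le_dec hs)).1 hg)

/-- a local quadratic character -/
structure Qc (P : Id) (a : GQ → ZMod 2) : Prop where
  add : ∀ g ∈ dec P, ∀ h ∈ dec P, a (g * h) = a g + a h
  opn : ∃ U : Subgroup GQ, IsOpen (U : Set GQ) ∧ ∀ g ∈ U ⊓ dec P, a g = 0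

theorem Qc.kq (P : Id) (d : ℤ) : Qc P (kq (d : Qb)) :=
  ⟨fun g _ h _ => kq_add (map_intCast g d) (map_intCast h d),
    (kq_opn _).imp fun _ h => ⟨h.1, fun g m => h.2 g m.1⟩⟩

theorem Qc.ext (h : Ov l P) {a b : GQ → ZMod 2} (ha : Qc P a) (hb : Qc P b) {φ : GQ}
    (hφ : Fb l P φ) (h1 : a φ = b φ) (h2 : ∀ s ∈ inP P, a s = b s) : ∀ g ∈ dec P, a g = b g := by
  obtain ⟨U, u1, u2⟩ := ha.opn
  obtain ⟨V, v1, v2⟩ := hb.opn
  have i : ∀ {c : GQ → ZMod 2}, Qc P c → c 1 = 0 ∧ ∀ g ∈ dec P, c g⁻¹ = -c g := fun {c} hc => by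
    have e : c 1 = 0 := by simpa using hc.add 1 (one_mem _) 1 (one_mem _)
    exact ⟨e, fun g hg => eq_neg_of_add_eq_zero_left (by
      rw [← hc.add _ (inv_mem hg) _ hg, inv_mul_cancel, e])⟩
  let W : Subgroup GQ :=
    { carrier := {g | g ∈ dec P ∧ a g = b g}
      mul_mem' := fun x y => ⟨mul_mem x.1 y.1, by rw [ha.add _ x.1 _ y.1, hb.add _ x.1 _ y.1, x.2,
        y.2]⟩
      one_mem' := ⟨one_mem _, (i ha).1.trans (i hb).1.symm⟩
      inv_mem' := fun x => ⟨inv_mem x.1, by rw [(i ha).2 _ x.1, (i hb).2 _ x.1, x.2]⟩ }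
  exact fun g hg => (dec_le h hφ (U := U ⊓ V) (V := W) (u1.inter v1)
    (fun g m => ⟨m.2, (u2 g ⟨m.1.1, m.2⟩).trans (v2 g ⟨m.1.2, m.2⟩).symm⟩)
    ⟨phi_mem h.1 h.2.1 hφ, h1⟩ (fun s hs => ⟨inP_le_dec hs, h2 s hs⟩) hg).2

theorem Qc.ine (h : Ov l P) (h2 : l ≠ 2) {a : GQ → ZMod 2} (ha : Qc P a) {τ : GQ}
    (hτ : Gn l P τ) {s : GQ} (hs : s ∈ inP P) : a s = P022E.GW.Kc.kq (l : Qb) s * a τ :=
  (P022E.GW.Tg.mult (F := ZMod 2) h h2 hτ (fun s hs t ht => ha.add s (inP_le_dec hs) t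
    (inP_le_dec ht)) (ha.opn.imp fun _ k => ⟨k.1, fun g m n => k.2 g ⟨m, inP_le_dec n⟩⟩)
    hs).trans (by rw [P022D.L2c.up, ZMod.castHom_self, RingHom.id_apply])

theorem two_not (h : Ov l P) (h2 : l ≠ 2) : ¬ (l : ℤ) ∣ 2 := fun e =>
  h2 ((Nat.prime_dvd_prime_iff_eq h.1 Nat.prime_two).1 (by exact_mod_cast e))

theorem kq_ine (h : Ov l P) (h2 : l ≠ 2) {d : ℤ} (hd : ¬ (l : ℤ) ∣ d) {s : GQ} (hs : s ∈ inP P) :
    kq (d : Qb) s = 0 := by
  simpa using kq_unit h.2.1 (by exact_mod_cast mt (int_mem h (n := 2)).1 (two_not h h2))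
    (mt (int_mem h).1 hd) hs (by simp)

theorem ex_rt (d : ℤ) : ∃ X : 𝓞 Qb, (X : Qb) = rt d ∧ X ^ 2 = d :=
  ⟨⟨rt d, IsIntegral.of_pow (n := 2) two_pos (by rw [rt_sq]; exact isIntegral_intCast d)⟩, rfl,
    RingOfIntegers.ext ((rt_sq (d : Qb)).trans (map_intCast (algebraMap (𝓞 Qb) Qb) d).symm)⟩

/-- Euler's criterion -/
theorem kq_frob (h : Ov l P) (h2 : l ≠ 2) {φ : GQ} (hφ : Fb l P φ) {d : ℤ} (hd : ¬ (l : ℤ) ∣ d)
    {e : ℕ} (he : (l : ℤ) ∣ d ^ (l / 2) - (-1) ^ e) : kq (d : Qb) φ = e := by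
  obtain ⟨X, x1, x2⟩ := ex_rt d
  have h3 : φ • X = (-1) ^ (kq (d : Qb) φ).val * X := RingOfIntegers.ext (by
    change φ (X : Qb) = _
    simpa [x1] using kq_act (rt_sq (d : Qb)) (map_intCast φ d))
  have h4 := hφ X
  obtain ⟨k, rfl⟩ := h.1.odd_of_ne_two h2
  rw [show (2 * k + 1) / 2 = k by omega, ← int_mem h] at he
  rw [h3, pow_succ, pow_mul, x2] at h4
  have h5 : (((-1) ^ (kq (d : Qb) φ).val - (-1) ^ e) * d : ℤ) ∈ P.comap (Int.castRingHom _) := by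
    have := P.mul_mem_right X (P.add_mem h4 (P.mul_mem_right X he))
    rw [Ideal.mem_comap, eq_intCast]
    convert this using 1
    push_cast
    rw [← x2]
    ring
  have h6 := ((Nat.prime_iff_prime_int.1 h.1).dvd_mul.1 ((int_mem h).1 h5)).resolve_right hd
  rw [← ZMod.natCast_zmod_val (kq _ _), ZMod.natCast_eq_natCast_iff']
  rcases Nat.even_or_odd (kq (d : Qb) φ).val with a | a <;> rcases Nat.even_or_odd e with b | b
  · rw [Nat.even_iff.1 a, Nat.even_iff.1 b]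
  · exact (two_not h h2 (by simpa [a.neg_one_pow, b.neg_one_pow] using h6)).elim
  · exact (two_not h h2 (by simpa [a.neg_one_pow, b.neg_one_pow] using h6.neg_right)).elim
  · rw [Nat.odd_iff.1 a, Nat.odd_iff.1 b]

theorem kq_two (h : Ov 2 P) (c : ℤ) : (∀ s ∈ inP P, kq ((1 - 4 * c : ℤ) : Qb) s = 0) ∧
    ∀ φ, Fb 2 P φ → kq ((1 - 4 * c : ℤ) : Qb) φ = c := by
  obtain ⟨w, hw⟩ : ∃ w, w = rt ((1 - 4 * c : ℤ) : Qb) := ⟨_, rfl⟩
  have h1 : w ^ 2 = (1 - 4 * c : ℤ) := hw ▸ rt_sq _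
  have h2 : ((1 + w) / 2) ^ 2 - (1 + w) / 2 + c = 0 := by
    push_cast at h1
    linear_combination h1 / 4
  let X : 𝓞 Qb := ⟨(1 + w) / 2, Polynomial.X ^ 2 - Polynomial.X + Polynomial.C c, by monicity!,
    by rw [Polynomial.eval₂_add, Polynomial.eval₂_C]; simpa using h2⟩
  have h3 : X ^ 2 = X - c := RingOfIntegers.ext (by
    change ((1 + w) / 2) ^ 2 = (1 + w) / 2 - c
    linear_combination h2)
  have h4 : ∀ g : GQ, (kq ((1 - 4 * c : ℤ) : Qb) g = 0 ∧ g • X = X) ∨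
      (kq ((1 - 4 * c : ℤ) : Qb) g = 1 ∧ g • X = 1 - X) := fun g => by
    have e : ((g • X : 𝓞 Qb) : Qb) = (1 + g w) / 2 := by
      change g ((1 + w) / 2) = _
      rw [map_div₀, map_add, map_one, map_ofNat]
    refine (z2 _).imp (fun k => ⟨k, RingOfIntegers.ext ?_⟩) fun k => ⟨k, RingOfIntegers.ext ?_⟩
    · rw [e, (kq_zero h1 g).1 k]
      rfl
    · rw [e, (kq_one (by exact_mod_cast (by omega : 1 - 4 * c ≠ 0)) h1 (map_intCast g _)).1 k]
      change _ = 1 - (1 + w) / 2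
      ring
  have h5 : 2 * X ∈ P := P.mul_mem_right _ h.2.2
  refine ⟨fun s hs => (h4 s).elim And.left fun k => ?_, fun φ hφ => ?_⟩
  · have := P.add_mem (k.2 ▸ hs X) h5
    exact absurd ((int_mem h (n := 1)).1 (by convert this using 1; push_cast; ring)) (by decide)
  have h6 := hφ X
  rcases h4 φ with k | k <;> rw [k.2, h3] at h6 <;> rw [k.1, eq_comm]
  · exact (ZMod.intCast_zmod_eq_zero_iff_dvd c 2).2 ((int_mem h).1 (by simpa using h6))
  · have := (ZMod.intCast_zmod_eq_zero_iff_dvd (c + 1) 2).2 ((int_mem h).1 (by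
      convert P.add_mem h6 h5 using 1
      push_cast
      ring))
    push_cast at this
    exact eq_neg_of_add_eq_zero_left this

theorem ex_res (h : Ov l P) (h2 : l ≠ 2) {φ : GQ} (hφ : Fb l P φ) (e : ZMod 2) :
    ∃ A : ℕ, A.Coprime l ∧ ∀ r : ℕ, r ≡ A [MOD l] → kq (r : Qb) φ = e := by
  haveI := Fact.mk h.1
  obtain ⟨a, a0, ha⟩ : ∃ a : ZMod l, a ≠ 0 ∧ a ^ (l / 2) = (-1) ^ e.val := by
    rcases z2 e with rfl | rfl
    · exact ⟨1, one_ne_zero, by simp⟩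
    · obtain ⟨a, ha⟩ := FiniteField.exists_nonsquare (F := ZMod l) (by rwa [ZMod.ringChar_zmod_n])
      have a0 : a ≠ 0 := fun e => ha (e ▸ IsSquare.zero)
      exact ⟨a, a0, (ZMod.pow_div_two_eq_neg_one_or_one l a0).resolve_left
        (mt (ZMod.euler_criterion l a0).2 ha) |>.trans (pow_one _).symm⟩
  refine ⟨a.val, ZMod.val_coe_unit_coprime (Units.mk0 a a0), fun r hr => ?_⟩
  have e1 : (r : ZMod l) = a := by
    rw [(ZMod.natCast_eq_natCast_iff _ _ _).2 hr, ZMod.natCast_zmod_val]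
  have := kq_frob h h2 hφ (d := r) (e := e.val) (by
    rw [← ZMod.intCast_zmod_eq_zero_iff_dvd, Int.cast_natCast, e1]
    exact a0) (by
    rw [← ZMod.intCast_zmod_eq_zero_iff_dvd]
    push_cast
    rw [e1, ha, sub_self])
  rwa [Int.cast_natCast, ZMod.natCast_zmod_val] at this

/-- **L1EX**, additive form -/
theorem ex_kq (Z : Finset ℕ) (P : ℕ → Id) (a : ℕ → GQ → ZMod 2)
    (h : ∀ l ∈ Z, Ov l (P l) ∧ Qc (P l) (a l)) (h2 : 2 ∈ Z → ∀ s ∈ inP (P 2), a 2 s = 0) (B : ℕ) :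
    ∃ Δ : ℕ, B < Δ ∧ Δ % 4 = 3 ∧ Squarefree Δ ∧
      ∀ l ∈ Z, ∀ g ∈ dec (P l), kq (-(Δ : Qb)) g = a l g := by
  classical
  choose! τ hτ using fun l (hl : l ∈ Z) => P022E.GW.Tg.ex_gn' (h l hl).1
  choose! φ hφ using fun l (hl : l ∈ Z) => exists_phi (h l hl).1.1 (h l hl).1.2.1 (h l hl).1.2.2
  let R := Z.filter fun l => l ≠ 2 ∧ a l (τ l) ≠ 0
  have hR : ∀ l ∈ R, l.Prime := fun l hl => (h l (Finset.mem_filter.1 hl).1).1.1
  obtain ⟨D, hD⟩ : ∃ D, D = ∏ l ∈ R, l := ⟨_, rfl⟩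
  have d1 : ∀ l, l.Prime → (l ∣ D ↔ l ∈ R) := fun l hl => by
    rw [hD, hl.prime.dvd_finsetProd_iff]
    exact ⟨fun ⟨i, a, b⟩ => (Nat.prime_dvd_prime_iff_eq hl (hR i a)).1 b ▸ a,
      fun a => ⟨l, a, dvd_rfl⟩⟩
  have d2 : Squarefree D := hD ▸ Finset.squarefree_prod_of_pairwise_isCoprime
    (fun i a j b e => Nat.coprime_iff_isRelPrime.1 ((Nat.coprime_primes (hR i a) (hR j b)).2 e))
    fun i a => (hR i a).squarefree
  have d3 : D % 2 = 1 := Nat.two_dvd_ne_zero.1 fun e =>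
    (Finset.mem_filter.1 ((d1 2 Nat.prime_two).1 e)).2.1 rfl
  have d0 : D ≠ 0 := d2.ne_zero
  let m : ℕ → ℕ := fun l => if l = 2 then 8 else l
  have key : ∀ l ∈ insert 2 Z, ∃ A : ℕ, A.Coprime (m l) ∧ ∀ r : ℕ, r ≠ 0 → r ≡ A [MOD m l] →
      (l = 2 → D * r % 4 = 3) ∧ (l ∈ Z → kq (-((D * r : ℕ) : Qb)) (φ l) = a l (φ l)) := by
    intro l hl
    by_cases e : l = 2
    · subst e
      refine ⟨D * (7 + 4 * (a 2 (φ 2)).val), Nat.Coprime.pow_right 3 (m := 2)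
        (Nat.coprime_two_right.2 ((Nat.odd_iff.2 d3).mul ⟨3 + 2 * (a 2 (φ 2)).val, by ring⟩)),
        fun r _ hr => ?_⟩
      have e1 : D * r % 8 = (7 + 4 * (a 2 (φ 2)).val) % 8 := by
        have e2 : D * D ≡ 1 [MOD 8] := by
          obtain ⟨k, rfl⟩ := Nat.odd_iff.2 d3
          obtain ⟨j, hj⟩ := Nat.even_mul_succ_self k
          exact (Nat.modEq_iff_dvd' (by nlinarith)).2 ⟨j, by
            apply Nat.sub_eq_of_eq_add; nlinarith⟩ |>.symm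
        have e3 := e2.mul_right (7 + 4 * (a 2 (φ 2)).val)
        rw [mul_assoc, one_mul] at e3
        exact (hr.mul_left D).trans e3
      refine ⟨fun _ => by omega, fun z => ?_⟩
      obtain ⟨c, hc⟩ : ∃ c : ℕ, D * r + 1 = 4 * (2 * c + (a 2 (φ 2)).val) :=
        ⟨(D * r + 1) / 8, by have := (a 2 (φ 2)).val_lt; omega⟩
      have := (kq_two (h 2 z).1 (2 * c + (a 2 (φ 2)).val : ℕ)).2 _ (hφ 2 z)
      rw [show (1 - 4 * ((2 * c + (a 2 (φ 2)).val : ℕ) : ℤ)) = -(D * r : ℕ) by omega, Int.cast_neg,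
        Int.cast_natCast, Int.cast_natCast, Nat.cast_add (2 * c), ZMod.natCast_zmod_val,
        Nat.cast_mul 2, ZMod.natCast_self, zero_mul, zero_add] at this
      exact this
    · have z := (Finset.mem_insert.1 hl).resolve_left e
      obtain ⟨A, a1, a2⟩ := ex_res (h l z).1 e (hφ l z) (a l (φ l) - kq (-(D : Qb)) (φ l))
      simp only [m, if_neg e]
      refine ⟨A, a1, fun r r0 hr => ⟨fun k => (e k).elim, fun _ => ?_⟩⟩
      rw [Nat.cast_mul, ← neg_mul, kq_mul (by simpa using d0) (by simpa using r0) (by simp)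
        (by simp), a2 r hr, add_sub_cancel]
  choose! A a1 a2 using key
  have hp : ∀ l ∈ insert 2 Z, l.Prime := fun l hl =>
    (Finset.mem_insert.1 hl).elim (· ▸ Nat.prime_two) fun z => (h l z).1.1
  have hm : ∀ l, ∃ k, m l = l ^ (k + 1) := fun l => by
    by_cases e : l = 2
    · exact ⟨2, by simp [m, e]⟩
    · exact ⟨0, by simp [m, e]⟩
  have m0 : ∀ l ∈ insert 2 Z, m l ≠ 0 := fun l hl => by
    obtain ⟨k, hk⟩ := hm l
    exact hk ▸ pow_ne_zero _ (hp l hl).ne_zero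
  obtain ⟨k, hk⟩ := Nat.chineseRemainderOfFinset A m (insert 2 Z) m0 fun i x j y e => by
    obtain ⟨u, hu⟩ := hm i
    obtain ⟨v, hv⟩ := hm j
    rw [Function.onFun, hu, hv]
    exact Nat.coprime_pow_primes _ _ (hp i x) (hp j y) e
  obtain ⟨r, r1, r2, r3⟩ := Nat.forall_exists_prime_gt_and_modEq (B + D + Z.sup id)
    (Finset.prod_ne_zero_iff.2 m0) (a := k) (Nat.Coprime.prod_right fun l hl => by
      rw [Nat.Coprime, (hk l hl).gcd_eq]
      exact a1 l hl)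
  have r4 := fun l hl => a2 l hl r r2.ne_zero
    ((r3.of_dvd (Finset.dvd_prod_of_mem m hl)).trans (hk l hl))
  have r5 := (r4 2 (Finset.mem_insert_self _ _)).1 rfl
  refine ⟨D * r, lt_of_lt_of_le (by omega) (Nat.le_mul_of_pos_left r d0.bot_lt), r5,
    (Nat.squarefree_mul ((Nat.coprime_comm.1 (r2.coprime_iff_not_dvd.2 fun e => by
      have := Nat.le_of_dvd d0.bot_lt e
      omega)))).2 ⟨d2, r2.squarefree⟩, fun l hl => ?_⟩
  have q := Qc.kq (P l) (-(D * r : ℕ))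
  rw [Int.cast_neg, Int.cast_natCast] at q
  refine Qc.ext (h l hl).1 q (h l hl).2 (hφ l hl) ((r4 l (Finset.mem_insert_of_mem hl)).2 hl)
    fun s hs => ?_
  by_cases e : l = 2
  · subst e
    have := (kq_two (h 2 hl).1 ((D * r + 1) / 4 : ℕ)).1 s hs
    rw [show (1 - 4 * (((D * r + 1) / 4 : ℕ) : ℤ)) = -(D * r : ℕ) by omega, Int.cast_neg,
      Int.cast_natCast] at this
    rw [this, h2 hl s hs]
  rw [q.ine (h l hl).1 e (hτ l hl) hs, (h l hl).2.ine (h l hl).1 e (hτ l hl) hs]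
  congr 1
  have pl := (h l hl).1.1
  have lr : ¬ l ∣ r := fun k => by
    have := Finset.le_sup (f := id) hl
    rw [(Nat.prime_dvd_prime_iff_eq pl r2).1 k, id] at this
    omega
  by_cases z : a l (τ l) = 0
  · have := kq_ine (h l hl).1 e (d := -(D * r : ℕ)) (fun k => (pl.dvd_mul.1 (Int.natCast_dvd_natCast.1
      (dvd_neg.1 k))).elim (fun k => (Finset.mem_filter.1 ((d1 l pl).1 k)).2.2 z) lr) (hτ l hl).1
    rwa [Int.cast_neg, Int.cast_natCast, ← z] at this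
  · obtain ⟨D', rfl⟩ := (d1 l pl).2 (Finset.mem_filter.2 ⟨hl, e, z⟩)
    have := kq_ine (h l hl).1 e (d := -(D' * r : ℕ)) (fun k => (pl.dvd_mul.1
      (Int.natCast_dvd_natCast.1 (dvd_neg.1 k))).elim (fun k => pl.one_lt.ne' (Nat.isUnit_iff.1
        (d2 l (mul_dvd_mul_left l k)))) lr) (hτ l hl).1
    rw [Int.cast_neg, Int.cast_natCast] at this
    rw [mul_assoc, Nat.cast_mul, ← mul_neg, kq_mul (by simpa using pl.ne_zero)
      (by simpa using ⟨right_ne_zero_of_mul d0, r2.ne_zero⟩) (by simp) (by simp), this, add_zero,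
      ((P022E.GW.Tg.gn_iff (h l hl).1).1 (hτ l hl)).2, (z2 _).resolve_left z]

/-- **L1EX**: the last clause reads `g ∈ Qd Δ ↔ η l g = 1` -/
theorem l1ex (Z : Finset ℕ) (P : ℕ → Id) (η : ℕ → GQ → ℤˣ)
    (h : ∀ l ∈ Z, Ov l (P l) ∧ (∀ g ∈ dec (P l), ∀ k ∈ dec (P l), η l (g * k) = η l g * η l k) ∧
      ∃ U : Subgroup GQ, IsOpen (U : Set GQ) ∧ ∀ g ∈ U ⊓ dec (P l), η l g = 1)
    (h2 : 2 ∈ Z → ∀ s ∈ inP (P 2), η 2 s = 1) (B : ℕ) :
    ∃ Δ : ℕ, B < Δ ∧ Δ % 4 = 3 ∧ Squarefree Δ ∧ ∀ l ∈ Z, ∀ g ∈ dec (P l),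
      (∀ x : Qb, x ^ 2 = -(Δ : Qb) → g x = x) ↔ η l g = 1 := by
  obtain ⟨Δ, a, b, c, d⟩ := ex_kq Z P (fun l g => if η l g = 1 then 0 else 1) (fun l hl =>
    ⟨(h l hl).1, fun g x k y => by
      rw [(h l hl).2.1 g x k y]
      generalize η l g = u
      generalize η l k = v
      revert u v
      decide, (h l hl).2.2.imp fun U u => ⟨u.1, fun g m => if_pos (u.2 g m)⟩⟩)
    (fun z s hs => if_pos (h2 z s hs)) B
  refine ⟨Δ, a, b, c, fun l hl g hg => Iff.trans ⟨fun k => (kq_zero (rt_sq _) g).2 (k _ (rt_sq _)),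
    fun k x hx => (kq_zero hx g).1 k⟩ ?_⟩
  rw [d l hl g hg]
  simp

/-- the character of `ℚ(√-Δ)` -/
def etaD (Δ : ℕ) : GQ →* ℤˣ := MonoidHom.mk' (fun g => if kq (-(Δ : Qb)) g = 0 then 1 else -1)
  fun g k => by
    rw [kq_add (by simp) (by simp)]
    generalize kq _ g = u
    generalize kq _ k = v
    revert u v
    decide

theorem etaD_one {Δ : ℕ} {g : GQ} : etaD Δ g = 1 ↔ ∀ x : Qb, x ^ 2 = -(Δ : Qb) → g x = x :=
  Iff.trans (by simp [etaD]) ⟨fun k x hx => (kq_zero hx g).1 k,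
    fun k => (kq_zero (rt_sq _) g).2 (k _ (rt_sq _))⟩

theorem etaD_act {Δ : ℕ} {x : Qb} (hx : x ^ 2 = -(Δ : Qb)) (g : GQ) :
    g x = ((etaD Δ g : ℤ) : Qb) * x := by
  rw [kq_act hx (by simp)]
  rcases z2 (kq (-(Δ : Qb)) g) with k | k <;> simp [etaD, k, ZMod.val_one]

theorem etaD_opn (Δ : ℕ) : IsOpen {g | etaD Δ g = 1} := by
  obtain ⟨U, a, b⟩ := kq_opn (-(Δ : Qb))
  exact Subgroup.isOpen_mono (H₂ := (etaD Δ).ker) (fun g hg => if_pos (b g hg)) a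

theorem etaD_conj {Δ : ℕ} (h : Δ ≠ 0) {c : GQ} (hc : IsConj c) : etaD Δ c = -1 := by
  refine (Int.units_eq_one_or _).resolve_left fun e => ?_
  obtain ⟨φ, hφ⟩ := hc
  have h1 := hφ (rt (-(Δ : Qb)))
  rw [etaD_one.1 e _ (rt_sq _)] at h1
  have h2 := congrArg (fun x => (φ x).re) (rt_sq (-(Δ : Qb)))
  simp only [map_pow, map_neg, map_natCast] at h2
  rw [← Complex.conj_eq_iff_re.1 h1.symm, ← Complex.ofReal_pow, Complex.ofReal_re, Complex.neg_re,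
    Complex.natCast_re] at h2
  nlinarith [sq_nonneg (φ (rt (-(Δ : Qb)))).re, (Nat.cast_pos.2 h.bot_lt : (0 : ℝ) < Δ)]

theorem etaD_ine {Δ : ℕ} (h4 : Δ % 4 = 3) (h : Ov l P) (hl : ¬ l ∣ Δ) {s : GQ} (hs : s ∈ inP P) :
    etaD Δ s = 1 := by
  refine if_pos ?_
  by_cases e : l = 2
  · subst e
    have := (kq_two h ((Δ + 1) / 4 : ℕ)).1 s hs
    rwa [show (1 - 4 * (((Δ + 1) / 4 : ℕ) : ℤ)) = -(Δ : ℕ) by omega, Int.cast_neg,
      Int.cast_natCast] at this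
  · simpa using kq_ine h e (d := -Δ) (by simpa [Int.natCast_dvd_natCast] using hl) hs

/-- **split primes** -/
theorem exq (U : Subgroup GQ) (hU : IsOpen (U : Set GQ)) (B : ℕ) :
    ∃ q, B < q ∧ q.Prime ∧ ∀ Q, Ov q Q → dec Q ≤ U := by
  have ho := P022D.Sel.opn_core U hU
  obtain ⟨n, n0, hn⟩ := P022E.GW.Fx2.fin_ram U.normalCore ho
  obtain ⟨q, φ, q1, q2, ⟨P, p1, p2, p3⟩, q4⟩ := Cheb.cheb U.normalCore inferInstance ho 1
    (Finset.range (B + n + 1))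
  have q5 : B + n < q := by simpa using q2
  have hP : Ov q P := ⟨q1, p1, p2⟩
  have := dec_le hP p3 ho inf_le_left (by simpa using q4) (hn P p1 fun e => by
    have := Nat.le_of_dvd n0.bot_lt (Int.natCast_dvd_natCast.1 ((int_mem hP).1 (by simpa using e)))
    omega)
  refine ⟨q, by omega, q1, fun Q hQ g hg => U.normalCore_le ?_⟩
  obtain ⟨σ, rfl⟩ := CH.Fld.ov_conj hP hQ
  simpa [mul_assoc] using U.normalCore_normal.conj_mem _ (this (CH.Fld.mem_dec_smul.1 hg)) σ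

end Vale.Agent.P022K.PM.L1
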