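import Vale.Agent.P022K.PM.St2
import Vale.Agent.P022K.PM.L1
import Vale.Agent.P022K.CH.Bas

/-!
# P022K / PM: the choice of the auxiliary prime (helper57)
-/

set_option autoImplicit false

open NumberField

noncomputable section

namespace Vale.Agent.P022K.PM

open Vale.Agent.P022
open Vale.Agent.P022D.W (dec phi_mem exists_phi)
open Vale.Agent.P022E.GW (Ov)

namespace Qk

theorem nle {C : Type} [NormedField C] [IsUltrametricDist C] (f : Qb →+* C) {y : Qb}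
    (h : IsIntegral ℤ y) : ‖f y‖ ≤ 1 :=
  (Valuation.integer.integers (NormedField.valuation (K := C))).mem_of_integral
    (h.map f.toIntAlgHom).tower_top

theorem ex_mul {a : Qb} (h : a ≠ 0) : ∃ n : ℕ, 0 < n ∧ ∃ b, IsIntegral ℤ b ∧ a * b = n := by
  have : Algebra.IsAlgebraic ℚ Qb := AlgebraicClosure.isAlgebraic ℚ
  obtain ⟨y, h0, hy⟩ := ((IsFractionRing.isAlgebraic_iff ℤ ℚ Qb).2
    (Algebra.IsAlgebraic.isAlgebraic a⁻¹)).exists_integral_multiple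
  refine ⟨y.natAbs, Int.natAbs_pos.2 h0, y.sign • y • a⁻¹, hy.zsmul _, ?_⟩
  rw [smul_smul, Int.sign_mul_self_eq_natAbs, zsmul_eq_mul, mul_left_comm, mul_inv_cancel₀ h,
    mul_one, Int.cast_natCast]

theorem fin (K : IntermediateField ℚ Qb) [FiniteDimensional ℚ K] (c : ℝ) :
    {a : Qb | a ∈ K ∧ IsIntegral ℤ a ∧ ∀ φ : Qb →+* ℂ, ‖φ a‖ ≤ c}.Finite := by
  have : NumberField K := {}
  have : Algebra.IsAlgebraic ℚ Qb := AlgebraicClosure.isAlgebraic ℚ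
  refine ((Embeddings.finite_of_norm_le K ℂ c).image (↑)).subset fun a h =>
    ⟨⟨a, h.1⟩, ⟨(isIntegral_algHom_iff (K.val.toRingHom.toIntAlgHom) Subtype.val_injective).1 h.2.1,
      fun φ => ?_⟩, rfl⟩
  let _ := φ.toAlgebra
  have : Algebra.IsAlgebraic K Qb := Algebra.IsAlgebraic.tower_top (K := ℚ) K
  let ψ : Qb →ₐ[K] ℂ := IsAlgClosed.lift
  exact (congrArg norm (ψ.commutes ⟨a, h.1⟩)).symm.trans_le (h.2.2 ψ)

theorem mod4 {q : ℕ} (hq : q.Prime) (h2 : 2 < q)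
    (h : ∀ Q, Ov q Q → ∀ g ∈ dec Q, L1.etaD 1 g = 1) : q % 4 = 1 := by
  obtain ⟨Q, hQ⟩ := CH.ex_ov hq
  obtain ⟨φ, hφ⟩ := exists_phi hq hQ.2.1 hQ.2.2
  refine ((Nat.odd_mod_four_iff.1 (Nat.odd_iff.1 (hq.odd_of_ne_two h2.ne'))).resolve_right
    fun h3 => ?_)
  have h4 := L1.kq_frob hQ h2.ne' hφ (d := -1) (e := 1)
    (fun e => hq.one_lt.ne' (by simpa [Int.natCast_dvd] using e))
    (by rw [Odd.neg_one_pow (Nat.odd_iff.2 (by omega))]; simp)
  have h5 := h Q hQ φ (phi_mem hq hQ.2.1 hφ)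
  simp only [Int.cast_neg, Int.cast_one, Nat.cast_one] at h4
  simp [L1.etaD, h4] at h5

end Qk

open Qk in
theorem qpk : QPK := fun K U c B hK hU => by
  choose! n n0 b hb using fun a => ex_mul (a := a)
  obtain ⟨M, hM⟩ := ((fin K c).image n).bddAbove
  obtain ⟨q, h1, hq, h2⟩ := L1.exq (U ⊓ (L1.etaD 1).ker) (hU.inter (L1.etaD_opn 1)) (B + M + 2)
  have : Fact q.Prime := ⟨hq⟩
  refine ⟨q, this, by omega, mod4 hq (by omega) fun Q hQ g hg => (h2 Q hQ hg).2,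
    fun Q hQ => (h2 Q hQ).trans inf_le_left, fun ι a ha hi h0 hc => le_antisymm (nle ι hi) ?_⟩
  have h3 : n a ≤ M := hM ⟨a, ⟨ha, hi, hc⟩, rfl⟩
  have h4 : ‖ι a‖ * ‖ι (b a)‖ = 1 := by
    rw [← norm_mul, ← map_mul, (hb a h0).2, map_natCast,
      ← map_natCast (algebraMap ℚ_[q] (PadicAlgCl q)), PadicAlgCl.norm_extends,
      Padic.norm_natCast_eq_one_iff]
    exact (Nat.coprime_of_lt_prime (n0 a h0).ne' (by omega) hq)
  exact h4.symm.trans_le (mul_le_of_le_one_right (norm_nonneg _) (nle ι (hb a h0).1))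

end Vale.Agent.P022K.PM
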