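import Vale.Agent.P022K.PM.Cxx
import Vale.Agent.P022K.PM.Qpk
import Vale.Agent.P022K.PM.Lft
import Vale.Agent.P022K.PM.Cls2
import Vale.Agent.P022K.PM.Lpl
import Vale.Agent.P022K.PM.Lpq
import Vale.Agent.P022K.PM.Lpc
import Vale.Agent.P022K.PM.Lpi
import Vale.Agent.P022K.PM.Lpr
import Vale.Agent.P022K.PM.Out
import Vale.Agent.P022K.PM.Ord
import Vale.Agent.P022K.PM.Cmet

/-!
# P022K / PM: potential modularity, the export
-/

set_option autoImplicit false

namespace Vale.Agent.P022K.PM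

theorem pmx_rows (hS : ST) (hT : TRI) (hL : LATP) : Top.Pm.PMX :=
  pmx_of L1.l1ex (cxx qpk) lft cls_row (lpl cmet) (lpq cmet) lpc lpi
    (lpr cmet hS hT hL weil_row) (out ord)

end Vale.Agent.P022K.PM
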