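import Vale.Agent.P022K.PM.LatA
import Vale.Agent.P022K.CH.Eps
import Vale.Agent.P022K.CH.Weil

/-!
# P022K / PM: lattices in extensions of a residually trivial character by `ε`, odd `p` (helper1)
-/

set_option autoImplicit false
set_option linter.all false

open NumberField

noncomputable section

namespace Vale.Agent.P022K.PM.Lo3

open Vale.Agent.P022 Vale.Agent.P022.H853
open Vale.Agent.P022.H443 (inP)
open Vale.Agent.P022D.W (dec)
open Vale.Agent.P022E.GW (Ov Fb)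
open Vale.Agent.P022K.CH
open Vale.Agent.P022K.RT.Tr (Gp)
open Vale.Agent.P022K.RT.L5 (Om Cyc)
open Vale.Agent.P022K.RT.L5.Cu (Hom Nm)

/-- **OMO** -/
def OMO : Prop := ∀ (p : ℕ) [Fact p.Prime] (ι : Qb →+* Cp p) (P : Id), p ≠ 2 → Ov p P →
  ∀ β : dec P → Kp p, IsLocallyConstant β → (∀ x y, β (x * y) = β x + red (eps p x) * β y) →
  ∃ (ξ : dec P →* Qbˣ) (α : Cp p) (δ : ℝ), IsOpen (ξ.ker : Set (dec P)) ∧ (∀ d, ξ d ^ p = 1) ∧
    ‖α - 1‖ < 1 ∧ 0 < δ ∧ ∀ (E : Subfield (Cp p)) (ψ b : dec P → Cp p) (a : Cp p), ‖a - α‖ < δ →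
      Continuous ψ → Continuous b → (∀ x y, ψ (x * y) = ψ x * ψ y) →
      (∀ x y, b (x * y) = b x + ψ x * b y) →
      (∀ (d : dec P) k, Fb (p ^ k) P d → ψ d * (ι (ξ d) * a ^ k) ^ 2 = eps p d) →
      (∀ d, ψ d ∈ E) → (∀ d, b d ∈ E) → (∀ d, ∃ x ∈ E, ‖x‖ ≤ 1 ∧ red x = β d) →
      (¬ ∃ t, ∀ d, b d = t * (ψ d - 1)) → ∃ s ∈ E, ∃ t ∈ E, s ≠ 0 ∧ ∀ d,
        ‖s * b d + t * (ψ d - 1)‖ ≤ 1 ∧ red (s * b d + t * (ψ d - 1)) = β d

variable {p : ℕ} [hp : Fact p.Prime]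

theorem tor {z : Cp p} (h : ‖z‖ = 1) : ∃ n, 0 < n ∧ ‖z ^ n - 1‖ < 1 := by
  let K := IntermediateField.adjoin ℚ_[p] {z}
  have : FiniteDimensional ℚ_[p] K.toSubmodule :=
    IntermediateField.adjoin.finiteDimensional (Algebra.IsIntegral.isIntegral z)
  have : ProperSpace K.toSubmodule := FiniteDimensional.proper ℚ_[p] _
  obtain ⟨a, -, φ, hφ, ht⟩ := tendsto_subseq_of_bounded
    (Metric.isBounded_closedBall (x := (0 : K.toSubmodule)) (r := 1))
    (x := fun n => ⟨z ^ n, pow_mem (IntermediateField.mem_adjoin_simple_self _ z) n⟩)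
    fun n => mem_closedBall_zero_iff.2 (show ‖z ^ n‖ ≤ 1 by rw [_root_.norm_pow, h, one_pow])
  obtain ⟨N, hN⟩ := Metric.cauchySeq_iff.1 ht.cauchySeq 1 one_pos
  obtain ⟨n, hn⟩ := Nat.exists_eq_add_of_lt (hφ N.lt_succ_self)
  have : ‖z ^ φ (N + 1) - z ^ φ N‖ < 1 := by
    rw [← dist_eq_norm]
    exact hN (N + 1) N.le_succ N le_rfl
  rw [hn, add_assoc, pow_add, ← mul_sub_one, norm_mul, _root_.norm_pow, h, one_pow, one_mul] at this
  exact ⟨n + 1, n.succ_pos, this⟩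

open Polynomial in
theorem near (f : Qb →+* Cp p) {z : Cp p} (h : ‖z‖ ≤ 1) : ∃ a : 𝓞 Qb, ‖z - f a‖ < 1 := by
  by_contra hcon
  push Not at hcon
  obtain ⟨n, hn, h1⟩ := tor (le_antisymm h (by simpa using hcon 0))
  have : NeZero n := ⟨hn.ne'⟩
  obtain ⟨ζ, hζ⟩ := HasEnoughRootsOfUnity.exists_primitiveRoot Qb n
  have e := congrArg (eval₂RingHom f z) (X_pow_sub_one_eq_prod hn hζ)
  simp only [map_sub, map_pow, map_one, map_prod, coe_eval₂RingHom, eval₂_X, eval₂_C] at e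
  rw [e, norm_prod] at h1
  refine h1.not_ge (Finset.one_le_prod fun a ha => ?_)
  exact hcon ⟨a, IsIntegral.of_pow hn (by
    rw [(mem_nthRootsFinset hn 1).1 ha]
    exact isIntegral_one)⟩

theorem eps_cyc (g : GQ) :
    ∃ r : Cp p, ‖r‖ ≤ 1 ∧ eps p g = ((cyc p g : ZMod p).val : Cp p) + p * r := by
  have e : (cyc (p ^ 1) g : ZMod (p ^ 1)).val = (cyc p g : ZMod p).val :=
    (zt_prim p).pow_inj ((ZMod.val_lt _).trans_eq (pow_one p)) (ZMod.val_lt _)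
      ((cyc_spec g (by rw [pow_one, (zt_prim p).pow_eq_one])).symm.trans
        (cyc_spec g (zt_prim p).pow_eq_one))
  have m : (ez p g : ℤ_[p]) - (cyc p g : ZMod p).val ∈ Ideal.span {(p : ℤ_[p]) ^ 1} := by
    rw [← PadicInt.ker_toZModPow, RingHom.mem_ker, map_sub, map_natCast, ez_mod, ← e,
      ZMod.natCast_zmod_val, sub_self]
  obtain ⟨r, hr⟩ := Ideal.mem_span_singleton'.1 m
  refine ⟨zc p r, (norm_zc r).trans_le r.norm_le_one, ?_⟩
  rw [eps_eq, ← sub_add_cancel (ez p g : ℤ_[p]) (cyc p g : ZMod p).val, ← hr, map_add, map_mul,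
    map_natCast, pow_one, map_natCast]
  ring

theorem red_lt {x : Cp p} (h : ‖x‖ < 1) : red x = 0 :=
  ((red_eq_iff h.le (by simp)).2 (by simpa using h)).trans red_zero

theorem le_mul {x y : Cp p} (h : ‖x‖ ≤ 1) (h' : ‖y‖ ≤ 1) : ‖x * y‖ ≤ 1 := by
  rw [norm_mul]; exact mul_le_one₀ h (norm_nonneg _) h'

theorem le_sub {x y : Cp p} (h : ‖x‖ ≤ 1) (h' : ‖y‖ ≤ 1) : ‖x - y‖ ≤ 1 := by
  rw [sub_eq_add_neg]; exact le_add h (by rwa [norm_neg])

theorem lt_mul {x y : Cp p} (h : ‖x‖ < 1) (h' : ‖y‖ ≤ 1) : ‖x * y‖ < 1 := by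
  rw [norm_mul]; exact mul_lt_one_of_nonneg_of_lt_one_left (norm_nonneg _) h h'

theorem lc_of_ball {G X : Type} [TopologicalSpace G] {b : G → Cp p} (hb : Continuous b) {r : ℝ}
    (hr : 0 < r) {f : G → X} (h : ∀ x y, ‖b y - b x‖ < r → f y = f x) : IsLocallyConstant f :=
  (IsLocallyConstant.iff_eventually_eq _).2 fun x => by
    filter_upwards [hb.continuousAt.eventually (Metric.ball_mem_nhds (b x) hr)] with y hy
    exact h x y (mem_ball_iff_norm.1 hy)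

variable {π : Cp p}

/-- an additive retraction onto `π O / π m` -/
theorem ex_rho (h0 : ‖(p : Cp p)‖ < ‖π‖) (h1 : ‖π‖ < 1) : ∃ ρ : Cp p → Kp p,
    (∀ x y, ‖x‖ ≤ 1 → ‖y‖ ≤ 1 → ρ (x + y) = ρ x + ρ y) ∧ ∀ y, ‖y‖ ≤ 1 → ρ (π * y) = red y := by
  classical
  have π0 : 0 < ‖π‖ := (norm_nonneg _).trans_lt h0
  let N : AddSubgroup (Op p) :=
    { carrier := {x | ‖(x : Cp p)‖ < ‖π‖}
      add_mem' := fun {x y} hx hy =>
        (IsUltrametricDist.norm_add_le_max (x : Cp p) y).trans_lt (max_lt hx hy)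
      zero_mem' := by simpa using π0
      neg_mem' := fun {x} hx => (norm_neg (x : Cp p)).trans_lt hx }
  have hQ : ∀ q : Op p ⧸ N, p • q = 0 := fun q => QuotientAddGroup.induction_on q fun x =>
    (QuotientAddGroup.eq_zero_iff (p • x)).2 (show ‖((p • x : Op p) : Cp p)‖ < ‖π‖ by
      rw [nsmul_eq_mul, Subring.coe_mul, Subring.coe_natCast, norm_mul]
      exact (mul_le_of_le_one_right (norm_nonneg _) (norm_Op x)).trans_lt h0)
  let _ := AddCommGroup.zmodModule hQ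
  let _ := ZMod.algebra (Kp p) p
  choose sc s1 s2 using red_surj (p := p)
  let m : ∀ y : Cp p, ‖y‖ ≤ 1 → Op p ⧸ N := fun y hy =>
    QuotientAddGroup.mk ⟨π * y, mem_op.2 (le_mul h1.le hy)⟩
  have me : ∀ y hy y' hy', m y hy = m y' hy' ↔ red y = red y' := fun y hy y' hy' => by
    rw [eq_comm, QuotientAddGroup.eq, red_eq_iff hy hy']
    change ‖-(π * y') + π * y‖ < ‖π‖ ↔ _
    rw [neg_add_eq_sub, ← mul_sub, norm_mul, mul_lt_iff_lt_one_right π0]
  let i : Kp p →+ Op p ⧸ N := AddMonoidHom.mk' (fun t => m _ (s1 t)) fun t t' =>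
    ((me _ (s1 _) _ (le_add (s1 t) (s1 t'))).2 (by rw [red_add (s1 t) (s1 t'), s2, s2, s2])).trans
      (congrArg (QuotientAddGroup.mk (s := N)) (Subtype.ext (mul_add π (sc t) (sc t')) :
        (⟨_, mem_op.2 (le_mul h1.le (le_add (s1 t) (s1 t')))⟩ : Op p) =
          ⟨_, mem_op.2 (le_mul h1.le (s1 t))⟩ + ⟨_, mem_op.2 (le_mul h1.le (s1 t'))⟩))
  obtain ⟨r, hr⟩ : ∃ r : Op p ⧸ N →+ Kp p, ∀ t, r (i t) = t := by
    obtain ⟨r, hr⟩ := (i.toZModLinearMap p).exists_leftInverse_of_injective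
      (LinearMap.ker_eq_bot.2 fun t t' e => by
        have := (me _ (s1 t) _ (s1 t')).1 e
        rwa [s2, s2] at this)
    exact ⟨r.toAddMonoidHom, LinearMap.congr_fun hr⟩
  refine ⟨fun x => if h : ‖x‖ ≤ 1 then r (QuotientAddGroup.mk ⟨x, mem_op.2 h⟩) else 0,
    fun x y hx hy => ?_, fun y hy => ?_⟩
  · simp only [dif_pos hx, dif_pos hy, dif_pos (le_add hx hy), ← map_add]
    rfl
  · simp only [dif_pos (le_mul h1.le hy)]
    exact (congrArg r ((me _ hy _ (s1 (red y))).2 (s2 _).symm)).trans (hr _)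

/-- `x = 1 + π t` to the first order -/
def Lg (π x : Cp p) (t : Kp p) : Prop := ∃ y, ‖y‖ ≤ 1 ∧ red y = t ∧ x = 1 + π * y

theorem Lg.mul (h1 : ‖π‖ < 1) {x x' : Cp p} {t t' : Kp p} (h : Lg π x t) (h' : Lg π x' t') :
    Lg π (x * x') (t + t') := by
  obtain ⟨y, a, rfl, rfl⟩ := h
  obtain ⟨y', a', rfl, rfl⟩ := h'
  have := lt_mul h1 (le_mul a a')
  exact ⟨y + y' + π * (y * y'), le_add (le_add a a') this.le, by
    rw [red_add (le_add a a') this.le, red_add a a', red_lt this, add_zero], by ring⟩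

theorem Lg.pow (h1 : ‖π‖ < 1) {x : Cp p} {t : Kp p} (h : Lg π x t) (n : ℕ) :
    Lg π (x ^ n) (n * t) := by
  induction n with
  | zero => exact ⟨0, by simp, by simp [red_zero], by simp⟩
  | succ n ih => rw [pow_succ, Nat.cast_succ, add_one_mul]; exact ih.mul h1 h

theorem Lg.inv (h1 : ‖π‖ < 1) {x x' : Cp p} {t : Kp p} (h : Lg π x t) (e : x' * x = 1) :
    Lg π x' (-t) := by
  obtain ⟨y, a, rfl, rfl⟩ := h
  have n : ‖1 + π * y‖ = 1 := by
    rw [IsUltrametricDist.norm_add_eq_max_of_norm_ne_norm (by simpa using (lt_mul h1 a).ne'),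
      norm_one, max_eq_left (lt_mul h1 a).le]
  have n' : ‖x'‖ = 1 := by simpa [n] using congrArg norm e
  have b : ‖-(x' * y)‖ ≤ 1 := by rw [norm_neg]; exact le_mul n'.le a
  refine ⟨-(x' * y), b, eq_neg_of_add_eq_zero_left ?_, by linear_combination e⟩
  rw [← red_add b a, show -(x' * y) + y = π * (x' * y * y) by linear_combination -y * e]
  exact red_lt (lt_mul h1 (le_mul (le_mul n'.le a) a))

theorem lg_iff (π0 : π ≠ 0) {x y : Cp p} (hy : ‖y‖ ≤ 1) :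
    Lg π x (red y) ↔ ‖(x - 1) / π - y‖ < 1 := by
  refine ⟨fun ⟨z, a, b, c⟩ => ?_, fun h => ?_⟩
  · rw [c, add_sub_cancel_left, mul_div_cancel_left₀ _ π0]
    exact (red_eq_iff a hy).1 b
  · have : ‖(x - 1) / π‖ ≤ 1 := by simpa using le_add h.le hy
    exact ⟨_, this, (red_eq_iff this hy).2 h, by field_simp; ring⟩

/-- **the reduction of a cocycle is killed by the first order term of the character** -/
theorem red_cb {G : Type} [Group G] [TopologicalSpace G] (h0 : ‖(p : Cp p)‖ < ‖π‖) (h1 : ‖π‖ < 1)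
    {e ν b : G → Cp p} {θ h : G → Kp p}
    (he : ∀ x, ∃ (n : ℕ) (r : Cp p), ‖r‖ ≤ 1 ∧ e x = n + p * r ∧ θ x = n)
    (hν : ∀ x, Lg π (ν x) (h x)) (lh : IsLocallyConstant h) (mh : ∀ x y, h (x * y) = h x + h y)
    (cb : Continuous b) (nb : ∀ x, ‖b x‖ ≤ 1) (mb : ∀ x y, b (x * y) = b x + e x * ν x * b y) :
    Zc θ (fun x => red (b x)) ∧ (fun x y => red (b x) * h y) ∈ B2 θ := by
  obtain ⟨ρ, r1, r2⟩ := ex_rho h0 h1
  have π0 : 0 < ‖π‖ := (norm_nonneg _).trans_lt h0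
  have π1 := norm_pos_iff.1 π0
  have r3 : ∀ x, ‖x‖ < ‖π‖ → ρ x = 0 := fun x hx => by
    have : ‖x / π‖ < 1 := by rwa [norm_div, div_lt_one π0]
    rw [← mul_div_cancel₀ x π1, r2 _ this.le, red_lt this]
  have nn : ∀ n : ℕ, ‖(n : Cp p)‖ ≤ 1 := IsUltrametricDist.norm_natCast_le_one _
  have r4 : ∀ x, ‖x‖ ≤ 1 → ∀ n : ℕ, ρ (n * x) = n * ρ x := fun x hx n => by
    induction n with
    | zero => simpa using r3 0 (by simpa using π0)
    | succ n ih => rw [Nat.cast_succ, add_one_mul, r1 _ _ (le_mul (nn n) hx) hx, ih]; push_cast; ring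
  have key : ∀ x y, red (b (x * y)) = red (b x) + θ x * red (b y) ∧
      ρ (b (x * y)) = ρ (b x) + θ x * ρ (b y) + θ x * h x * red (b y) := fun x y => by
    obtain ⟨n, r, a1, a2, a3⟩ := he x
    obtain ⟨z, c1, c2, c3⟩ := hν x
    have p1 := lt_mul norm_p_lt a1
    have e1 : ‖e x‖ ≤ 1 := a2 ▸ le_add (nn n) p1.le
    have e2 : red (e x) = θ x := by rw [a2, red_add (nn n) p1.le, red_nat, red_lt p1, add_zero, a3]
    have t1 := le_mul (nn n) (nb y)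
    have t2 : ‖p * (r * b y)‖ < ‖π‖ := by
      rw [norm_mul]
      exact (mul_le_of_le_one_right (norm_nonneg _) (le_mul a1 (nb y))).trans_lt h0
    have t3 := le_mul (le_mul e1 c1) (nb y)
    have t4 := lt_mul h1 t3
    have t5 := t2.trans h1
    have e : b (x * y) = b x + n * b y + p * (r * b y) + π * (e x * z * b y) := by
      rw [mb, c3]; linear_combination b y * a2
    rw [e, red_add (le_add (le_add (nb x) t1) t5.le) t4.le, red_add (le_add (nb x) t1) t5.le,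
      red_add (nb x) t1, red_lt t4, red_lt t5, red_mul (nn n) (nb y), red_nat,
      r1 _ _ (le_add (le_add (nb x) t1) t5.le) t4.le, r1 _ _ (le_add (nb x) t1) t5.le,
      r1 _ _ (nb x) t1, r2 _ t3, r3 _ t2, r4 _ (nb y), red_mul (le_mul e1 c1) (nb y),
      red_mul e1 c1, e2, c2, a3]
    exact ⟨by ring, by ring⟩
  have l1 : IsLocallyConstant fun x => red (b x) :=
    lc_of_ball cb one_pos fun x y h => (red_eq_iff (nb y) (nb x)).2 h
  have l2 : IsLocallyConstant fun x => ρ (b x) := lc_of_ball cb π0 fun x y h => by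
    rw [← sub_add_cancel (b y) (b x), r1 _ _ (h.trans h1).le (nb x), r3 _ h, zero_add]
  exact ⟨⟨l1, fun x y => (key x y).1⟩, fun x => red (b x) * h x - ρ (b x), (l1.mul lh).sub l2,
    fun x y => by simp only [(key x y).1, (key x y).2, mh]; ring⟩

/-- the Weil elements are dense -/
theorem dense_weil {P : Id} (hP : Ov p P) : Dense {d : dec P | ∃ k, Fb (p ^ k) P d} := by
  have := H443.galQb
  obtain ⟨φ, hφ⟩ := P022D.W.exists_phi hP.1 hP.2.1 hP.2.2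
  refine dense_iff_inter_open.2 fun O hO ⟨d, hd⟩ => ?_
  obtain ⟨t, ht, rfl⟩ := isOpen_induced_iff.1 hO
  obtain ⟨N, hN⟩ := ProfiniteGrp.exist_openNormalSubgroup_sub_open_nhds_of_one
    (ht.preimage (continuous_mul_right (d : GQ))) (by simpa using hd)
  obtain ⟨k, s, u, hs, hu, e⟩ := P022D.W.dec_gen hP.1 hP.2.1 hP.2.2 hφ d.2 N.toSubgroup N.isOpen'
  have f := Weil.fb_add hP (Weil.fb_pow (a := 1) hP (by rwa [pow_one]) k) (Weil.fb_zero.2 hs)
  refine ⟨⟨_, Weil.fb_dec hP f⟩, ?_, _, f⟩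
  have := hN (N.toSubgroup.inv_mem hu)
  rwa [Set.mem_preimage, e, mul_assoc, inv_mul_cancel_left] at this

/-- a ramified character of order `p` -/
theorem ex_ram (p2 : p ≠ 2) {P : Id} (hP : Ov p P) : ∃ A : GQ → ZMod p, IsLocallyConstant A ∧
    (∀ x y, A (x * y) = A x + A y) ∧ ∃ s ∈ inP P, A s ≠ 0 := by
  have := H443.galQb
  have d : p ∣ Nat.card (ZMod (p ^ 2))ˣ := by
    rw [Nat.card_eq_fintype_card, ZMod.card_units_eq_totient, Nat.totient_prime_pow_succ hp.out,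
      pow_one]
    exact dvd_mul_right _ _
  let e := zmodCyclicMulEquiv (ZMod.isCyclic_units_of_prime_pow p hp.out p2 2)
  let f : (ZMod (p ^ 2))ˣ → ZMod p := fun u => ZMod.castHom d (ZMod p) (e.symm u).toAdd
  obtain ⟨s, hs, h⟩ := H297.L3.inert_cyc (m := p ^ 2) (m' := 1) hp.out (mul_one _).symm
    (Nat.coprime_one_right p) hP.2.1 hP.2.2 (e (.ofAdd 1)) Nat.modEq_one
  refine ⟨fun g => f (cyc _ g), (IsLocallyConstant.iff_eventually_eq _).2 fun g => ?_,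
    fun x y => by simp only [f, map_mul, toAdd_mul, map_add], s, hs, by
      simp only [f, h, MulEquiv.symm_apply_apply, toAdd_ofAdd, map_one]; exact one_ne_zero⟩
  filter_upwards [((isOpen_cyc (m := p ^ 2)).preimage (continuous_mul_left g⁻¹)).mem_nhds (by simp)]
    with y hy
  rw [← mul_inv_cancel_left g y, map_mul, show cyc _ (g⁻¹ * y) = 1 from hy, mul_one]

/-- the prime field in `Kp p` -/
def cz : ZMod p →+* Kp p := ZMod.castHom dvd_rfl _

theorem cz_val (x : ZMod p) : cz x = (x.val : Kp p) := by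
  rw [← map_natCast (cz (p := p)), ZMod.natCast_zmod_val]

theorem eps_nat (x : GQ) : ∃ (n : ℕ) (r : Cp p), ‖r‖ ≤ 1 ∧ eps p x = n + p * r ∧
    red (eps p x) = n ∧ n = (cyc p x : ZMod p).val := by
  obtain ⟨r, h1, h2⟩ := eps_cyc (p := p) x
  have p1 := lt_mul norm_p_lt h1
  exact ⟨_, r, h1, h2, by rw [h2, red_add (IsUltrametricDist.norm_natCast_le_one _ _) p1.le,
    red_nat, red_lt p1, add_zero], rfl⟩

theorem in_of {P : Id} {j : Gp p →* dec P} {κ : Qb →+* Cp p}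
    (hκ : ∀ g x, κ ((j g).1 x) = g (κ x)) (hκP : ∀ x : 𝓞 Qb, x ∈ P ↔ ‖κ x‖ < 1) {s : Gp p}
    (hs : (j s).1 ∈ inP P) : In s := fun y hy => by
  obtain ⟨x, hx⟩ := near κ hy
  have h1 := (hκP _).1 (hs x)
  rw [show (((j s).1 • x - x : 𝓞 Qb) : Qb) = (j s).1 x - x from map_sub _ _ _, map_sub, hκ] at h1
  rw [show s y - y = s (y - κ x) + (s (κ x) - κ x) - (y - κ x) by rw [map_sub]; ring]
  exact RT.L5.Cu.sub_lt (RT.L5.Cu.add_lt ((RT.L5.Cu.nrm _ _).trans_lt hx) h1) hx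

/-- the local input: a homomorphism whose orthogonal is the line of `β` -/
theorem loc1 (p2 : p ≠ 2) {P : Id} (hP : Ov p P) {β : dec P → Kp p} (lβ : IsLocallyConstant β)
    (mβ : ∀ x y, β (x * y) = β x + red (eps p x) * β y) :
    ∃ (j : Gp p →* dec P) (A : GQ → ZMod p) (a : Gp p → ZMod p) (lam : ZMod p) (μ : Kp p)
      (g₀ : Gp p), Continuous j ∧ Function.Surjective j ∧ IsLocallyConstant A ∧
      (∀ x y, A (x * y) = A x + A y) ∧ Hom a ∧ (∀ g (k : ℕ), Fb (p ^ k) P (j g) → a g = k) ∧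
      red (eps p (j g₀)) = -1 ∧ ∀ c, Zc (fun x => red (eps p (j x))) c →
        (fun x y => c x * (cz (lam * A (j y)) + μ * cz (a y))) ∈ B2 (fun x => red (eps p (j x))) →
        (¬ ∃ t, ∀ g, c g = t * (red (eps p (j g)) - 1)) →
        ∃ r t, ∀ g, β (j g) = r * c g + t * (red (eps p (j g)) - 1) := by
  have := H443.galQb
  obtain ⟨j, cj, sj, ⟨κ, hκ, hκP⟩, hj⟩ := RT.Tr.exists_j p hP
  have : CompactSpace (dec P) := sj.compactSpace cj
  let ω : Gp p →* (ZMod p)ˣ := ((cyc p).comp (dec P).subtype).comp j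
  have hω : Cyc p ω := hj ((cyc p).comp (dec P).subtype) fun g x hx => cyc_spec g hx
  have hI : ∀ s, (j s).1 ∈ inP P → In s := fun s hs => in_of hκ hκP hs
  have den := (dense_weil hP).preimage (j.isOpenMap_of_sigmaCompact sj cj)
  obtain ⟨φ, hφ⟩ := P022D.W.exists_phi hP.1 hP.2.1 hP.2.2
  replace hφ : Fb (p ^ 1) P φ := by rwa [pow_one]
  obtain ⟨σ, hσ⟩ := sj ⟨φ, Weil.fb_dec hP hφ⟩
  obtain ⟨a, δ, Aa, ⟨τ, hτ⟩, ua, δ0, hδ, nδ⟩ := unr' p2 hω
  have aw : ∀ g (k : ℕ), Fb (p ^ k) P (j g) → a g = k * a σ := fun g k h => by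
    have := ua ((σ ^ k)⁻¹ * g) (hI _ (by
      rw [map_mul, map_inv, map_pow, hσ]
      exact Weil.fb_div hP (by simpa using Weil.fb_pow hP hφ k) h))
    rw [Aa.ma, Aa.inv, Aa.pow] at this
    linear_combination this
  have aσ : a σ ≠ 0 := fun e => hτ (den.induction (P := fun g => a g = 0)
    (fun g ⟨k, h⟩ => by rw [aw g k h, e, mul_zero]) (Aa.lc.isClosed_fiber 0) τ)
  have A₀ : Hom fun g => (a σ)⁻¹ * a g :=
    ⟨Aa.lc.comp ((a σ)⁻¹ * ·), fun x y => by rw [Aa.ma, mul_add]⟩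
  obtain ⟨A, lA, mA, s, hs, nA⟩ := ex_ram p2 hP
  obtain ⟨s, rfl⟩ : ∃ s', (j s').1 = s := (sj ⟨s, P022D.W.inP_le_dec hs⟩).imp fun _ =>
    congrArg Subtype.val
  have A₁ : Hom fun g => A (j g) := ⟨lA.comp_continuous (continuous_subtype_val.comp cj),
    fun x y => by rw [map_mul, Subgroup.coe_mul, mA]⟩
  let _ : Algebra (ZMod p) (Kp p) := (cz (p := p)).toAlgebra
  have hθ : ∀ x, red (eps p (j x)) = cz (ω x : ZMod p) := fun x => by
    obtain ⟨_, _, -, -, h, rfl⟩ := eps_nat (p := p) (j x)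
    rw [h, cz_val]; rfl
  obtain ⟨lam, μ, H⟩ := main p2 hω A₀ A₁ (inv_mul_cancel₀ aσ) δ0
    (fun h hh => hδ h ((mul_eq_zero.1 hh).resolve_left (inv_ne_zero aσ))) (nδ σ aσ) (hI s hs)
    (by rw [ua s (hI s hs), mul_zero]) nA (F := Kp p) hθ (β := fun g => β (j g))
    ⟨lβ.comp_continuous cj, fun x y => by rw [map_mul, mβ]⟩
  obtain ⟨g₀, hg₀⟩ := (RT.L5.om p ω hω).1 (-1)
  exact ⟨j, A, _, lam, μ, g₀, cj, sj, lA, mA, A₀,
    fun g k h => by rw [aw g k h, mul_comm (k : ZMod p), inv_mul_cancel_left₀ aσ],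
    by rw [hθ, hg₀, Units.val_neg, Units.val_one, map_neg, map_one], H⟩

theorem ex_pi (p2 : p ≠ 2) (ι : Qb →+* Cp p) :
    ∃ π : Cp p, ‖(p : Cp p)‖ < ‖π‖ ∧ ‖π‖ < 1 ∧ Lg π (ι (zt p)) 1 := by
  have hζ := (zt_prim p).map_of_injective ι.injective
  have np := RT.L5.Cu.norm_prim (k := 0) (x := ι (zt p)) (by simpa using hζ)
  rw [zero_add, pow_one, Nat.totient_prime hp.out, norm_sub_rev] at np
  generalize hπ : ι (zt p) - 1 = π at np
  have p3 : 1 < p - 1 := by have := hp.out.two_le; omega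
  have h1 : ‖π‖ < 1 := (pow_lt_one_iff_of_nonneg (norm_nonneg _) (by omega)).1 (np ▸ norm_p_lt)
  have π0 : 0 < ‖π‖ := (norm_nonneg π).lt_of_ne fun e => RT.L5.Cu.p_pos.ne (by
    rw [← np, ← e, zero_pow (by omega)])
  exact ⟨π, np ▸ pow_lt_self_of_lt_one₀ π0 h1 p3, h1, 1, by simp, red_one, by rw [← hπ]; ring⟩

/-- the last step: the coefficients lie in `E` -/
theorem fin2 {D : Type} [TopologicalSpace D] [CompactSpace D] (E : Subfield (Cp p))
    {ψ b : D → Cp p} {θ β : D → Kp p} (cψ : Continuous ψ) (cb : Continuous b)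
    (n1 : ∀ d, ‖ψ d - 1‖ ≤ 1) (rψ : ∀ d, red (ψ d - 1) = θ d - 1) {g₀ : D} (u0 : θ g₀ - 1 ≠ 0)
    (eψ : ∀ d, ψ d ∈ E) (eb : ∀ d, b d ∈ E) (eβ : ∀ d, ∃ x ∈ E, ‖x‖ ≤ 1 ∧ red x = β d)
    (nb : ¬ ∃ t, ∀ d, b d = t * (ψ d - 1))
    (H : ∀ t m, (∀ d, ‖(b d - t * (ψ d - 1)) / m‖ ≤ 1) →
      (¬ ∃ u, ∀ d, red ((b d - t * (ψ d - 1)) / m) = u * (θ d - 1)) →
      ∃ r u, ∀ d, β d = r * red ((b d - t * (ψ d - 1)) / m) + u * (θ d - 1)) :
    ∃ s ∈ E, ∃ t ∈ E, s ≠ 0 ∧ ∀ d,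
      ‖s * b d + t * (ψ d - 1)‖ ≤ 1 ∧ red (s * b d + t * (ψ d - 1)) = β d := by
  have u1 : ‖ψ g₀ - 1‖ = 1 := (n1 _).eq_of_not_lt fun e => u0 ((rψ _).symm.trans (red_lt e))
  have u2 : ψ g₀ - 1 ≠ 0 := norm_pos_iff.1 (u1 ▸ one_pos)
  have E1 : ∀ d, ψ d - 1 ∈ E := fun d => sub_mem (eψ d) (one_mem E)
  obtain ⟨t₀, E2, z0⟩ : ∃ t₀ ∈ E, b g₀ - t₀ * (ψ g₀ - 1) = 0 :=
    ⟨_, div_mem (eb g₀) (E1 g₀), by rw [div_mul_cancel₀ _ u2, sub_self]⟩
  have c1 : Continuous fun d => b d - t₀ * (ψ d - 1) :=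
    cb.sub (continuous_const.mul (cψ.sub continuous_const))
  obtain ⟨d₁, -, hd⟩ := isCompact_univ.exists_isMaxOn ⟨g₀, trivial⟩ c1.norm.continuousOn
  obtain ⟨m, hm⟩ : ∃ m, b d₁ - t₀ * (ψ d₁ - 1) = m := ⟨_, rfl⟩
  replace hd : ∀ d, ‖b d - t₀ * (ψ d - 1)‖ ≤ ‖m‖ := fun d => hm ▸ hd (Set.mem_univ d)
  have m0 : m ≠ 0 := fun e => nb ⟨t₀, fun d => sub_eq_zero.1 (norm_le_zero_iff.1
    ((hd d).trans_eq (by rw [e, norm_zero])))⟩
  have n2 : ∀ d, ‖(b d - t₀ * (ψ d - 1)) / m‖ ≤ 1 := fun d => by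
    rw [norm_div]; exact div_le_one_of_le₀ (hd d) (norm_nonneg _)
  obtain ⟨r, t, e⟩ := H _ _ n2 fun ⟨t, ht⟩ => by
    have e0 := ht g₀
    rw [z0, zero_div, red_zero, eq_comm, mul_eq_zero, or_iff_left u0] at e0
    have e1 := ht d₁
    rw [hm, div_self m0, red_one, e0, zero_mul] at e1
    exact one_ne_zero e1
  obtain ⟨x₀, k0, k1, k2⟩ := eβ g₀
  obtain ⟨x₁, k3, k4, k5⟩ := eβ d₁
  have E3 : m ∈ E := hm ▸ sub_mem (eb _) (mul_mem E2 (E1 _))
  obtain ⟨t', E4, v1, v2⟩ : ∃ t' ∈ E, ‖t'‖ ≤ 1 ∧ red t' = t := by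
    have v1 : ‖x₀ / (ψ g₀ - 1)‖ ≤ 1 := by rwa [norm_div, u1, div_one]
    exact ⟨_, div_mem k0 (E1 g₀), v1, mul_right_cancel₀ u0 (by
      rw [← rψ, ← red_mul v1 (n1 _), div_mul_cancel₀ _ u2, k2, e, z0, zero_div, red_zero,
        mul_zero, zero_add, rψ])⟩
  obtain ⟨r', E5, r0, v3, v4⟩ : ∃ r' ∈ E, r' ≠ 0 ∧ ‖r'‖ ≤ 1 ∧ red r' = r := by
    have w1 := le_sub k4 (le_mul v1 (n1 d₁))
    have w2 : red (x₁ - t' * (ψ d₁ - 1)) = r := by
      rw [red_sub k4 (le_mul v1 (n1 _)), red_mul v1 (n1 _), k5, e, hm, div_self m0, red_one, v2,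
        rψ]
      ring
    by_cases w : x₁ - t' * (ψ d₁ - 1) = 0
    · exact ⟨p, natCast_mem E p, Nat.cast_ne_zero.2 hp.out.ne_zero, norm_p_lt.le, by
        rw [red_lt norm_p_lt, ← w2, w, red_zero]⟩
    · exact ⟨_, sub_mem k3 (mul_mem E4 (E1 _)), w, w1, w2⟩
  refine ⟨r' / m, div_mem E5 E3, t' - r' / m * t₀,
    sub_mem E4 (mul_mem (div_mem E5 E3) E2), div_ne_zero r0 m0, fun d => ?_⟩
  rw [show r' / m * b d + (t' - r' / m * t₀) * (ψ d - 1) =
    r' * ((b d - t₀ * (ψ d - 1)) / m) + t' * (ψ d - 1) by ring]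
  exact ⟨le_add (le_mul v3 (n2 d)) (le_mul v1 (n1 d)), by
    rw [red_add (le_mul v3 (n2 d)) (le_mul v1 (n1 d)), red_mul v3 (n2 d), red_mul v1 (n1 d), v4,
      v2, rψ, e]⟩

theorem omo : OMO := by
  intro p hp ι P p2 hP β lβ mβ
  have := H443.galQb
  obtain ⟨j, A, a, lam, μ, g₀, cj, sj, lA, mA, A₀, aw, hg₀, H⟩ := loc1 p2 hP lβ mβ
  have : CompactSpace (dec P) := sj.compactSpace cj
  have den := (dense_weil hP).preimage (j.isOpenMap_of_sigmaCompact sj cj)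
  obtain ⟨π, h0, h1, lz⟩ := ex_pi p2 ι
  have hz := zt_prim p
  have π0 : 0 < ‖π‖ := (norm_nonneg _).trans_lt h0
  have π1 := norm_pos_iff.1 π0
  have two : (2 : ZMod p) ≠ 0 := fun e => p2 ((Nat.prime_dvd_prime_iff_eq hp.out Nat.prime_two).1
    ((ZMod.natCast_eq_zero_iff 2 p).1 (by exact_mod_cast e)))
  have two' : (2 : Kp p) ≠ 0 := by
    rw [← map_ofNat (cz (p := p))]; exact (map_ne_zero _).2 two
  choose sc s1 s2 using red_surj (p := p)
  let z : Qbˣ := Units.mk0 (zt p) (hz.ne_zero hp.out.ne_zero)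
  obtain ⟨ξ, hξ⟩ : ∃ ξ : dec P →* Qbˣ, ∀ d, ξ d = z ^ (-lam / 2 * A d).val :=
    ⟨MonoidHom.mk' (fun d => z ^ (-lam / 2 * A d).val) fun x y => Units.ext (by
      rw [Subgroup.coe_mul, mA, mul_add]
      exact RT.Ku.pw_add hz.pow_eq_one _ _), fun _ => rfl⟩
  refine ⟨ξ, 1 + π * sc (-μ / 2), ‖π‖, ?_, fun d => Units.ext ?_, by simpa using lt_mul h1 (s1 _),
    π0, fun E ψ b a' ha cψ cb mψ mb hψ eψ eb eβ nb => ?_⟩
  · have : IsLocallyConstant ξ := by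
      rw [funext hξ]
      exact (lA.comp_continuous continuous_subtype_val).comp fun t => z ^ (-lam / 2 * t).val
    exact this.isOpen_fiber 1
  · rw [hξ, ← pow_mul, mul_comm, pow_mul]
    simp [z, hz.pow_eq_one]
  obtain ⟨h, hh⟩ : ∃ h : Gp p → Kp p, h = fun y => cz (lam * A (j y)) + μ * cz (a y) := ⟨_, rfl⟩
  have lh : IsLocallyConstant h := hh ▸
    ((lA.comp_continuous (continuous_subtype_val.comp cj)).comp fun t => cz (lam * t)).add
      (A₀.lc.comp fun t => μ * cz t)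
  have la : Lg π a' (-μ / 2) := by
    rw [← s2 (-μ / 2), lg_iff π1 (s1 _), show (a' - 1) / π - sc (-μ / 2) =
      (a' - (1 + π * sc (-μ / 2))) / π by field_simp; ring, norm_div, div_lt_one π0]
    exact ha
  have hν : ∀ x, Lg π (ψ (j x) / eps p (j x)) (h x) := fun x => by
    refine den.induction (P := fun x => Lg π (ψ (j x) / eps p (j x)) (h x)) ?_ ?_ x
    · rintro g ⟨k, hk⟩
      convert (((lz.pow h1 (-lam / 2 * A (j g)).val).mul h1 (la.pow h1 k)).pow h1 2).inv h1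
        (x' := ψ (j g) / eps p (j g)) ?_ using 1
      · simp only [hh, ← cz_val, aw g k hk, map_mul, map_div₀, map_neg, map_natCast, map_ofNat]
        push_cast
        field_simp
        ring
      · rw [div_mul_eq_mul_div, div_eq_one_iff_eq (eps_ne _), ← hψ _ k hk, hξ]
        simp [z]
    · have e : ∀ x, Lg π (ψ (j x) / eps p (j x)) (h x) ↔
          (ψ (j x) / eps p (j x) - 1) / π - sc (h x) ∈ Metric.ball 0 1 := fun x => by
        rw [mem_ball_zero_iff, ← lg_iff π1 (s1 _), s2]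
      simp only [e]
      exact (IsUltrametricDist.isClosed_ball _ _).preimage (((((cψ.comp cj).div
        (eps_cont.comp (continuous_subtype_val.comp cj)) fun _ => eps_ne _).sub
          continuous_const).div_const _).sub (lh.comp sc).continuous)
  have rψ : ∀ d : dec P, ‖ψ d - 1‖ ≤ 1 ∧ red (ψ d - 1) = red (eps p d) - 1 := fun d => by
    obtain ⟨x, rfl⟩ := sj d
    obtain ⟨y, c1, -, c3⟩ := hν x
    rw [div_eq_iff (eps_ne _)] at c3
    have t := lt_mul (lt_mul h1 c1) (norm_eps (p := p) (j x)).le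
    have n : ‖ψ (j x)‖ ≤ 1 := by rw [c3, add_mul, one_mul]; exact le_add (norm_eps _).le t.le
    refine ⟨le_sub n (by simp), ?_⟩
    rw [red_sub n (by simp), red_one, c3, add_mul, one_mul, red_add (norm_eps _).le t.le,
      red_lt t, add_zero]
  refine fin2 E (θ := fun d : dec P => red (eps p d)) cψ cb (fun d => (rψ d).1) (fun d => (rψ d).2)
    (g₀ := j g₀) (fun e => two' (by linear_combination hg₀ - e)) eψ eb eβ nb fun t m n2 nc => ?_
  obtain ⟨Z, B⟩ := red_cb (θ := fun x => red (eps p (j x)))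
    (b := fun x => (b (j x) - t * (ψ (j x) - 1)) / m) h0 h1
    (fun x => let ⟨n, r, a1, a2, a3, _⟩ := eps_nat (p := p) (j x); ⟨n, r, a1, a2, a3⟩) hν lh
    (fun x y => by simp only [hh, map_mul j, Subgroup.coe_mul, mA, A₀.ma, mul_add, map_add]; ring)
    (((cb.sub (continuous_const.mul (cψ.sub continuous_const))).comp cj).div_const _)
    (fun x => n2 _) fun x y => by
      rw [mul_div_cancel₀ _ (eps_ne _)]
      simp only [map_mul, mb, mψ]
      ring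
  obtain ⟨r, u, e⟩ := H _ Z (by subst hh; exact B) fun ⟨u, hu⟩ => nc ⟨u, sj.forall.2 hu⟩
  exact ⟨r, u, sj.forall.2 e⟩

end Vale.Agent.P022K.PM.Lo3
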