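import Vale.Agent.P022K.PM.Latp0
import Vale.Agent.P022K.PM.LatO

/-!
# P022K / PM: row LATP
-/

set_option autoImplicit false
set_option linter.all false

namespace Vale.Agent.P022K.PM

theorem om_odd {p : ℕ} [Fact p.Prime] (h2 : p ≠ 2) : La.OM p := fun ι P h β b1 b2 => by
  obtain ⟨ξ, α, δ, k1, k2, k4, k5, k6⟩ := Lo3.omo p ι P h2 h β b1 b2
  exact ⟨ξ, α, δ, k1, ⟨1, by simpa only [pow_one] using k2⟩, fun e => absurd e h2, k4, k5,
    fun E ψ b a a1 a2 a3 a4 a5 a6 a7 a8 a9 a10 _ => k6 E ψ b a a1 a2 a3 a4 a5 a6 a7 a8 a9 a10⟩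

/-- row LATP -/
theorem latp : LATP := latp_of fun _ _ h => om_odd (by omega)

end Vale.Agent.P022K.PM
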