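import Vale.Agent.P022K.PM.St
import Vale.Agent.P022K.PM.Rh2
import Vale.Agent.P022K.TP.Gt
import Vale.Agent.P022K.TP.Has
import Vale.Agent.P022K.CH.Bas

/-!
# P022K / PM: the level group (helper22)
-/

open NumberField Matrix Quaternion

noncomputable section

namespace Vale.Agent.P022K.PM

open Vale.Agent.P022 Vale.Agent.P010MR Vale.Agent.P010MT8
open Vale.Agent.P022K.CH (Cp Kp red eps dt red_eq_iff red_add red_mul red_one red_zero)
open Vale.Agent.P022K.TP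

variable {D : QD} {η : GQ →* ℤˣ}

namespace Gr

theorem wm_ap (D : QD) (x : D.B) : D.wm *ᵥ D.e x = D.e (QD.al (-1) x) := by
  rw [QD.wm, ← mulVec_mulVec, D.rm_ap, D.lm_ap]
  congr 1
  have := D.beta_ne
  ext <;> simp [QD.al, QD.sc_eq, QD.bj] <;> field_simp

theorem wm_wm (D : QD) : D.wm * D.wm = 1 :=
  D.ext_e fun x => by rw [← mulVec_mulVec, wm_ap, wm_ap, QD.al_al, one_mulVec]

theorem am_wm_wm (D : QD) : am D.wm * am D.wm = 1 := by rw [← am_mul, wm_wm, am_one]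

theorem at_wm (D : QD) : D.At (-1) (-1) (am D.wm) := by
  have h : D.wmᵀ * J (Fin D.g) ℚ = J (Fin D.g) ℚ * -D.wm := D.adj_of fun x y => by
    rw [neg_mulVec, wm_ap, wm_ap, ← map_neg, D.sym', D.sym']
    congr 1
    simp [QD.al, QD.δ]
    ring
  refine QD.At.of_comm ?_ fun b => ?_
  · rw [← am_J, ← am_tr, ← am_mul, ← am_mul, h, mul_assoc, neg_mul, wm_wm, mul_neg, mul_one, am_neg,
      neg_one_smul]
  · rw [← am_mul, ← am_mul]
    exact congrArg am (D.ext_e fun x => by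
      rw [← mulVec_mulVec, ← mulVec_mulVec, D.rm_ap, wm_ap, wm_ap, D.rm_ap, QD.al_mul])

/-- the torus -/
def l0H (D : QD) : D.L0 →+* Mi D.g ℚ :=
  (⟨⟨⟨D.lm, D.lm_one⟩, D.lm_mul⟩, D.lm_zero, D.lm_add⟩ : D.B →+* Mi D.g ℚ).comp D.em

theorem exists_t (lz : ∀ z : D.L0, IsIntegral ℤ z → Mn 1 (am (D.l0 z))) {c c' : Af} (hc : c ∈ Zn 1)
    (hc' : c' ∈ Zn 1) (h : c * c' = 1) : ∃ t ∈ TA D, Mn 1 t ∧ D.At c 1 t := by
  obtain ⟨x, z, h1, h2, h3⟩ := unit_norm_ad D.hI D.cj D.cjI D.z3 (l0H D) hc hc' h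
  refine ⟨∑ i, x i • am (D.l0 (z i)), Submodule.sum_mem _ fun i _ =>
    Submodule.smul_mem _ _ (Submodule.subset_span ⟨_, rfl⟩), fun a b => ?_,
    QD.At.of_comm ?_ fun b => ?_⟩
  · rw [Matrix.sum_apply]
    exact sum_mem fun i _ => Zn_mul1 (h1 i) (lz _ (h2 i) a b)
  · have h4 : (∑ i, x i • am (D.l0 (z i)))ᵀ * J (Fin D.g) Af =
        J (Fin D.g) Af * ∑ i, x i • am (l0H D (D.cj (z i))) := by
      rw [transpose_sum, Finset.sum_mul, Finset.mul_sum]
      refine Finset.sum_congr rfl fun i _ => ?_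
      rw [transpose_smul, smul_mul_assoc, mul_smul_comm, ← am_J, ← am_tr, ← am_mul, ← am_mul, QD.l0,
        D.lm_adj, ← em_cj]
      rfl
    have h5 := mul_eq_one_comm.1 ((mul_smul_comm c' _ _).trans ((congrArg (c' • ·) h3).trans
      (by rw [smul_smul, mul_comm, h, one_smul])))
    have h6 := congrArg (c • ·) h5
    simp only [smul_mul_assoc, smul_smul, h, one_smul] at h6
    rw [h4, mul_assoc]
    exact (congrArg _ h6).trans (by rw [mul_smul_comm, mul_one])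
  · rw [QD.al_one, Finset.sum_mul, Finset.mul_sum]
    refine Finset.sum_congr rfl fun i _ => ?_
    rw [smul_mul_assoc, mul_smul_comm, ← am_mul, ← am_mul, QD.l0, D.lm_rm]

variable {p : ℕ} [Fact p.Prime]

theorem mp_am {g : ℕ} (a : Mi g ℚ) : mp (pp p) (am a) = ql p a := mp_cA (pp p) a

theorem ta_diag (μ : Em D (Cp p)) {t : Mi D.g Af} (h : t ∈ TA D) :
    ∃ d, Rh μ (mp (pp p) t) (diagonal d) := by
  induction h using Submodule.span_induction with
  | mem t h =>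
    obtain ⟨z, rfl⟩ := h
    exact ⟨_, by rw [mp_am]; exact rh_l0' μ z⟩
  | zero => exact ⟨0, by simpa using rh_zero' μ⟩
  | add a b _ _ ha hb =>
    obtain ⟨d, ha⟩ := ha
    obtain ⟨d', hb⟩ := hb
    exact ⟨_, by simpa using ha.add hb⟩
  | smul c a _ ha =>
    obtain ⟨d, ha⟩ := ha
    refine ⟨pr (pp p) c • d, ?_⟩
    convert ha.smul (pr (pp p) c) using 1
    · ext; exact map_mul (pr (pp p)) _ _
    · rw [diagonal_smul]

theorem lin (e : EE D η) : Lin D (mt e (pp p)) := by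
  refine ⟨fun m => ?_, ?_⟩
  · have := congrArg (mp (pp p)) ((at_uu e).cm m)
    rwa [map_mul, map_mul, mp_am] at this
  · have := congrArg (mp (pp p)) (at_uu e).cj
    rwa [map_mul, map_mul, mp_am] at this

theorem red_mm {a b : M2 (Cp p)} (ha : Le a 1) (hb : Le b 1) :
    (a * b).map red = a.map red * b.map red := by
  ext i k
  have h := fun l => (norm_mul_le (a i l) (b l k)).trans
    (mul_le_one₀ (ha i l) (norm_nonneg _) (hb l k))
  simp [mul_apply, red_add (h 0) (h 1), red_mul (ha _ _) (hb _ _)]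

theorem red_m1 : (1 : M2 (Cp p)).map red = 1 := Matrix.map_one _ red_zero red_one

theorem le_one : Le (1 : M2 (Cp p)) 1 := fun i k => by
  rw [one_apply]; split_ifs <;> simp

theorem red_congr {a b : M2 (Cp p)} (ha : Le a 1) (hb : Le b 1) :
    a.map red = b.map red ↔ Lt (a - b) :=
  Matrix.ext_iff.symm.trans (forall₂_congr fun i k => red_eq_iff (ha i k) (hb i k))

theorem red_det {a : M2 (Cp p)} (ha : Le a 1) : ‖a.det‖ ≤ 1 ∧ red a.det = (a.map red).det := by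
  have h := fun i k l m => (norm_mul_le (a i k) (a l m)).trans
    (mul_le_one₀ (ha i k) (norm_nonneg _) (ha l m))
  have h1 : ‖a.det‖ ≤ 1 := by
    rw [det_fin_two, sub_eq_add_neg]
    exact (IsUltrametricDist.norm_add_le_max _ _).trans (max_le (h ..) ((norm_neg _).trans_le (h ..)))
  refine ⟨h1, ?_⟩
  rw [det_fin_two (a.map red), eq_sub_iff_add_eq, map_apply, map_apply, map_apply, map_apply,
    ← red_mul (ha _ _) (ha _ _), ← red_mul (ha _ _) (ha _ _), ← red_add h1 (h ..), det_fin_two,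
    sub_add_cancel]

/-- monomial matrices -/
def Mo {K : Type} [Field K] (s : ℤˣ) (a : M2 K) : Prop :=
  (s = 1 → a 0 1 = 0 ∧ a 1 0 = 0) ∧ (s = -1 → a 0 0 = 0 ∧ a 1 1 = 0)

theorem mon_iff {s : ℤˣ} {a : M2 (Cp p)} (ha : Le a 1) : Mon s a ↔ Mo s (a.map red) := by
  have h : ∀ i k, ‖a i k‖ < 1 ↔ red (a i k) = 0 := fun i k => by
    rw [← red_zero, red_eq_iff (ha i k) (by simp), sub_zero]
  simp only [Mon, Mo, h, map_apply]

theorem Mo.mul {K : Type} [Field K] {s t : ℤˣ} {a b : M2 K} (h : Mo s a) (h' : Mo t b) :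
    Mo (s * t) (a * b) := by
  rcases Int.units_eq_one_or s with rfl | rfl <;> rcases Int.units_eq_one_or t with rfl | rfl <;>
    simp_all [Mo, mul_apply]

theorem Mo.inv {K : Type} [Field K] {s : ℤˣ} {a b : M2 K} (h : Mo s a) (e : a * b = 1) :
    Mo s⁻¹ b := by
  rw [← inv_eq_right_inv e, Matrix.inv_def, adjugate_fin_two]
  rcases Int.units_eq_one_or s with rfl | rfl <;> simp_all [Mo]

theorem nt_mon (μ : Em D (Cp p)) {e : EE D η} (h : Nt e) : Mo (η (sg e)) (re μ e) := by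
  rcases h.2 with ⟨h1, h2⟩ | ⟨h1, h2⟩ <;> obtain ⟨d, hd⟩ := ta_diag μ h2
  · rw [h1, show re μ e = _ from hd.eq]
    simp [Mo]
  · have h3 := hd.mul (rh_wm' μ)
    rw [← mp_am, ← map_mul, mul_assoc, am_wm_wm, mul_one] at h3
    rw [h1, show re μ e = _ from h3.eq]
    simp [Mo, mul_apply]

theorem Mo.mon {s : ℤˣ} {a : M2 (Cp p)} (h : Mo s a) : Mon s a :=
  ⟨fun e => by simp [h.1 e], fun e => by simp [h.2 e]⟩

theorem int_le (hI : INTR) {N : ℕ} (h : D.Ok N) (hp : p ∣ N) (μ : Em D (Cp p)) {e : EE D η}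
    (he : Int e) : Le (re μ e) 1 := by
  have := (hI D N p h hp _ (lin e) 1).1 (fun i k => he i k (pp p)) μ
  rwa [Nat.cast_one, norm_one] at this

theorem cn_le (hI : INTR) {N n : ℕ} (h : D.Ok N) (hp : p ∣ N) (μ : Em D (Cp p)) {e : EE D η}
    (he : Cn n e) : Le (re μ e - 1) ‖(n : ℚ_[p])‖ := by
  rw [← ((re_rh μ e).sub rh_one').eq]
  refine (hI D N p h hp _ ⟨fun m => ?_, ?_⟩ n).1 (fun i k => ?_) μ
  · rw [sub_mul, mul_sub, (lin e).1, one_mul, mul_one]
  · rw [sub_mul, mul_sub, (lin e).2, one_mul, mul_one]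
  · rw [mt_eq, ← map_one (mp (pp p)), ← map_sub]
    exact he i k (pp p)

theorem cn_red (hI : INTR) {N : ℕ} (h : D.Ok N) (hp : p ∣ N) (μ : Em D (Cp p)) {e : EE D η}
    (he : Cn p e) : (re μ e).map red = 1 := by
  rw [← red_m1, red_congr (int_le hI h hp μ he.int) le_one]
  exact fun i k => (cn_le hI h hp μ he i k).trans_lt Padic.norm_p_lt_one

end Gr

open Gr

/-- integral elements of the normaliser of the torus above every element -/
theorem Gr.sur0 {N : ℕ} (h : D.Ok N) (η : GQ →* ℤˣ) (σ : GQ) : ∃ e : EE D η, sg e = σ ∧ Nt e := by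
  rcases Int.units_eq_one_or (η σ) with h1 | h1
  · obtain ⟨t, h2, h3, h4⟩ := exists_t h.lz (chi_mem _) (chi_mem _) (cyc_mul_inv σ)
    obtain ⟨e, rfl, rfl⟩ := exists_EE (η := η) σ (h1 ▸ h4)
    exact ⟨e, rfl, h3, .inl ⟨h1, h2⟩⟩
  · obtain ⟨t, h2, h3, h4⟩ := exists_t h.lz (c := -cyc σ) (c' := -cyc σ⁻¹) (neg_mem (chi_mem _))
      (neg_mem (chi_mem _)) (by rw [neg_mul_neg, cyc_mul_inv])
    obtain ⟨e, rfl, h5⟩ := exists_EE (η := η) σ (u := t * am D.wm)
      (by simpa [h1] using h4.mul (at_wm D))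
    exact ⟨e, rfl, by rw [Int, h5]; exact Mn.mul (a := 1) (b := 1) h3 h.lw, .inr ⟨h1, by
      rwa [h5, mul_assoc, am_wm_wm, mul_one]⟩⟩

variable {p q N : ℕ} [Fact p.Prime] [Fact q.Prime] {μ : Em D (Cp p)} {μ' : Em D (Cp q)}
  {ρ : GQ →* GL (Fin 2) (Kp p)}

/-- the level group -/
def Lv.grp (hI : INTR) (h : Lv η N μ μ' ρ) : Subgroup (EE D η) where
  carrier := {e | Lg μ μ' ρ e}
  one_mem' := ⟨Int.one, by rw [re_one, red_m1, map_one, map_one]; rfl, by
    rw [re_one, map_one, map_one]; simp [Mon]⟩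
  mul_mem' {a b} ha hb := by
    have h1 := fun e : EE D η => int_le hI h.ok h.hq μ' (e := e)
    refine ⟨ha.1.mul hb.1, ?_, (mon_iff (h1 _ (ha.1.mul hb.1))).2 ?_⟩
    · rw [re_mul, red_mm (int_le hI h.ok h.hp μ ha.1) (int_le hI h.ok h.hp μ hb.1), ha.2.1, hb.2.1,
        map_mul, map_mul, Units.val_mul]
    · rw [re_mul, red_mm (h1 _ ha.1) (h1 _ hb.1), map_mul, map_mul]
      exact ((mon_iff (h1 _ ha.1)).1 ha.2.2).mul ((mon_iff (h1 _ hb.1)).1 hb.2.2)
  inv_mem' {a} ha := by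
    have h1 := fun e : EE D η => int_le hI h.ok h.hq μ' (e := e)
    refine ⟨ha.1.inv, ?_, (mon_iff (h1 _ ha.1.inv)).2 ?_⟩
    · rw [map_inv, map_inv]
      refine (Units.inv_eq_of_mul_eq_one_right ?_).symm
      rw [← ha.2.1, ← red_mm (int_le hI h.ok h.hp μ ha.1) (int_le hI h.ok h.hp μ ha.1.inv),
        ← re_mul, mul_inv_cancel, re_one, red_m1]
    · rw [map_inv, map_inv]
      refine ((mon_iff (h1 _ ha.1)).1 ha.2.2).inv ?_
      rw [← red_mm (h1 _ ha.1) (h1 _ ha.1.inv), ← re_mul, mul_inv_cancel, re_one, red_m1]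

/-- correction of an integral element at one place -/
theorem Gr.corr (hL : LIFT) (hV : VAL) (hI : INTR) (ok : D.Ok N) (hp : p ∣ N)
    (io : μ.ι ∈ c0 μ) {e : EE D η} (he : Int e) {A : M2 (Kp p)} (hd : A.det = red (eps p (sg e)))
    (hA : ∀ i k, ∃ x ∈ c0 μ, ‖x‖ ≤ 1 ∧ red x = A i k) : ∃ κ : EE D η, sg κ = 1 ∧ Rat p κ 1 ∧
      Int (e * κ) ∧ (re μ (e * κ)).map red = A := by
  obtain ⟨h1, -, E, -, hE⟩ := hV D η N p ok hp μ io
  choose x h2 h3 h4 using hA
  rw [← hE] at h1 h2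
  have h5 : Le (of x) 1 := h3
  have h6 : (of x).map red = A := Matrix.ext h4
  obtain ⟨h7, h8⟩ := red_det (int_le hI ok hp μ he)
  have h9 : ‖(re μ e).det‖ = 1 := by
    have := congrArg (‖·.det‖) (re_mul μ e e⁻¹)
    simp only [mul_inv_cancel, re_one, det_one, det_mul, norm_mul, norm_one] at this
    nlinarith [(red_det (int_le hI ok hp μ he.inv)).1, norm_nonneg (re μ e).det]
  have h10 : ‖(re μ e).det - (of x).det‖ < 1 := by
    rw [← red_eq_iff h7 (red_det h5).1, (red_det h5).2, h6, hd, re_eps]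
  have h11 : ‖(of x).det‖ = 1 := by
    rw [← sub_sub_cancel (re μ e).det (of x).det, sub_eq_add_neg,
      IsUltrametricDist.norm_add_eq_max_of_norm_ne_norm (by rw [norm_neg, h9]; exact h10.ne'),
      norm_neg, h9, max_eq_left h10.le]
  have h0 : (of x).det ≠ 0 := norm_ne_zero_iff.1 (h11 ▸ one_ne_zero)
  let u := (re μ e).det / (of x).det
  have h12 : ‖u - 1‖ < 1 := by rwa [div_sub_one h0, norm_div, h11, div_one]
  have h13 : Le (diagonal ![u, 1]) 1 := fun i k => by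
    fin_cases i <;> fin_cases k <;> simp [u, h9, h11]
  have h14 : (diagonal ![u, 1]).map red = 1 := by
    rw [← red_m1, red_congr h13 le_one]
    intro i k
    fin_cases i <;> fin_cases k <;> simp [h12]
  have h15 : u ∈ E := by
    simp only [u, det_fin_two]
    exact div_mem (sub_mem (mul_mem (h1 ..) (h1 ..)) (mul_mem (h1 ..) (h1 ..)))
      (sub_mem (mul_mem (h2 ..) (h2 ..)) (mul_mem (h2 ..) (h2 ..)))
  obtain ⟨κ, a1, a2, a3, a4⟩ := hL D η N p ok hp μ io (re μ e⁻¹ * (of x * diagonal ![u, 1])) (by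
    rw [det_mul, det_mul, det_diagonal, Fin.prod_univ_two]
    simp only [cons_val_zero, cons_val_one, mul_one, u]
    rw [mul_div_cancel₀ _ h0, ← det_mul, ← re_mul, inv_mul_cancel, re_one, det_one]) fun i k => by
      rw [← hE, mul_apply]
      refine sum_mem fun l _ => mul_mem (h1 ..) ?_
      rw [mul_diagonal]
      refine mul_mem (h2 ..) ?_
      fin_cases k
      exacts [h15, one_mem _]
  have a5 : re μ (e * κ) = of x * diagonal ![u, 1] := by
    rw [re_mul, a3, ← mul_assoc, ← re_mul, mul_inv_cancel, re_one, one_mul]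
  exact ⟨κ, a1, a2, (a4 e he).2 <| fun i k => by
    rw [a5]; exact (nmul zero_le_one zero_le_one h5 h13 i k).trans_eq (one_mul _), by
    rw [a5, red_mm h5 h13, h6, h14, mul_one]⟩

omit [Fact p.Prime] in
theorem Gr.re_rat {κ : EE D η} (h : Rat p κ 1) (hq : p ≠ q) (μ' : Em D (Cp q)) : re μ' κ = 1 :=
  Rh.eq ((h (pp q) hq.symm).trans (Matrix.map_one _ (by simp) (by simp)) ▸ rh_one')

/-- the level group is admissible -/
theorem Lv.adm (hL : LIFT) (hV : VAL) (hI : INTR) (h : Lv η N μ μ' ρ) :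
    Adm (h.grp hI) (p * q) where
  pos := Nat.mul_pos (Fact.out : p.Prime).pos (Fact.out : q.Prime).pos
  eta := h.eta
  sur σ := by
    obtain ⟨e, rfl, h1⟩ := sur0 h.ok η σ
    obtain ⟨κ, h2, h3, h4, h5⟩ := corr hL hV hI h.ok h.hp h.io h1.1 (h.det _) (h.val _)
    have h6 : sg (e * κ) = sg e := by rw [map_mul, h2, mul_one]
    exact ⟨e * κ, ⟨h4, h6 ▸ h5, by
      rw [h6, re_mul, re_rat h3 h.ne, mul_one]; exact (nt_mon μ' h1).mon⟩, h6⟩
  int _ he := he.1
  big := ⟨ρ.ker ⊓ η.ker, h.opn.inter h.eta, fun e h1 h2 => ⟨h2.int, by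
    rw [cn_red hI h.ok h.hp μ (h2.anti (dvd_mul_right _ _)), show ρ (sg e) = 1 from h1.1]; rfl, by
    rw [mon_iff (int_le hI h.ok h.hq μ' h2.int),
      cn_red hI h.ok h.hq μ' (h2.anti (dvd_mul_left _ _)), show η (sg e) = 1 from h1.2]
    simp [Mo]⟩⟩

/-- **GRP** -/
theorem grp (hL : LIFT) (hV : VAL) (hI : INTR) : GRP := fun _ _ j _ _ _ _ _ _ _ _ h =>
  ⟨h.grp hI, fun _ => Iff.rfl, fun _ => (h.adm hL hV hI).mem, (h.adm hL hV hI).gt j⟩

end Vale.Agent.P022K.PM
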