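import Vale.Agent.P022K.PM.Dic3
import Vale.Agent.P022K.PM.Grp
import Vale.Agent.P022K.PM.Fxg
import Vale.Agent.P022K.PM.Cmex
import Vale.Agent.P022K.CH.Weil

/-!
# P022K / PM: sections with values in the torus (helper44)
-/

set_option autoImplicit false

open NumberField Matrix

noncomputable section

namespace Vale.Agent.P022K.PM

open Vale.Agent.P022 Vale.Agent.P010MR Vale.Agent.P010MT8
open Vale.Agent.P022.H443 (inP)
open Vale.Agent.P022D.W (dec)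
open Vale.Agent.P022E.GW (Ov Fb)
open Vale.Agent.P022K.CH (Cp Kp Id red eps red_eq_iff red_mul red_one)
open Vale.Agent.P022K.CH.Weil
open Vale.Agent.P022K.TP hiding Cn Ty
open QD

variable {D : QD} {η : GQ →* ℤˣ} {j : Qb →+* ℂ} {x : MP D η} {θ : D.L0} {N l : ℕ} {P : Id}

/-- integral elements of the torus which fix `x` -/
structure Ts (j : Qb →+* ℂ) (x : MP D η) (e : EE D η) : Prop where
  fx : x.Fx j e
  ta : uu e ∈ TA D
  int : Int e

namespace Sc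

theorem am_ww (s : ℤˣ) : am (D.ww s) * am (D.ww s) = 1 := by rw [← am_mul, ww_sq, am_one]

theorem ta_adj {t : Mi D.g Af} (h : t ∈ TA D) :
    tᵀ * J (Fin D.g) Af = J (Fin D.g) Af * (am (D.ww (-1)) * t * am (D.ww (-1))) := by
  induction h using Submodule.span_induction with
  | mem _ h =>
    obtain ⟨z, rfl⟩ := h
    rw [← am_mul, ← am_mul, ww_l0, mul_assoc, ww_sq, mul_one, cs_neg, ← am_J, ← am_tr, ← am_mul,
      ← am_mul, l0, l0, D.lm_adj, em_cj]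
  | zero => simp
  | add a b _ _ ha hb => rw [transpose_add, add_mul, ha, hb, mul_add, add_mul, mul_add]
  | smul c a _ ha => rw [transpose_smul, smul_mul_assoc, ha, mul_smul_comm, smul_mul_assoc,
      mul_smul_comm]

theorem J_cancel {g : ℕ} {a b : Mi g Af} (h : J (Fin g) Af * a = J (Fin g) Af * b) : a = b := by
  have := congrArg (J (Fin g) Af * ·) h
  simpa only [← mul_assoc, J_squared, neg_mul, one_mul, neg_inj] using this

/-- the norm of an element of the torus -/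
theorem ta_norm {t : Mi D.g Af} (h : t ∈ TA D) {c : Af}
    (hs : tᵀ * J (Fin D.g) Af * t = c • J (Fin D.g) Af) :
    am (D.ww (-1)) * t * am (D.ww (-1)) * t = c • 1 :=
  J_cancel (by rw [← mul_assoc, ← ta_adj h, hs, mul_smul_comm, mul_one])

theorem ta_inv {e : EE D η} (h : uu e ∈ TA D) : uu e⁻¹ ∈ TA D := by
  have h1 := congrArg (fun a => cyc (sg e)⁻¹ • (a * uu e⁻¹)) (ta_norm h (at_uu e).sim)
  simp only [mul_assoc _ (uu e), uu_mul_inv, mul_one, smul_mul_assoc, one_mul, smul_smul] at h1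
  rw [mul_comm (cyc _), cyc_mul_inv, one_smul] at h1
  rw [← h1]
  simpa only [mul_assoc] using (TA D).smul_mem (cyc (sg e)⁻¹) (ta_ww (-1) h)

theorem ta_one : uu (1 : EE D η) ∈ TA D := by
  rw [map_one, ← am_one, ← D.l0_one]; exact ta_l0 1

end Sc

open Sc

theorem Ts.one (j : Qb →+* ℂ) (x : MP D η) : Ts j x 1 := ⟨(fxg D η j x).1, ta_one, Int.one⟩

theorem Ts.mul {e e' : EE D η} (h : Ts j x e) (h' : Ts j x e') : Ts j x (e * e') :=
  ⟨(fxg D η j x).2.1 _ _ h.fx h'.fx, by rw [map_mul]; exact ta_mul h.ta h'.ta, h.int.mul h'.int⟩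

theorem Ts.inv {e : EE D η} (h : Ts j x e) : Ts j x e⁻¹ :=
  ⟨(fxg D η j x).2.2.1 _ h.fx, ta_inv h.ta, h.int.inv⟩

namespace Sc

theorem rat_mul {e e' : EE D η} {a a' : Mi D.g ℚ} (h : Rat l e a) (h' : Rat l e' a') :
    Rat l (e * e') (a * a') := fun r hr => by
  rw [mt_eq, map_mul, map_mul, ← mt_eq, ← mt_eq, h r hr, h' r hr]
  exact (Matrix.map_mul (f := Rat.castHom _)).symm

theorem rat_of {e : EE D η} {a : Mi D.g ℚ} (h : uu e = am a) (l : ℕ) : Rat l e a := fun r _ => by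
  rw [mt_eq, h]; exact mp_cA r a

section

variable {r : ℕ} [Fact r.Prime] (ν : Em D (Cp r))

theorem re_rat {e : EE D η} {a : D.L0} (h : Rat l e (D.l0 a)) (hr : r ≠ l) :
    re ν e = diagonal ![ν.z0 a, ν.z0 (D.cj a)] := Rh.eq ((h (pp r) hr).symm ▸ rh_l0' ν a)

theorem re_l0 {e : EE D η} {a : D.L0} (h : uu e = am (D.l0 a)) :
    re ν e = diagonal ![ν.z0 a, ν.z0 (D.cj a)] := re_rat ν (rat_of h (r + 1)) (by omega)

theorem re_diag {e : EE D η} (h : uu e ∈ TA D) : re ν e = diagonal ![re ν e 0 0, re ν e 1 1] := by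
  obtain ⟨d, hd⟩ := Gr.ta_diag ν h
  rw [show re ν e = _ from hd.eq]
  ext i k
  fin_cases i <;> fin_cases k <;> simp

theorem re_mul0 {e : EE D η} (h : uu e ∈ TA D) (e' : EE D η) :
    re ν (e * e') 0 0 = re ν e 0 0 * re ν e' 0 0 := by
  rw [re_mul, re_diag ν h, diagonal_mul]; simp

theorem re_le (ok : D.Ok N) {e : EE D η} (h : uu e ∈ TA D) (hi : Int e) : ‖re ν e 0 0‖ ≤ 1 := by
  have := ((intt D N r ok _ h).2.2 1).1 (fun i k => hi i k (pp r)) ν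
  rwa [Nat.cast_one, NormOneClass.norm_one] at this

theorem re_norm (ok : D.Ok N) {e : EE D η} (h : Ts j x e) : ‖re ν e 0 0‖ = 1 := by
  have h1 := re_le ν ok h.ta h.int
  have h2 := re_le ν ok h.inv.ta h.inv.int
  have h3 := congrArg norm (re_mul0 ν h.ta e⁻¹)
  rw [mul_inv_cancel, re_one, one_apply_eq, norm_one, norm_mul] at h3
  nlinarith [norm_nonneg (re ν e 0 0)]

end

theorem ex_prime (l n : ℕ) : ∃ r, r.Prime ∧ r ≠ l ∧ n < r := by
  obtain ⟨r, h1, h2⟩ := Nat.exists_infinite_primes (l + n + 1)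
  exact ⟨r, h2, by omega, by omega⟩

theorem ex_em (D : QD) (r : ℕ) [Fact r.Prime] : Nonempty (Em D (Cp r)) := by
  obtain ⟨f⟩ : Nonempty (D.L0 →+* Cp r) := inferInstance
  exact ⟨(emx D _ f).choose⟩

theorem rat_inj {e : EE D η} {a b : D.L0} (h : Rat l e (D.l0 a)) (h' : Rat l e (D.l0 b)) :
    a = b := by
  obtain ⟨r, h1, h2, -⟩ := ex_prime l 0
  have := Fact.mk h1
  obtain ⟨ν⟩ := ex_em D r
  exact ν.zH.injective (by
    simpa [Em.zH_apply] using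
      congrFun (congrFun ((re_rat ν h h2).symm.trans (re_rat ν h' h2)) 0) 0)

theorem int_l0 {z : D.L0} (h : Mn 1 (am (D.l0 z))) : IsIntegral ℤ z := by
  have := D.ix_ne
  simpa using Has.int_of_mn (Gr.l0H D) one_pos h

theorem norm_one {z : D.L0} (h : z * D.cj z = 1) (ψ : D.L0 →+* ℂ) : ‖ψ z‖ = 1 := by
  have := congrArg (fun a => ‖ψ a‖) h
  simp only [map_mul, D.conj_cj, norm_mul, Complex.norm_conj, map_one, NormOneClass.norm_one] at this
  nlinarith [norm_nonneg (ψ z)]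

theorem ru_of {z : D.L0} (h : z * D.cj z = 1) (hi : IsIntegral ℤ z) : Ru z := by
  obtain ⟨n, h1, h2⟩ := Embeddings.pow_eq_one_of_norm_eq_one D.L0 ℂ hi (norm_one h)
  exact ⟨n, h1, h2⟩

/-- a prime at which the roots of unity are separated -/
theorem ex_sep (D : QD) (l : ℕ) : ∃ (r : ℕ) (_ : Fact r.Prime), r ≠ l ∧ ∀ (ν : Em D (Cp r))
    (z : D.L0), z * D.cj z = 1 → IsIntegral ℤ z → ‖ν.z0 z - 1‖ < 1 → z = 1 := by
  have hF : {z : D.L0 | z * D.cj z = 1 ∧ IsIntegral ℤ z}.Finite :=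
    (Embeddings.finite_of_norm_le D.L0 ℂ 1).subset fun z hz => ⟨hz.2, fun ψ => (norm_one hz.1 ψ).le⟩
  obtain ⟨n, hn⟩ := (hF.image fun z => orderOf z).bddAbove
  obtain ⟨r, h1, h2, h3⟩ := ex_prime l n
  have := Fact.mk h1
  refine ⟨r, this, h2, fun ν z h4 h5 h6 => ν.zH.injective ?_⟩
  obtain ⟨m, h7, h8⟩ := ru_of h4 h5
  have h9 : 0 < orderOf z := (isOfFinOrder_iff_pow_eq_one.2 ⟨m, h7, h8⟩).orderOf_pos
  refine root_eq (n := orderOf z) (norm_cop (Nat.Coprime.symm ((Nat.Prime.coprime_iff_not_dvd h1).2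
    (Nat.not_dvd_of_pos_of_lt h9 ((hn ⟨z, ⟨h4, h5⟩, rfl⟩).trans_lt h3)))) CH.norm_p_lt)
    (by rw [← map_pow, pow_orderOf_eq_one, map_one]) (by rw [map_one, one_pow])
    (by rwa [map_one])

theorem red_pow {r : ℕ} [Fact r.Prime] {a : Cp r} (h : ‖a‖ ≤ 1) (k : ℕ) : red (a ^ k) = red a ^ k := by
  induction k with
  | zero => simp [red_one]
  | succ k ih =>
    rw [pow_succ, red_mul (by rw [norm_pow]; exact pow_le_one₀ (norm_nonneg _) h) h, ih, pow_succ]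

/-- the reduction of an algebraic integer has finite order -/
theorem ex_ord {L : Type} [Field L] [NumberField L] {r : ℕ} [Fact r.Prime] (f : L →+* Cp r) {y : L}
    (hy : IsIntegral ℤ y) (h : ‖f y‖ = 1) : ∃ n, 0 < n ∧ red (f y) ^ n = 1 := by
  have hr : (r : 𝓞 L) ≠ 0 := Nat.cast_ne_zero.2 (Fact.out : r.Prime).ne_zero
  have : Finite (𝓞 L ⧸ Ideal.span {(r : 𝓞 L)}) :=
    Ideal.finiteQuotientOfFreeOfNeBot _ (by simpa using hr)
  have h0 : red (f y) ≠ 0 := fun e => by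
    rw [← CH.red_zero, red_eq_iff h.le (by simp), sub_zero, h] at e
    exact e.false
  obtain ⟨y, rfl⟩ : ∃ z : 𝓞 L, algebraMap _ L z = y := ⟨⟨y, hy⟩, rfl⟩
  obtain ⟨a, b, h1, h2⟩ := Finite.exists_ne_map_eq_of_infinite
    fun n : ℕ => Ideal.Quotient.mk (Ideal.span {(r : 𝓞 L)}) (y ^ n)
  have h3 : red (f (algebraMap _ L y)) ^ a = red (f (algebraMap _ L y)) ^ b := by
    obtain ⟨c, hc⟩ := Ideal.mem_span_singleton'.1 (Ideal.Quotient.eq.1 h2)
    have h4 := congrArg (fun z : 𝓞 L => f z) hc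
    simp only [map_mul, map_natCast, map_sub, map_pow] at h4
    have h5 : ∀ k : ℕ, ‖f (algebraMap _ L y) ^ k‖ ≤ 1 := fun k => by rw [norm_pow, h, one_pow]
    rw [← red_pow h.le, ← red_pow h.le, red_eq_iff (h5 a) (h5 b), ← h4, norm_mul]
    exact mul_lt_one_of_nonneg_of_lt_one_right (Dat.norm_int f c.isIntegral_coe) (norm_nonneg _)
      CH.norm_p_lt
  wlog le : a < b generalizing a b
  · exact this b a h1.symm h2.symm h3.symm (by omega)
  exact ⟨b - a, by omega, by rw [pow_sub₀ _ h0 le.le, ← h3, mul_inv_cancel₀ (pow_ne_zero _ h0)]⟩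

/-- the degree modulo `n` -/
theorem ex_deg (hP : Ov l P) {n : ℕ} (hn : 0 < n) : ∃ (Dg : GQ → ℕ → Prop) (U : Subgroup GQ),
    IsOpen (U : Set GQ) ∧ (∀ g ∈ U, Dg g 0) ∧ (∀ g k, Fb (l ^ k) P g → Dg g k) ∧
    (∀ g k g' k', Dg g k → Dg g' k' → Dg (g * g') (k + k')) ∧
    ∀ g k k', Dg g k → Dg g k' → k ≡ k' [MOD n] := by
  have : NeZero (l ^ n - 1) := ⟨Nat.sub_ne_zero_of_lt (Nat.one_lt_pow hn.ne' hP.1.one_lt)⟩
  have h0 : ((l ^ n - 1 : ℕ) : 𝓞 Qb) ∉ P := fun m => by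
    have := H20.dvd_of_mem hP.1 hP.2.1 hP.2.2 (d := ((l ^ n - 1 : ℕ) : ℤ)) (by exact_mod_cast m)
    exact (hP.1.coprime_iff_not_dvd.1 (cop hP.1.two_le hn).symm) (Int.natCast_dvd_natCast.1 this)
  refine ⟨fun g k => (H853.cyc (l ^ n - 1) g : ZMod (l ^ n - 1)) = (l ^ k : ℕ), _,
    H853.isOpen_cyc (l ^ n - 1), fun g hg => by simp [MonoidHom.mem_ker.1 hg], fun g k h => ?_,
    fun g k g' k' h h' => ?_, fun g k k' h h' => modEq_of hP.1.two_le hn ?_⟩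
  · exact (ZMod.natCast_zmod_val _).symm.trans
      ((ZMod.natCast_eq_natCast_iff _ _ _).2 (H853.cyc_of_pow dvd_rfl hP.2.1 h0 h))
  · simp only [map_mul, Units.val_mul, pow_add, Nat.cast_mul] at h h' ⊢
    rw [h, h']
  · exact (ZMod.natCast_eq_natCast_iff _ _ _).1 (h.symm.trans h')

/-- the Weil elements are dense -/
theorem dense (hP : Ov l P) {Γ V : Subgroup GQ} (hV : IsOpen (V : Set GQ)) (hΓ : Γ ≤ dec P)
    (hle : dec P ⊓ V ≤ Γ) {U : Subgroup GQ} (hU : IsOpen (U : Set GQ)) {d : GQ} (hd : d ∈ Γ) :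
    ∃ u ∈ Γ, ∃ d0 ∈ Γ, ∃ k, u ∈ U ∧ Fb (l ^ k) P d0 ∧ d = u * d0 := by
  obtain ⟨φ, hφ⟩ := P022D.W.exists_phi hP.1 hP.2.1 hP.2.2
  obtain ⟨k, s, u, h1, h2, h3⟩ := P022D.W.dec_gen hP.1 hP.2.1 hP.2.2 hφ (hΓ hd) (U ⊓ V) (hU.inter hV)
  have h4 := fb_add hP (fb_pow hP (a := 1) ((pow_one l).symm ▸ hφ) k) (fb_zero.2 h1)
  rw [mul_assoc] at h3
  have h5 : u ∈ Γ := hle ⟨(mul_mem_cancel_right (fb_dec hP h4)).1 (h3 ▸ hΓ hd), h2.2⟩
  exact ⟨u, h5, _, (mul_mem_cancel_left h5).1 (h3 ▸ hd), _, h2.1, h4, h3⟩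

end Sc

/-- an element of the geometric stabiliser which is trivial away from `l` is trivial -/
theorem ts_ext (hS : STAB) (ck : x.Ck θ) {e e' : EE D η} (h : x.Fx j e) (h' : x.Fx j e')
    (ht : uu (e⁻¹ * e') ∈ TA D) (hs : sg e = sg e')
    (hr : ∀ r : Pr, r.1 ≠ l → mt e r = mt e' r) : e = e' := by
  have h1 : sg (e⁻¹ * e') = 1 := by rw [map_mul, map_inv, hs, inv_mul_cancel]
  obtain ⟨z, -, h2⟩ := (hS D η j x θ ck).2 _ h1
    ((fxg D η j x).2.1 _ _ ((fxg D η j x).2.2.1 _ h) h') ht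
  obtain rfl : z = 1 := rat_inj (l := l) (rat_of h2 l) fun r h3 => by
    rw [mt_eq, map_mul, map_mul, ← mt_eq e', ← hr r h3, mt_eq, ← map_mul, uu_inv_mul, map_one,
      D.l0_one]
    exact (Matrix.map_one _ (by simp) (by simp)).symm
  exact inv_mul_eq_one.1 (ext_EE (h1.trans (map_one _).symm) (by rw [h2, D.l0_one, am_one, map_one]))

/-- **uniqueness**: continuous sections which agree on the Weil elements are equal -/
theorem sec_unq (hP : Ov l P) {Γ V : Subgroup GQ} (hV : IsOpen (V : Set GQ)) (hΓ : Γ ≤ dec P)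
    (hle : dec P ⊓ V ≤ Γ) {s s' : Γ →* EE D η} (h : Sec s) (h' : Sec s') (hi : ∀ d, Int (s d))
    (e : ∀ k (d : Γ), Fb (l ^ k) P d → s d = s' d) : s = s' := MonoidHom.ext fun d => by
  refine ext_EE ((h.sg d).trans (h'.sg d).symm) (sub_eq_zero.1 (mn_sep fun n hn => ?_))
  obtain ⟨U, h1, h2⟩ := h.cts n hn
  obtain ⟨U', h3, h4⟩ := h'.cts n hn
  obtain ⟨u, h5, d0, h6, k, h7, h8, h9⟩ := dense hP hV hΓ hle (U := U ⊓ U') (h1.inter h3) d.2
  obtain rfl : d = ⟨u, h5⟩ * ⟨d0, h6⟩ := Subtype.ext h9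
  rw [map_mul, map_mul, map_mul, map_mul, ← e k ⟨d0, h6⟩ h8, ← sub_mul, ← sub_sub_sub_cancel_right _ _ 1]
  simpa using ((h2 _ h7.1).sub (h4 _ h7.2)).mul (hi ⟨d0, h6⟩)

/-- **extension** of the unramified section from the Weil elements -/
theorem sec_ext (hS : STAB) (hD : DEEP) (ok : D.Ok N) (ck : x.Ck θ) (hη : IsOpen {g | η g = 1})
    (hP : Ov l P) {Γ V : Subgroup GQ} (hV : IsOpen (V : Set GQ)) (hΓ : Γ ≤ dec P)
    (hle : dec P ⊓ V ≤ Γ) (y : D.L0)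
    (ex : ∀ k, ∀ d ∈ Γ, Fb (l ^ k) P d → ∃ e, sg e = d ∧ Ts j x e ∧ Rat l e (D.l0 (y ^ k)))
    (hy : IsIntegral ℤ y) (hn : y * D.cj y = l) :
    ∃ s : Γ →* EE D η, Lp j x s ∧ (∀ d, uu (s d) ∈ TA D) ∧
      ∀ k (d : Γ), Fb (l ^ k) P d → Rat l (s d) (D.l0 (y ^ k)) := by
  obtain ⟨r, _, hr, sep⟩ := ex_sep D l
  obtain ⟨ν⟩ := ex_em D r
  have y1 : ‖ν.zH y‖ = 1 := by
    have h1 := Dat.norm_int ν.zH hy
    have h2 := Dat.norm_int ν.zH (hy.map D.cj.toRingEquiv.toRingHom.toIntAlgHom)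
    have h3 := congrArg (fun a => ‖ν.zH a‖) hn
    simp only [map_mul, norm_mul, map_natCast] at h3
    rw [norm_cop ((Nat.coprime_primes hP.1 Fact.out).2 hr.symm) CH.norm_p_lt] at h3
    change ‖ν.zH (D.cj y)‖ ≤ 1 at h2
    nlinarith [norm_nonneg (ν.zH y)]
  obtain ⟨n, n0, n1⟩ := ex_ord ν.zH hy y1
  obtain ⟨Dg, U, u1, u2, u3, u4, u5⟩ := ex_deg hP n0
  let S : EE D η → Prop := fun e => Ts j x e ∧ ∃ k, Dg (sg e) k ∧ red (re ν e 0 0) = red (ν.zH y) ^ k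
  have hm : ∀ {e e'}, Ts j x e → Ts j x e' →
      red (re ν (e * e') 0 0) = red (re ν e 0 0) * red (re ν e' 0 0) := fun h h' => by
    rw [re_mul0 ν h.ta, red_mul (re_norm ν ok h).le (re_norm ν ok h').le]
  have mul : ∀ {e e'}, S e → S e' → S (e * e') := fun ⟨a, k, b, c⟩ ⟨a', k', b', c'⟩ =>
    ⟨a.mul a', k + k', by rw [map_mul]; exact u4 _ _ _ _ b b', by rw [hm a a', c, c', pow_add]⟩
  have unq : ∀ {e e'}, S e → S e' → sg e = sg e' → e = e' := fun {e e'} ⟨a, k, b, c⟩ ⟨a', k', b', c'⟩ h => by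
    have h1 : sg (e⁻¹ * e') = 1 := by rw [map_mul, map_inv, h, inv_mul_cancel]
    have h2 := a.inv.mul a'
    obtain ⟨z, h3, h4⟩ := (hS D η j x θ ck).2 _ h1 h2.fx h2.ta
    have h5 := hm a h2
    have h6 : red (re ν e 0 0) ≠ 0 := fun e => by
      rw [← CH.red_zero, red_eq_iff (re_norm ν ok a).le (by simp), sub_zero, re_norm ν ok a] at e
      exact e.false
    rw [mul_inv_cancel_left, c', ← pow_eq_pow_of_modEq (u5 _ _ _ b (h ▸ b')) n1, ← c,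
      left_eq_mul₀ h6, ← red_one, red_eq_iff (re_norm ν ok h2).le (by simp), re_l0 ν h4] at h5
    obtain rfl := sep ν z h3 (int_l0 (h4 ▸ h2.int)) (by simpa using h5)
    exact inv_mul_eq_one.1
      (ext_EE (h1.trans (map_one _).symm) (by rw [h4, D.l0_one, am_one, map_one]))
  have wl : ∀ {e k}, Fb (l ^ k) P (sg e) → Ts j x e → Rat l e (D.l0 (y ^ k)) → S e :=
    fun {e k} a b c => ⟨b, k, u3 _ _ a, by
      rw [re_rat ν c hr, ← red_pow y1.le, ← map_pow]; rfl⟩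
  have dp : ∀ m, 0 < m → ∃ W : Subgroup GQ, IsOpen (W : Set GQ) ∧
      ∀ σ ∈ W, ∃ e, sg e = σ ∧ S e ∧ Cn m e := fun m hm => by
    obtain ⟨C, c1, c2⟩ := re_sub ν
    obtain ⟨a, ha⟩ := exists_pow_lt_of_lt_one (inv_pos.2 c1) (Padic.norm_p_lt_one (p := r))
    obtain ⟨W, w1, w2⟩ := hD D η j x θ ck hη (r ^ a * m)
      (Nat.mul_pos (pow_pos (Fact.out : r.Prime).pos a) hm)
    refine ⟨W ⊓ U, w1.inter u1, fun σ hσ => ?_⟩
    obtain ⟨e, rfl, e1, e2, e3⟩ := w2 σ hσ.1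
    have e4 : Ts j x e := ⟨e3, e2, e1.int⟩
    refine ⟨e, rfl, ⟨e4, 0, u2 _ hσ.2, ?_⟩, e1.anti (dvd_mul_left _ _)⟩
    have := c2 η e 1 _ (by rw [map_one]; exact e1.anti (dvd_mul_right _ _)) 0 0
    rw [re_one, Matrix.sub_apply, one_apply_eq, Nat.cast_pow, norm_pow] at this
    rw [pow_zero, ← red_one, red_eq_iff (re_norm ν ok e4).le (by simp)]
    exact this.trans_lt (by rwa [← lt_inv_mul_iff₀ c1, mul_one])
  have exs : ∀ d : Γ, ∃ e, sg e = d ∧ S e := fun d => by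
    obtain ⟨W, w1, w2⟩ := dp 1 one_pos
    obtain ⟨u, -, d0, h1, k, h2, h3, h4⟩ := dense hP hV hΓ hle w1 d.2
    obtain ⟨e, rfl, e1, -⟩ := w2 u h2
    obtain ⟨e', rfl, e2, e3⟩ := ex k d0 h1 h3
    exact ⟨e * e', by rw [map_mul, h4], mul e1 (wl h3 e2 e3)⟩
  choose s s1 s2 using exs
  refine ⟨MonoidHom.mk' s fun a b => unq (s2 _) (mul (s2 a) (s2 b)) (by
    rw [map_mul, s1, s1, s1, Subgroup.coe_mul]), ⟨⟨s1, fun m hm => ?_⟩, fun d => (s2 d).1.fx,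
    fun d => (s2 d).1.int⟩, fun d => (s2 d).1.ta, fun k d h => ?_⟩
  · obtain ⟨W, w1, w2⟩ := dp m hm
    refine ⟨W, w1, fun d hd => ?_⟩
    obtain ⟨e, e1, e2, e3⟩ := w2 d hd
    exact (unq e2 (s2 d) (e1.trans (s1 d).symm) ▸ e3 : Cn m (s d))
  · obtain ⟨e, e1, e2, e3⟩ := ex k d d.2 h
    exact (unq (wl (e1 ▸ h) e2 e3) (s2 d) (e1.trans (s1 d).symm) ▸ e3 : Rat l (s d) _)

end Vale.Agent.P022K.PM
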