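import Vale.Agent.P022K.PM.St2
import Vale.Agent.P022K.PM.Cmp
import Vale.Agent.P022K.PM.Sec
import Vale.Agent.P022K.CH.Eps

/-!
# P022K / PM: neighbours of an ordinary point are triangular (helper86)
-/

set_option autoImplicit false

open NumberField Matrix

noncomputable section

namespace Vale.Agent.P022K.PM

open Vale.Agent.P022 Vale.Agent.P010MR Vale.Agent.P010MT8
open Vale.Agent.P022.H443 (inP)
open Vale.Agent.P022D.W (dec)
open Vale.Agent.P022E.GW (Ov Fb)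
open Vale.Agent.P022K.CH (Cp Kp Id red eps)
open Vale.Agent.P022K.TP (Mn)

namespace Trg

theorem ex_ev {D : QD} (a : D.L0) : ∃ b : D.M × D.M, ∀ (C : Type) [Field C] (ν : Em D C),
    ν.ev b = ν.z0 a + ν.z0 (D.cj a) := by
  obtain ⟨x, y, rfl⟩ := D.gen a
  refine ⟨(algebraMap _ _ (2 * x), 0), fun C _ ν => ?_⟩
  have e : D.cj (algebraMap _ _ x + algebraMap _ _ y * D.I) =
      algebraMap _ _ x + algebraMap _ _ (-y) * D.I := by
    rw [map_add, map_mul, AlgEquiv.commutes, AlgEquiv.commutes, D.cjI, map_neg]; ring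
  rw [e, Em.z0_eq, Em.z0_eq]
  simp only [Em.ev, map_mul, map_neg, map_zero, map_ofNat]
  ring

/-- a left eigenvector can be chosen in the field -/
theorem ex_vec {C : Type} [Field C] (F : Subfield C) {A : Matrix (Fin 2) (Fin 2) C}
    (hA : ∀ i k, A i k ∈ F) (h1 : A ≠ 1) {w : Fin 2 → C} (h0 : w ≠ 0) (hw : w ᵥ* A = w) :
    ∃ c : C, c • w ≠ 0 ∧ ∀ i, (c • w) i ∈ F := by
  have e0 := congrFun hw 0
  have e1 := congrFun hw 1
  simp only [vecMul, dotProduct, Fin.sum_univ_two] at e0 e1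
  by_cases a : w 0 = 0
  · have b : w 1 ≠ 0 := fun b => h0 (funext fun i => by fin_cases i <;> simp [a, b])
    refine ⟨(w 1)⁻¹, smul_ne_zero (inv_ne_zero b) h0, fun i => ?_⟩
    fin_cases i <;> simp [a, b]
  by_cases b : w 1 = 0
  · refine ⟨(w 0)⁻¹, smul_ne_zero (inv_ne_zero a) h0, fun i => ?_⟩
    fin_cases i <;> simp [a, b]
  refine ⟨(w 0)⁻¹, smul_ne_zero (inv_ne_zero a) h0, fun i => ?_⟩
  fin_cases i
  · simp [a]
  change (w 0)⁻¹ * w 1 ∈ F
  by_cases c : A 1 0 = 0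
  · by_cases d : A 1 1 = 1
    · refine absurd ?_ h1
      rw [c, mul_zero, add_zero] at e0
      rw [d, mul_one, add_eq_right] at e1
      ext i k
      fin_cases i <;> fin_cases k
      · exact mul_left_cancel₀ a (e0.trans (mul_one _).symm)
      · exact (mul_eq_zero.1 e1).resolve_left a
      · exact c
      · exact d
    · have : (w 0)⁻¹ * w 1 = A 0 1 / (1 - A 1 1) := by
        have := sub_ne_zero.2 (Ne.symm d)
        field_simp
        linear_combination -e1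
      exact this ▸ div_mem (hA _ _) (sub_mem (one_mem _) (hA _ _))
  · have : (w 0)⁻¹ * w 1 = (1 - A 0 0) / A 1 0 := by
      field_simp
      linear_combination e0
    exact this ▸ div_mem (sub_mem (one_mem _) (hA _ _)) (hA _ _)

/-- a frame with prescribed last row of the inverse -/
theorem ex_frame {C : Type} [Field C] (F : Subfield C) {w : Fin 2 → C} (h0 : w ≠ 0)
    (hw : ∀ i, w i ∈ F) : ∃ g : Matrix (Fin 2) (Fin 2) C, g.det = 1 ∧ (∀ i k, g i k ∈ F) ∧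
      ∀ (A : Matrix (Fin 2) (Fin 2) C) (u : C), w ᵥ* A = u • w →
        (g⁻¹ * A * g) 1 0 = 0 ∧ (g⁻¹ * A * g) 1 1 = u := by
  obtain ⟨x, hx, y, hy, e⟩ : ∃ x ∈ F, ∃ y ∈ F, x * w 1 - y * w 0 = 1 := by
    by_cases b : w 1 = 0
    · have a : w 0 ≠ 0 := fun a => h0 (funext fun i => by fin_cases i <;> simp [a, b])
      exact ⟨0, zero_mem _, -(w 0)⁻¹, neg_mem (inv_mem (hw 0)), by simp [a]⟩
    · exact ⟨(w 1)⁻¹, inv_mem (hw 1), 0, zero_mem _, by simp [b]⟩
  have hi : (!![w 1, -y; -w 0, x] : Matrix (Fin 2) (Fin 2) C)⁻¹ = !![x, y; w 0, w 1] :=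
    inv_eq_left_inv (by
      ext i k
      fin_cases i <;> fin_cases k <;> simp [mul_apply, Fin.sum_univ_two] <;>
        first | linear_combination e | ring)
  refine ⟨!![w 1, -y; -w 0, x], by rw [det_fin_two_of]; linear_combination e, fun i k => ?_,
    fun A u h => ?_⟩
  · fin_cases i <;> fin_cases k
    exacts [hw 1, neg_mem hy, neg_mem (hw 0), hx]
  have e0 := congrFun h 0
  have e1 := congrFun h 1
  simp only [vecMul, dotProduct, Fin.sum_univ_two, Pi.smul_apply, smul_eq_mul] at e0 e1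
  rw [hi]
  constructor <;> simp [mul_apply, vecMul, dotProduct, Fin.sum_univ_two]
  · linear_combination w 1 * e0 - w 0 * e1
  · linear_combination -y * e0 + x * e1 + u * e

end Trg

open Trg CH.Weil in
/-- **TRI** -/
theorem tri (hO : ORD) : TRI := by
  intro N D η j p hp' μ P x s ξ α ok hp io hP hs hξ hα H
  obtain ⟨r, hr, hrp, -⟩ := Sc.ex_prime p 0
  have := Fact.mk hr
  obtain ⟨ν⟩ := Sc.ex_em D r
  obtain ⟨m, hm⟩ := rig_mn D r ν p
  obtain ⟨v, hv, -, -, -, hw⟩ := exists_wl hP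
  refine ⟨r ^ m, pow_pos hr.pos m, fun x' s' hs' hc => ?_⟩
  have T : ∀ d : dec P, d.1 ∈ inP P ∨ Fb p P d → ∀ (r : ℕ) [Fact r.Prime], r ≠ p →
      ∀ ν : Em D (Cp r), (re ν (s' d)).trace = (re ν (s d)).trace := fun d hd => by
    obtain ⟨k, h1, h2⟩ : ∃ k, (p : ℝ) ^ k ≤ p ∧ Fb (p ^ k) P d := hd.elim
      (fun h => ⟨0, by simpa using hP.1.one_le, fb_zero.2 h⟩) fun h => ⟨1, by simp, by simpa⟩
    exact hm η j p k (r ^ m) v x' x 1 (s' d) (s d) hrp h1 dvd_rfl hv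
      ((hw _ _).2 ((hs.sec.sg d).symm ▸ h2)) (by simp [hs.sec.sg, hs'.sec.sg]) (hs'.fx d) (hs.fx d)
      (hs'.int d) (hs.int d) (by simpa using hc d)
  refine ⟨T, ?_⟩
  have F : ∀ d : dec P, Fb p P d → ∃ b, Trc p (s' d) b ∧ (∀ μ : Em D (Cp p), ‖μ.ev b‖ = 1) ∧
      ∀ u : Cp p, ‖u‖ = 1 → u ^ 2 - μ.ev b * u + p = 0 → u = ξ d * α := fun d hd => by
    obtain ⟨a, h1, h2, h3⟩ := H d hd
    obtain ⟨b, hb⟩ := ex_ev a
    refine ⟨b, fun r _ hr ν => ?_, fun μ => ?_, fun u h4 h5 => ?_⟩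
    · rw [T d (Or.inr hd) r hr, h1.re hr, hb]; simp
    · rw [hb, ← h3 μ.zH, map_add]; rfl
    have h6 : a * D.cj a = p := ν.zH.injective (by
      have := ((rh_row D r ν).2.2.2.2.2.2 η).1 (s d)
      rw [h1.re hrp, hs.sec.sg, CH.eps_frob hP hrp.symm hd] at this
      rw [map_mul, map_natCast, ← this.2]
      simp; rfl)
    have h7 : μ.z0 a * μ.z0 (D.cj a) = p := by
      have := congrArg μ.zH h6
      rwa [map_mul, map_natCast] at this
    obtain ⟨n, h8, h9⟩ := hξ.fin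
    have h10 : ‖μ.z0 (D.cj a)‖ = 1 := by
      have := congrArg norm (h9 d d.2)
      rw [norm_pow, norm_one, pow_eq_one_iff_of_nonneg (norm_nonneg _) h8.ne'] at this
      rw [h2, norm_mul, this, hα, one_mul]
    rw [hb, ← h7] at h5
    rw [← h2]
    refine sub_eq_zero.1 ((mul_eq_zero.1 (show (u - μ.z0 a) * (u - μ.z0 (D.cj a)) = 0 by
      linear_combination h5)).resolve_left fun e => ?_)
    have := congrArg norm h7
    rw [norm_mul, h10, ← sub_eq_zero.1 e, h4, one_mul] at this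
    exact (CH.norm_p_lt (p := p)).ne' this
  obtain ⟨φ, hφ⟩ := P022D.W.exists_phi hP.1 hP.2.1 hP.2.2
  have hφ1 : Fb (p ^ 1) P φ := by rw [pow_one]; exact hφ
  let φ' : dec P := ⟨φ, CH.Weil.fb_dec hP hφ1⟩
  obtain ⟨w, u, w0, w1, w2⟩ := hO D η j x' (dec P) s' p P hP le_rfl (by simp) hs'
    ((F φ' hφ).elim fun b hb => ⟨φ', 1, b, one_pos, hφ1, hb.1, hb.2.1⟩) μ
  have uf : ∀ d : dec P, Fb p P d → u d = ξ d * α := fun d hd => by
    obtain ⟨b, h1, -, h3⟩ := F d hd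
    exact h3 _ (w1 d).2 (by simpa using w2 d 1 b (by simpa using hd) h1)
  have um : ∀ d d', u (d * d') = u d * u d' := fun d d' => smul_left_injective _ w0 (by
    have := (w1 (d * d')).1
    rw [map_mul, re_mul, ← vecMul_vecMul, (w1 d).1, smul_vecMul, (w1 d').1, smul_smul] at this
    exact this.symm)
  have u0 : ∀ d, u d ≠ 0 := fun d e => by simpa [e] using (w1 d).2
  have ui : ∀ d : dec P, d.1 ∈ inP P → u d = ξ d := fun d hd => by
    have h1 := uf (d * φ') (by simpa using fb_add hP (fb_zero.2 hd) hφ1)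
    rw [um, Subgroup.coe_mul, hξ.mul _ d.2 _ φ'.2, mul_assoc, ← uf φ' hφ] at h1
    exact mul_right_cancel₀ (u0 _) h1
  have x1 : ξ 1 = 1 := hξ.opn.elim fun U h => h.2 1 (one_mem _)
  have up : ∀ k, u (φ' ^ k) = ξ (φ' ^ k : dec P) * α ^ k := fun k => by
    induction k with
    | zero => rw [ui _ (one_mem _), pow_zero α, mul_one]
    | succ k ih =>
      rw [pow_succ, um, ih, uf φ' hφ, Subgroup.coe_mul, hξ.mul _ (φ' ^ k).2 _ φ'.2]; ring
  have uk : ∀ (d : dec P) k, Fb (p ^ k) P d → u d = ξ d * α ^ k := fun d k hd => by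
    have h1 : ((φ' ^ k)⁻¹ * d : dec P).1 ∈ inP P := fb_div hP (by simpa using fb_pow hP hφ1 k) hd
    have h2 := hξ.mul _ (φ' ^ k).2 _ ((φ' ^ k)⁻¹ * d).2
    rw [← Subgroup.coe_mul, mul_inv_cancel_left] at h2
    rw [← mul_inv_cancel_left (φ' ^ k) d, um, up, ui _ h1, mul_inv_cancel_left, h2]; ring
  obtain ⟨U, hU, hU'⟩ := hξ.opn
  obtain ⟨t, ht, ht'⟩ := CH.eps_ram hP U hU
  let t' : dec P := ⟨t, P022D.W.inP_le_dec ht.2⟩
  obtain ⟨c, c0', c1⟩ := ex_vec μ.Kf (A := re μ (s' t'))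
    (fun i k => (ok.kf hp μ).2 ((val D η N p ok hp μ io).1 _ i k)) (fun e => ht' 1 one_ne_zero (by
      have := (((rh_row D p μ).2.2.2.2.2.2 η).1 (s' t')).2
      rw [e, det_one, hs'.sec.sg] at this
      rw [pow_one, this])) w0
    (by rw [(w1 t').1, ui t' ht.2, hU' t ⟨ht.1, t'.2⟩, one_smul])
  obtain ⟨g, g1, g2, g3⟩ := ex_frame μ.Kf c0' c1
  refine ⟨g, g1, fun i k => (ok.kf hp μ).1 (g2 i k), fun d => ?_⟩
  have := g3 (re μ (s' d)) (u d) (by rw [smul_vecMul, (w1 d).1, smul_comm])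
  exact ⟨this.1, fun k hk => this.2.trans (uk d k hk)⟩

end Vale.Agent.P022K.PM
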