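import Vale.Agent.P022K.PM.All
import Vale.Agent.P022K.PM.Tri
import Vale.Agent.P022K.PM.Latp

/-!
# P022K / PM: potential modularity from the row ST
-/

set_option autoImplicit false

namespace Vale.Agent.P022K.PM

theorem pmx_st (hS : ST) : Top.Pm.PMX := pmx_rows hS (tri ord) latp

end Vale.Agent.P022K.PM
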