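import Vale.Agent.P022K.PM.St
import Vale.Agent.P022K.Top.PmSt

/-!
# P022K / PM: from local points to the output of the block (the row `OUT`)
-/

set_option autoImplicit false

open NumberField Matrix

noncomputable section

namespace Vale.Agent.P022K.PM

open Vale.Agent.P022
open Vale.Agent.P022.H443 (inP)
open Vale.Agent.P022D.W (dec)
open Vale.Agent.P022E.GW (Ov Fb)
open Vale.Agent.P022K.Glue (Dsj)
open Vale.Agent.P022K.CH (Cp Kp Id red)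
open Vale.Agent.P022K.Top (GI iC rd UU)
open Vale.Agent.P022K.Top.Pm (Qd Px)

/-- **local points** at the primes in `S`, `T` and at `p`, `q` -/
structure Pts {D : QD} {η : GQ →* ℤˣ} {p q : ℕ} [Fact p.Prime] [Fact q.Prime] (j : Qb →+* ℂ)
    (ι : Qb →+* Cp p) (μ : Em D (Cp p)) (ι' : Qb →+* Cp q) (μ' : Em D (Cp q)) (S T : Finset ℕ)
    (ρ : GQ →* GL (Fin 2) (Kp p)) (V : ℕ → GQ → GI p) (N : ℕ) (P : ℕ → Id) (x : ℕ → MP D η)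
    (s : ∀ l, dec (P l) →* EE D η) : Prop where
  loc : ∀ l ∈ insert p (insert q (S ∪ T)), l.Prime →
    Ov l (P l) ∧ Lp j (x l) (s l) ∧ ∀ d, Lg μ μ' ρ (s l d)
  near : ∀ l ∈ S, ∃ z : GI p, rd z = 1 ∧ ∀ d : dec (P l),
    Le ((iC (V l d)).val - (iC z⁻¹).val * re μ (s l d) * (iC z).val) (‖(p : Cp p)‖ ^ N)
  unr : ∀ l ∈ T, l.Prime → l ∉ insert p (insert q S) → ∀ d : dec (P l), d.1 ∈ inP (P l) →
    (re μ' (s l d)).trace = 2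
  tam : ∃ n, ¬ q ∣ n ∧ ∀ d : dec (P p), d.1 ∈ inP (P p) → re μ' (s p d) ^ n = 1
  alt : (∃ d : dec (P p), d.1 ∈ inP (P p) ∧ (re μ' (s p d)).map red ^ 2 ≠ 1) ∨
    ∃ d : dec (P p), Fb p (P p) d ∧ ‖(re μ' (s p d)).trace ^ 2 - (p + 1) ^ 2‖ = 1
  uu : UU (P p) ρ → ∀ d : dec (P p), (d.1 ∈ inP (P p) → (re μ' (s p d)).trace = 2) ∧
    (Fb p (P p) d → ∃ a : Qb, (re μ' (s p d)).trace = ι' a ∧ ‖ι a‖ = 1)
  spq : ∀ g ∈ dec (P q), η g = 1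
  inq : ∀ d : dec (P q), d.1 ∈ inP (P q) →
    (re μ (s q d)).trace = 2 ∧ ‖re μ' (s q d) 1 1 - 1‖ < 1
  frq : ∀ d : dec (P q), Fb q (P q) d → ∃ a, Trc q (s q d) a ∧
    (∀ μ'' : Em D (Cp q), ‖μ''.ev a‖ = 1) ∧ ‖μ'.ev a ^ 2 - 1‖ = 1

/-- **OUT** -/
def OUT : Prop := AllD fun D η j => ∀ (p q : ℕ) [Fact p.Prime] [Fact q.Prime]
  (ι : Qb →+* Cp p) (ι' : Qb →+* Cp q) (ν : Em D Qb) (M : ℕ) (S T : Finset ℕ)
  (ρ : GQ →* GL (Fin 2) (Kp p)) (P : ℕ → Id) (V : ℕ → GQ → GI p) (et : ℕ → GQ → ℤˣ) (N Δ : ℕ),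
  Lv η M (ν.map ι) (ν.map ι') ρ → Δ % 4 = 3 → Squarefree Δ → (∀ g, η g = 1 ↔ g ∈ Qd Δ) →
  (∀ l ∈ S, l.Prime) → q ∉ S → (∀ l ∈ S, ∀ g ∈ dec (P l), η g = et l g) →
  ∀ (x0 : MP D η) (e0 : EE D η), (∀ a, j (sg e0 a) = starRingEnd ℂ (j a)) → e0 * e0 = 1 →
  x0.Fx j e0 → Lg (ν.map ι) (ν.map ι') ρ e0 →
  ∀ (P' : ℕ → Id) (x : ℕ → MP D η) (s : ∀ l, dec (P' l) →* EE D η), (∀ l ∈ S, P l = P' l) →
  Pts j ι (ν.map ι) ι' (ν.map ι') S T ρ V N P' x s →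
  ∀ U : Subgroup GQ, U.Normal → IsOpen (U : Set GQ) →
    ∃ H r r', Dsj H U ∧ Px ι ι' S T ρ P V et N Δ H r r'

end Vale.Agent.P022K.PM
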