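import Vale.Agent.P022K.PM.St2
import Vale.Agent.P022K.PM.OutSt
import Vale.Agent.P022K.CH.Bas

/-!
# P022K / PM: the assembly of potential modularity
-/

set_option autoImplicit false
set_option linter.all false

open NumberField Matrix

noncomputable section

namespace Vale.Agent.P022K.PM

open Vale.Agent.P022
open Vale.Agent.P022.H443 (inP)
open Vale.Agent.P022D.W (dec)
open Vale.Agent.P022E.GW (Ov Fb)
open Vale.Agent.P022K.CH (Cp Kp Id red eps dt)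
open Vale.Agent.P022K.Top (GI iC rd Rp Rd UU Urc Cty)
open Vale.Agent.P022K.Top.Pm (Qd PMX)

/-- **CXX**: large contexts exist -/
def CXX : Prop := AllR fun {p} _ ι ρ => ∀ (Δ : ℕ) (A : Finset (Cp p)) (B : Finset Qb)
  (U : Subgroup GQ) (b : ℕ), 0 < Δ → (∀ x ∈ B, Cmn x) → IsOpen (U : Set GQ) →
  ∃ (q : ℕ) (_ : Fact q.Prime) (ι' : Qb →+* Cp q) (C : Cx), b < q ∧ q % 4 = 1 ∧
    (∀ Q, Ov q Q → dec Q ≤ U) ∧ (∀ g, C.η g = 1 ↔ g ∈ Qd Δ) ∧ C.Ok ι ι' ρ ∧ C.Has ι A B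

/-- a continuous quadratic character of the decomposition group -/
def Qc (P : Id) (η : GQ → ℤˣ) : Prop := (∀ g ∈ dec P, ∀ k ∈ dec P, η (g * k) = η g * η k) ∧
  ∃ U : Subgroup GQ, IsOpen (U : Set GQ) ∧ ∀ g ∈ U ⊓ dec P, η g = 1

/-- **L1X**: imaginary quadratic fields with prescribed completions -/
def L1X : Prop := ∀ (Z : Finset ℕ) (P : ℕ → Id) (η : ℕ → GQ → ℤˣ),
  (∀ l ∈ Z, Ov l (P l) ∧ Qc (P l) (η l)) → (2 ∈ Z → ∀ s ∈ inP (P 2), η 2 s = 1) → ∀ B : ℕ,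
    ∃ Δ : ℕ, B < Δ ∧ Δ % 4 = 3 ∧ Squarefree Δ ∧ ∀ l ∈ Z, ∀ g ∈ dec (P l), g ∈ Qd Δ ↔ η l g = 1

namespace Asm

theorem qc_one (P : Id) : Qc P fun _ => 1 :=
  ⟨fun _ _ _ _ => (one_mul _).symm, ⊤, isOpen_univ, fun _ _ => rfl⟩

theorem qd_opn (Δ : ℕ) : IsOpen (Qd Δ : Set GQ) := by
  obtain ⟨θ, hθ⟩ := IsAlgClosed.exists_pow_nat_eq (-(Δ : Qb)) two_pos
  refine Subgroup.isOpen_mono (H₁ := MulAction.stabilizer GQ θ) (fun g hg x hx => ?_)
    (stabilizer_isOpen_of_isIntegral θ)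
  have e : g θ = θ := hg
  rcases sq_eq_sq_iff_eq_or_eq_neg.1 (hx.trans hθ.symm) with k | k <;> simp [k, e]

theorem un_eq {a b : ℤˣ} (h : a = 1 ↔ b = 1) : a = b := by
  rcases Int.units_eq_one_or a with x | x <;> rcases Int.units_eq_one_or b with y | y <;>
    simp_all

variable {p : ℕ} [Fact p.Prime] {ι : Qb →+* Cp p} {ρ : GQ →* GL (Fin 2) (Kp p)}

/-- the point at `p` -/
theorem atp (h1 : CLS) (h2 : LPI) (h3 : LPR) (hρ : Rb ρ) (hp : p = 2 ∨ 7 ≤ p) {P : Id}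
    (hP : Ov p P) : ∃ et, Qc P et ∧ (∀ s ∈ inP P, et s = 1) ∧
      Ev ι ρ fun _ _ ι' C => (∀ g ∈ dec P, C.η g = et g) →
        ∃ (x : MP C.D C.η) (s : dec P →* EE C.D C.η),
          C.Pt ι ι' ρ x s ∧ Atp ι ι' (C.ν.map ι') ρ P s := by
  obtain ⟨h, a, b | ⟨b, et, c, d⟩⟩ := h1 p ι ρ hρ P hP
  · exact ⟨_, qc_one P, fun _ _ => rfl, h3 p ι ρ hρ P h hp hP a b⟩
  · refine ⟨et, ⟨c.mul, c.opn⟩, fun s hs => c.fb 0 s fun x => ?_, h2 p ι ρ hρ P h et hP a b c d⟩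
    rw [pow_zero, pow_one]
    exact hs x

end Asm

open Asm in
theorem pmx_of (l1 : L1X) (cx : CXX) (lft : LFT) (cls : CLS) (lpl : LPL) (lpq : LPQ) (lpc : LPC)
    (lpi : LPI) (lpr : LPR) (out : OUT) : PMX := by
  classical
  intro p hp ι S ρ P V η p2 od pS rq lf ct U T N B un uo
  have hρ : Rb ρ := ⟨rq.opn, rq.det⟩
  have nS : ∀ l ∈ S, l ≠ p := fun l hl e => pS (e ▸ hl)
  have : ∀ l, ∃ Q : Id, (l.Prime → Ov l Q) ∧ (l ∈ S → P l = Q) := fun l => by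
    by_cases h : l ∈ S
    · exact ⟨P l, fun _ => (lf l h (nS l h)).1, fun _ => rfl⟩
    by_cases h' : l.Prime
    · obtain ⟨Q, hQ⟩ := CH.ex_ov h'
      exact ⟨Q, fun _ => hQ, fun k => absurd k h⟩
    · exact ⟨⊥, fun k => absurd k h', fun k => absurd k h⟩
  choose P' ov eS using this
  let Z : Finset ℕ := (insert p (S ∪ T)).filter Nat.Prime
  -- the local rows
  have key : ∀ l ∈ Z, ∃ et, Qc (P' l) et ∧ (l ∉ S → ∀ s ∈ inP (P' l), et s = 1) ∧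
      (l ∈ S → et = η l) ∧ Ev ι ρ fun q _ ι' C => l ≠ q → (∀ g ∈ dec (P' l), C.η g = et g) →
        ∃ (x : MP C.D C.η) (s : dec (P' l) →* EE C.D C.η), C.Pt ι ι' ρ x s ∧
          (l = p → Atp ι ι' (C.ν.map ι') ρ (P' l) s) ∧
          (l ∈ S → ∃ z : GI p, rd z = 1 ∧ ∀ d : dec (P' l), Le ((iC (V l d)).val -
            (iC z⁻¹).val * re (C.ν.map ι) (s d) * (iC z).val) (‖(p : Cp p)‖ ^ N)) ∧
          (l ≠ p → l ∉ S → ∀ d : dec (P' l), d.1 ∈ inP (P' l) →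
            (re (C.ν.map ι') (s d)).trace = 2) := fun l hl => by
    have pr : l.Prime := (Finset.mem_filter.1 hl).2
    by_cases e : l = p
    · subst e
      obtain ⟨et, a, b, c⟩ := atp (ι := ι) cls lpi lpr hρ p2 (ov l pr)
      refine ⟨et, a, fun _ => b, fun k => absurd k pS, c.mono fun q _ ι' C _ k _ k' => ?_⟩
      obtain ⟨x, s, u, v⟩ := k k'
      exact ⟨x, s, u, fun _ => v, fun k => absurd k pS, fun k => absurd rfl k⟩
    by_cases h : l ∈ S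
    · obtain ⟨y, ζ, ζ', u, u', c⟩ := ct l h
      obtain ⟨-, a1, a2, -⟩ := lf l h e
      rw [eS l h] at c a1 a2
      obtain ⟨W, w1, w2⟩ := c.opn
      refine ⟨η l, ⟨c.mul, W, w1, fun g hg => (w2 g hg).1⟩, fun k => absurd h k, fun _ => rfl,
        (lpl p ι ρ hρ l _ _ y _ ζ ζ' u u' N (ov l pr) e a1 a2 (ct0 c)).mono
          fun q _ ι' C _ k k1 k2 => ?_⟩
      obtain ⟨x, s, u, v, -⟩ := k k1 k2
      exact ⟨x, s, u, fun k => absurd k e, fun _ => v, fun _ k => absurd h k⟩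
    · obtain ⟨W, y, u, u', a1, a2, c⟩ := lft p ι ρ hρ l _ (ov l pr) e
        (rq.unr l (by simp [e, h]) _ (ov l pr))
      refine ⟨_, qc_one _, fun _ _ _ => rfl, fun k => absurd k h,
        (lpl p ι ρ hρ l _ _ y _ _ _ u u' N (ov l pr) e a1 a2 c).mono
          fun q _ ι' C _ k k1 k2 => ?_⟩
      obtain ⟨x, s, u, -, v⟩ := k k1 k2
      exact ⟨x, s, u, fun k => absurd k e, fun k => absurd k h, fun _ _ d hd => v d hd rfl rfl⟩
  choose! et qc ine es ev using key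
  obtain ⟨Δ, -, d4, sq, hΔ⟩ := l1 Z P' et
    (fun l hl => ⟨ov l (Finset.mem_filter.1 hl).2, qc l hl⟩)
    (fun h => ine 2 h fun k => (od 2 k).2 rfl) 0
  obtain ⟨A, A', cm, hA⟩ := ((Ev.all Z ev).and (lpq p ι ρ hρ)).and (lpc p ι ρ hρ)
  obtain ⟨q, hq, ι', C, q1, q4, q5, hη, ok, has⟩ := cx p ι ρ hρ Δ A A' (ρ.ker ⊓ Qd Δ)
    (B + (insert p (S ∪ T)).sup id) (by omega) cm (IsOpen.inter rq.opn (qd_opn Δ))
  have nq : q ∉ insert p (S ∪ T) := fun k => by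
    have := Finset.le_sup (f := id) k
    simp only [id] at this q1
    omega
  obtain ⟨⟨r1, r2⟩, x0, e0, c1, c2, c3, c4⟩ := hA q ι' C ok has
  have sq' : ∀ g ∈ dec (P' q), ρ g = 1 ∧ C.η g = 1 := fun g hg =>
    ⟨(q5 _ (ov q hq.out) hg).1, (hη g).2 (q5 _ (ov q hq.out) hg).2⟩
  have he : ∀ l ∈ Z, ∀ g ∈ dec (P' l), C.η g = et l g := fun l hl g hg =>
    un_eq ((hη g).trans (hΔ l hl g hg))
  have pts : ∀ l, ∃ (x : MP C.D C.η) (s : dec (P' l) →* EE C.D C.η),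
      (l = q → C.Pt ι ι' ρ x s ∧ Atq (C.ν.map ι) (C.ν.map ι') (P' l) s) ∧
      (l ∈ Z → C.Pt ι ι' ρ x s ∧ (l = p → Atp ι ι' (C.ν.map ι') ρ (P' l) s) ∧
        (l ∈ S → ∃ z : GI p, rd z = 1 ∧ ∀ d : dec (P' l), Le ((iC (V l d)).val -
          (iC z⁻¹).val * re (C.ν.map ι) (s d) * (iC z).val) (‖(p : Cp p)‖ ^ N)) ∧
        (l ≠ p → l ∉ S → ∀ d : dec (P' l), d.1 ∈ inP (P' l) →
          (re (C.ν.map ι') (s d)).trace = 2)) := fun l => by
    by_cases h : l ∈ Z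
    · have e : l ≠ q := fun e => nq (e ▸ (Finset.mem_filter.1 h).1)
      obtain ⟨x, s, k⟩ := r1 l h e (he l h)
      exact ⟨x, s, fun k => absurd k e, fun _ => k⟩
    by_cases e : l = q
    · subst e
      obtain ⟨x, s, k⟩ := r2 q4 _ (ov l hq.out) sq'
      exact ⟨x, s, fun _ => k, fun k => absurd k h⟩
    · exact ⟨x0, 1, fun k => absurd k e, fun k => absurd k h⟩
  choose x s aq az using pts
  have pZ : p ∈ Z := Finset.mem_filter.2 ⟨by simp, hp.out⟩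
  have SZ : ∀ l ∈ S, l ∈ Z := fun l h => Finset.mem_filter.2 ⟨by simp [h], (od l h).1⟩
  have ap := (az p pZ).2.1 rfl
  obtain ⟨H, r, r', k⟩ := out C.D C.η C.j p q ι ι' C.ν C.N S T ρ P V η N Δ ok.lv d4 sq hη
    (fun l h => (od l h).1) (fun h => nq (by simp [h]))
    (fun l h g hg => (he l (SZ l h) g (eS l h ▸ hg)).trans (congrFun (es l (SZ l h) h) g))
    x0 e0 c1 c2 c3 c4 P' x s eS
    { loc := fun l hl pr => by
        have : C.Pt ι ι' ρ (x l) (s l) := by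
          by_cases e : l = q
          · exact (aq l e).1
          · exact (az l (Finset.mem_filter.2 ⟨by simpa [e] using hl, pr⟩)).1
        exact ⟨ov l pr, this.lp, this.lg⟩
      near := fun l h => (az l (SZ l h)).2.2.1 h
      unr := fun l h pr hn => (az l (Finset.mem_filter.2 ⟨by simp [h], pr⟩)).2.2.2
        (fun e => hn (by simp [e])) fun e => hn (by simp [e])
      tam := ap.tam
      alt := ap.alt
      uu := ap.uu
      spq := fun g hg => (sq' g hg).2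
      inq := (aq q rfl).2.inq
      frq := (aq q rfl).2.frq } U un uo
  exact ⟨q, hq, ι', Δ, H, r, r', by omega, k⟩

end Vale.Agent.P022K.PM
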