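import Vale.Agent.P022K.CH.Tame
import Vale.Agent.P022K.CH.Bas

/-!
# P022K / PM: a residual representation at `p` is triangular or monomial
-/

set_option autoImplicit false
set_option linter.all false

open Matrix

noncomputable section

namespace Vale.Agent.P022K.PM.Cls

open Vale.Agent.P022
open Vale.Agent.P022.H443 (inP)
open Vale.Agent.P022D.W (dec phi_mem exists_phi)
open Vale.Agent.P022E.GW (Ov Fb)
open Vale.Agent.P022K.CH (Id Kp)
open Vale.Agent.P022K.CH.Loc (Tm)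

/-- diagonal -/
def Dg {R : Type} [CommRing R] (a : GL (Fin 2) R) : Prop := a 0 1 = 0 ∧ a 1 0 = 0

/-- antidiagonal -/
def An {R : Type} [CommRing R] (a : GL (Fin 2) R) : Prop := a 0 0 = 0 ∧ a 1 1 = 0

variable {k G : Type} [Field k] [Group G]

theorem mul_ap (a b : GL (Fin 2) k) (i j : Fin 2) :
    (a * b) i j = a i 0 * b 0 j + a i 1 * b 1 j := by
  rw [Units.val_mul, mul_apply, Fin.sum_univ_two]

theorem det_ne (a : GL (Fin 2) k) : a 0 0 * a 1 1 - a 0 1 * a 1 0 ≠ 0 :=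
  det_fin_two a.val ▸ a.det_ne_zero

theorem inv_ap (a : GL (Fin 2) k) : ∃ c, a⁻¹ 0 0 = c * a 1 1 ∧ a⁻¹ 0 1 = -c * a 0 1 ∧
    a⁻¹ 1 0 = -c * a 1 0 ∧ a⁻¹ 1 1 = c * a 0 0 :=
  ⟨Ring.inverse a.val.det, by simp [inv_def, adjugate_fin_two]⟩

/-- a matrix of determinant one -/
def mk2 (a b c d : k) (h : a * d - b * c = 1) : GL (Fin 2) k :=
  ⟨!![a, b; c, d], !![d, -b; -c, a], by
    ext i j; fin_cases i <;> fin_cases j <;> simp [mul_apply, Fin.sum_univ_two] <;>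
      first | linear_combination h | ring, by
    ext i j; fin_cases i <;> fin_cases j <;> simp [mul_apply, Fin.sum_univ_two] <;>
      first | linear_combination h | ring⟩

theorem mk2_cj {a b c d : k} (h : a * d - b * c = 1) (A : GL (Fin 2) k) :
    ((mk2 a b c d h)⁻¹ * A * mk2 a b c d h : GL (Fin 2) k).val =
      !![d, -b; -c, a] * A.val * !![a, b; c, d] := rfl

theorem ex_tri [IsAlgClosed k] (A : GL (Fin 2) k) :
    ∃ g : GL (Fin 2) k, g.val.det = 1 ∧ (g⁻¹ * A * g) 1 0 = 0 := by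
  by_cases h : A 1 0 = 0
  · exact ⟨1, by simp, by simpa using h⟩
  obtain ⟨x, hx⟩ := IsAlgClosed.exists_root (Polynomial.C (A 1 0) * Polynomial.X ^ 2 +
    Polynomial.C (A 1 1 - A 0 0) * Polynomial.X + Polynomial.C (-A 0 1)) (by
      rw [Polynomial.degree_quadratic h]; decide)
  refine ⟨mk2 x (-1) 1 0 (by simp), by simp [mk2], ?_⟩
  simp only [Polynomial.IsRoot, Polynomial.eval_add, Polynomial.eval_mul, Polynomial.eval_pow,
    Polynomial.eval_C, Polynomial.eval_X] at hx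
  rw [mk2_cj]
  simp [mul_apply, Fin.sum_univ_two, vecMul, dotProduct]
  linear_combination hx

theorem ex_dia {A : GL (Fin 2) k} (h : A 1 0 = 0) (n : A 0 0 ≠ A 1 1) :
    ∃ g : GL (Fin 2) k, g.val.det = 1 ∧ Dg (g⁻¹ * A * g) ∧
      (g⁻¹ * A * g) 0 0 ≠ (g⁻¹ * A * g) 1 1 := by
  refine ⟨mk2 1 (A 0 1 / (A 1 1 - A 0 0)) 0 1 (by simp), by simp [mk2], ?_⟩
  have := sub_ne_zero.2 n.symm
  rw [Dg, mk2_cj]
  simp [mul_apply, Fin.sum_univ_two, vecMul, dotProduct, h, n]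
  field_simp
  ring

/-- upper triangular matrices -/
def Bo (k : Type) [Field k] : Subgroup (GL (Fin 2) k) where
  carrier := {a | a 1 0 = 0}
  mul_mem' {a b} x y := by rw [Set.mem_setOf_eq, mul_ap, x, y]; ring
  one_mem' := by simp
  inv_mem' {a} x := by
    obtain ⟨c, h⟩ := inv_ap a
    rw [Set.mem_setOf_eq, h.2.2.1, x, mul_zero]

theorem dg_dg {a b : GL (Fin 2) k} (x : Dg a) (y : Dg b) : Dg (a * b) := by
  simp only [Dg, mul_ap, x.1, x.2, y.1, y.2, mul_zero, zero_mul, add_zero, and_self]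

theorem dg_an {a b : GL (Fin 2) k} (x : Dg a) (y : An b) : An (a * b) := by
  simp only [An, mul_ap, x.1, x.2, y.1, y.2, mul_zero, zero_mul, add_zero, and_self]

theorem an_dg {a b : GL (Fin 2) k} (x : An a) (y : Dg b) : An (a * b) := by
  simp only [An, mul_ap, x.1, x.2, y.1, y.2, mul_zero, zero_mul, add_zero, and_self]

theorem an_an {a b : GL (Fin 2) k} (x : An a) (y : An b) : Dg (a * b) := by
  simp only [Dg, mul_ap, x.1, x.2, y.1, y.2, mul_zero, zero_mul, add_zero, and_self]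

theorem not_both {a : GL (Fin 2) k} (x : An a) : ¬ Dg a := fun y =>
  det_ne a (by rw [x.1, y.1]; ring)

theorem dg_pow {a : GL (Fin 2) k} (x : Dg a) (n : ℕ) :
    Dg (a ^ n) ∧ (a ^ n) 0 0 = a 0 0 ^ n ∧ (a ^ n) 1 1 = a 1 1 ^ n := by
  induction n with
  | zero => simp [Dg]
  | succ n i =>
    rw [pow_succ]
    refine ⟨dg_dg i.1 x, ?_, ?_⟩ <;> rw [mul_ap]
    · rw [i.2.1, x.2]; ring
    · rw [i.2.2, x.1]; ring

theorem an_pow {a : GL (Fin 2) k} (x : An a) (n : ℕ) : Dg (a ^ n) ∨ An (a ^ n) := by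
  induction n with
  | zero => simp [Dg]
  | succ n i => exact pow_succ a n ▸ i.symm.imp (an_an · x) (dg_an · x)

/-- change of the frame -/
def cj (g : GL (Fin 2) k) (r : G →* GL (Fin 2) k) : G →* GL (Fin 2) k :=
  (MulAut.conj g⁻¹).toMonoidHom.comp r

theorem cj_ap (g : GL (Fin 2) k) (r : G →* GL (Fin 2) k) (x : G) : cj g r x = g⁻¹ * r x * g := by
  simp [cj]

variable {p : ℕ} [Fact p.Prime] [CharP k p]

theorem uni {a : GL (Fin 2) k} {n : ℕ} (h : a ^ p ^ n = 1) :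
    a 0 0 + a 1 1 = 2 ∧ (a 0 0 - 1) * (a 1 1 - 1) = a 0 1 * a 1 0 := by
  have e : (a.val - 1) ^ p ^ n = 0 := by
    rw [sub_pow_char_pow_of_commute _ _ (Commute.one_right _), ← Units.val_pow_eq_pow_val, h,
      one_pow, Units.val_one, sub_self]
  have e1 := (isNilpotent_trace_of_isNilpotent ⟨_, e⟩).eq_zero
  have e2 := congrArg det e
  rw [det_pow, det_zero] at e2
  have e3 := pow_eq_zero_iff (pow_ne_zero n (Fact.out : p.Prime).ne_zero) |>.1 e2
  simp [trace_fin_two, det_fin_two] at e1 e3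
  exact ⟨by linear_combination e1, by linear_combination e3⟩

theorem cls0 [IsAlgClosed k] {D I N U : Subgroup G} {τ φ : G} (t : Tm p D I N U τ φ)
    (r : G →* GL (Fin 2) k) (hU : ∀ u ∈ U, r u = 1) : ∃ g : GL (Fin 2) k, g.val.det = 1 ∧
      ((∀ d ∈ D, cj g r d 1 0 = 0) ∨ (cj g r τ 0 0 ≠ cj g r τ 1 1 ∧ (∀ s ∈ I, Dg (cj g r s)) ∧
        An (cj g r φ) ∧ ∀ d ∈ D, Dg (cj g r d) ∨ An (cj g r d))) := by
  have c1 : ∀ g x, r x = 1 → cj g r x = 1 := fun g x e => by simp [cj_ap, e]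
  by_cases w : ∀ n ∈ N, r n = 1
  swap
  · push Not at w
    obtain ⟨n, hn, e⟩ := w
    obtain ⟨g, g1, g2⟩ := ex_tri (r n)
    refine ⟨g, g1, .inl fun d hd => by_contra fun z => e ?_⟩
    rw [← cj_ap] at g2
    have u : ∀ n ∈ N, _ := fun n hn => (t.wild n hn).elim fun a ha =>
      uni (a := cj g r n) (n := a) (map_pow (cj g r) n _ ▸ c1 g _ (hU _ ha))
    have a1 := u n hn
    rw [g2, mul_zero] at a1
    have a2 : cj g r n 0 0 = 1 := sub_eq_zero.1 (pow_eq_zero_iff two_ne_zero |>.1 (by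
      linear_combination (cj g r n 0 0 - 1) * a1.1 - a1.2))
    have a3 : cj g r n 1 1 = 1 := by linear_combination a1.1 - a2
    have hm := t.cjN d hd n hn
    have a4 := (u _ hm).1
    have a5 := (u _ (mul_mem hn hm)).1
    have a6 : cj g r (d * n * d⁻¹) * cj g r d = cj g r d * cj g r n := by
      rw [← map_mul, ← map_mul, inv_mul_cancel_right]
    have a7 := congrArg (fun a : GL (Fin 2) k => a 1 0) a6
    have a8 := congrArg (fun a : GL (Fin 2) k => a 1 1) a6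
    rw [map_mul (cj g r) n] at a5
    simp only [mul_ap, g2, a2, a3] at a5 a7 a8
    have a9 : cj g r n 0 1 = 0 := by
      by_contra b
      have b1 : cj g r (d * n * d⁻¹) 1 0 = 0 := mul_left_cancel₀ b (by linear_combination a5 - a4)
      rw [b1] at a7 a8
      have b2 : cj g r (d * n * d⁻¹) 1 1 = 1 := mul_right_cancel₀ z (by linear_combination a7)
      rw [b2] at a8
      exact mul_ne_zero z b (by linear_combination -a8)
    have : cj g r n = 1 := Units.ext (by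
      ext i j; fin_cases i <;> fin_cases j <;> simp [*])
    rw [cj_ap, mul_assoc, inv_mul_eq_one] at this
    exact right_eq_mul.1 this
  have h1 : ∀ g, ∀ s ∈ I, ∃ j, cj g r s = cj g r τ ^ j := fun g s hs => by
    obtain ⟨j, n, hn, rfl⟩ := t.cyc s hs
    exact ⟨j, by rw [map_mul, c1 g n (w n hn), mul_one, map_pow]⟩
  have h2 : ∀ g, ∀ d ∈ D, ∃ i j, cj g r d = cj g r φ ^ i * cj g r τ ^ j := fun g d hd => by
    obtain ⟨i, s, hs, u, hu, rfl⟩ := t.gen d hd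
    obtain ⟨j, e⟩ := h1 g s hs
    exact ⟨i, j, by rw [map_mul, map_mul, c1 g u (hU u hu), one_mul, map_pow, e]⟩
  have h3 : ∀ g, cj g r φ * cj g r τ = cj g r τ ^ p * cj g r φ := fun g => by
    obtain ⟨n, hn, e⟩ := t.rel τ t.tau
    rw [← map_pow, ← one_mul (cj g r (τ ^ p)), ← c1 g n (w n hn), ← map_mul (cj g r) n, ← e,
      ← map_mul, ← map_mul, inv_mul_cancel_right]
  have h4 : ∀ g, cj g r τ 1 0 = 0 → cj g r φ 1 0 = 0 → ∀ d ∈ D, cj g r d 1 0 = 0 :=
    fun g a b d hd => by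
      obtain ⟨i, j, e⟩ := h2 g d hd
      exact e ▸ (Bo k).mul_mem ((Bo k).pow_mem b i) ((Bo k).pow_mem a j)
  obtain ⟨g, g1, g2⟩ := ex_tri (r τ)
  by_cases n : (g⁻¹ * r τ * g) 0 0 = (g⁻¹ * r τ * g) 1 1
  · obtain ⟨f, f1, f2⟩ := ex_tri (r φ)
    refine ⟨f, f1, .inl (h4 f ?_ (cj_ap f r φ ▸ f2))⟩
    rw [← cj_ap] at g2 n
    obtain ⟨c, hc⟩ : ∃ c, c = cj g r τ 1 1 := ⟨_, rfl⟩
    have e1 : ((cj g r τ).val - c • 1) ^ 2 = 0 := by
      ext i j; fin_cases i <;> fin_cases j <;> simp [pow_two, mul_apply, g2, n, hc]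
    have e2 : (cj g r τ).val ^ p = c ^ p • 1 := by
      have := pow_eq_zero_of_le (Fact.out : p.Prime).two_le e1
      rwa [sub_pow_char_of_commute _ ((Commute.one_right _).smul_right c), smul_pow, one_pow,
        sub_eq_zero] at this
    have e3 := congrArg Units.val (h3 g)
    rw [Units.val_mul, Units.val_mul, Units.val_pow_eq_pow_val, e2, smul_mul_assoc, one_mul,
      ← mul_one (cj g r φ).val, ← mul_smul_comm, mul_one, Units.mul_right_inj, cj_ap] at e3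
    have e4 : (r τ).val = c ^ p • 1 := by
      rw [show r τ = g * (g⁻¹ * r τ * g) * g⁻¹ by group, Units.val_mul, Units.val_mul g, e3]
      simp
    rw [cj_ap, Units.val_mul, Units.val_mul, e4]
    simp
  obtain ⟨f, f1, f2, f3⟩ := ex_dia g2 n
  rw [show f⁻¹ * (g⁻¹ * r τ * g) * f = cj (g * f) r τ by rw [cj_ap]; group] at f2 f3
  refine ⟨g * f, by simp [g1, f1], ?_⟩
  by_cases z : cj (g * f) r φ 1 0 = 0
  · exact .inl (h4 _ f2.2 z)
  have b := dg_pow f2 p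
  have e := fun i j => congrArg (fun a : GL (Fin 2) k => a i j) (h3 (g * f))
  have e0 := e 0 0
  have e1 := e 0 1
  have e2 := e 1 0
  have e3 := e 1 1
  simp only [mul_ap, f2.1, f2.2, b.1.1, b.1.2, b.2.1, b.2.2] at e0 e1 e2 e3
  have d := det_ne (cj (g * f) r φ)
  have a1 : cj (g * f) r τ 0 0 = cj (g * f) r τ 1 1 ^ p :=
    mul_left_cancel₀ z (by linear_combination e2)
  rw [← a1] at e3
  have a2 : cj (g * f) r φ 1 1 = 0 :=
    mul_right_cancel₀ (sub_ne_zero.2 f3) (by linear_combination -e3)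
  have a3 : cj (g * f) r τ 1 1 = cj (g * f) r τ 0 0 ^ p :=
    mul_left_cancel₀ (a := cj (g * f) r φ 0 1) (fun y => d (by rw [a2, y]; ring))
      (by linear_combination e1)
  rw [← a3] at e0
  have a4 : An (cj (g * f) r φ) :=
    ⟨mul_right_cancel₀ (sub_ne_zero.2 f3) (by linear_combination e0), a2⟩
  refine .inr ⟨f3, fun s hs => (h1 _ s hs).elim fun j e => e ▸ (dg_pow f2 j).1, a4, fun d hd => ?_⟩
  obtain ⟨i, j, e⟩ := h2 (g * f) d hd
  exact e ▸ (an_pow a4 i).imp (dg_dg · (dg_pow f2 j).1) (an_dg · (dg_pow f2 j).1)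

/-- **CLS** -/
theorem cls [IsAlgClosed k] (ρ : GQ →* GL (Fin 2) k) (ho : IsOpen {g | ρ g = 1}) {P : Id}
    (hP : Ov p P) : ∃ g : GL (Fin 2) k, g.val.det = 1 ∧
      ((∀ d ∈ dec P, (g⁻¹ * ρ d * g) 1 0 = 0) ∨ ∃ η : GQ → ℤˣ,
        (∀ a ∈ dec P, ∀ b ∈ dec P, η (a * b) = η a * η b) ∧
        (∃ U : Subgroup GQ, IsOpen (U : Set GQ) ∧ ∀ d ∈ U ⊓ dec P, η d = 1) ∧
        (∀ s ∈ inP P, η s = 1) ∧ (∀ φ, Fb p P φ → η φ = -1) ∧
        (∀ d ∈ dec P, (η d = 1 → Dg (g⁻¹ * ρ d * g)) ∧ (η d = -1 → An (g⁻¹ * ρ d * g))) ∧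
        ∃ s ∈ inP P, (g⁻¹ * ρ s * g) 0 0 ≠ (g⁻¹ * ρ s * g) 1 1) := by
  classical
  obtain ⟨τ, hτ, h⟩ := CH.Loc.tame hP
  obtain ⟨φ, hφ⟩ := exists_phi hP.1 hP.2.1 hP.2.2
  obtain ⟨N, t⟩ := h φ hφ ρ.ker ho
  obtain ⟨g, g1, h⟩ := cls0 t ρ fun _ => id
  simp only [← cj_ap]
  refine ⟨g, g1, h.imp_right fun ⟨a, b, c, d⟩ => ⟨fun x => if Dg (cj g ρ x) then 1 else -1,
    fun x hx y hy => ?_, ⟨ρ.ker, ho, fun x hx => if_pos ?_⟩, fun s hs => if_pos (b s hs),
    fun ψ hψ => if_neg (not_both ?_), fun x hx => ?_, τ, hτ, a⟩⟩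
  · rcases d x hx with u | u <;> rcases d y hy with v | v <;> simp only [map_mul]
    · simp [u, v, dg_dg u v]
    · simp [u, not_both v, not_both (dg_an u v)]
    · simp [v, not_both u, not_both (an_dg u v)]
    · simp [not_both u, not_both v, an_an u v]
  · simp [cj_ap, show ρ x = 1 from hx.1, Dg]
  · rw [← mul_inv_cancel_left φ ψ, map_mul]
    refine an_dg c (b _ fun x => ?_)
    have a1 := P.sub_mem (hψ x) (hφ x)
    rw [sub_sub_sub_cancel_right] at a1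
    have a2 := ((dec P).inv_mem t.phi _).2 a1
    rwa [smul_sub, inv_smul_smul, ← mul_smul] at a2
  · rcases d x hx with u | u
    · simp [u]
    · simp [u, not_both u]

end Vale.Agent.P022K.PM.Cls
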