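import Vale.Agent.P022K.TP.Qd
import Vale.Agent.P022K.TP.Cm
import Vale.Agent.P022K.TP.Cme

/-!
# P022K / PM: the points with complex multiplication of the locus (helper99)
-/

open NumberField Matrix Quaternion

noncomputable section

namespace Vale.Agent.P022K.PM

open Vale.Agent.P010MR Vale.Agent.P010MT8 Vale.Agent.P022K.TP

theorem trace_pos {M : Type} [Field M] [NumberField M] [IsTotallyReal M] {c : M}
    (h : ∀ φ : M →+* ℝ, 0 < φ c) : 0 < Algebra.trace ℚ M c := by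
  have h1 := congrArg Complex.re (trace_eq_sum_embeddings ℂ (K := ℚ) (x := c))
  rw [Complex.re_sum, eq_ratCast, Complex.ratCast_re] at h1
  refine (Rat.cast_pos (K := ℝ)).1 (h1 ▸ Finset.sum_pos (fun σ _ => ?_) ⟨IsAlgClosed.lift, by simp⟩)
  have h2 := IsTotallyReal.complexEmbedding_isReal (σ : M →+* ℂ)
  have h3 := congrArg Complex.re (h2.coe_embedding_apply c)
  exact (h h2.embedding).trans_eq h3

theorem sign_aux {β d1 d3 a0 a1 a2 a3 : ℝ} (hβ : 0 < β) (hd : β * d3 ^ 2 < d1 ^ 2)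
    (h : a0 ^ 2 + a1 ^ 2 - β * (a2 ^ 2 + a3 ^ 2) ≠ 0) :
    d1 * (β * d3 * (2 * (a0 * a2 + a1 * a3)) - d1 * (a0 ^ 2 + a1 ^ 2 + β * (a2 ^ 2 + a3 ^ 2))) < 0 := by
  set y := a0 ^ 2 + a1 ^ 2 + β * (a2 ^ 2 + a3 ^ 2)
  set z := 2 * (a0 * a2 + a1 * a3)
  have h0 : 0 ≤ y := by positivity
  have h1 : β * z ^ 2 < y ^ 2 := by
    have : y ^ 2 - β * z ^ 2 = (a0 ^ 2 + a1 ^ 2 - β * (a2 ^ 2 + a3 ^ 2)) ^ 2 +
      β * (2 * (a0 * a3 - a1 * a2)) ^ 2 := by simp only [y, z]; ring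
    have h2 := sq_pos_of_ne_zero h
    nlinarith [mul_nonneg hβ.le (sq_nonneg (2 * (a0 * a3 - a1 * a2)))]
  have h2 : (β * d3 * z) ^ 2 < (|d1| * y) ^ 2 := by
    rw [mul_pow |d1|, sq_abs, show (β * d3 * z) ^ 2 = (β * d3 ^ 2) * (β * z ^ 2) by ring]
    exact mul_lt_mul'' hd h1 (by positivity) (by positivity)
  have h3 := abs_lt_of_sq_lt_sq h2 (by positivity)
  have h4 : 0 < |d1| := abs_pos.2 fun e => by rw [e] at hd; nlinarith [mul_nonneg hβ.le (sq_nonneg d3)]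
  have h5 := mul_lt_mul_of_pos_left h3 h4
  rw [← abs_mul, ← mul_assoc |d1|, abs_mul_abs_self] at h5
  nlinarith [le_abs_self (d1 * (β * d3 * z))]

namespace QD

variable (D : QD)

/-- left multiplication as a ring homomorphism -/
def lmH : D.B →+* Mi D.g ℚ := ⟨⟨⟨D.lm, D.lm_one⟩, D.lm_mul⟩, D.lm_zero, D.lm_add⟩

/-- conjugation -/
def cb (b : D.Bˣ) : D.B →+* D.B where
  toFun z := b * z * b⁻¹
  map_one' := by simp
  map_mul' x y := by simp [mul_assoc]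
  map_zero' := by simp
  map_add' x y := by simp [mul_add, add_mul]

/-- the embedding of `L0` attached to `b` -/
def lb (b : D.Bˣ) : D.L0 →+* Mi D.g ℚ := (D.lmH.comp (D.cb b)).comp D.em

theorem lb_apply (b : D.Bˣ) (z : D.L0) : D.lb b z = D.lm (b * D.em z * b⁻¹) := rfl

/-- the type attached to `m` -/
def typ (m : D.M0) : Set (D.L0 →+* ℂ) := {ψ | 0 < (ψ (algebraMap _ _ m * D.I)).im}

theorem real0 : IsTotallyReal D.M0 := by
  have := D.real
  exact IsTotallyReal.of_algebra D.M0 D.M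

theorem im_zero (ψ : D.L0 →+* ℂ) (m : D.M0) : (ψ (algebraMap _ _ m)).im = 0 := by
  have := D.real0
  exact Complex.conj_eq_iff_im.1 (RingHom.congr_fun
    (IsTotallyReal.complexEmbedding_isReal (ψ.comp (algebraMap D.M0 D.L0))) m)

theorem re_I (ψ : D.L0 →+* ℂ) : (ψ D.I).re = 0 := by
  have h : (ψ D.I - Complex.I) * (ψ D.I + Complex.I) = 0 := by
    have := congrArg ψ D.hI
    rw [map_pow, map_neg, map_one] at this
    linear_combination this - Complex.I_sq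
  rcases mul_eq_zero.1 h with e | e
  · rw [sub_eq_zero.1 e, Complex.I_re]
  · rw [eq_neg_of_add_eq_zero_left e, Complex.neg_re, Complex.I_re, neg_zero]

/-- `cj` is complex conjugation under every embedding -/
theorem conj_cj (ψ : D.L0 →+* ℂ) (z : D.L0) : ψ (D.cj z) = starRingEnd ℂ (ψ z) := by
  obtain ⟨x, y, rfl⟩ := D.gen z
  simp [D.cjI, Complex.ext_iff, D.im_zero, D.re_I]

theorem typ_conj (m : D.M0) : ∀ ψ ∈ D.typ m, (starRingEnd ℂ).comp ψ ∉ D.typ m := fun ψ h h' => by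
  simp only [typ, Set.mem_ofPred_eq, RingHom.comp_apply, Complex.conj_im] at h h'
  linarith

theorem typ_cj {m : D.M0} (hm : m ≠ 0) (ψ : D.L0 →+* ℂ) :
    ψ ∈ D.typ m ↔ ψ.comp D.cj.toRingEquiv.toRingHom ∉ D.typ m := by
  have h1 : (ψ (algebraMap _ _ m * D.I)).im ≠ 0 := fun e => by
    have : D.I ≠ 0 := fun e => by simpa [e] using D.hI
    refine (map_ne_zero ψ).2 (mul_ne_zero ((map_ne_zero _).2 hm) this) (Complex.ext ?_ e)
    simp [D.im_zero, D.re_I]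
  change _ ↔ ¬ 0 < (ψ (D.cj _)).im
  rw [conj_cj, Complex.conj_im, neg_pos, not_lt]
  exact ⟨fun h => le_of_lt h, fun h => lt_of_le_of_ne h h1.symm⟩

theorem inv_eq (b : D.Bˣ) : (↑b⁻¹ : D.B) = D.sc (D.nrd b)⁻¹ * star (b : D.B) := by
  have : Nontrivial D.B := ⟨_, _, D.delta_ne⟩
  refine Units.inv_eq_of_mul_eq_one_left ?_
  rw [mul_assoc, star_mul_self, ← sc_mul, inv_mul_cancel₀ (D.nrd_ne_zero b.ne_zero), sc_one]

theorem re_form (ζ : D.B) : (D.δ * star ζ * D.bi * ζ).re =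
    D.β * D.d3 * (2 * (ζ.re * ζ.imJ + ζ.imI * ζ.imK)) -
      D.d1 * (ζ.re ^ 2 + ζ.imI ^ 2 + D.β * (ζ.imJ ^ 2 + ζ.imK ^ 2)) := by
  simp [δ, bi]
  ring

theorem lb_pos (b : D.Bˣ) {m : D.M0}
    (h : ∀ φ : D.M →+* ℝ, φ (algebraMap _ _ m * D.d1 * D.nrd b) < 0) (v : Ix D.g → ℚ)
    (hv : v ≠ 0) : 0 < pq v (D.lb b (algebraMap _ _ m * D.I) *ᵥ v) := by
  have := D.real
  obtain ⟨x, rfl⟩ := D.e.surjective v
  have hx : star (b : D.B) * x ≠ 0 := fun e => hv (by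
    rw [← b.mul_inv_cancel_left x, inv_eq, mul_assoc, e, mul_zero, mul_zero, map_zero])
  rw [lb_apply, lm_ap, sym']
  refine trace_pos fun φ => ?_
  have e : D.δ * star x * (b * D.em (algebraMap _ _ m * D.I) * b⁻¹ * x) =
      (algebraMap _ _ m * (D.nrd b)⁻¹ : D.M) •
        (D.δ * star (star (b : D.B) * x) * D.bi * (star (b : D.B) * x)) := by
    rw [map_mul, D.emA, D.emI, inv_eq, sc, star_mul, star_star]
    simp only [← Algebra.smul_def, smul_mul_assoc, mul_smul_comm, smul_smul, mul_assoc, bi,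
      mul_comm (D.nrd b)⁻¹]
  have h1 := (map_ne_zero φ).2 (D.nrd_ne_zero hx)
  have h2 := h φ
  rw [e, QuaternionAlgebra.re_smul, re_form]
  rw [nrd_eq, F0.Fuj.nrd] at h1
  generalize star (b : D.B) * x = ζ at *
  simp only [map_mul, map_add, map_sub, map_pow, map_inv₀, map_neg, map_one, map_ofNat,
    smul_eq_mul] at h1 h2 ⊢
  have h3 := sign_aux (a0 := φ ζ.re) (a1 := φ ζ.imI) (a2 := φ ζ.imJ) (a3 := φ ζ.imK) (D.pos φ)
    (D.neg φ) fun e => h1 (by linarith)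
  have h4 := mul_pos_of_neg_of_neg h2 h3
  have h5 : φ (D.nrd b) ≠ 0 := fun e => by simp [e] at h2
  have h6 : φ D.d1 ≠ 0 := fun e => by simp [e] at h2
  refine (mul_pos_iff_of_pos_left (mul_pos (sq_pos_of_ne_zero h5) (sq_pos_of_ne_zero h6))).1 ?_
  convert mul_pos two_pos h4 using 1
  field_simp

theorem lb_sc (b : D.Bˣ) (m : D.M0) : D.lb b (algebraMap _ _ m) = D.lm (D.sc (algebraMap _ _ m)) := by
  rw [lb_apply, D.emA, ← Algebra.commutes, Units.mul_inv_cancel_right]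
  rfl

theorem star_em (z : D.L0) : star (D.em z) = D.em (D.cj z) := by
  obtain ⟨x, y, rfl⟩ := D.gen z
  simp only [map_add, map_mul, AlgEquiv.commutes, D.cjI, map_neg, D.emA, D.emI]
  ext <;> simp

theorem star_cb (b : D.Bˣ) (z : D.B) : star (b * z * b⁻¹ : D.B) = b * star z * b⁻¹ := by
  have h2 : star (D.sc (D.nrd b)⁻¹) = D.sc (D.nrd b)⁻¹ := by ext <;> simp [sc_eq]
  rw [inv_eq, star_mul, star_mul, star_mul, star_star, h2, sc]
  simp only [← Algebra.commutes, ← Algebra.smul_def, smul_mul_assoc, mul_smul_comm, mul_assoc]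

/-- the adjoint of `lb b z` -/
theorem lb_adj (b : D.Bˣ) (z : D.L0) :
    (D.lb b z)ᵀ * J (Fin D.g) ℚ = J (Fin D.g) ℚ * D.lb b (D.cj z) := by
  rw [lb_apply, lm_adj, star_cb, star_em, lb_apply]

theorem inL_comm {z : D.B} (h : D.InL z) (y : D.L0) : z * D.em y = D.em y * z := by
  obtain ⟨x, y, rfl⟩ := D.gen y
  simp only [map_add, map_mul, D.emA, D.emI]
  ext <;> simp [h.1, h.2] <;> ring

variable {D}

theorem loc_of_ty {b : D.Bˣ} {τ : Mc D.g} {Φ : Set (D.L0 →+* ℂ)} (h : Ty τ (D.lb b) Φ)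
    (hΦ : ∀ ψ ∈ Φ, (starRingEnd ℂ).comp ψ ∉ Φ) : τ ∈ D.Loc :=
  ⟨h.mem, fun c => h.hom h hΦ fun _ => (D.lm_rm _ c).symm⟩

theorem hm_of_ty {b : D.Bˣ} {τ : Mc D.g} {Φ : Set (D.L0 →+* ℂ)} (h : Ty τ (D.lb b) Φ)
    (hΦ : ∀ ψ ∈ Φ, (starRingEnd ℂ).comp ψ ∉ Φ) {z : D.B} (hz : D.InL z) :
    Hm τ τ (D.lm (b * z * b⁻¹)) := h.hom h hΦ fun y => by
  have := congrArg (D.lmH.comp (D.cb b)) (D.inL_comm hz y)
  rwa [map_mul, map_mul] at this

/-- **the CM point** attached to `b` -/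
theorem exists_cm (b : D.Bˣ) {m : D.M0}
    (h : ∀ φ : D.M →+* ℝ, φ (algebraMap _ _ m * D.d1 * D.nrd b) < 0) :
    ∃ τ, Ty τ (D.lb b) (D.typ m) ∧ τ ∈ D.Loc ∧ ∀ z, D.InL z → Hm τ τ (D.lm (b * z * b⁻¹)) := by
  obtain ⟨τ, H⟩ := exists_ty (D.lb b) (algebraMap _ _ m) D.I D.hI
    (by rw [lb_adj, AlgEquiv.commutes]) (by rw [lb_adj, D.cjI, map_neg, mul_neg])
    (fun ψ => D.im_zero ψ m) (D.lb_pos b h)
  exact ⟨τ, H, loc_of_ty H (D.typ_conj m), fun z => hm_of_ty H (D.typ_conj m)⟩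

end QD

end Vale.Agent.P022K.PM
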