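import Vale.Agent.P022K.PM.Cm0
import Vale.Agent.P022K.TP.Cmf

/-!
# P022K / PM: marked points with complex multiplication of a given type (helper99)
-/

open NumberField Matrix Quaternion

noncomputable section

namespace Vale.Agent.P022K.PM

open Vale.Agent.P022 Vale.Agent.P010MR Vale.Agent.P010MT8 Vale.Agent.P022K.TP

theorem ex_sign {F : Type} [Field F] [NumberField F] (P : (F →+* ℝ) → Prop) :
    ∃ a : F, ∀ φ : F →+* ℝ, (P φ → 0 < φ a) ∧ (¬ P φ → φ a < 0) := by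
  classical
  obtain ⟨a, ha⟩ := P011.Arith.approx (F := F) (Set.range Sum.inr) (Set.finite_range _)
    (Sum.elim (fun _ => 0) fun φ => if P φ then 1 else -1) (fun _ => 1) fun _ => one_pos
  refine ⟨a, fun φ => ?_⟩
  have h := ha (.inr φ) ⟨φ, rfl⟩
  rw [P011.Arith.plAbv_inr, Sum.elim_inr, abs_lt, map_sub] at h
  refine ⟨fun e => ?_, fun e => ?_⟩ <;> simp only [e, if_true, if_false, map_one, map_neg] at h <;>
    linarith [h.1, h.2]

theorem emb_surj {L : Type} [Field L] [NumberField L] (j : Qb →+* ℂ) (ψ : L →+* ℂ) :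
    ∃ φ : L →+* Qb, j.comp φ = ψ :=
  ((Fintype.bijective_iff_injective_and_card _).2 ⟨fun a b h => RingHom.ext fun x =>
    j.injective (RingHom.congr_fun h x), by rw [Embeddings.card, Embeddings.card]⟩).2 ψ

namespace QD

variable (D : QD)

theorem ix_ne : Nonempty (Ix D.g) := by
  by_contra h
  have := not_nonempty_iff.1 h
  exact D.delta_ne (D.e.injective (Subsingleton.elim _ _))

/-- the real embedding under a complex embedding -/
def res (ψ : D.L0 →+* ℂ) : D.M0 →+* ℝ where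
  toFun m := (ψ (algebraMap _ _ m)).re
  map_one' := by simp
  map_mul' x y := by simp [D.im_zero]
  map_zero' := by simp
  map_add' x y := by simp

theorem im_mul (ψ : D.L0 →+* ℂ) (m : D.M0) :
    (ψ (algebraMap _ _ m * D.I)).im = D.res ψ m * (ψ D.I).im := by
  simp [res, D.re_I]

theorem ext_res {ψ ψ' : D.L0 →+* ℂ} (h : D.res ψ = D.res ψ') (h1 : 0 < (ψ D.I).im)
    (h2 : 0 < (ψ' D.I).im) : ψ = ψ' := by
  have e : ∀ ψ : D.L0 →+* ℂ, (ψ D.I).im ^ 2 = 1 := fun ψ => by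
    have := congrArg (fun z => (ψ z).re) D.hI
    simp only [sq, map_mul, Complex.mul_re, D.re_I, map_neg, map_one, Complex.neg_re,
      Complex.one_re] at this
    linarith
  have e1 : ψ D.I = ψ' D.I := Complex.ext (by rw [re_I, re_I])
    ((pow_left_inj₀ h1.le h2.le two_ne_zero).1 (by rw [e, e]))
  have e2 : ∀ m, ψ (algebraMap _ _ m) = ψ' (algebraMap _ _ m) := fun m =>
    Complex.ext (RingHom.congr_fun h m) (by rw [im_zero, im_zero])
  ext z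
  obtain ⟨x, y, rfl⟩ := D.gen z
  simp only [map_add, map_mul, e1, e2]

/-- every type is the type of an element of `M0` -/
theorem ex_typ {Ψ : Set (D.L0 →+* ℂ)} (h : ∀ ψ : D.L0 →+* ℂ,
    ψ.comp D.cj.toRingEquiv.toRingHom ∉ Ψ → ψ ∈ Ψ) : ∃ m, m ≠ 0 ∧ D.typ m ⊆ Ψ := by
  obtain ⟨m, hm⟩ := ex_sign fun φ => ∃ ψ ∈ Ψ, D.res ψ = φ ∧ 0 < (ψ D.I).im
  refine ⟨m, fun e => ?_, fun ψ hψ => ?_⟩
  · obtain ⟨φ⟩ := D.real_emb
    have := hm (φ.comp (algebraMap _ _))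
    simp only [e, map_zero, lt_irrefl, imp_false, not_not] at this
    exact this.1 this.2
  rw [typ, Set.mem_ofPred_eq, im_mul, mul_pos_iff] at hψ
  rcases hψ with ⟨h1, h2⟩ | ⟨h1, h2⟩
  · obtain ⟨ψ', h3, h4, h5⟩ := not_not.1 fun e => ((hm _).2 e).not_gt h1
    rwa [← D.ext_res h4 h5 h2]
  · refine h _ fun e => h1.not_gt ((hm _).1 ⟨_, e, ?_, ?_⟩)
    · ext m
      exact congrArg (fun z => (ψ z).re) (D.cj.commutes m)
    · change 0 < (ψ (D.cj _)).im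
      rwa [D.cjI, map_neg, Complex.neg_im, neg_pos]

/-- `M ⊗ 𝔸_f` -/
def MA : Submodule Af (Mi D.g Af) :=
  Submodule.span Af (Set.range fun y : D.M => am (D.lm (D.sc y)))

/-- the sign of `d1` comes from `M0` -/
def SGN : Prop := ∃ c : D.M0, ∀ φ : D.M →+* ℝ, 0 < φ (algebraMap _ _ c * D.d1)

/-- local norms with all signs -/
def TYP : Prop := ∀ x : D.M0, x ≠ 0 → ∃ (m : D.M0) (a z z' : Mi D.g Af),
  (∀ φ : D.M0 →+* ℝ, 0 < φ (m * x)) ∧ a ∈ D.MA ∧ IsUnit a ∧ z ∈ TZ D ∧ z' ∈ TZ D ∧ z * z' = 1 ∧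
    (a * z)ᵀ * J (Fin D.g) Af * (a * z) =
      (am (D.lm (D.sc (algebraMap _ _ m))))ᵀ * J (Fin D.g) Af

theorem inL_sc (y : D.M) : D.InL (D.sc y) := ⟨rfl, rfl⟩

theorem inL_em (z : D.L0) : D.InL (D.em z) := by
  obtain ⟨x, y, rfl⟩ := D.gen z
  simp only [map_add, map_mul, D.emA, D.emI]
  constructor <;> simp

theorem inL_mul_comm {z y : D.B} (h : D.InL z) (h' : D.InL y) : z * y = y * z := by
  ext <;> simp [h.1, h.2, h'.1, h'.2] <;> ring

variable {D}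

theorem tz_le {z : Mi D.g Af} (h : z ∈ TZ D) : z ∈ TA D := by
  refine (AddSubgroup.closure_le (TA D).toAddSubgroup).2 ?_ h
  rintro _ ⟨c, -, y, rfl⟩
  exact Submodule.smul_mem _ _ (Submodule.subset_span ⟨_, rfl⟩)

theorem span_comm {ι : Type} {l : ι → Mi D.g ℚ} {t : Mi D.g Af}
    (ht : t ∈ Submodule.span Af (Set.range fun z => am (l z))) {f : Mi D.g ℚ}
    (hf : ∀ z, f * l z = l z * f) : am f * t = t * am f := by
  induction ht using Submodule.span_induction with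
  | mem _ h => obtain ⟨z, rfl⟩ := h; rw [← am_mul, ← am_mul, hf]
  | zero => simp
  | add x y _ _ hx hy => rw [mul_add, add_mul, hx, hy]
  | smul c x _ hx => rw [mul_smul_comm, smul_mul_assoc, hx]

theorem az_comm {a z : Mi D.g Af} (ha : a ∈ D.MA) (hz : z ∈ TA D) {f : Mi D.g ℚ}
    (hf : ∀ y, D.InL y → f * D.lm y = D.lm y * f) : am f * (a * z) = a * z * am f := by
  rw [← mul_assoc, span_comm ha fun y => hf _ (D.inL_sc y), mul_assoc,
    span_comm hz fun y => hf _ (D.inL_em y), mul_assoc]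

end QD

variable {D : QD} {η : GQ →* ℤˣ}

/-- the marking is `b` up to `(M ⊗ 𝔸_f)ˣ (𝓞_{L0} ⊗ Zhat)ˣ` -/
def MP.Bs (x : MP D η) (b : D.Bˣ) : Prop := ∃ a z z' : Mi D.g Af, a ∈ D.MA ∧ IsUnit a ∧
  z ∈ TZ D ∧ z' ∈ TZ D ∧ z * z' = 1 ∧ uu x.k * (a * z) = am (D.lm b)

/-- **the marked point with complex multiplication of type `Φ`** -/
theorem cmex0 (hS : D.SGN) (hT : D.TYP) (η : GQ →* ℤˣ) (j : Qb →+* ℂ) {Φ : Set (D.L0 →+* Qb)}
    (hΦ : ∀ φ, φ ∈ Φ ↔ φ.comp D.cj.toRingEquiv.toRingHom ∉ Φ) :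
    ∃ (x : MP D η) (b : D.Bˣ) (m : D.M0), m ≠ 0 ∧ Ty x.τ (D.lb b) (D.typ m) ∧
      D.typ m = j.comp '' Φ ∧ x.Bs b ∧ x.Cm j Φ := by
  have := D.ix_ne
  obtain ⟨m, hm, H⟩ := D.ex_typ (Ψ := j.comp '' Φ) fun ψ h => by
    obtain ⟨φ, rfl⟩ := emb_surj j ψ
    exact ⟨φ, (hΦ φ).2 fun e => h ⟨_, e, rfl⟩, rfl⟩
  obtain ⟨c, hc⟩ := hS
  obtain ⟨φ0⟩ := D.real_emb
  obtain ⟨n, a, z, z', h1, ha, ⟨A, rfl⟩, hz, hz', e, h2⟩ := hT (-(m * c))
    (neg_ne_zero.2 (mul_ne_zero hm fun e => by simpa [e] using hc φ0))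
  have hn : algebraMap _ D.M n ≠ 0 := (map_ne_zero _).2 fun e => by
    simpa [e] using h1 (φ0.comp (algebraMap _ _))
  obtain ⟨b0, hb⟩ := D.nrd_surj hn
  obtain ⟨b, rfl⟩ := D.isUnit_of_ne (y := b0) fun e => hn (by rw [← hb, e]; simp [QD.nrd])
  obtain ⟨τ, T, hl, h3⟩ := QD.exists_cm b (m := m) fun φ => by
    have h4 := h1 (φ.comp (algebraMap _ _))
    have h5 := hc φ
    simp only [hb, map_mul, map_neg, RingHom.comp_apply] at h4 h5 ⊢
    have h6 : φ (algebraMap _ _ c) ≠ 0 := fun e => by simp [e] at h5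
    nlinarith [mul_pos h4 h5, sq_pos_of_ne_zero h6]
  obtain ⟨t, e1⟩ : ∃ t, A.1 * z * t = 1 := ⟨z' * A⁻¹.1, by
    rw [mul_assoc, ← mul_assoc z, e, one_mul, A.mul_inv]⟩
  have e2 := mul_eq_one_comm.1 e1
  have cm : ∀ f, (∀ y, D.InL y → f * D.lm y = D.lm y * f) →
      t * am f = am f * t := fun f hf => by
    rw [← mul_one (_ * am f), ← e1, ← mul_assoc, mul_assoc _ (am f),
      QD.az_comm ha (QD.tz_le hz) hf, ← mul_assoc t, e2, one_mul]
  obtain ⟨k, k1, k2⟩ := exists_EE (η := η) 1 (u := am (D.lm b) * t) (by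
    rw [map_one, map_one]
    refine QD.At.of_comm ?_ fun y => ?_
    · have h4 : (am (D.lm b))ᵀ * J (Fin D.g) Af * am (D.lm b) =
          (A.1 * z)ᵀ * J (Fin D.g) Af * (A.1 * z) := by
        rw [h2, ← am_tr, ← am_tr, ← am_J, ← am_mul, ← am_mul, ← am_mul, D.lm_form, hb, D.lm_adj,
          show star (D.sc (algebraMap _ _ n)) = D.sc (algebraMap _ _ n) by ext <;> simp [QD.sc_eq]]
      rw [transpose_mul, mul_assoc, mul_assoc, ← mul_assoc (J _ _), ← mul_assoc _ _ t,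
        ← mul_assoc _ (J _ _), h4, mul_assoc _ (A.1 * z), e1, mul_one, ← mul_assoc,
        ← transpose_mul, e1, transpose_one, one_mul, one_smul]
    · rw [QD.al_one, mul_assoc, cm _ fun y _ => (D.lm_rm _ _).symm, ← mul_assoc, ← am_mul, D.lm_rm,
        am_mul, mul_assoc])
  have e3 : D.typ m = j.comp '' Φ := H.antisymm (by
    rintro _ ⟨φ, h4, rfl⟩
    refine (D.typ_cj hm _).2 fun h5 => ?_
    obtain ⟨φ', h6, h7⟩ := H h5
    have : φ' = φ.comp D.cj.toRingEquiv.toRingHom :=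
      RingHom.ext fun y => j.injective (RingHom.congr_fun h7 y)
    exact (hΦ φ).1 h4 (this ▸ h6))
  refine ⟨⟨τ, k, hl, T.algp (nor D.hI D.gen D.cjI D.z3 _) (fix_cj D.gen D.cjI) (D.lb_adj b)
    (D.typ_conj m), k1⟩, b, m, hm, T, e3, ⟨A, z, z', ha, A.isUnit, hz, hz', e, ?_⟩, b,
    fun y hy => ⟨h3 y hy, ?_⟩, hΦ, fun y a ha c v hv e => ?_⟩
  · rw [k2, mul_assoc, e2, mul_one]
  · rw [k2, mul_assoc, cm _ fun w hw => by rw [← D.lm_mul, ← D.lm_mul, D.inL_mul_comm hy hw],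
      ← mul_assoc, ← mul_assoc _ _ t, ← am_mul, ← am_mul, ← D.lm_mul, ← D.lm_mul,
      Units.inv_mul_cancel_right]
  · obtain ⟨ψ, h4, rfl⟩ := T.eig y a ha c v hv e
    obtain ⟨φ, h5, rfl⟩ := H h4
    exact ⟨φ, h5, rfl⟩

end Vale.Agent.P022K.PM
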