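import Vale.Agent.P022K.PM.Ta0

/-!
# P022K / PM / Co0: Tate modules in coordinates (helper4)
-/

namespace Vale.Agent.P022K.PM

open Matrix Filter Topology

variable {r : ℕ} [hr : Fact r.Prime] {n P : Type*} [Fintype n] [AddCommGroup P]

theorem nrm_r (k : ℕ) : ‖((r : ℚ_[r]) ^ k)‖ = ((r : ℝ) ^ k)⁻¹ := by
  rw [norm_pow, Padic.norm_p, inv_pow]

theorem r_ne (k : ℕ) : (r : ℚ_[r]) ^ k ≠ 0 := pow_ne_zero _ (Nat.cast_ne_zero.2 hr.out.ne_zero)

theorem r_pos (k : ℕ) : (0 : ℝ) < (r : ℝ) ^ k := pow_pos (Nat.cast_pos.2 hr.out.pos) _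

theorem exists_pow_le {V : Type*} [SeminormedAddCommGroup V] [NormedSpace ℚ_[r] V] (x : V) :
    ∃ k : ℕ, ‖r ^ k • x‖ ≤ 1 := by
  obtain ⟨k, hk⟩ := pow_unbounded_of_one_lt ‖x‖ (Nat.one_lt_cast (α := ℝ).2 hr.out.one_lt)
  refine ⟨k, ?_⟩
  rw [← Nat.cast_smul_eq_nsmul ℚ_[r], norm_smul, Nat.cast_pow, nrm_r, inv_mul_le_iff₀ (r_pos k)]
  simpa using hk.le

theorem exists_apx (c : ℚ_[r]) : ∃ (k : ℕ) (z : ℤ), ‖c - z / r ^ k‖ ≤ 1 := by
  obtain ⟨k, hk⟩ := exists_pow_le (r := r) c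
  obtain ⟨z, hz⟩ := PadicInt.denseRange_intCast.exists_dist_lt (⟨_, hk⟩ : ℤ_[r])
    (inv_pos.2 (r_pos (r := r) k))
  refine ⟨k, z, ?_⟩
  have h : ‖r ^ k • c - z‖ < ((r : ℝ) ^ k)⁻¹ := (dist_eq_norm _ _).symm.trans_lt hz
  rw [show c - z / r ^ k = (r ^ k • c - z) / r ^ k by
    have := r_ne (r := r) k
    rw [nsmul_eq_mul]; push_cast; field_simp, norm_div, nrm_r]
  exact div_le_one_of_le₀ h.le (by positivity)

/-- a parametrisation of the `r`-power torsion of `P` by `(Q_r / Z_r)^n` -/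
structure Tm (r : ℕ) [Fact r.Prime] (n P : Type*) [Fintype n] [AddCommGroup P] where
  e : (n → ℚ_[r]) →+ P
  ker : ∀ x, e x = 0 ↔ ‖x‖ ≤ 1
  onto : ∀ (k : ℕ) (t : P), r ^ k • t = 0 → ∃ x, e x = t

namespace Tm

variable (T : Tm r n P)

theorem tor (x : n → ℚ_[r]) : ∃ k : ℕ, r ^ k • T.e x = 0 :=
  (exists_pow_le (r := r) x).imp fun _ h => by rw [← map_nsmul, T.ker]; exact h

theorem eq_iff {x y : n → ℚ_[r]} : T.e x = T.e y ↔ ‖x - y‖ ≤ 1 := by
  rw [← T.ker, map_sub, sub_eq_zero]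

theorem lift1 (f : ℚ_[r] →+ P) (hf : ∀ c, ‖c‖ ≤ 1 → f c = 0) : ∃ d, ∀ c, f c = T.e (c • d) := by
  have h1 : ∀ k : ℕ, ∃ x, T.e x = f ((r : ℚ_[r]) ^ k)⁻¹ := fun k => T.onto k _ (by
    rw [← map_nsmul, nsmul_eq_mul, Nat.cast_pow, mul_inv_cancel₀ (r_ne k)]
    exact hf _ norm_one.le)
  choose x hx using h1
  let d : ℕ → n → ℚ_[r] := fun k => (r : ℚ_[r]) ^ k • x k
  have h2 : ∀ k m, k ≤ m → ‖d m - d k‖ ≤ ((r : ℝ) ^ k)⁻¹ := fun k m h => by
    obtain ⟨m, rfl⟩ := Nat.exists_eq_add_of_le h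
    have h3 : T.e (r ^ m • x (k + m)) = T.e (x k) := by
      rw [map_nsmul, hx, hx, ← map_nsmul, nsmul_eq_mul, Nat.cast_pow, pow_add, mul_inv,
        mul_left_comm, mul_inv_cancel₀ (r_ne m), mul_one]
    rw [show d (k + m) - d k = (r : ℚ_[r]) ^ k • (r ^ m • x (k + m) - x k) by
      simp only [d, smul_sub, pow_add, mul_smul, ← Nat.cast_smul_eq_nsmul ℚ_[r], Nat.cast_pow],
      norm_smul, nrm_r]
    exact mul_le_of_le_one_right (by positivity) (T.eq_iff.1 h3)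
  have h4 : Tendsto (fun k : ℕ => ((r : ℝ) ^ k)⁻¹) atTop (𝓝 0) :=
    tendsto_inv_atTop_zero.comp (tendsto_pow_atTop_atTop_of_one_lt
      (Nat.one_lt_cast.2 hr.out.one_lt))
  obtain ⟨D, hD⟩ := cauchySeq_tendsto_of_complete (cauchySeq_of_le_tendsto_0' (s := d) _ (fun k m h => by
    rw [dist_comm, dist_eq_norm]; exact h2 k m h) h4)
  have h5 : ∀ k, ‖D - d k‖ ≤ ((r : ℝ) ^ k)⁻¹ := fun k =>
    le_of_tendsto (hD.sub_const (d k)).norm (eventually_atTop.2 ⟨k, h2 k⟩)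
  have h6 : ∀ k : ℕ, T.e (((r : ℚ_[r]) ^ k)⁻¹ • D) = f ((r : ℚ_[r]) ^ k)⁻¹ := fun k => by
    rw [← hx, T.eq_iff, show ((r : ℚ_[r]) ^ k)⁻¹ • D - x k = ((r : ℚ_[r]) ^ k)⁻¹ • (D - d k) by
      simp only [d, smul_sub, inv_smul_smul₀ (r_ne k)], norm_smul, norm_inv, nrm_r]
    exact inv_mul_le_one_of_le₀ (h5 k) (by positivity)
  have h7 : ‖D‖ ≤ 1 := (T.ker D).1 (by simpa [hf 1 norm_one.le] using h6 0)
  refine ⟨D, fun c => ?_⟩
  obtain ⟨k, z, hz⟩ := exists_apx c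
  have h8 : c = (c - z / r ^ k) + z • ((r : ℚ_[r]) ^ k)⁻¹ := by
    rw [zsmul_eq_mul, ← div_eq_mul_inv, sub_add_cancel]
  rw [h8, map_add, add_smul, map_add, hf _ hz, (T.ker _).2 (by
    rw [norm_smul]; exact mul_le_one₀ hz (norm_nonneg _) h7), smul_assoc, map_zsmul, map_zsmul, h6]

variable {n' P' : Type*} [Fintype n'] [AddCommGroup P'] (T' : Tm r n' P')

/-- the matrix `u` realises `w` -/
def Rz (w : P →+ P') (u : Matrix n' n ℚ_[r]) : Prop := ∀ x, w (T.e x) = T'.e (u *ᵥ x)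

theorem exists_rz (w : P →+ P') : ∃ u, T.Rz T' w u := by
  classical
  have h := fun j : n => T'.lift1 (w.comp (T.e.comp (AddMonoidHom.single (fun _ => ℚ_[r]) j)))
    fun c hc => by
      simp only [AddMonoidHom.comp_apply, AddMonoidHom.single_apply]
      rw [(T.ker _).2 (by rwa [Pi.norm_single]), map_zero]
  choose d hd using h
  refine ⟨Matrix.of fun i j => d j i, fun x => ?_⟩
  rw [show (Matrix.of fun i j => d j i) *ᵥ x = ∑ j, x j • d j from funext fun i => by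
    simp [mulVec, dotProduct, mul_comm], map_sum]
  conv_lhs => rw [← Finset.univ_sum_single x, map_sum, map_sum]
  exact Finset.sum_congr rfl fun j _ => hd j (x j)

variable {T T'}

theorem Rz.unq {w : P →+ P'} {u u' : Matrix n' n ℚ_[r]} (h : T.Rz T' w u) (h' : T.Rz T' w u') :
    u = u' := by
  classical
  ext i j
  by_contra hn
  have h1 := sub_ne_zero.2 hn
  have h2 := (norm_le_pi_norm _ i).trans (T'.eq_iff.1
    ((h (Pi.single j ((u i j - u' i j) * r)⁻¹)).symm.trans (h' _)))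
  rw [← sub_mulVec, mulVec_single, Pi.smul_apply, MulOpposite.smul_eq_mul_unop,
    MulOpposite.unop_op, col_apply, Matrix.sub_apply, mul_inv, mul_inv_cancel_left₀ h1, norm_inv,
    Padic.norm_p, inv_inv] at h2
  exact h2.not_gt (Nat.one_lt_cast.2 hr.out.one_lt)

theorem Rz.int {w : P →+ P'} {u : Matrix n' n ℚ_[r]} (h : T.Rz T' w u) (i : n') (j : n) :
    ‖u i j‖ ≤ 1 := by
  classical
  have h1 := h (Pi.single j 1)
  rw [(T.ker _).2 (by simp [Pi.norm_single]), map_zero, eq_comm, T'.ker] at h1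
  simpa using (norm_le_pi_norm _ i).trans h1

theorem nrm_mulVec (u : Matrix n' n ℚ_[r]) (x : n → ℚ_[r]) :
    ‖u *ᵥ x‖ ≤ ‖Matrix.of.symm u‖ * ‖x‖ :=
  (pi_norm_le_iff_of_nonneg (by positivity)).2 fun i =>
    IsUltrametricDist.norm_sum_le_of_forall_le_of_nonneg (by positivity) fun j _ => by
      rw [norm_mul]
      exact mul_le_mul ((norm_le_pi_norm _ j).trans (norm_le_pi_norm (Matrix.of.symm u) i))
        (norm_le_pi_norm x j) (norm_nonneg _) (norm_nonneg _)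

theorem Rz.kill {w : P →+ P'} {u : Matrix n' n ℚ_[r]} (h : T.Rz T' w u) {k : ℕ}
    (hu : ‖Matrix.of.symm u‖ * r ^ k ≤ 1) {t : P} (ht : r ^ k • t = 0) : w t = 0 := by
  obtain ⟨x, rfl⟩ := T.onto k t ht
  rw [← map_nsmul, T.ker, ← Nat.cast_smul_eq_nsmul ℚ_[r], norm_smul, Nat.cast_pow, nrm_r,
    inv_mul_le_iff₀ (r_pos k), mul_one] at ht
  rw [h, T'.ker]
  exact (nrm_mulVec u x).trans ((mul_le_mul_of_nonneg_left ht (norm_nonneg _)).trans hu)

variable (T T')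

/-- the realisation of homomorphisms -/
noncomputable def rhoA : (P →+ P') →+ Matrix n' n ℚ_[r] :=
  AddMonoidHom.mk' (fun w => (T.exists_rz T' w).choose) fun a b =>
    (T.exists_rz T' (a + b)).choose_spec.unq fun x => by
      rw [AddMonoidHom.add_apply, add_mulVec, map_add, (T.exists_rz T' a).choose_spec,
        (T.exists_rz T' b).choose_spec]

theorem rhoA_rz (w : P →+ P') : T.Rz T' w (T.rhoA T' w) := (T.exists_rz T' w).choose_spec

/-- the realisation of endomorphisms -/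
noncomputable def rho [DecidableEq n] : AddMonoid.End P →+* Matrix n n ℚ_[r] where
  toFun w := T.rhoA T w
  map_zero' := map_zero _
  map_add' := map_add (T.rhoA T)
  map_one' := (T.rhoA_rz T _).unq fun x => by rw [one_mulVec]; rfl
  map_mul' a b := (T.rhoA_rz T _).unq fun x => ((congrArg a (T.rhoA_rz T b x)).trans
    (T.rhoA_rz T a _)).trans (congrArg T.e (mulVec_mulVec _ _ _))

theorem rho_rz [DecidableEq n] (w : AddMonoid.End P) : T.Rz T w (T.rho w) := T.rhoA_rz T w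

end Tm

/-- `pt` parametrises the `r`-power torsion -/
structure TPt (r : ℕ) [Fact r.Prime] {n P : Type*} [AddCommGroup P] (pt : (n → ℚ) →+ P) : Prop where
  int : ∀ v : n → ℚ, (∀ i, ∃ z : ℤ, v i = z) → pt v = 0
  ker : ∀ v, pt v = 0 → ∀ i, ‖(v i : ℚ_[r])‖ ≤ 1
  onto : ∀ (k : ℕ) (t : P), r ^ k • t = 0 → ∃ v, pt v = t

theorem cop_zero {a b : ℕ} (h : a.Coprime b) {t : P} (ha : a • t = 0) (hb : b • t = 0) : t = 0 := by
  rw [← addOrderOf_dvd_iff_nsmul_eq_zero] at ha hb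
  exact AddMonoid.addOrderOf_eq_one_iff.1 (Nat.eq_one_of_dvd_coprimes h ha hb)

namespace TPt

variable {pt : (n → ℚ) →+ P} (h : TPt r pt)

include h

theorem zero {v : n → ℚ} (hv : ∀ i, ‖(v i : ℚ_[r])‖ ≤ 1) {k : ℕ} (hk : r ^ k • pt v = 0) :
    pt v = 0 := by
  classical
  refine cop_zero (a := ∏ i, (v i).den) (Nat.Coprime.prod_left fun i _ => Nat.Coprime.pow_right k
    ((Nat.Prime.coprime_iff_not_dvd hr.out).2 fun e => ?_).symm) ?_ hk
  · have := PadicInt.isUnit_iff.1 (PadicInt.isUnit_den _ (hv i))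
    exact (PadicInt.norm_natCast_lt_one_iff.2 e).ne this
  rw [← map_nsmul]
  refine h.int _ fun i => ?_
  obtain ⟨c, hc⟩ := Finset.dvd_prod_of_mem (fun i => (v i).den) (Finset.mem_univ i)
  exact ⟨c * (v i).num, by
    rw [hc, Pi.smul_apply, nsmul_eq_mul]; push_cast
    rw [mul_comm _ (c : ℚ), mul_assoc, Rat.den_mul_eq_num]⟩

omit h in
theorem apx (x : n → ℚ_[r]) : ∃ (v : n → ℚ) (k : ℕ), (∀ i, ∃ z : ℤ, (r ^ k • v) i = z) ∧
    ∀ i, ‖x i - v i‖ ≤ 1 := by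
  choose k z hz using fun i => exists_apx (x i)
  refine ⟨fun i => z i / r ^ k i, ∑ i, k i, fun i => ?_, fun i => by simpa using hz i⟩
  obtain ⟨c, hc⟩ := Nat.exists_eq_add_of_le
    (Finset.single_le_sum (f := k) (fun _ _ => Nat.zero_le _) (Finset.mem_univ i))
  have := hr.out.ne_zero
  exact ⟨r ^ c * z i, by rw [hc, Pi.smul_apply, nsmul_eq_mul]; push_cast; field_simp; ring⟩

theorem eq {v w : n → ℚ} {x : n → ℚ_[r]} (hv : ∀ i, ‖x i - v i‖ ≤ 1) (hw : ∀ i, ‖x i - w i‖ ≤ 1)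
    {k m : ℕ} (hk : r ^ k • pt v = 0) (hm : r ^ m • pt w = 0) : pt v = pt w := by
  rw [← sub_eq_zero, ← map_sub]
  refine h.zero (fun i => ?_) (k := k + m) ?_
  · rw [Pi.sub_apply, Rat.cast_sub, show (v i : ℚ_[r]) - w i = (x i - w i) + -(x i - v i) by ring]
    exact (IsUltrametricDist.norm_add_le_max _ _).trans (max_le (hw i) (by rw [norm_neg]; exact hv i))
  · rw [map_sub, smul_sub, pow_add, mul_smul, mul_smul, hm, smul_comm, hk]; simp

theorem exists_tm : ∃ T : Tm r n P, ∀ (x : n → ℚ_[r]) (v : n → ℚ) (k : ℕ),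
    (∀ i, ‖x i - v i‖ ≤ 1) → r ^ k • pt v = 0 → T.e x = pt v := by
  choose a k h1 h2 using apx (r := r) (n := n)
  have h3 : ∀ x, r ^ k x • pt (a x) = 0 := fun x => by rw [← map_nsmul]; exact h.int _ (h1 x)
  have h4 : ∀ (x : n → ℚ_[r]) (v : n → ℚ) (k : ℕ), (∀ i, ‖x i - v i‖ ≤ 1) → r ^ k • pt v = 0 →
      pt (a x) = pt v := fun x v k hv hk => h.eq (h2 x) hv (h3 x) hk
  refine ⟨⟨AddMonoidHom.mk' (fun x => pt (a x)) fun x y => ?_, fun x => ⟨fun e => ?_, fun e => ?_⟩,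
    fun k t ht => ?_⟩, h4⟩
  · rw [← map_add]
    refine h4 _ _ (k x + k y) (fun i => ?_) ?_
    · rw [Pi.add_apply, Pi.add_apply, Rat.cast_add, add_sub_add_comm]
      exact (IsUltrametricDist.norm_add_le_max _ _).trans (max_le (h2 x i) (h2 y i))
    · rw [map_add, smul_add, pow_add, mul_smul, mul_smul, h3, smul_comm, h3]; simp
  · refine (pi_norm_le_iff_of_nonneg zero_le_one).2 fun i => ?_
    rw [← sub_add_cancel (x i) (a x i)]
    exact (IsUltrametricDist.norm_add_le_max _ _).trans (max_le (h2 x i) (h.ker _ e i))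
  · exact (h4 x 0 0 (fun i => by simpa using (norm_le_pi_norm x i).trans e) (by simp)).trans
      (map_zero _)
  · obtain ⟨v, rfl⟩ := h.onto k t ht
    exact ⟨fun i => v i, h4 _ v k (fun i => by simp) ht⟩

/-- the Tate module of `pt` -/
noncomputable def tm : Tm r n P := h.exists_tm.choose

theorem tm_e {x : n → ℚ_[r]} {v : n → ℚ} {k : ℕ} (hv : ∀ i, ‖x i - v i‖ ≤ 1)
    (hk : r ^ k • pt v = 0) : h.tm.e x = pt v := h.exists_tm.choose_spec x v k hv hk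

variable {n' P' : Type*} [Fintype n'] [AddCommGroup P'] {pt' : (n' → ℚ) →+ P'} (h' : TPt r pt')

/-- approximate realisation on vectors with `r`-power denominators is realisation -/
theorem rz {w : P →+ P'} {u : Matrix n' n ℚ_[r]} (H : ∀ (v : n → ℚ) (k : ℕ),
    (∀ i, ∃ z : ℤ, (r ^ k • v) i = z) → ∃ v' : n' → ℚ,
      (∀ i, ‖(u *ᵥ fun j => (v j : ℚ_[r])) i - v' i‖ ≤ 1) ∧ w (pt v) = pt' v') :
    h.tm.Rz h'.tm w u := by
  classical
  have h0 : ‖Matrix.of.symm u‖ ≤ 1 := (pi_norm_le_iff_of_nonneg zero_le_one).2 fun i =>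
    (pi_norm_le_iff_of_nonneg zero_le_one).2 fun j => by
      have h1 : ∀ i, ∃ z : ℤ, (Pi.single j 1 : n → ℚ) i = z := fun i =>
        ⟨if i = j then 1 else 0, by by_cases e : i = j <;> simp [e]⟩
      obtain ⟨v', h2, h3⟩ := H (Pi.single j 1) 0 (by simpa using h1)
      rw [h.int _ h1, map_zero] at h3
      have h4 := (IsUltrametricDist.norm_add_le_max _ _).trans (max_le (h2 i) (h'.ker _ h3.symm i))
      simpa [mulVec, dotProduct, Pi.single_apply, apply_ite] using h4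
  intro x
  obtain ⟨v, k, h1, h2⟩ := apx x
  obtain ⟨v', h3, h4⟩ := H v k h1
  have h5 : r ^ k • pt v = 0 := by rw [← map_nsmul]; exact h.int _ h1
  rw [h.tm_e h2 h5, h4, h'.tm_e (k := k) (fun i => ?_) (by rw [← h4, ← map_nsmul, h5, map_zero])]
  have h6 := (norm_le_pi_norm _ i).trans ((Tm.nrm_mulVec u (x - fun j => (v j : ℚ_[r]))).trans
    (mul_le_one₀ h0 (norm_nonneg _) ((pi_norm_le_iff_of_nonneg zero_le_one).2 h2)))
  rw [mulVec_sub, Pi.sub_apply] at h6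
  rw [← sub_add_sub_cancel _ ((u *ᵥ fun j => (v j : ℚ_[r])) i)]
  exact (IsUltrametricDist.norm_add_le_max _ _).trans (max_le h6 (h3 i))

end TPt

end Vale.Agent.P022K.PM
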