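import Vale.Agent.P022K.PM.Co0
import Vale.Agent.P022K.TP.Af

/-!
# P022K / PM / Co1: rings of adelic matrices that come from endomorphism rings (helper4)
-/

namespace Vale.Agent.P022K.PM

open Matrix Polynomial TP

variable {n : Type} [Fintype n] [DecidableEq n]

/-- the component at `r` of an adelic matrix -/
noncomputable def mp (r : TP.Pr) : Matrix n n Af →ₐ[ℚ] Matrix n n ℚ_[r.1] := (pr r).mapMatrix

theorem mp_apply (r : TP.Pr) (u : Matrix n n Af) : mp r u = u.map (pr r) := rfl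

theorem mp_cA (r : TP.Pr) (a : Matrix n n ℚ) : mp r (a.map cA) = a.map (↑) := by
  ext i j; exact pr_cA r _

/-- `S` behaves, away from `p`, like the endomorphism ring of an abelian variety acting on its Tate
modules -/
structure TE (p : ℕ) (S : Subring (Matrix n n Af)) : Prop where
  rat : ∀ r0 : TP.Pr, r0.1 ≠ p → ∀ (I : Type) (u : I → Matrix n n Af) (f : Matrix n n Af),
    (∀ i, u i ∈ S) → f ∈ S → mp r0 f ∈ Submodule.span ℚ_[r0.1] (Set.range fun i => mp r0 (u i)) →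
    ∃ w ∈ Submodule.span ℚ (Set.range u), ∀ r : TP.Pr, r.1 ≠ p → mp r f = mp r w
  int : ∀ (N : ℕ) (u : Matrix n n Af), N ≠ 0 → (∀ k, N • u ^ k ∈ S) →
    ∃ f : ℤ[X], f.Monic ∧ ∀ r : TP.Pr, r.1 ≠ p → aeval (mp r u) f = 0
  cnt : ∀ r : TP.Pr, r.1 ≠ p → (mp r '' (S : Set (Matrix n n Af))).Countable

theorem int_of_fg {E : Type*} [AddCommGroup E] [Module.Finite ℤ E] (w : ℕ → E) :
    ∃ f : ℤ[X], f.Monic ∧ f.sum (fun k c => c • w k) = 0 := by
  let M : ℕ →o Submodule ℤ E := ⟨fun m => Submodule.span ℤ (w '' Set.Iio m), fun a b h =>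
    Submodule.span_mono (Set.image_mono (Set.Iio_subset_Iio h))⟩
  obtain ⟨m, hm⟩ := monotone_stabilizes_iff_noetherian.2 inferInstance M
  have h1 : w m ∈ M m := hm (m + 1) m.le_succ ▸ Submodule.subset_span ⟨m, m.lt_succ_self, rfl⟩
  obtain ⟨c, h2, h3⟩ := (Finsupp.mem_span_image_iff_linearCombination ℤ).1 h1
  have h4 : (ofFinsupp (.ofCoeff c)).degree < m := (degree_lt_iff_coeff_zero _ _).2 fun k hk => by
    by_contra h
    exact (h2 (Finsupp.mem_support_iff.2 h)).not_ge hk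
  refine ⟨X ^ m - ofFinsupp (.ofCoeff c), (monic_X_pow m).sub_of_left (by rwa [degree_X_pow]), ?_⟩
  let L : ℤ[X] →ₗ[ℤ] E := lsum fun k => LinearMap.toSpanSingleton ℤ E (w k)
  change L _ = 0
  rw [map_sub, sub_eq_zero, X_pow_eq_monomial]
  exact ((sum_monomial_index (S := E) (1 : ℤ) (fun k c => c • w k) (zero_smul _ _)).trans
    (one_smul _ _)).trans h3.symm

/-- matrices as vectors -/
noncomputable def un {r : ℕ} [Fact r.Prime] {E : Type*} [Ring E] (ρ : E →+* Matrix n n ℚ_[r]) :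
    E →+ n → n → ℚ_[r] :=
  AddMonoidHom.mk' (fun w => Matrix.of.symm (ρ w)) fun a b => by rw [map_add]; rfl

/-- a compatible system of discrete realisations -/
theorem te_of {E : Type*} [Ring E] [Module.Finite ℤ E] {p : ℕ}
    (ρ : ∀ r : TP.Pr, r.1 ≠ p → E →+* Matrix n n ℚ_[r.1])
    (hρ : ∀ r h, Disc r.1 (un (ρ r h))) {S : Subring (Matrix n n Af)}
    (hS : ∀ u ∈ S, ∃ w, ∀ r h, ρ r h w = mp r u) : TE p S where
  rat r0 h0 I u f hu hf h := by
    choose w hw using fun i => hS _ (hu i)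
    obtain ⟨π, hπ⟩ := hS f hf
    obtain ⟨N, hN, h1⟩ := (hρ r0 h0).rat w (f := π) (by
      simp only [← hw _ r0 h0, ← hπ r0 h0] at h
      exact h)
    have h2 : ∀ x ∈ Submodule.span ℤ (Set.range w), ∃ y ∈ Submodule.span ℚ (Set.range u),
        ∀ r h, ρ r h x = mp r y := fun x hx => by
      induction hx using Submodule.span_induction with
      | mem x hx =>
        obtain ⟨i, rfl⟩ := hx
        exact ⟨u i, Submodule.subset_span ⟨i, rfl⟩, hw i⟩
      | zero => exact ⟨0, zero_mem _, by simp⟩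
      | add x x' _ _ a b =>
        obtain ⟨y, a1, a2⟩ := a
        obtain ⟨y', b1, b2⟩ := b
        exact ⟨y + y', add_mem a1 b1, fun r h => by rw [map_add, map_add, a2, b2]⟩
      | smul c x _ a =>
        obtain ⟨y, a1, a2⟩ := a
        exact ⟨c • y, zsmul_mem a1 c, fun r h => by rw [map_zsmul, map_zsmul, a2]⟩
    obtain ⟨y, h3, h4⟩ := h2 _ h1
    refine ⟨(N : ℚ)⁻¹ • y, Submodule.smul_mem _ _ h3, fun r h => ?_⟩
    rw [map_smul, ← h4 r h, map_zsmul, hπ, ← Int.cast_smul_eq_zsmul ℚ,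
      inv_smul_smul₀ (Int.cast_ne_zero.2 hN)]
  int N u hN h := by
    choose w hw using fun k => hS _ (h k)
    obtain ⟨f, h1, h2⟩ := int_of_fg w
    refine ⟨f, h1, fun r hr => ?_⟩
    have h3 := congrArg (ρ r hr) h2
    rw [map_zero, sum_def, map_sum] at h3
    rw [← smul_eq_zero_iff_right (Nat.cast_ne_zero (R := ℚ).2 hN), ← h3, aeval_eq_sum_range,
      ← sum_def f fun k c => ρ r hr (c • w k), sum_over_range _ (by simp), Finset.smul_sum]
    refine Finset.sum_congr rfl fun k _ => ?_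
    rw [map_zsmul, hw, map_nsmul, map_pow, smul_comm, Nat.cast_smul_eq_nsmul]
  cnt r h := by
    have : Countable E := Finsupp.Countable.of_moduleFinite (R := ℤ)
    refine (Set.countable_range (ρ r h)).mono ?_
    rintro _ ⟨u, hu, rfl⟩
    exact (hS u hu).imp fun w hw => hw r h

namespace TE

variable {p : ℕ} {S : Subring (Matrix n n Af)} (h : TE p S)

include h

theorem rat' {r0 : TP.Pr} (h0 : r0.1 ≠ p) {I : Type} [Fintype I] {u : I → Matrix n n Af}
    {f : Matrix n n Af} (hu : ∀ i, ∃ N : ℕ, N ≠ 0 ∧ N • u i ∈ S) (hf : ∃ N : ℕ, N ≠ 0 ∧ N • f ∈ S)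
    {c : I → ℚ_[r0.1]} (hc : mp r0 f = ∑ i, c i • mp r0 (u i)) :
    ∃ a : I → ℚ, ∀ r : TP.Pr, r.1 ≠ p → mp r f = mp r (∑ i, a i • u i) := by
  choose M hM hu using hu
  obtain ⟨N, hN, hf⟩ := hf
  obtain ⟨w, h1, h2⟩ := h.rat r0 h0 I _ _ hu hf (by
    rw [map_nsmul, hc]
    refine nsmul_mem (Submodule.sum_mem _ fun i _ => Submodule.smul_mem _ _ ?_) N
    refine (Submodule.smul_mem_iff _ (Nat.cast_ne_zero (R := ℚ_[r0.1]).2 (hM i))).1 ?_
    rw [Nat.cast_smul_eq_nsmul, ← map_nsmul]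
    exact Submodule.subset_span ⟨i, rfl⟩)
  obtain ⟨a, rfl⟩ := (Submodule.mem_span_range_iff_exists_fun ℚ).1 h1
  refine ⟨fun i => (N : ℚ)⁻¹ * a i * M i, fun r hr => ?_⟩
  have h3 : (N : ℚ) ≠ 0 := Nat.cast_ne_zero.2 hN
  rw [← inv_smul_smul₀ h3 (mp r f), Nat.cast_smul_eq_nsmul, ← map_nsmul, h2 r hr, ← map_smul,
    Finset.smul_sum]
  simp only [mul_smul, Nat.cast_smul_eq_nsmul]

/-- equality at one prime gives equality at all primes -/
theorem inj {r0 : TP.Pr} (h0 : r0.1 ≠ p) {u v : Matrix n n Af}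
    (hu : ∃ N : ℕ, N ≠ 0 ∧ N • u ∈ S) (hv : ∃ N : ℕ, N ≠ 0 ∧ N • v ∈ S) (e : mp r0 u = mp r0 v)
    (r : TP.Pr) (hr : r.1 ≠ p) : mp r u = mp r v := by
  obtain ⟨N, hN, hu⟩ := hu
  obtain ⟨M, hM, hv⟩ := hv
  obtain ⟨a, ha⟩ := h.rat' h0 (I := Empty) (u := Empty.elim) (f := u - v) (c := 0) (·.elim)
    ⟨M * N, mul_ne_zero hM hN, by
      rw [smul_sub, mul_smul, mul_comm, mul_smul]
      exact sub_mem (nsmul_mem hu M) (nsmul_mem hv N)⟩ (by simp [e])
  simpa [sub_eq_zero] using ha r hr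

/-- COMPAT: a quadratic relation at one prime is rational and holds at all primes -/
theorem compat {r0 : TP.Pr} (h0 : r0.1 ≠ p) {I : Type} [Fintype I] {R : I → Matrix n n ℚ}
    {u : Matrix n n Af} (hR : ∀ i, ∃ N : ℕ, N ≠ 0 ∧ N • (R i).map cA ∈ S)
    (hu : ∃ N : ℕ, N ≠ 0 ∧ N • u ∈ S) (q : ℚ) {c : I → ℚ_[r0.1]}
    (hc : mp r0 u * mp r0 u + q • 1 = (∑ i, c i • (R i).map (↑)) * mp r0 u) :
    ∃ a : I → ℚ, ∀ r : TP.Pr, r.1 ≠ p →
      mp r u * mp r u + q • 1 = (∑ i, a i • R i).map (↑) * mp r u := by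
  obtain ⟨N, hN, hu⟩ := hu
  obtain ⟨a, ha⟩ := h.rat' h0 (u := fun i => (R i).map cA * u) (f := u * u + q • 1) (c := c)
    (fun i => (hR i).elim fun M hM => ⟨M * N, mul_ne_zero hM.1 hN, by
      rw [← smul_mul_smul_comm]; exact mul_mem hM.2 hu⟩)
    ⟨N * N * q.den, mul_ne_zero (mul_ne_zero hN hN) q.den_nz, by
      rw [smul_add, mul_smul _ q.den (q • _), ← Nat.cast_smul_eq_nsmul ℚ q.den, smul_smul (q.den : ℚ),
        Rat.den_mul_eq_num, mul_comm _ q.den, mul_smul, ← smul_mul_smul_comm]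
      exact add_mem (nsmul_mem (mul_mem hu hu) _) (nsmul_mem
        ((Int.cast_smul_eq_zsmul ℚ q.num (1 : Matrix n n Af)).symm ▸ zsmul_mem (one_mem S) _) _)⟩
    (by simp only [map_add, map_mul, map_smul, map_one, hc, mp_cA, Finset.sum_mul, smul_mul_assoc])
  refine ⟨a, fun r hr => ?_⟩
  have := ha r hr
  simp only [map_add, map_mul, map_smul, map_one, map_sum, ← smul_mul_assoc, ← Finset.sum_mul] at this
  rw [this, ← mp_cA]
  congr 1
  ext i j
  simp [mp_apply, Matrix.sum_apply, Rat.smul_def]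

/-- a compact group that acts through `S` acts through a finite quotient -/
theorem fin {G : Type} [Group G] [TopologicalSpace G] [IsTopologicalGroup G] [CompactSpace G]
    [T2Space G] {r : TP.Pr} (hr : r.1 ≠ p) (ρ : G →* Matrix n n ℚ_[r.1]) (hc : Continuous ρ)
    (hρ : ∀ g, ∃ (u : Matrix n n Af) (N : ℕ), N ≠ 0 ∧ N • u ∈ S ∧ ρ g = mp r u) :
    IsOpen {g | ρ g = 1} ∧ (Set.range ρ).Finite := by
  have h1 : (Set.range ρ).Countable := by
    refine ((Set.countable_univ (α := ℚ)).image2 (h.cnt r hr) (· • ·)).mono ?_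
    rintro _ ⟨g, rfl⟩
    obtain ⟨u, N, hN, h1, h2⟩ := hρ g
    refine ⟨(N : ℚ)⁻¹, trivial, _, ⟨_, h1, rfl⟩, ?_⟩
    rw [h2, map_nsmul, ← Nat.cast_smul_eq_nsmul ℚ]
    exact inv_smul_smul₀ (Nat.cast_ne_zero.2 hN) _
  have := h1.to_subtype
  obtain ⟨⟨_, g, rfl⟩, x, hx⟩ := nonempty_interior_of_iUnion_of_closed
    (f := fun y : Set.range ρ => ρ ⁻¹' {y.1}) (fun y => isClosed_singleton.preimage hc)
    (Set.eq_univ_of_forall fun g => Set.mem_iUnion.2 ⟨⟨_, g, rfl⟩, rfl⟩)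
  have h2 : IsOpen (ρ.toHomUnits.ker : Set G) := Subgroup.isOpen_of_mem_nhds _ (g := 1) (by
    have h3 : (fun y => x * y) ⁻¹' (ρ ⁻¹' {ρ g}) ∈ nhds (1 : G) :=
      (continuous_const_mul x).continuousAt.preimage_mem_nhds
        (by rw [mul_one]; exact mem_interior_iff_mem_nhds.1 hx)
    refine Filter.mem_of_superset h3 fun y hy => ?_
    have h4 : ρ.toHomUnits (x * y) = ρ.toHomUnits x :=
      Units.ext (hy.trans (interior_subset hx).symm)
    rw [map_mul, mul_eq_left] at h4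
    exact h4)
  refine ⟨by convert h2 using 1; ext; simp, ?_⟩
  have h5 := Subgroup.quotient_finite_of_isOpen _ h2
  have h6 : Finite ρ.toHomUnits.range :=
    Finite.of_equiv _ (QuotientGroup.quotientKerEquivRange _).toEquiv
  refine ((Set.toFinite (ρ.toHomUnits.range : Set _)).image Units.val).subset ?_
  rintro _ ⟨g, rfl⟩
  exact ⟨_, ⟨g, rfl⟩, rfl⟩

end TE

/-- the adelic matrix `u` describes `w` on the points of order prime to `p` -/
def Ad (p : ℕ) {n' P P' : Type} [AddCommGroup P] [AddCommGroup P'] (pt : (n → ℚ) →+ P)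
    (pt' : (n' → ℚ) →+ P') (w : P →+ P') (u : Matrix n' n Af) : Prop :=
  ∀ v : n → ℚ, (∀ i, (v i).den.Coprime p) → ∃ v' : n' → ℚ, (∀ r : TP.Pr, r.1 ≠ p → ∀ i,
    ‖pr r ((u *ᵥ (cA ∘ v)) i - cA (v' i))‖ ≤ 1) ∧ w (pt v) = pt' v'

omit [DecidableEq n] in
theorem Ad.rz {p : ℕ} {n' P P' : Type} [Fintype n'] [AddCommGroup P] [AddCommGroup P']
    {pt : (n → ℚ) →+ P} {pt' : (n' → ℚ) →+ P'} {w : P →+ P'} {u : Matrix n' n Af}
    (H : Ad p pt pt' w u) {r : TP.Pr} (hr : r.1.Coprime p) (hr' : r.1 ≠ p) (h : TPt r.1 pt)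
    (h' : TPt r.1 pt') : h.tm.Rz h'.tm w (u.map (pr r)) := h.rz h' fun v k hv => by
  obtain ⟨v', h1, h2⟩ := H v fun i => by
    obtain ⟨z, hz⟩ := hv i
    have h0 : ((r.1 ^ k : ℕ) : ℚ) ≠ 0 := Nat.cast_ne_zero.2 (pow_ne_zero _ r.2.ne_zero)
    rw [Pi.smul_apply, nsmul_eq_mul] at hz
    rw [show v i = z / ((r.1 ^ k : ℕ) : ℤ) by rw [← hz, Int.cast_natCast, mul_div_cancel_left₀ _ h0],
      ← Rat.divInt_eq_div]
    exact (hr.pow_left k).coprime_dvd_left (Int.natCast_dvd_natCast.1 (Rat.den_dvd z _))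
  refine ⟨v', fun i => ?_, h2⟩
  simpa [mulVec, dotProduct, pr_cA] using h1 r hr' i

end Vale.Agent.P022K.PM
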