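import Vale.Agent.P022K.PM.Co1

/-!
# P022K / PM / Co4: the trace over the coefficient field is rational (helper4)
-/

namespace Vale.Agent.P022K.PM

open Matrix Polynomial TP Module

variable {n E : Type} [Fintype n] [DecidableEq n] [Field E] [Algebra ℚ E] [FiniteDimensional ℚ E]

/-- a symplectic space of rank two over the field `E` -/
structure Sy (r : E →ₐ[ℚ] Matrix n n ℚ) (J : Matrix n n ℚ) : Prop where
  dim : finrank ℚ E * 2 = Fintype.card n
  alt : Jᵀ = -J
  unit : IsUnit J.det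
  adj : ∀ a, (r a)ᵀ * J = J * r a

variable {r : E →ₐ[ℚ] Matrix n n ℚ} {J : Matrix n n ℚ} (H : Sy r J)

include H

theorem Sy.rat {s : Matrix n n ℚ} (h1 : ∀ a, s * r a = r a * s) (h2 : sᵀ * J = J * s) :
    ∃ a, s = r a := by
  let _ : Module E (n → ℚ) := Module.compHom _ r.toRingHom
  have e : ∀ (a : E) (v : n → ℚ), a • v = r a *ᵥ v := fun _ _ => rfl
  have : IsScalarTower ℚ E (n → ℚ) := ⟨fun c a v => by rw [e, e, map_smul, smul_mulVec]⟩
  have h3 : finrank E (n → ℚ) = 2 := mul_left_cancel₀ (finrank_pos (R := ℚ) (M := E)).ne'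
    ((finrank_mul_finrank ℚ E _).trans ((finrank_fintype_fun_eq_card ℚ).trans H.dim.symm))
  have h4 : ∀ (m : Matrix n n ℚ) v, mᵀ * J = J * m → v ⬝ᵥ J *ᵥ m *ᵥ v = 0 := fun m v h => by
    have h5 : (J * m)ᵀ = -(J * m) := by rw [transpose_mul, H.alt, mul_neg, h]
    have h6 : v ⬝ᵥ (J * m) *ᵥ v = -(v ⬝ᵥ (J * m) *ᵥ v) := by
      conv_lhs => rw [dotProduct_mulVec, ← mulVec_transpose, h5, neg_mulVec, dotProduct_comm,
        dotProduct_neg]
    rw [mulVec_mulVec]
    linarith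
  let f : (n → ℚ) →ₗ[E] n → ℚ := ⟨⟨(s *ᵥ ·), mulVec_add s⟩, fun a v => by
    simp only [e, mulVec_mulVec, h1, RingHom.id_apply]⟩
  obtain ⟨a, ha⟩ := f.exists_eq_smul_id_of_forall_notLinearIndependent fun v hv => by
    refine hv.ne_zero 0 (dotProduct_eq_zero _ fun x => ?_)
    obtain ⟨y, rfl⟩ := (mulVec_surjective_iff_isUnit.2 ((isUnit_iff_isUnit_det J).2 H.unit)) x
    obtain ⟨c, rfl⟩ := (Submodule.mem_span_range_iff_exists_fun E).1
      ((hv.span_eq_top_of_card_eq_finrank (by simp [h3])).ge (Submodule.mem_top (x := y)))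
    have h7 := h4 (r (c 1) * s) v (by
      rw [transpose_mul, mul_assoc, H.adj, ← mul_assoc, h2, mul_assoc, h1])
    simp only [Fin.sum_univ_two, e, mulVec_add, dotProduct_add]
    rw [← mulVec_mulVec] at h7
    exact (congrArg₂ (· + ·) (h4 _ v (H.adj _)) h7).trans (add_zero 0)
  exact ⟨a, Matrix.ext_iff_mulVec.2 fun v => LinearMap.congr_fun ha v⟩

theorem Sy.span {K I : Type} [Field K] [CharZero K] [Fintype I] (b : Basis I ℚ E) {s : Matrix n n K}
    (h1 : ∀ a, s * (r a).map (↑) = (r a).map (↑) * s) (h2 : sᵀ * J.map (↑) = J.map (↑) * s) :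
    ∃ c : I → K, s = ∑ i, c i • (r (b i)).map (↑) := by
  classical
  let B := Basis.ofVectorSpace ℚ K
  have h3 : ∀ (φ : K →ₗ[ℚ] ℚ) (s : Matrix n n K) (m : Matrix n n ℚ),
      (s * m.map Rat.cast).map φ = s.map φ * m ∧ (m.map Rat.cast * s).map φ = m * s.map φ :=
    fun φ s m => by
    constructor <;> ext i j <;> simp only [map_apply, mul_apply, map_sum] <;>
      refine Finset.sum_congr rfl fun k _ => ?_
    · rw [mul_comm, ← Rat.smul_def, map_smul, smul_eq_mul, mul_comm]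
    · rw [← Rat.smul_def, map_smul, smul_eq_mul]
  have h4 : ∀ k, ∃ a, s.map (B.coord k) = r a := fun k => H.rat
    (fun a => by rw [← (h3 _ s _).1, h1, (h3 _ s _).2])
    (by rw [← transpose_map, ← (h3 _ _ _).1, h2, (h3 _ s _).2])
  choose a ha using h4
  let T := Finset.univ.biUnion fun x : n × n => (B.repr (s x.1 x.2)).support
  refine ⟨fun i => ∑ k ∈ T, b.repr (a k) i • B k, ?_⟩
  ext i j
  have h5 : ∀ k, B.repr (s i j) k = ∑ l, b.repr (a k) l * r (b l) i j := fun k => by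
    have := congrFun (congrFun (ha k) i) j
    rw [← b.sum_repr (a k), map_sum] at this
    simpa [Matrix.sum_apply] using this
  rw [← B.linearCombination_repr (s i j), Finsupp.linearCombination_apply,
    Finsupp.sum_of_support_subset _ (Finset.subset_biUnion_of_mem
      (fun x : n × n => (B.repr (s x.1 x.2)).support) (Finset.mem_univ (i, j))) _ (by simp)]
  simp only [h5, Matrix.sum_apply, Matrix.smul_apply, map_apply, smul_eq_mul,
    Finset.sum_smul]
  rw [Finset.sum_comm]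
  refine Finset.sum_congr rfl fun l _ => Finset.sum_congr rfl fun k _ => ?_
  rw [Rat.smul_def, Rat.smul_def, Rat.cast_mul, mul_right_comm]

omit [FiniteDimensional ℚ E] in
/-- the adjoint -/
theorem Sy.exists_adj {K : Type} [Field K] [CharZero K] : ∃ d : Matrix n n K → Matrix n n K,
    (∀ u, uᵀ * J.map (↑) = J.map (↑) * d u) ∧ (∀ u, (d u)ᵀ * J.map (↑) = J.map (↑) * u) ∧
    ∀ u v : Matrix n n K, J.map (↑) * u = J.map (↑) * v → u = v := by
  have h1 : IsUnit (J.map ((↑) : ℚ → K)).det :=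
    ((Rat.castHom K).map_det J) ▸ H.unit.map (Rat.castHom K)
  have h2 : (J.map ((↑) : ℚ → K))ᵀ = -J.map (↑) := by
    rw [← transpose_map, H.alt]; ext; simp
  generalize J.map ((↑) : ℚ → K) = J' at h1 h2
  refine ⟨fun u => J'⁻¹ * (uᵀ * J'), fun u => (mul_nonsing_inv_cancel_left _ _ h1).symm, fun u => ?_,
    fun u v h => by
      rw [← nonsing_inv_mul_cancel_left J' u h1, h, nonsing_inv_mul_cancel_left _ _ h1]⟩
  have h3 : J'⁻¹ᵀ * J' = -1 := by
    rw [← neg_eq_iff_eq_neg, ← mul_neg, ← h2, ← transpose_mul, mul_nonsing_inv _ h1, transpose_one]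
  rw [transpose_mul, transpose_mul, transpose_transpose, mul_assoc, h3, h2]
  simp

/-- COMPAT -/
theorem TE.trace {p : ℕ} {S : Subring (Matrix n n Af)} (h : TE p S)
    (hS : ∀ a, ∃ N : ℕ, N ≠ 0 ∧ N • (r a).map cA ∈ S) {u : Matrix n n Af}
    (hu : ∃ N : ℕ, N ≠ 0 ∧ N • u ∈ S) {r0 : Pr} (h0 : r0.1 ≠ p)
    (hc : ∀ a, mp r0 u * (r a).map (↑) = (r a).map (↑) * mp r0 u) {q : ℚ}
    (hq : (mp r0 u)ᵀ * J.map (↑) * mp r0 u = q • J.map (↑)) :
    ∃ a : E, ∀ l : Pr, l.1 ≠ p → mp l u * mp l u + q • 1 = (r a).map (↑) * mp l u := by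
  let b := finBasis ℚ E
  obtain ⟨d, d1, d2, d3⟩ := H.exists_adj (K := ℚ_[r0.1])
  have h1 : ∀ a, (r a)ᵀ.map ((↑) : ℚ → ℚ_[r0.1]) * J.map (↑) = J.map (↑) * (r a).map (↑) := fun a =>
    (Matrix.map_mul (f := Rat.castHom _)).symm.trans
      ((congrArg (fun x : Matrix n n ℚ => x.map _) (H.adj a)).trans (Matrix.map_mul (f := Rat.castHom _)))
  obtain ⟨c, e⟩ := H.span b (s := mp r0 u + d (mp r0 u)) (fun a => by
    rw [add_mul, mul_add, hc, add_right_inj]
    refine d3 _ _ ?_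
    rw [← mul_assoc, ← d1, mul_assoc, ← h1, ← mul_assoc, transpose_map, ← transpose_mul, ← hc,
      transpose_mul, mul_assoc, d1, ← mul_assoc, ← transpose_map, h1, mul_assoc])
    (by rw [transpose_add, add_mul, mul_add, d1, d2, add_comm])
  obtain ⟨a, ha⟩ := h.compat h0 (fun i => hS (b i)) hu q (c := c) (by
    rw [← e, add_mul, add_right_inj]
    refine d3 _ _ ?_
    rw [← mul_assoc, ← d1, hq, mul_smul_comm, mul_one])
  exact ⟨∑ i, a i • b i, by simpa only [map_sum, map_smul] using ha⟩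

omit H [Algebra ℚ E] [FiniteDimensional ℚ E] in
theorem exists_rt {A Ω : Type} [Ring A] [Nontrivial A] [Field Ω] [IsAlgClosed Ω] (Φ : E[X] →+* A)
    (φ : E →+* Ω) : ∃ z, ∀ P, Φ P = 0 → eval₂ φ z P = 0 := by
  obtain ⟨m, hm⟩ := (IsPrincipalIdealRing.principal (RingHom.ker Φ)).principal
  have h1 : ∀ P, Φ P = 0 ↔ m ∣ P := fun P => by
    rw [← RingHom.mem_ker, hm, Ideal.submodule_span_eq, Ideal.mem_span_singleton]
  obtain ⟨z, hz⟩ := IsAlgClosed.exists_eval₂_eq_zero φ m fun h =>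
    one_ne_zero ((map_one Φ).symm.trans ((h1 1).2 (isUnit_iff_degree_eq_zero.2 h).dvd))
  refine ⟨z, fun P hP => ?_⟩
  obtain ⟨Q, rfl⟩ := (h1 P).1 hP
  rw [eval₂_mul, hz, zero_mul]

/-- the trace is a sum of two roots of any polynomial that kills `u` -/
theorem Sy.roots {K Ω : Type} [Field K] [CharZero K] [Field Ω] [IsAlgClosed Ω] [CharZero Ω]
    {u : Matrix n n K} {q : ℚ} (h0 : q ≠ 0) (hq : uᵀ * J.map (↑) * u = q • J.map (↑)) {a : E}
    (hc : ∀ a, u * (r a).map (↑) = (r a).map (↑) * u) (ha : u * u + q • 1 = (r a).map (↑) * u)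
    {f : ℤ[X]} (hf : aeval u f = 0) (φ : E →+* Ω) :
    ∃ z z' : Ω, aeval z f = 0 ∧ aeval z' f = 0 ∧ z + z' = φ a ∧ z * z' = q := by
  have : Nonempty n := Fintype.card_pos_iff.1 (H.dim ▸ Nat.mul_pos finrank_pos two_pos)
  obtain ⟨d, d1, -, d3⟩ := H.exists_adj (K := K)
  let ρ : E →+* Matrix n n K := (Rat.castHom K).mapMatrix.comp r.toRingHom
  let Φ := eval₂RingHom' ρ u fun a => (hc a).symm
  have e1 : Φ X = u := eval₂_X _ _
  have e2 : ∀ a, Φ (C a) = (r a).map (↑) := fun a => eval₂_C _ _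
  have h1 : d u * u = q • 1 := d3 _ _ (by rw [← mul_assoc, ← d1, hq, mul_smul_comm, mul_one])
  have h2 : Φ (C a - X) = d u := by
    have h3 : u * (q⁻¹ • d u) = 1 := mul_eq_one_comm.1 (by
      rw [smul_mul_assoc, h1, inv_smul_smul₀ h0])
    rw [map_sub, e1, e2, ← mul_one (_ - _), ← h3, ← mul_assoc, sub_mul, ← ha, add_sub_cancel_left,
      smul_mul_assoc, one_mul, smul_inv_smul₀ h0]
  have h4 : ∀ g : ℤ[X], (aeval u g)ᵀ * J.map (↑) = J.map (↑) * aeval (d u) g := fun g => by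
    induction g using Polynomial.induction_on with
    | C c => rw [aeval_C, aeval_C, Algebra.algebraMap_eq_smul_one, transpose_smul, transpose_one,
        smul_mul_assoc, mul_smul_comm, one_mul, mul_one]
    | add f g a b => rw [map_add, map_add, transpose_add, add_mul, mul_add, a, b]
    | monomial k c a =>
      rw [pow_succ, ← mul_assoc, map_mul, aeval_X, transpose_mul, mul_assoc, a, ← mul_assoc, d1,
        mul_assoc, mul_comm _ X, map_mul _ X, aeval_X]
  obtain ⟨z, hz⟩ := exists_rt Φ φ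
  have h5 : ∀ P : E[X], aeval (Φ P) f = 0 → aeval (eval₂ φ z P) f = 0 := fun P hP =>
    (aeval_algHom_apply (eval₂RingHom φ z).toIntAlgHom P f).trans
      (hz _ ((aeval_algHom_apply Φ.toIntAlgHom P f).symm.trans hP))
  refine ⟨z, φ a - z, by simpa using h5 X (e1 ▸ hf), ?_, add_sub_cancel _ _, ?_⟩
  · have := h5 (C a - X) (d3 _ _ (by rw [h2, ← h4, hf]; simp))
    rwa [Polynomial.eval₂_sub, eval₂_C, eval₂_X] at this
  · have := hz ((C a - X) * X - C (algebraMap ℚ E q)) (by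
      rw [map_sub, map_mul, h2, e1, h1, e2, r.commutes, sub_eq_zero]
      ext i j
      by_cases e : i = j <;> simp [Matrix.algebraMap_matrix_apply, e, Rat.smul_def])
    simpa [eval₂_sub, sub_eq_zero, mul_comm] using this

theorem Sy.isIntegral {K : Type} [Field K] [CharZero K]
    {u : Matrix n n K} {q : ℚ} (h0 : q ≠ 0) (hq : uᵀ * J.map (↑) * u = q • J.map (↑)) {a : E}
    (hc : ∀ a, u * (r a).map (↑) = (r a).map (↑) * u) (ha : u * u + q • 1 = (r a).map (↑) * u)
    {f : ℤ[X]} (hm : f.Monic) (hf : aeval u f = 0) : IsIntegral ℤ a := by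
  have : CharZero E := algebraRat.charZero E
  obtain ⟨z, z', h1, h2, h3, -⟩ := H.roots h0 hq hc ha hf (algebraMap E (AlgebraicClosure E))
  have h4 : IsIntegral ℤ (z + z') := IsIntegral.add ⟨f, hm, h1⟩ ⟨f, hm, h2⟩
  rwa [h3, isIntegral_algebraMap_iff (algebraMap E _).injective] at h4

end Vale.Agent.P022K.PM
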