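import Vale.Agent.P022K.PM.Dat3
import Vale.Agent.P022K.GR.Ani2
import Mathlib.Algebra.QuadraticAlgebra.Basic
import Mathlib.NumberTheory.NumberField.InfinitePlace.TotallyRealComplex
import Mathlib.RingTheory.Ideal.Norm.AbsNorm

/-!
# P022K / PM / Dat4: existence of the raw data (helper95)
-/

namespace Vale.Agent.P022K.PM.Dat

open NumberField Matrix Module Quaternion Polynomial

noncomputable section

theorem exists_fam (ι : Type) [Finite ι] : ∀ (Q : ι → ℕ → Prop),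
    (∀ i N, 0 < N → ∃ n, 0 < n ∧ n.Coprime N ∧ Q i n) → ∀ N, 0 < N → ∃ n : ι → ℕ,
      (∀ i, 0 < n i ∧ (n i).Coprime N ∧ Q i (n i)) ∧ Pairwise fun i j => (n i).Coprime (n j) := by
  induction ι using Finite.induction_empty_option with
  | of_equiv e ih =>
    intro Q h N hN
    obtain ⟨n, h1, h2⟩ := ih (fun i => Q (e i)) (fun i => h (e i)) N hN
    exact ⟨n ∘ e.symm, fun i => by simpa using h1 (e.symm i), fun i j h => h2 (e.symm.injective.ne h)⟩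
  | h_empty => exact fun _ _ _ _ => ⟨PEmpty.elim, fun i => i.elim, fun i => i.elim⟩
  | h_option ih =>
    intro Q h N hN
    obtain ⟨n, h1, h2⟩ := ih (fun i => Q (some i)) (fun i => h (some i)) N hN
    obtain ⟨k, k0, k1, k2⟩ := h none (N * ∏ i, n i)
      (Nat.mul_pos hN (Finset.prod_pos fun i _ => (h1 i).1))
    have h3 : ∀ i, k.Coprime (n i) := fun i =>
      k1.coprime_dvd_right ((Finset.dvd_prod_of_mem n (Finset.mem_univ i)).mul_left _)
    refine ⟨fun o => o.elim k n, ?_, ?_⟩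
    · rintro (_ | i)
      exacts [⟨k0, k1.coprime_dvd_right (dvd_mul_right _ _), k2⟩, h1 i]
    · rintro (_ | i) (_ | j) e
      exacts [absurd rfl e, h3 j, (h3 i).symm, h2 fun e' => e (congrArg some e')]

variable {M0 : Type} [Field M0] [NumberField M0]

theorem exists_sgn (φ0 : M0 →+* ℝ) {x : M0} (hx : x ≠ 0) {N : ℕ} (hN : 0 < N) : ∃ (m : 𝓞 M0) (n : ℕ), 0 < n ∧
    n.Coprime N ∧ m ∣ n ∧ ∀ φ : M0 →+* ℝ, 0 < φ (m * x) := by
  obtain ⟨d, hd, hi⟩ := IsAlgebraic.exists_integral_multiple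
    ((IsFractionRing.isAlgebraic_iff ℤ ℚ M0).2 (Algebra.IsAlgebraic.isAlgebraic x))
  obtain ⟨b, hb⟩ := (Set.finite_range fun φ : M0 →+* ℝ => |φ x|⁻¹).bddAbove
  obtain ⟨t, ht⟩ := exists_nat_gt b
  obtain ⟨x', hx'⟩ : ∃ x' : 𝓞 M0, (x' : M0) = d * x := ⟨⟨d • x, hi⟩, zsmul_eq_mul _ _⟩
  let m : 𝓞 M0 := 1 + N * (t * d * x')
  have h1 : ∀ φ : M0 →+* ℝ, 0 < φ (m * x) := fun φ => by
    have h2 : 0 < |φ x| := abs_pos.2 ((map_ne_zero φ).2 hx)
    have h3 := (inv_lt_iff_one_lt_mul₀ h2).1 ((hb ⟨φ, rfl⟩).trans_lt ht)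
    have h4 : (1 : ℝ) ≤ N * d ^ 2 := by
      have : 1 ≤ d ^ 2 := (show 0 < d ^ 2 by positivity)
      exact one_le_mul_of_one_le_of_one_le (by exact_mod_cast hN) (by exact_mod_cast this)
    have e : φ (m * x) = φ x + N * d ^ 2 * (t * |φ x|) * |φ x| := by
      rw [mul_assoc, mul_assoc (t : ℝ), abs_mul_abs_self]
      simp [m, hx']; ring
    have h5 := neg_abs_le (φ x)
    have h6 : 1 < (N * d ^ 2 * (t * |φ x|) : ℝ) := one_lt_mul_of_le_of_lt h4 h3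
    rw [e]
    nlinarith
  have h2 : (N : ℤ) ∣ Algebra.norm ℤ m - 1 := by
    let B := RingOfIntegers.basis M0
    classical
    rw [← ZMod.intCast_eq_intCast_iff_dvd_sub, Algebra.norm_eq_matrix_det B,
      ← eq_intCast (Int.castRingHom _) (det _), RingHom.map_det, map_add, map_add, map_mul, map_mul,
      map_natCast, map_natCast, map_one, map_one, ← map_natCast (scalar _), ZMod.natCast_self]
    simp
  have h3 : IsCoprime (Algebra.norm ℤ m) N := by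
    obtain ⟨k, hk⟩ := h2
    exact ⟨1, -k, by linear_combination hk⟩
  refine ⟨m, (Algebra.norm ℤ m).natAbs, Int.natAbs_pos.2 ((Algebra.norm_ne_zero_iff).2 fun h => ?_),
    Nat.isCoprime_iff_coprime.1 (by simpa using h3.abs_left), ?_, h1⟩
  · simpa [h] using h1 φ0
  · rw [← Ideal.absNorm_span_singleton]
    exact Ideal.mem_span_singleton.1 (Ideal.absNorm_mem _)

section Loc

variable {r : ℕ} [hr : Fact r.Prime]

theorem norm_sq2 (h : r % 4 = 3) (x y : ℚ_[r]) : ‖x ^ 2 + y ^ 2‖ = max ‖x‖ ‖y‖ ^ 2 := by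
  wlog h1 : ‖y‖ ≤ ‖x‖ generalizing x y
  · rw [add_comm, max_comm, this y x (le_of_not_ge h1)]
  rw [max_eq_left h1]
  obtain rfl | hx := eq_or_ne x 0
  · obtain rfl : y = 0 := by simpa using h1
    simp
  let t : ℤ_[r] := ⟨y / x, by rw [norm_div]; exact div_le_one_of_le₀ h1 (norm_nonneg _)⟩
  have h2 : ‖1 + t ^ 2‖ = 1 := by
    refine (PadicInt.norm_le_one _).antisymm (not_lt.1 fun h3 => ?_)
    have h4 : PadicInt.toZMod (1 + t ^ 2) = 0 := by
      rw [← RingHom.mem_ker, PadicInt.ker_toZMod]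
      exact (IsLocalRing.mem_maximalIdeal _).2 (PadicInt.mem_nonunits.2 h3)
    rw [map_add, map_one, map_pow] at h4
    exact ZMod.mod_four_ne_three_of_sq_eq_neg_one (eq_neg_of_add_eq_zero_right h4) h
  rw [show x ^ 2 + y ^ 2 = x ^ 2 * ((1 + t ^ 2 : ℤ_[r]) : ℚ_[r]) by
    push_cast; simp only [t]; field_simp, norm_mul, norm_pow, PadicInt.padic_norm_e_of_padicInt, h2,
    mul_one]

theorem not_sq {K : Type} [Field K] (μ : K →+* ℚ_[r]) {b y : K} (hy : IsIntegral ℤ y)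
    (h : b - r = r ^ 2 * y) (z : ℚ_[r]) : ‖μ b‖ ≠ ‖z‖ ^ 2 := fun e => by
  have h1 : ‖μ b‖ = (r : ℝ) ^ (-1 : ℤ) := by
    rw [show b = r * (1 + r * y) by linear_combination h, map_mul, map_add, map_one, map_mul,
      map_natCast, norm_mul, norm_one_add, Padic.norm_p, mul_one, _root_.zpow_neg_one]
    rw [norm_mul]
    exact mul_lt_one_of_nonneg_of_lt_one_left (norm_nonneg _) Padic.norm_p_lt_one (norm_int μ hy)
  have h2 : (1 : ℝ) < r := by exact_mod_cast hr.out.one_lt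
  obtain rfl | hz := eq_or_ne z 0
  · rw [h1, norm_zero, zero_pow two_ne_zero] at e
    exact zpow_ne_zero _ (by positivity) e
  rw [h1, Padic.norm_eq_zpow_neg_valuation hz, ← zpow_natCast, ← _root_.zpow_mul] at e
  have := zpow_right_injective₀ (by positivity) h2.ne' e
  omega

theorem exists_sqrt (h : r % 4 = 3) {s : ℚ_[r]} (hs : ‖s - 1‖ < 1) : ∃ σ : ℚ_[r], σ ^ 2 = s := by
  let s' : ℤ_[r] := ⟨s, by simpa using (norm_one_add hs).le⟩
  obtain ⟨z, hz, -⟩ := hensels_lemma (p := r) (F := X ^ 2 - C s') (a := 1) (by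
    have h2 : ‖((2 : ℕ) : ℤ_[r])‖ = 1 := PadicInt.norm_natCast_eq_one_iff.2
      ((Nat.coprime_primes hr.out Nat.prime_two).2 (by omega))
    have h3 : ‖1 - s'‖ < 1 := by rw [norm_sub_rev]; exact hs
    simpa [one_add_one_eq_two, show ‖(2 : ℤ_[r])‖ = 1 from h2] using h3)
  refine ⟨z, ?_⟩
  simpa [sub_eq_zero] using congrArg ((↑) : ℤ_[r] → ℚ_[r]) hz

end Loc

theorem Tri.map {A B : Type} [CommRing A] [CommRing B] {J1 J2 K : Matrix (Fin 4) (Fin 4) A}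
    {s β κ : A} (T : Tri J1 J2 K s β κ) (f : A →+* B) :
    Tri (J1.map f) (J2.map f) (K.map f) (f s) (f β) (f κ) := by
  have h : ∀ a : A, (a • (1 : Matrix (Fin 4) (Fin 4) A)).map f = f a • 1 := fun a => by
    ext i j; simp [one_apply, apply_ite f]
  refine ⟨?_, ?_, ?_, ?_, ?_, ?_, ?_, ?_, ?_, fun φ => T.p1 (φ.comp f), fun φ => T.p2 (φ.comp f),
    fun φ => T.p3 (φ.comp f)⟩ <;>
    simp only [← transpose_map, ← Matrix.map_mul, T.t1, T.t2, T.t3, T.s1, T.s2, T.s3, T.c12, T.c13,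
      T.c23, h]
  exact Matrix.map_neg _ (map_neg f) _

theorem exists_quad {s : M0} (ns : ∀ y : M0, y ^ 2 ≠ s) : ∃ (M : Type) (_ : Field M)
    (_ : NumberField M) (_ : Algebra M0 M) (ω : M), ω ^ 2 = algebraMap M0 M s ∧
      (∀ y, ∃ a b : M0, y = algebraMap M0 M a + algebraMap M0 M b * ω) ∧
      (∀ a b : M0, Algebra.trace M0 M (algebraMap M0 M a + algebraMap M0 M b * ω) = 2 * a) ∧
      ∀ (A : Type) [Ring A] [Algebra M0 A] (σ : A), σ * σ = s • 1 → ∃ ψ : M →ₐ[M0] A, ψ ω = σ := by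
  have : Fact (∀ y : M0, y ^ 2 ≠ s + 0 * y) := ⟨by simpa using ns⟩
  refine ⟨QuadraticAlgebra M0 s 0, inferInstance, NumberField.of_module_finite M0 _, inferInstance,
    QuadraticAlgebra.omega, by ext <;> simp [sq], fun y => ⟨y.re, y.im, by ext <;> simp⟩,
    fun a b => ?_, fun A _ _ σ h => ⟨QuadraticAlgebra.lift ⟨σ, by rw [h, zero_smul, add_zero]⟩, ?_⟩⟩
  · rw [Algebra.trace_eq_matrix_trace (QuadraticAlgebra.basis _ _)]
    simp only [Matrix.trace, Matrix.diag, Algebra.leftMulMatrix_eq_repr_mul, Fin.sum_univ_two]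
    simp [QuadraticAlgebra.basis, two_mul]
  · simp [QuadraticAlgebra.lift]

theorem exists_pre [IsTotallyReal M0] {r3 : M0} (h3 : r3 ^ 2 = 3) {N : ℕ} (hN : 0 < N) :
    ∃ (M : Type) (_ : Field M) (_ : NumberField M) (_ : Algebra M0 M) (P : Pre M0 M),
      P.r3 = r3 ∧ P.Nr N ∧ IsTotallyReal M ∧ (∀ φ : M →+* ℝ, 0 < φ P.b) ∧
      (∀ p : ℕ, p.Prime → ∃ (l : ℕ) (_ : Fact l.Prime) (μ : M →+* PadicAlgCl l), l ≠ p ∧
        ∀ Y : ℍ[M,-1,P.b], ‖μ Y.re‖ ^ 2 ≤ ‖μ (Y * star Y).re‖) ∧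
      ∀ x : M0, x ≠ 0 → ∃ (m u : 𝓞 M0) (n : ℕ), 0 < n ∧ n.Coprime N ∧ m ∣ n ∧
        P.s = m * (1 + n * u) ∧ ∀ φ : M0 →+* ℝ, 0 < φ (m * x) := by
  classical
  obtain ⟨w⟩ : Nonempty (InfinitePlace M0) := inferInstance
  let φ0 := InfinitePlace.embedding_of_isReal (IsTotallyReal.isReal w)
  have hx : ∀ ε : Set (M0 →+* ℝ), ∃ x : M0, x ≠ 0 ∧ ∀ y : M0, y ≠ 0 → (∀ φ, φ ∈ ε ↔ 0 < φ y) →
      ∀ φ, φ ∈ ε ↔ 0 < φ x := fun ε => by
    by_cases h : ∃ y : M0, y ≠ 0 ∧ ∀ φ, φ ∈ ε ↔ 0 < φ y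
    · exact h.imp fun y h => ⟨h.1, fun _ _ _ => h.2⟩
    · exact ⟨1, one_ne_zero, fun y h1 h2 => absurd ⟨y, h1, h2⟩ h⟩
  choose X hX0 hX using hx
  let Q0 : ℕ → Prop := fun r => ∃ _ : Fact r.Prime, r % 4 = 3 ∧ Nonempty (M0 →+* ℚ_[r])
  have hQ0 : ∀ N, 0 < N → ∃ n, 0 < n ∧ n.Coprime N ∧ Q0 n := fun N hN => by
    obtain ⟨r, hr, h1, h2, h3⟩ := exists_deg1 M0 φ0 hN
    exact ⟨r, hr.out.pos, (Nat.Prime.coprime_iff_not_dvd hr.out).2 h2, hr, h1, h3⟩
  obtain ⟨n, hn, hc⟩ := exists_fam (Option (Set (M0 →+* ℝ)) ⊕ Bool) (Sum.elim (fun o n => o.elim (Q0 n)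
    fun ε => ∃ m : 𝓞 M0, m ∣ n ∧ ∀ φ : M0 →+* ℝ, 0 < φ (m * X ε)) fun _ => Q0) (by
      rintro ((_ | ε) | j) N hN
      · exact hQ0 N hN
      · obtain ⟨m, n, h1, h2, h3⟩ := exists_sgn φ0 (hX0 ε) hN
        exact ⟨n, h1, h2, m, h3⟩
      · exact hQ0 N hN) (4 * N) (by omega)
  choose m hm hm' using fun ε => (hn (.inl (some ε))).2.2
  have ho : ∀ i, Odd (n i) := fun i =>
    Nat.coprime_two_right.1 ((hn i).2.1.coprime_dvd_right (Dvd.intro (2 * N) (by ring)))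
  obtain ⟨J1, J2, K, s, β, κ, T, j1, j2, s1, β1, κ1, hs, hβ⟩ := exists_tri (A := 𝓞 M0) (4 * N)
    (fun i => n (.inl i) ^ 2) (fun j => n (.inr j)) (fun o => o.elim (n (.inl none) : 𝓞 M0) m)
    (fun i => (ho _).pow) (fun j => ho _) (by
      have h : ∀ o, Sum.elim (fun i => n (.inl i) ^ 2) (fun j => n (.inr j) ^ 2) o = n o ^ 2 := by
        rintro (_ | _) <;> rfl
      rintro (_ | o) (_ | o') e <;> simp only [Option.elim, h]
      exacts [absurd rfl e, (hn o').2.1.symm.pow_right 2, (hn o).2.1.pow_left 2,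
        Nat.Coprime.pow 2 2 (hc fun e' => e (congrArg some e'))])
  have hd : ∀ {k : ℕ} {a b : 𝓞 M0}, (k : 𝓞 M0) ∣ a - b →
      ∃ y : M0, IsIntegral ℤ y ∧ (a : M0) = b + k * y := fun ⟨y, h⟩ =>
    ⟨y, y.2, by exact_mod_cast congrArg ((↑) : 𝓞 M0 → M0) (sub_eq_iff_eq_add'.1 h)⟩
  have ns : ∀ y : M0, y ^ 2 ≠ s := fun y e => by
    obtain ⟨_, -, ⟨μ⟩⟩ := (hn (.inl none)).2.2
    obtain ⟨z, hz, h⟩ := hd (hs none)
    exact not_sq μ (b := s) hz (by rw [h]; simp) (μ y) (by rw [← e, map_pow, norm_pow])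
  obtain ⟨M, _, _, _, ω, hω, gen, tr, lf⟩ := exists_quad ns
  have lift : ∀ (C : Type) [Field C] (f : M0 →+* C) (σ : C), σ ^ 2 = f s →
      ∃ φ : M →+* C, φ.comp (algebraMap M0 M) = f ∧ φ ω = σ := fun C _ f σ h => by
    let := f.toAlgebra
    obtain ⟨ψ, h⟩ := lf C σ (by rw [← sq, h, Algebra.smul_def, mul_one]; rfl)
    exact ⟨ψ, ψ.comp_algebraMap, h⟩
  have hR : ∀ j, ∃ (_ : Fact (n (.inr j)).Prime) (μ : M →+* ℚ_[n (.inr j)]), n (.inr j) % 4 = 3 ∧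
      ∀ z, ‖μ (algebraMap M0 M β)‖ ≠ ‖z‖ ^ 2 := fun j => by
    obtain ⟨_, h4, ⟨μ⟩⟩ := (hn (.inr j)).2.2
    obtain ⟨y, hy, h⟩ := hd (Nat.cast_pow (α := 𝓞 M0) _ 2 ▸ (hβ j).1)
    obtain ⟨z, hz, h'⟩ := hd (Nat.cast_pow (α := 𝓞 M0) _ 2 ▸ (hβ j).2)
    obtain ⟨σ, hσ⟩ := exists_sqrt h4 (s := μ s) (by
      rw [show μ s - 1 = n (.inr j) * μ (n (.inr j) - (2 : ℕ) + n (.inr j) * z) by
        rw [h']; simp [map_ofNat]; ring, norm_mul]
      exact mul_lt_one_of_nonneg_of_lt_one_left (norm_nonneg _) Padic.norm_p_lt_one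
        (norm_int μ (((int_n _).sub (int_n _)).add ((int_n _).mul hz))))
    obtain ⟨φ, rfl, -⟩ := lift _ μ σ hσ
    exact ⟨‹_›, φ, h4, not_sq (φ.comp (algebraMap M0 M)) (b := β) hy (by rw [h]; simp)⟩
  have n1 : ∀ a : 𝓞 M0, ((4 * N : ℕ) : 𝓞 M0) ∣ a - 1 → (a : M0) ≠ 0 := fun a ⟨y, h⟩ e => by
    rw [RingOfIntegers.coe_eq_zero_iff.1 e] at h
    have h1 := (IsUnit.of_mul_eq_one (a := (4 : 𝓞 M0)) (-(N * y)) (by push_cast at h; linear_combination h)).map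
      (Algebra.norm ℤ)
    rw [← map_ofNat (algebraMap ℤ (𝓞 M0)), Algebra.norm_algebraMap,
      isUnit_pow_iff Module.finrank_pos.ne'] at h1
    exact absurd h1 (by decide)
  obtain ⟨c, n', g, F, F', hc0, hn', L⟩ := exists_lat M0 (N := 4 * N) (by omega) (Dvd.intro (2 * N) (by ring))
  have T' := T.map (algebraMap _ M0)
  obtain ⟨ρ, hρ⟩ := lf _ _ T'.s1
  let P : Pre M0 M :=
    { J1 := _, J2 := _, K := _, s := s, β := β, κ := κ, T := T', ω := ω, hω := hω, gen := gen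
      tr := tr, ρ := ρ, hρ := hρ
      ns := fun y e => by
        obtain ⟨_, μ, -, h⟩ := hR true
        exact h (μ y) (by rw [← e, map_pow, norm_pow])
      s0 := n1 s s1, κ0 := n1 κ κ1, r3 := r3, h3 := h3, c := c, n := n', g := g, F := F, F' := F'
      hc := hc0, L := L }
  have e4 : ∀ {a : M0} {b : M0}, (∃ y : M0, IsIntegral ℤ y ∧ a = b + (4 * N : ℕ) * y) →
      ∃ y : M0, IsIntegral ℤ y ∧ a = b + 4 * (N * y) := fun h => by
    simpa only [Nat.cast_mul, mul_assoc, Nat.cast_ofNat] using h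
  refine ⟨M, _, ‹_›, _, P, rfl, ⟨fun i j => e4 ?_, fun i j => e4 ?_, e4 (hd s1), e4 (hd β1),
    e4 (hd κ1), hn'.coprime_dvd_right (dvd_mul_left _ _), lift⟩, ⟨fun v => ?_⟩, fun φ => ?_, fun p hp => ?_,
    fun x hx => ?_⟩
  · obtain ⟨y, hy, e⟩ := hd (j1 i j)
    refine ⟨y, hy, e.trans (congrArg (· + _) ?_)⟩
    fin_cases i <;> fin_cases j <;> simp
  · obtain ⟨y, hy, e⟩ := hd (j2 i j)
    refine ⟨y, hy, e.trans (congrArg (· + _) ?_)⟩
    fin_cases i <;> fin_cases j <;> simp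
  · rw [InfinitePlace.isReal_iff, ComplexEmbedding.isReal_iff]
    have h1 := IsTotallyReal.complexEmbedding_isReal (v.embedding.comp (algebraMap M0 M))
    have h2 : ∀ a, starRingEnd ℂ (v.embedding (algebraMap M0 M a)) = v.embedding (algebraMap M0 M a) :=
      fun a => DFunLike.congr_fun (ComplexEmbedding.isReal_iff.1 h1) a
    have h4 : starRingEnd ℂ (v.embedding P.ω) = v.embedding P.ω := by
      have h5 : v.embedding P.ω ^ 2 = (√(h1.embedding s) : ℝ) ^ 2 := by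
        rw [← map_pow, hω, ← Complex.ofReal_pow, Real.sq_sqrt (T'.p1 _), h1.coe_embedding_apply]; rfl
      rcases sq_eq_sq_iff_eq_or_eq_neg.1 h5 with h | h <;> simp [h]
    ext y
    obtain ⟨a, b, rfl⟩ := P.gen y
    rw [ComplexEmbedding.conjugate_coe_eq, map_add, map_add, map_mul, map_mul, h2, h2, h4]
  · exact (T'.p2 (φ.comp (algebraMap M0 M))).lt_of_ne' ((_root_.map_ne_zero _).2 (n1 β β1))
  · obtain ⟨j, hj⟩ : ∃ j, n (.inr j) ≠ p := by
      by_contra h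
      push Not at h
      have : (n (.inr true)).Coprime (n (.inr false)) := hc (by simp)
      rw [h, h, Nat.coprime_self] at this
      exact hp.one_lt.ne' this
    obtain ⟨_, μ, h4, h⟩ := hR j
    refine ⟨_, ‹_›, (algebraMap _ _).comp μ, hj, GR.ram_of _ (fun s t => ?_) fun s => ?_⟩ <;>
      simp only [RingHom.comp_apply, norm_algebraMap']
    · rw [← norm_sq2 h4]; simp
    · exact h _
  · obtain ⟨y, hy⟩ := hs (some {φ | 0 < φ x})
    obtain ⟨m', h⟩ := hm {φ | 0 < φ x}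
    refine ⟨m {φ | 0 < φ x}, m' * y, n (.inl (some {φ | 0 < φ x})), (hn _).1,
      (hn _).2.1.coprime_dvd_right (dvd_mul_left _ _), hm _, ?_, fun φ => ?_⟩
    · have : s = m {φ | 0 < φ x} * (1 + n (.inl (some {φ | 0 < φ x})) * (m' * y)) := by
        simp only [Option.elim] at hy
        push_cast at hy
        linear_combination hy + (n (.inl (some {φ | 0 < φ x})) * y) * h
      show (s : M0) = _
      exact_mod_cast congrArg ((↑) : 𝓞 M0 → M0) this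
    · have h1 := hm' {φ | 0 < φ x} φ
      have h2 : 0 < φ x ↔ _ := hX {φ | 0 < φ x} x hx (fun _ => Iff.rfl) φ
      have h3 := (map_ne_zero φ).2 hx
      rw [map_mul] at h1 ⊢
      rcases lt_or_gt_of_ne h3 with h4 | h4
      · have h5 := not_lt.1 fun h => h4.not_gt (h2.2 h)
        exact mul_pos_of_neg_of_neg (by nlinarith) h4
      · exact mul_pos ((pos_iff_pos_of_mul_pos h1).2 (h2.1 h4)) h4

end

end Vale.Agent.P022K.PM.Dat
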