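import Vale.Agent.P022K.PM.Dat5
import Vale.Agent.P022K.TP.Qd

/-!
# P022K / PM / Dat6: markings of all types (helper95)
-/

namespace Vale.Agent.P022K.PM.Dat

open NumberField Matrix Quaternion Vale.Agent.P010MR Vale.Agent.P022K.TP

noncomputable section

variable (D : QD)

/-- the component at `r` -/
def pm (g : ℕ) (r : Pr) : Mi g Af →+* Mi g ℚ_[r.1] := (pr r).toRingHom.mapMatrix

theorem pm_ext {g : ℕ} {X Y : Mi g Af} (h : ∀ r, pm g r X = pm g r Y) : X = Y :=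
  Matrix.ext fun i j => ext_pr fun r => congrFun (congrFun (h r) i) j

theorem pm_smul {g : ℕ} (r : Pr) (c : Af) (X : Mi g Af) : pm g r (c • X) = pr r c • pm g r X :=
  Matrix.ext fun _ _ => map_mul (pr r) _ _

/-- left multiplication -/
def lA : D.B →+* Mi D.g Af :=
  cA.mapMatrix.comp ⟨⟨⟨D.lm, D.lm_one⟩, D.lm_mul⟩, D.lm_zero, D.lm_add⟩

theorem lA_eq (b : D.B) : am (D.lm b) = lA D b := rfl

theorem wm_ap (x : D.B) : D.wm *ᵥ D.e x = D.e (QD.al (-1) x) := by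
  rw [QD.wm, ← mulVec_mulVec, D.rm_ap, D.lm_ap]
  have := D.beta_ne
  congr 1
  ext <;> simp [QD.sc_eq, QD.bj, QD.al] <;> field_simp

theorem wm_lm (y : D.B) : am D.wm * lA D y = lA D (QD.al (-1) y) * am D.wm := by
  rw [← lA_eq, ← lA_eq, ← am_mul, ← am_mul]
  exact congrArg am (D.ext_e fun x => by
    rw [← mulVec_mulVec, ← mulVec_mulVec, D.lm_ap, wm_ap, wm_ap, D.lm_ap, QD.al_mul])

theorem em_eq (x y : D.M0) : D.em (algebraMap _ _ x + algebraMap _ _ y * D.I) =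
    ⟨algebraMap _ _ x, algebraMap _ _ y, 0, 0⟩ := by
  simp only [map_add, map_mul, D.emA, D.emI]
  ext <;> simp

theorem em_cj (z : D.L0) : star (D.em z) = D.em (D.cj z) ∧ QD.al (-1) (D.em z) = D.em (D.cj z) ∧
    D.InL (D.em z) := by
  obtain ⟨x, y, rfl⟩ := D.gen z
  rw [map_add D.cj, map_mul D.cj, D.cj.commutes, D.cj.commutes, D.cjI, mul_neg, ← neg_mul, ← map_neg,
    em_eq, em_eq]
  refine ⟨?_, ?_, rfl, rfl⟩ <;> ext <;> simp [QD.al]

theorem lA_adj (b : D.B) : (lA D b)ᵀ * J (Fin D.g) Af = J (Fin D.g) Af * lA D (star b) := by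
  rw [← lA_eq, ← lA_eq, ← am_tr, ← am_J, ← am_mul, ← am_mul, D.lm_adj]

/-- adelic units are norms -/
theorem ad_norm {ζ : D.L0} (hζ : ζ ^ 2 + ζ + 1 = 0) (cζ : D.cj ζ = -1 - ζ) (v : Pr → 𝓞 D.M0)
    (hv : ∀ r, IsCoprime (v r) r.1) : ∃ (ι : Type) (_ : Fintype ι) (y : ι → 𝓞 D.L0) (x x' : ι → Af),
      (∀ i, x i ∈ Zn 1) ∧ (∀ i, x' i ∈ Zn 1) ∧
      (∑ i, x i • lA D (D.em (y i))) * ∑ i, x' i • lA D (D.em (y i)) = 1 ∧
      ∀ r, pm _ r ((∑ i, x i • lA D (D.em (D.cj (y i)))) * ∑ i, x i • lA D (D.em (y i))) =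
        pm _ r (lA D (D.sc (algebraMap D.M0 D.M (v r)))) := by
  let b := RingOfIntegers.basis D.L0
  let Λ (r : Pr) : 𝓞 D.L0 →+* Mi D.g ℚ_[r.1] :=
    (((pm _ r).comp (lA D)).comp D.em).comp (algebraMap _ _)
  let σ : 𝓞 D.L0 →+* 𝓞 D.L0 := RingOfIntegers.mapRingHom D.cj
  let i : 𝓞 D.M0 →+* 𝓞 D.L0 := RingOfIntegers.mapRingHom (algebraMap _ _)
  let I : 𝓞 D.L0 := ⟨D.I, .of_pow two_pos (D.hI ▸ isIntegral_one.neg)⟩
  let Z : 𝓞 D.L0 := ⟨ζ, .of_pow three_pos (by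
    rw [show ζ ^ 3 = 1 by linear_combination (ζ - 1) * hζ]; exact isIntegral_one)⟩
  have h1 : I ^ 2 = -1 := RingOfIntegers.ext D.hI
  have h2 : Z ^ 2 + Z + 1 = 0 := RingOfIntegers.ext hζ
  have h3 : σ I = -I := RingOfIntegers.ext D.cjI
  have h4 : σ Z = -1 - Z := RingOfIntegers.ext cζ
  have h5 : ∀ a, σ (i a) = i a := fun a => RingOfIntegers.ext (D.cj.commutes _)
  choose x x' e e' using fun r : Pr => cpt b (Λ r) ((Λ r).comp σ) (i (v r)) fun k => by
    obtain ⟨a, c, t, w, α, β, e, e'⟩ := apx_norm r.2.ne_zero (hv r) k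
    have e1 := congrArg i e
    have e2 := congrArg i e'
    simp only [map_add, map_mul, map_pow, map_one, map_natCast] at e1 e2
    have e3 : (i a - i c * I) * (1 + (1 + Z) * i t) * ((i a + i c * I) * (1 - Z * i t)) =
        i (v r) + r.1 ^ k * i α := by
      linear_combination e1 - i c ^ 2 * (1 + (1 + Z) * i t) * (1 - Z * i t) * h1 -
        (i a ^ 2 + i c ^ 2) * i t ^ 2 * h2
    refine ⟨(i a + i c * I) * (1 - Z * i t), (i a - i c * I) * (1 + (1 + Z) * i t) * i w, i α,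
      i β + i α * i w, ?_, by linear_combination i w * e3 + e2⟩
    rw [RingHom.comp_apply, ← map_mul, ← e3]
    simp only [map_add, map_mul σ, map_sub, map_one, h3, h4, h5]
    congr 1
    ring
  refine ⟨_, inferInstance, b, fun k => mkZ (x · k), fun k => mkZ (x' · k), fun _ => mkZ_mem _,
    fun _ => mkZ_mem _, pm_ext fun r => ?_, fun r => ?_⟩ <;>
    simp only [map_mul, map_sum, map_one, pm_smul, pr_mkZ]
  · exact e' r
  · exact (e r).trans (congrArg (fun y => pm _ r (lA D y)) (D.emA _))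

theorem typ_of (lz : ∀ z : D.L0, IsIntegral ℤ z → Mn 1 (am (D.l0 z))) {ζ : D.L0}
    (hζ : ζ ^ 2 + ζ + 1 = 0) (cζ : D.cj ζ = -1 - ζ) {ω : D.M} (h0 : ω ≠ 0) {m u : 𝓞 D.M0} {n : ℕ}
    (hm : m ∣ n) (hω : ω ^ 2 = algebraMap D.M0 D.M (m * (1 + n * u))) :
    ∃ (b : D.Bˣ) (k t : Mi D.g Af), D.At 1 1 k ∧ D.nrd b = algebraMap D.M0 D.M m ∧
      (∀ z, D.InL z → k * am (D.lm z) = am (D.lm (b * z * b⁻¹)) * k) ∧ t ∈ TA D ∧ Mn 1 t ∧
      k * (t * am D.wm) = am (D.lm b * D.wm * D.lm (b⁻¹ : D.Bˣ)) * k := by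
  classical
  obtain ⟨ι, _, y, x, x', hx, hx', e, e'⟩ := ad_norm D hζ cζ
    (fun r => if r.1 ∣ n then 1 + n * u else m) fun r => by
      split_ifs with h
      · obtain ⟨c, rfl⟩ := h
        exact ⟨1, -(c * u), by push_cast; ring⟩
      · exact (Nat.Coprime.cast ((r.2.coprime_iff_not_dvd.2 h).symm)).of_isCoprime_of_dvd_left hm
  have hm0 : algebraMap D.M0 D.M m ≠ 0 := fun h => h0 (by
    rwa [map_mul, h, zero_mul, pow_eq_zero_iff two_ne_zero] at hω)
  obtain ⟨b0, hb⟩ := D.nrd_surj hm0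
  obtain ⟨b, rfl⟩ := D.isUnit_of_ne (y := b0) fun e => hm0 (by rw [← hb, e]; simp [QD.nrd])
  let ε : Af := mkZ fun r => if r.1 ∣ n then 1 else 0
  let τ : D.M := algebraMap D.M0 D.M (1 + n * u) / ω
  set z := ∑ i, x i • lA D (D.em (y i))
  set z' := ∑ i, x' i • lA D (D.em (y i))
  set zb := ∑ i, x i • lA D (D.em (D.cj (y i)))
  let zb' := ∑ i, x' i • lA D (D.em (D.cj (y i)))
  let a := ε • lA D (D.sc τ) + (1 - ε) • 1
  have e1 := mul_eq_one_comm.1 e
  have c1 : ∀ f, (∀ t, f * lA D (D.sc t) = lA D (D.sc t) * f) → a * f = f * a := fun f h => by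
    simp only [a, add_mul, mul_add, smul_mul_assoc, mul_smul_comm, h, one_mul, mul_one]
  have c2 : ∀ f, (∀ t, D.InL t → f * lA D t = lA D t * f) → a * z' * f = f * (a * z') :=
    fun f h => by
      rw [← mul_assoc, ← c1 f fun t => h _ ⟨rfl, rfl⟩, mul_assoc, mul_assoc]
      simp only [z', Finset.sum_mul, Finset.mul_sum, smul_mul_assoc, mul_smul_comm,
        h _ (em_cj D _).2.2]
  have c3 : a * lA D (D.sc (algebraMap D.M0 D.M m)) * a = zb * z := pm_ext fun r => by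
    rw [e', map_mul, map_mul]
    simp only [a, ε, map_add, pm_smul, map_sub, map_one, pr_mkZ]
    split_ifs
    · simp only [PadicInt.coe_one, one_smul, sub_self, zero_smul, add_zero, ← map_mul, ← D.sc_mul]
      congr 3
      rw [map_mul] at hω
      rw [show ((1 + n * u : 𝓞 D.M0) : D.M0) = 1 + n * u by simp]
      simp only [τ]
      field_simp
      rw [hω]
      ring
    · simp
  have c4 : aᵀ * J (Fin D.g) Af = J (Fin D.g) Af * a := by
    simp only [a, transpose_add, transpose_smul, add_mul, mul_add, smul_mul_assoc, mul_smul_comm,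
      lA_adj, transpose_one, one_mul, mul_one]
    rw [show star (D.sc τ) = D.sc τ by ext <;> simp [QD.sc_eq]]
  have c5 : zᵀ * J (Fin D.g) Af = J (Fin D.g) Af * zb := by
    simp only [z, zb, transpose_sum, transpose_smul, Finset.sum_mul, Finset.mul_sum, smul_mul_assoc,
      mul_smul_comm, lA_adj, (em_cj D _).1]
  have c6 : am D.wm * z' = zb' * am D.wm := by
    simp only [z', zb', Finset.sum_mul, Finset.mul_sum, smul_mul_assoc, mul_smul_comm, wm_lm,
      (em_cj D _).2.1]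
  have c7 : ∀ (x : ι → Af) (y : ι → D.L0), (∀ i, x i ∈ Zn 1) → (∀ i, IsIntegral ℤ (y i)) →
      Mn 1 (∑ i, x i • lA D (D.em (y i))) := fun x y h h' i j => by
    rw [Matrix.sum_apply]
    exact sum_mem fun k _ => Zn_mul1 (h k) (lz _ (h' k) i j)
  refine ⟨b, lA D b * (a * z'), z * zb', .of_comm ?_ fun t => ?_, hb, fun t ht => ?_, ?_,
    Mn.mul (a := 1) (b := 1) (c7 _ _ hx fun i => (y i).2)
      (c7 _ _ hx' fun i => map_isIntegral_int D.cj (y i).2), ?_⟩
  · calc _ = z'ᵀ * (aᵀ * ((lA D b)ᵀ * J (Fin D.g) Af * lA D b) * a) * z' := by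
          simp only [transpose_mul, mul_assoc]
      _ = (z * z')ᵀ * J (Fin D.g) Af * (z * z') := by
          rw [lA_adj, mul_assoc (J _ _), ← map_mul, D.star_mul_self, hb, ← mul_assoc aᵀ, c4,
            mul_assoc (J _ _), mul_assoc (J _ _), c3, ← mul_assoc (J _ _), ← c5]
          simp only [transpose_mul, mul_assoc]
      _ = _ := by rw [e]; simp
  · have h : ∀ s, am (D.rm t) * lA D s = lA D s * am (D.rm t) := fun s => by
      rw [← lA_eq, ← am_mul, ← am_mul, D.lm_rm]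
    rw [QD.al_one, mul_assoc, c2 _ fun s _ => h s, ← mul_assoc, ← h, mul_assoc]
  · rw [lA_eq, lA_eq, mul_assoc, c2 _ fun s hs => by
      rw [← map_mul, ← map_mul]
      congr 1
      ext <;> simp [ht.1, ht.2, hs.1, hs.2] <;> ring, ← mul_assoc, ← mul_assoc _ (lA D b), ← map_mul,
      ← map_mul, Units.inv_mul_cancel_right]
  · simp only [z, zb', Finset.sum_mul_sum, smul_mul_smul_comm, ← map_mul]
    exact sum_mem fun i _ => sum_mem fun j _ =>
      Submodule.smul_mem _ _ (Submodule.subset_span ⟨_, rfl⟩)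
  · rw [am_mul, am_mul, lA_eq, lA_eq, mul_assoc (_ * _) (lA D _), ← mul_assoc (lA D _) (lA D b),
      ← map_mul, b.inv_mul, map_one, one_mul, mul_assoc, mul_assoc, mul_assoc, ← mul_assoc z', e1,
      one_mul, ← c6, ← mul_assoc a, c1 _ fun t => by rw [wm_lm, QD.al_sc], mul_assoc, mul_assoc]

end

end Vale.Agent.P022K.PM.Dat
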