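import Vale.Agent.P022K.PM.St
import Vale.Agent.P022K.PM.Dat4
import Vale.Agent.P022K.PM.Dat6

/-!
# P022K / PM: the row DATUM (helper95)
-/

namespace Vale.Agent.P022K.PM

open NumberField Matrix Quaternion Filter Topology Vale.Agent.P022 Vale.Agent.P010MR
open Vale.Agent.P022K.TP

noncomputable section

namespace Dat

theorem sqrt_mem {C : Type} [NormedField C] [IsUltrametricDist C] [CharZero C] (F : Subfield C)
    {σ t : C} (h : σ ^ 2 = 1 + 4 * t) (ht : ‖t‖ < 1) (hF : t ∈ F) : σ ∈ F.topologicalClosure := by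
  obtain ⟨ε, a, ha, rfl⟩ := sq_near h ht
  obtain ⟨b, hb, e, e'⟩ : ∃ b : C, ‖b‖ < 1 ∧ b ^ 2 + b = t ∧ a = (ε : ℤ) * b := by
    rcases Int.units_eq_one_or ε with rfl | rfl
    · exact ⟨a, ha, by simp at h; linear_combination h / 4, by simp⟩
    · exact ⟨-a, by rwa [norm_neg], by simp at h; linear_combination h / 4, by simp⟩
  let u : ℕ → C := fun n => (fun x => t - x ^ 2)^[n] 0
  have hu : ∀ n, u n ∈ F ∧ ‖u n - b‖ ≤ ‖b‖ * ‖b‖ ^ n := fun n => by
    induction n with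
    | zero => simp [u]
    | succ n ih =>
      have e1 : u (n + 1) = t - u n ^ 2 := Function.iterate_succ_apply' _ _ _
      refine ⟨e1 ▸ sub_mem hF (pow_mem ih.1 2), ?_⟩
      rw [show u (n + 1) - b = -(u n - b) * (b + (b + (u n - b))) by rw [e1, ← e]; ring, norm_mul,
        norm_neg, pow_succ, ← mul_assoc]
      refine mul_le_mul ih.2 ?_ (norm_nonneg _) (by positivity)
      exact (IsUltrametricDist.norm_add_le_max _ _).trans (max_le le_rfl
        ((IsUltrametricDist.norm_add_le_max _ _).trans (max_le le_rfl (ih.2.trans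
          (mul_le_of_le_one_right (norm_nonneg _) (pow_le_one₀ (norm_nonneg _) hb.le))))))
  have h1 : b ∈ F.topologicalClosure := mem_closure_of_tendsto (f := u) (b := atTop)
    (tendsto_iff_norm_sub_tendsto_zero.2 (squeeze_zero (fun _ => norm_nonneg _) (fun n => (hu n).2)
      (by simpa using (tendsto_pow_atTop_nhds_zero_of_lt_one (norm_nonneg b) hb).const_mul ‖b‖)))
    (.of_forall fun n => (hu n).1)
  rw [e']
  exact add_mem (intCast_mem _ _) (mul_mem (ofNat_mem _ 2) (mul_mem (intCast_mem _ _) h1))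

theorem exists_em {F L A : Type} [Field F] [CharZero F] [Field L] [Algebra F L] [Ring A] [Algebra F A]
    {I : L} (hI : I ^ 2 = -1) (gen : ∀ z, ∃ x y : F, z = algebraMap F L x + algebraMap F L y * I)
    (cj : L ≃ₐ[F] L) (cjI : cj I = -I) {i : A} (hi : i * i = -1) : ∃ f : L →ₐ[F] A, f I = i := by
  let g : QuadraticAlgebra F (-1) 0 →ₐ[F] L := QuadraticAlgebra.lift ⟨I, by simpa [sq] using hI⟩
  have e : ∀ x, g x = algebraMap F L x.re + algebraMap F L x.im * I := fun x => by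
    simp [g, QuadraticAlgebra.lift, Algebra.smul_def]
  have hg : Function.Bijective g := ⟨(injective_iff_map_eq_zero _).2 fun x h => by
    have := charZero_of_injective_algebraMap (algebraMap F L).injective
    have h1 := congrArg cj h
    rw [e] at h h1
    rw [map_add, map_mul, cj.commutes, cj.commutes, cjI, map_zero] at h1
    ext
    · exact (map_eq_zero (algebraMap F L)).1 (by linear_combination (h + h1) / 2)
    · exact (map_eq_zero (algebraMap F L)).1 (by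
        linear_combination -I * (h - h1) / 2 + algebraMap F L x.im * hI), fun z => by
    obtain ⟨x, y, rfl⟩ := gen z
    exact ⟨⟨x, y⟩, e _⟩⟩
  let g' : QuadraticAlgebra F (-1) 0 →ₐ[F] A := QuadraticAlgebra.lift ⟨i, by simpa using hi⟩
  refine ⟨g'.comp (AlgEquiv.ofBijective g hg).symm, ?_⟩
  rw [show I = AlgEquiv.ofBijective g hg ⟨0, 1⟩ from by simpa using (e ⟨0, 1⟩).symm]
  simp [g', QuadraticAlgebra.lift]

theorem mn_of {g : ℕ} {f : Mi g ℚ} (h : ∀ v, IsZ v → IsZ (f *ᵥ v)) : Mn 1 (am f) := fun i j => by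
  obtain ⟨z, e⟩ := h (Pi.single j 1) (fun k => by
    rw [Pi.single_apply]; split_ifs; exacts [⟨1, by simp⟩, ⟨0, by simp⟩]) i
  rw [mulVec_single_one] at e
  exact (rat_mem one_pos).2 ⟨z, by simpa using e⟩

theorem exists_qd {M0 L0 : Type} [Field M0] [NumberField M0] [Field L0] [NumberField L0]
    [Algebra M0 L0] [IsTotallyReal M0] {I ζ : L0} (hI : I ^ 2 = -1)
    (gen : ∀ z, ∃ x y : M0, z = algebraMap M0 L0 x + algebraMap M0 L0 y * I) (cj : L0 ≃ₐ[M0] L0)
    (cjI : cj I = -I) (hζ : ζ ^ 2 + ζ + 1 = 0) {r : M0} (hr : algebraMap M0 L0 r = I * (2 * ζ + 1))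
    (sev : ∃ x : M0, x ^ 2 = 7) {N : ℕ} (hN : 0 < N) : ∃ (D : QD) (f : D.L0 →+* L0), D.Ok N ∧
      Function.Surjective f ∧ ∀ z, f (D.cj z) = cj (f z) := by
  have h3 : r ^ 2 = 3 := (algebraMap M0 L0).injective (by
    rw [map_pow, hr, map_ofNat]; linear_combination (2 * ζ + 1) ^ 2 * hI - 4 * hζ)
  have cζ : cj ζ = -1 - ζ := by
    have := cj.commutes r
    rw [hr, map_mul, map_add, map_mul, map_ofNat, map_one, cjI] at this
    linear_combination I * this / 2 + (cj ζ + ζ + 1) * hI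
  obtain ⟨M, _, _, _, P, rfl, H, hM, pos, ram, typ⟩ := exists_pre h3 hN
  obtain ⟨em, emI⟩ := exists_em hI gen cj cjI (A := ℍ[M,-1,P.b]) (i := ⟨0, 1, 0, 0⟩)
    (by ext <;> simp)
  let D : QD := ⟨M0, M, L0, hM, I, hI, gen, cj, cjI, ⟨ζ, hζ⟩, P.b, pos, ram, P.η0, -P.η1, P.neg, em,
    em.commutes, emI, P.g, P.e, P.sym⟩
  have lz : ∀ z : D.L0, IsIntegral ℤ z → Mn 1 (am (D.l0 z)) := fun z hz => mn_of fun v hv => by
    obtain ⟨v, rfl⟩ := D.e.surjective v
    obtain ⟨x, y, rfl⟩ := gen z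
    have i1 : IsIntegral ℤ I := .of_pow two_pos (hI ▸ isIntegral_one.neg)
    have i2 : IsIntegral ℤ ζ := .of_pow three_pos (by
      rw [show ζ ^ 3 = 1 by linear_combination (ζ - 1) * hζ]; exact isIntegral_one)
    have i3 := (i1.mul (hz.sub (map_isIntegral_int cj hz))).neg
    rw [map_add, map_mul, cj.commutes, cj.commutes, cjI] at i3
    have i4 : IsIntegral ℤ (algebraMap M0 L0 (2 * y)) := int_eq i3 (by
      rw [map_mul, map_ofNat]; linear_combination -2 * algebraMap M0 L0 y * hI)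
    rw [QD.l0, D.lm_ap, em_eq]
    refine P.lz ((isIntegral_algebraMap_iff (algebraMap M0 L0).injective).1 (int_eq
      (hz.sub (i4.mul (i1.mul (i2.add isIntegral_one)))) ?_))
      ((isIntegral_algebraMap_iff (algebraMap M0 L0).injective).1 i4) hv
    rw [map_sub, map_mul, map_mul, hr, map_ofNat]
    ring
  refine ⟨D, RingHom.id _, ⟨?_, sev, lz, mn_of fun v hv => ?_, fun p _ hp x => (P.lat H hp x).trans
    ⟨fun h μ a => ?_, fun h φ ι t h1 h2 => ?_⟩, fun p _ hp μ => ?_, fun x hx => ?_⟩,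
    Function.surjective_id, fun _ => rfl⟩
  · have := P.tr 1 0
    rw [map_zero, zero_mul, add_zero, Algebra.trace_algebraMap, nsmul_eq_mul, mul_one, mul_one] at this
    exact_mod_cast this
  · obtain ⟨v, rfl⟩ := D.e.surjective v
    rw [wm_ap]
    simpa [QD.al] using P.lw hv
  · exact h μ.φ _ μ.s (by rw [mul_pow, μ.hι, ← pow_mul, mul_comm _ 2, pow_mul]; simp) μ.hs
  · simpa [Em.la] using h ⟨φ, ι, t, h1, h2⟩ 0
  · let f := μ.φ.comp (algebraMap M0 M)
    have key : ∀ {σ} {a : M0}, (∃ y, IsIntegral ℤ y ∧ a = 1 + 4 * (N * y)) → σ ^ 2 = f a →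
        σ ∈ f.fieldRange.topologicalClosure := fun ⟨y, hy, e⟩ h => sqrt_mem _
      (by rw [h, e, map_add, map_one, map_mul, map_ofNat]) (Pre.sm hp f hy) ⟨_, rfl⟩
    have h1 : ∀ m, μ.φ m ∈ f.fieldRange.topologicalClosure := fun m => by
      obtain ⟨a, b, rfl⟩ := P.gen m
      rw [map_add, map_mul]
      exact add_mem (subset_closure ⟨a, rfl⟩) (mul_mem (subset_closure ⟨b, rfl⟩)
        (key H.s (by rw [← map_pow, P.hω]; rfl)))
    obtain ⟨t, ht⟩ := P.nsq
    obtain ⟨σ, hσ⟩ := IsAlgClosed.exists_pow_nat_eq (f P.κ) two_pos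
    refine ⟨key H.β μ.hs, h1, μ.φ t / σ, div_mem (h1 t) (key H.κ hσ), ?_⟩
    rw [div_pow, hσ, div_eq_iff ((map_ne_zero f).2 P.κ0), ← map_pow, ← ht, map_mul, D.nrd_delta]
    simp [D, f]
  · obtain ⟨m, u, n, -, -, h1, h2, h4⟩ := typ _ (mul_ne_zero P.hc hx)
    obtain ⟨b, k, t, h5, h6, h7⟩ := typ_of D lz hζ cζ (ω := P.ω) (fun e => P.s0
      ((map_eq_zero (algebraMap M0 M)).1 (by rw [← P.hω, e]; simp))) h1 (h2 ▸ P.hω)
    refine ⟨b, k, t, h5, fun φ => ?_, h7⟩
    have h8 := mul_pos (h4 (φ.comp (algebraMap _ _))) (P.sgn φ)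
    rw [h6]
    simp only [map_mul, RingHom.comp_apply] at h8 ⊢
    refine pos_of_mul_pos_left (b := φ (algebraMap M0 M P.c) ^ 2) (h8.trans_eq ?_) (sq_nonneg _)
    simp only [D]
    ring

theorem ex_conj {K : Type} [Field K] [NumberField K] (j : K →+* Qb) (ψ : K →+* ℂ) :
    ∃ (Φ : Qb →+* ℂ) (c : GQ), (∀ x, Φ (c x) = starRingEnd ℂ (Φ x)) ∧ ∀ x, Φ (j x) = ψ x := by
  have : Algebra.IsAlgebraic ℚ Qb := AlgebraicClosure.isAlgebraic ℚ
  have : Normal ℚ Qb := IsAlgClosure.normal ℚ Qb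
  let _ : Algebra K Qb := j.toAlgebra
  let _ : Algebra K ℂ := ψ.toAlgebra
  have : IsScalarTower ℚ K Qb := IsScalarTower.of_algebraMap_eq' (Subsingleton.elim _ _)
  have : Algebra.IsAlgebraic K Qb := Algebra.IsAlgebraic.tower_top (K := ℚ) K
  let Φ : Qb →ₐ[K] ℂ := IsAlgClosed.lift
  let _ : Algebra Qb ℂ := Φ.toRingHom.toAlgebra
  have : IsScalarTower ℚ Qb ℂ := IsScalarTower.of_algebraMap_eq' (Subsingleton.elim _ _)
  let χ : ℂ ≃ₐ[ℚ] ℂ := Complex.conjAe.restrictScalars ℚ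
  exact ⟨Φ, χ.restrictNormal Qb, AlgEquiv.restrictNormal_commutes χ Qb, Φ.commutes⟩

end Dat

open Dat in
theorem datum : DATUM := fun K hK N hN => by
  have := hK.fin
  have : NumberField K := {}
  obtain ⟨j, c, hj, -⟩ := ex_conj (Rat.castHom Qb) (Rat.castHom ℂ)
  have hc : IsConj c := ⟨j, hj⟩
  have cc : ∀ x : K, (⟨c (c x), hK.cj _ (hK.cj x x.2 c hc) c hc⟩ : K) = x := fun x =>
    Subtype.ext (j.injective (by rw [hj, hj, Complex.conj_conj]))
  let cj : K ≃ₐ[maximalRealSubfield K] K :=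
    { toFun := fun x => ⟨c x, hK.cj x x.2 c hc⟩
      invFun := fun x => ⟨c x, hK.cj x x.2 c hc⟩
      left_inv := cc
      right_inv := cc
      map_mul' := fun x y => Subtype.ext (map_mul c _ _)
      map_add' := fun x y => Subtype.ext (map_add c _ _)
      commutes' := fun x => Subtype.ext (j.injective ((hj _).trans (x.2 (j.comp K.val)))) }
  have fix : ∀ x : K, cj x = x → x ∈ maximalRealSubfield K := fun x h φ => by
    obtain ⟨Φ, c', h1, h2⟩ := ex_conj K.val φ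
    rw [← h2]
    exact (h1 _).symm.trans (congrArg Φ ((hK.cm x x.2 _ _ ⟨Φ, h1⟩ hc).trans (congrArg Subtype.val h)))
  have ng : ∀ (x : K) (q : ℕ), 0 < q → x ^ 2 = -q → cj x = -x := fun x q hq h => by
    refine (sq_eq_sq_iff_eq_or_eq_neg.1 (by rw [← map_pow, h, map_neg, map_natCast])).resolve_left
      fun e => ?_
    have h1 := congrArg (fun y => (j.comp K.val y).re) h
    have h2 : (j.comp K.val x).im = 0 := Complex.conj_eq_iff_im.1 (fix x e _)
    simp only [sq, map_mul, Complex.mul_re, h2, map_neg, map_natCast, Complex.neg_re,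
      Complex.natCast_re] at h1
    nlinarith [mul_self_nonneg (j.comp K.val x).re, (Nat.cast_pos (α := ℝ)).2 hq]
  obtain ⟨ζ, h0, hζ⟩ := hK.z
  obtain ⟨y, h0', hy⟩ := hK.sev
  lift ζ to K using h0
  lift y to K using h0'
  have h1 : ζ ^ 4 - ζ ^ 2 + 1 = 0 := by exact_mod_cast hζ
  have h2 : y ^ 2 = -7 := Subtype.ext hy
  have hI : (ζ ^ 3) ^ 2 = -1 := by linear_combination (ζ ^ 2 + 1) * h1
  have h3 : (ζ ^ 4) ^ 2 + ζ ^ 4 + 1 = 0 := by linear_combination (ζ ^ 4 + ζ ^ 2 + 1) * h1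
  have cI := ng _ 1 one_pos (by simpa using hI)
  obtain ⟨D, f, h4, h5, h6⟩ := exists_qd hI (fun z => ⟨⟨(z + cj z) / 2, fix _ (by
      rw [map_div₀, map_add, map_ofNat, add_comm]; exact congrArg (fun w => (w + cj z) / 2) (cc z))⟩,
    ⟨ζ ^ 3 * (cj z - z) / 2, fix _ (by
      rw [map_div₀, map_mul, map_sub, map_ofNat, cI, show cj (cj z) = z from cc z]; ring)⟩, by
      change z = (z + cj z) / 2 + ζ ^ 3 * (cj z - z) / 2 * ζ ^ 3
      linear_combination (z - cj z) / 2 * hI⟩) cj cI h3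
    (r := ⟨ζ ^ 3 * (2 * ζ ^ 4 + 1), fix _ (by
      rw [map_mul, cI, ng _ 3 three_pos (by push_cast; linear_combination 4 * h3), neg_mul_neg])⟩) rfl
    ⟨⟨ζ ^ 3 * y, fix _ (by rw [map_mul, cI, ng y 7 (by norm_num) h2, neg_mul_neg])⟩,
      Subtype.ext (show (ζ ^ 3 * y) ^ 2 = 7 by linear_combination y ^ 2 * hI - h2)⟩ hN
  refine ⟨D, K.val.toRingHom.comp f, h4, fun x => ⟨fun h => ?_, ?_⟩, fun c' hc' z => ?_⟩
  · obtain ⟨z, e⟩ := h5 ⟨x, h⟩
    exact ⟨z, congrArg Subtype.val e⟩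
  · rintro ⟨z, rfl⟩
    exact (f z).2
  · exact (congrArg Subtype.val (h6 z)).trans (hK.cm _ (f z).2 _ _ hc hc')

end

end Vale.Agent.P022K.PM
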