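import Vale.Agent.P022K.PM.Asm
import Vale.Agent.P022K.PM.L1
import Vale.Agent.P022K.PM.Field
import Vale.Agent.P022K.PM.Datum
import Vale.Agent.P022K.PM.Gli

/-!
# P022K / PM: large contexts exist (the row `CXX`)
-/

set_option autoImplicit false

open NumberField Matrix

noncomputable section

namespace Vale.Agent.P022K.PM

open Vale.Agent.P022
open Vale.Agent.P022D.W (dec)
open Vale.Agent.P022E.GW (Ov)
open Vale.Agent.P022K.CH (Cp Kp)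

namespace Cxx

theorem z0_map {D : QD} {C C' : Type} [Field C] [Field C'] (μ : Em D C) (f : C →+* C')
    (z : D.L0) : (μ.map f).z0 z = f (μ.z0 z) := by
  simp [Em.z0, Em.la, Em.map]

variable {p : ℕ} [hp : Fact p.Prime] {ι : Qb →+* Cp p} {ρ : GQ →* GL (Fin 2) (Kp p)}

/-- **large contexts exist** -/
theorem ex_cx (qpk : QPK) (rb : Rb ρ) {Δ : ℕ} {θ : Qb} {η : GQ →* ℤˣ} (h0 : 0 < Δ)
    (h1 : θ ^ 2 = -(Δ : Qb)) (h2 : ∀ g : GQ, g θ = ((η g : ℤ) : Qb) * θ)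
    (h3 : IsOpen {g | η g = 1}) (h4 : ∀ c, IsConj c → η c = -1)
    {R : ∀ (q : ℕ) [Fact q.Prime], (Qb →+* Cp q) → Cx → Prop} (h : Ev ι ρ R) {U : Subgroup GQ}
    (hU : IsOpen (U : Set GQ)) (B : ℕ) : ∃ (q : ℕ) (_ : Fact q.Prime) (ι' : Qb →+* Cp q) (C : Cx),
      B < q ∧ q % 4 = 1 ∧ (∀ Q, Ov q Q → dec Q ≤ U) ∧ C.η = η ∧ C.Ok ι ι' ρ ∧ R q ι' C := by
  obtain ⟨A, A', a1, a2⟩ := h
  obtain ⟨G, hG⟩ := ex_cpt h0 h1
  obtain ⟨W, w1, w2⟩ := Fld.exists_val ρ rb.opn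
  obtain ⟨K, k1, k2, -, k3⟩ := field (A := insert θ (A' ∪ G)) (q := p) (B := A ∪ W) (B' := ∅)
    ((A'.finite_toSet.union G.finite_toSet).insert θ) (by
      rintro a (rfl | e | e)
      · exact Fld.cmn_sqrt (r := -Δ) (by simpa using h1)
      · exact a1 a e
      · obtain ⟨r, -, hr⟩ := hG.1 a e
        exact Fld.cmn_of_norm hr) (A.finite_toSet.union w1) Set.finite_empty
  obtain ⟨q, hq, b1, b2, b3, b4⟩ := qpk K U (2 * (p + 1) ^ 2) (B + p) k1.fin hU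
  obtain ⟨ι'⟩ := CH.ex_iota q
  obtain ⟨D, f, d1, d2⟩ := datum K k1 (p * q) (mul_pos hp.out.pos hq.out.pos)
  obtain ⟨ν, n1, -⟩ := emx D Qb f
  obtain ⟨m1, m2, m3⟩ := (k3 D f _ d1 d2).1 (dvd_mul_right p q) (ν.map ι)
  obtain ⟨t, rfl⟩ := (d2.rng θ).1 (k2 θ (Set.mem_insert _ _))
  obtain ⟨c, hc⟩ := Fld.ex_conj
  obtain ⟨x, hx⟩ := cmex D η _ d1 t (by
    rintro rfl
    exact h0.ne' (by simpa using h1)) (f.injective (by rw [d2.cj c hc, h2, h4 c hc]; simp))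
  let j : Qb →+* ℂ := hc.choose
  have ok : Cx.Ok ⟨D, η, j, ν, p * q⟩ ι ι' ρ :=
    ⟨⟨d1, dvd_mul_right p q, dvd_mul_left q p, by omega, m1, h3, rb.opn, rb.det, fun g i k =>
      (w2 g i k).imp fun _ e => ⟨m2 (.inr e.1), e.2⟩⟩, fun c a z => by rw [n1, n1, d2.cj c a], h4,
      m3, ⟨t, x, hx, gli h0 h1 hG d1 d2 (fun g a => k2 g (.inr (.inr a))) h2 hx⟩,
      fun a e1 e2 e3 => by
        rw [z0_map, n1]
        exact b4 ι' _ ((d2.rng _).2 ⟨a, rfl⟩) (map_isIntegral_int f e1) ((map_ne_zero f).2 e2)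
          fun φ => e3 (φ.comp f)⟩
  exact ⟨q, hq, ι', _, by omega, b2, b3, rfl, ok, a2 q ι' _ ok ⟨fun a e => m2 (.inl e), fun b e =>
    ((d2.rng b).1 (k2 b (.inr (.inl e)))).imp fun z k => (n1 z).trans k⟩⟩

end Cxx

/-- **CXX** -/
theorem cxx (qpk : QPK) : CXX := fun _ _ ι _ rb Δ A _ _ b h0 hB hU => by
  obtain ⟨θ, k⟩ := IsAlgClosed.exists_pow_nat_eq (-(Δ : Qb)) two_pos
  obtain ⟨q, hq, ι', C, a1, a2, a3, e, a4⟩ := Cxx.ex_cx qpk rb h0 k (L1.etaD_act k)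
    (L1.etaD_opn Δ) (fun _ => L1.etaD_conj h0.ne') (Ev.has (ι := ι) A hB) hU b
  exact ⟨q, hq, ι', C, a1, a2, a3, fun g => e ▸ L1.etaD_one, a4⟩

end Vale.Agent.P022K.PM
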