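import Mathlib.NumberTheory.Padics.Hensel
import Mathlib.NumberTheory.NumberField.Basic
import Mathlib.NumberTheory.SumTwoSquares
import Mathlib.NumberTheory.LSeries.PrimesInAP
import Mathlib.RingTheory.Polynomial.ScaleRoots
import Mathlib.Analysis.Calculus.LocalExtr.Basic
import Mathlib.Analysis.Calculus.Deriv.Polynomial
import Mathlib.FieldTheory.Minpoly.IsIntegrallyClosed
import Mathlib.FieldTheory.PrimitiveElement

/-!
# P022K / PM / Dat0: arithmetic input for the datum (helper95)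
-/

namespace Vale.Agent.P022K.PM.Dat

open Polynomial

theorem exists_p3 (n : ℕ) (h : n % 4 = 3) : ∃ r, r.Prime ∧ r % 4 = 3 ∧ r ∣ n := by
  induction n using Nat.recOnMul with
  | zero => omega
  | one => omega
  | prime p hp => exact ⟨p, hp, h, dvd_rfl⟩
  | mul a b ha hb =>
    by_cases h1 : a % 4 = 3
    · obtain ⟨r, h2, h3, h4⟩ := ha h1
      exact ⟨r, h2, h3, h4.mul_right b⟩
    by_cases h2 : b % 4 = 3
    · obtain ⟨r, h2, h3, h4⟩ := hb h2
      exact ⟨r, h2, h3, h4.mul_left a⟩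
    rw [Nat.mul_mod] at h
    have h3 : a % 4 < 4 := Nat.mod_lt _ (by norm_num)
    have h4 : b % 4 < 4 := Nat.mod_lt _ (by norm_num)
    generalize a % 4 = x, b % 4 = y at *
    interval_cases x <;> interval_cases y <;> simp_all

theorem bez (f g : ℤ[X]) (h : IsCoprime (f.map (algebraMap ℤ ℚ)) (g.map (algebraMap ℤ ℚ))) :
    ∃ (u v : ℤ[X]) (D : ℤ), D ≠ 0 ∧ u * f + v * g = C D := by
  obtain ⟨u, v, e⟩ := h
  obtain ⟨a, ha, h1⟩ := IsLocalization.integerNormalization_spec (nonZeroDivisors ℤ) u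
  obtain ⟨b, hb, h2⟩ := IsLocalization.integerNormalization_spec (nonZeroDivisors ℤ) v
  refine ⟨C b * IsLocalization.integerNormalization (nonZeroDivisors ℤ) u,
    C a * IsLocalization.integerNormalization (nonZeroDivisors ℤ) v, a * b,
    mul_ne_zero (nonZeroDivisors.ne_zero ha) (nonZeroDivisors.ne_zero hb), ?_⟩
  refine map_injective (algebraMap ℤ ℚ) (algebraMap ℤ ℚ).injective_int ?_
  simp only [Polynomial.map_add, Polynomial.map_mul, h1, h2, zsmul_eq_mul, map_mul,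
    eq_intCast, Polynomial.map_intCast]
  linear_combination (a * b : ℚ[X]) * e

theorem exists_neg (f : ℤ[X]) {θ : ℝ} (h0 : aeval θ f = 0) (h1 : aeval θ (derivative f) ≠ 0)
    {N : ℕ} (hN : 2 ≤ N) : ∃ (m : ℕ) (j : ℤ), 0 < m ∧
      aeval (((1 + N * j : ℤ) : ℝ) / (N : ℝ) ^ m) f < 0 := by
  obtain ⟨x, hx⟩ : ∃ x : ℝ, aeval x f < 0 := by
    by_contra hc
    push Not at hc
    have h2 : IsLocalMin (fun x : ℝ => aeval x f) θ :=
      Filter.Eventually.of_forall fun x => h0.trans_le (hc x)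
    exact h1 ((f.hasDerivAt_aeval θ).deriv.symm.trans h2.deriv_eq_zero)
  obtain ⟨ε, he, h2⟩ := Metric.isOpen_iff.1 (isOpen_lt f.continuous_aeval continuous_const) x hx
  have hN1 : (1 : ℝ) < N := by exact_mod_cast hN
  obtain ⟨m, hm⟩ := pow_unbounded_of_one_lt (2 / ε) hN1
  refine ⟨m + 1, ⌊x * N ^ m⌋, m.succ_pos, h2 ?_⟩
  have h3 : (0 : ℝ) < N ^ m := by positivity
  have h4 := Int.floor_le (x * N ^ m)
  have h5 := Int.lt_floor_add_one (x * N ^ m)
  rw [div_lt_iff₀ he] at hm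
  have e : ((1 + N * ⌊x * N ^ m⌋ : ℤ) : ℝ) / (N : ℝ) ^ (m + 1) - x =
      (1 / N + ⌊x * N ^ m⌋ - x * N ^ m) / N ^ m := by
    push_cast; field_simp; ring
  have h6 : 0 < 1 / (N : ℝ) := by positivity
  have h7 : 1 / (N : ℝ) < 1 := (div_lt_one (by positivity)).2 hN1
  rw [Metric.mem_ball, Real.dist_eq, e, abs_div, abs_of_pos h3, div_lt_iff₀ h3, abs_lt]
  constructor <;> linarith

theorem exists_root (f : ℤ[X]) (hm : f.Monic) (hs : (f.map (algebraMap ℤ ℚ)).Separable) {θ : ℝ}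
    (h0 : aeval θ f = 0) {n : ℕ} (hn : 0 < n) :
    ∃ (r : ℕ) (_ : Fact r.Prime), r % 4 = 3 ∧ ¬ r ∣ n ∧ ∃ z : ℚ_[r], aeval z f = 0 := by
  obtain ⟨u, v, D, hD, e⟩ := bez f (derivative f) (by rw [← derivative_map]; exact hs)
  have h1 : aeval θ (derivative f) ≠ 0 := fun h => by
    have := congrArg (aeval θ) e
    simp [h, h0] at this
    exact hD (by exact_mod_cast this.symm)
  have hD' : 0 < D.natAbs := Int.natAbs_pos.2 hD
  set N := 4 * (n * D.natAbs) with hN
  have hN2 : 2 ≤ N := by have := Nat.mul_pos hn hD'; omega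
  obtain ⟨m, j, hm0, h2⟩ := exists_neg f h1 (h0 := h0) hN2
  set a : ℤ := 1 + N * j with ha
  set F := (f.scaleRoots ((N : ℤ) ^ m)).eval a with hF
  have key : ∀ (K : Type) [Field K], (N : K) ≠ 0 →
      (F : K) = ((N : K) ^ m) ^ f.natDegree * aeval ((a : K) / (N : K) ^ m) f := fun K _ h => by
    have := scaleRoots_eval₂_mul (p := f) (algebraMap ℤ K) ((a : K) / (N : K) ^ m) ((N : ℤ) ^ m)
    simp only [eq_intCast, Int.cast_pow, Int.cast_natCast] at this
    rw [mul_div_cancel₀ _ (pow_ne_zero _ h), ← aeval_def, ← aeval_def] at this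
    rw [← this, hF, ← eq_intCast (algebraMap ℤ K), ← eq_intCast (algebraMap ℤ K),
      aeval_algebraMap_apply, coe_aeval_eq_eval]
  have h3 : F < 0 := by
    have h4 : (0 : ℝ) < N := by positivity
    have := key ℝ h4.ne'
    exact_mod_cast this.trans_lt (mul_neg_of_pos_of_neg (by positivity) h2)
  have h4 : (N : ℤ) ∣ F - 1 := by
    have : Fact (1 < N) := ⟨hN2⟩
    rw [← ZMod.intCast_eq_intCast_iff_dvd_sub, eq_comm, hF, ← eq_intCast (Int.castRingHom _),
      ← eval₂_hom, ← eval_map, map_scaleRoots _ _ _ (by simp [hm.leadingCoeff])]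
    simp [ha, hm0.ne', scaleRoots_zero, (hm.map _).leadingCoeff]
  obtain ⟨r, hr, h5, h6⟩ := exists_p3 F.natAbs (by
    have h5 : (4 : ℤ) ∣ F - 1 := (Dvd.intro _ (by rw [hN]; push_cast; rfl)).trans h4
    omega)
  have h7 : ¬ r ∣ N := fun h => hr.one_lt.ne' (by
    have h8 := Int.natCast_dvd.2 h6
    have := (dvd_sub_right h8).1 ((Int.natCast_dvd_natCast.2 h).trans h4)
    exact_mod_cast Int.eq_one_of_dvd_one (by positivity) this)
  have : Fact r.Prime := ⟨hr⟩
  refine ⟨r, this, h5, fun h => h7 ((h.mul_right _).mul_left _), ?_⟩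
  have h8 : ‖(N : ℚ_[r])‖ = 1 :=
    Padic.norm_natCast_eq_one_iff.2 ((Nat.Prime.coprime_iff_not_dvd hr).2 h7)
  have h9 : (N : ℚ_[r]) ≠ 0 := by rw [← norm_ne_zero_iff, h8]; exact one_ne_zero
  let x : ℤ_[r] := ⟨(a : ℚ_[r]) / N ^ m, by
    rw [norm_div, norm_pow, h8, one_pow, div_one]; exact Padic.norm_int_le_one _⟩
  have hc : ∀ g : ℤ[X], ((aeval x g : ℤ_[r]) : ℚ_[r]) = aeval ((a : ℚ_[r]) / N ^ m) g := fun g =>
    (aeval_algebraMap_apply ℚ_[r] x g).symm
  have h10 : ‖aeval x f‖ < 1 := by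
    have h11 := congrArg norm (key ℚ_[r] h9)
    rw [norm_mul, norm_pow, norm_pow, h8, one_pow, one_pow, one_mul] at h11
    rw [← PadicInt.padic_norm_e_of_padicInt, hc, ← h11]
    exact Padic.norm_intCast_lt_one_iff.2 (Int.natCast_dvd.2 h6)
  have h11 : ‖aeval x (derivative f)‖ = 1 := by
    refine (PadicInt.norm_le_one _).antisymm (not_lt.1 fun h => h7 ?_)
    have h12 : ‖(D : ℤ_[r])‖ < 1 := by
      have := congrArg (aeval x) e
      simp only [map_add, map_mul, eq_intCast, map_intCast] at this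
      rw [← this]
      exact (PadicInt.nonarchimedean _ _).trans_lt (max_lt
        (by rw [norm_mul]; exact mul_lt_one_of_nonneg_of_lt_one_right (PadicInt.norm_le_one _) (norm_nonneg _) h10)
        (by rw [norm_mul]; exact mul_lt_one_of_nonneg_of_lt_one_right (PadicInt.norm_le_one _) (norm_nonneg _) h))
    exact ((Int.natCast_dvd.1 ((PadicInt.norm_int_lt_one_iff_dvd D).1 h12)).mul_left _).mul_left _
  obtain ⟨z, hz, -⟩ := hensels_lemma (F := f) (a := x) (by rw [h11]; simpa using h10)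
  exact ⟨z, by rw [show (z : ℚ_[r]) = algebraMap ℤ_[r] ℚ_[r] z from rfl, aeval_algebraMap_apply, hz,
    map_zero]⟩

/-- primes of degree one above a prime that is `3` modulo `4` -/
theorem exists_deg1 (M : Type) [Field M] [NumberField M] (φ : M →+* ℝ) {n : ℕ} (hn : 0 < n) :
    ∃ (r : ℕ) (_ : Fact r.Prime), r % 4 = 3 ∧ ¬ r ∣ n ∧ Nonempty (M →+* ℚ_[r]) := by
  obtain ⟨α, hα⟩ := Field.exists_primitive_element ℚ M
  obtain ⟨d, hd, hi⟩ := IsAlgebraic.exists_integral_multiple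
    ((IsFractionRing.isAlgebraic_iff ℤ ℚ M).2 (Algebra.IsAlgebraic.isAlgebraic α))
  have h1 : IntermediateField.adjoin ℚ {d • α} = ⊤ := by
    refine top_unique (hα.ge.trans (IntermediateField.adjoin_simple_le_iff.2 ?_))
    have := IntermediateField.smul_mem _ (IntermediateField.mem_adjoin_simple_self ℚ (d • α))
      (x := (d : ℚ)⁻¹)
    convert this using 1
    rw [← Int.cast_smul_eq_zsmul ℚ, smul_smul, inv_mul_cancel₀ (by exact_mod_cast hd), one_smul]
  have h2 : IsIntegral ℚ (d • α) := hi.tower_top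
  have h3 := minpoly.isIntegrallyClosed_eq_field_fractions' ℚ hi
  obtain ⟨r, _, h4, h5, z, hz⟩ := exists_root (minpoly ℤ (d • α)) (minpoly.monic hi)
    (h3 ▸ Algebra.IsSeparable.isSeparable ℚ _) (θ := φ (d • α))
    (by rw [show φ (d • α) = φ.toIntAlgHom (d • α) from rfl, aeval_algHom_apply, minpoly.aeval,
      map_zero]) hn
  refine ⟨r, ‹_›, h4, h5, ⟨((IntermediateField.adjoin.powerBasis h2).lift z ?_).toRingHom.comp
    ((IntermediateField.equivOfEq h1).trans IntermediateField.topEquiv).symm.toRingHom⟩⟩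
  rw [IntermediateField.adjoin.powerBasis_gen, IntermediateField.minpoly_gen, h3,
    aeval_map_algebraMap, hz]

theorem crt {A ι : Type} [CommRing A] [Finite ι] (n : ι → ℕ)
    (hn : Pairwise fun i j => (n i).Coprime (n j)) (c : ι → A) :
    ∃ z : A, ∀ i (B : Type) [CommRing B] (f : A →+* B), (n i : B) = 0 → f z = f (c i) := by
  obtain ⟨z, hz⟩ := Ideal.exists_forall_sub_mem_ideal (I := fun i => Ideal.span {(n i : A)})
    (fun i j e => (Ideal.isCoprime_span_singleton_iff _ _).2 (by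
      simpa using (Nat.isCoprime_iff_coprime.2 (hn e)).map (Int.castRingHom A))) c
  refine ⟨z, fun i B _ f h => ?_⟩
  obtain ⟨t, ht⟩ := Ideal.mem_span_singleton'.1 (hz i)
  rw [← sub_eq_zero, ← map_sub, ← ht, map_mul, map_natCast, h, mul_zero]

theorem dvd_of_hom {A : Type} [CommRing A] {k : ℕ} {z : A}
    (h : ∀ (B : Type) [CommRing B] (f : A →+* B), (k : B) = 0 → f z = 0) : (k : A) ∣ z :=
  Ideal.mem_span_singleton.1 (Ideal.Quotient.eq_zero_iff_mem.1 (h _ (Ideal.Quotient.mk _)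
    (Ideal.Quotient.eq_zero_iff_mem.2 (Ideal.mem_span_singleton_self (k : A)))))

theorem sq2 {n : ℕ} (hn : Odd n) {c : ℤ} (hc : IsCoprime c n) :
    ∃ a b : ℤ, (n : ℤ) ∣ a ^ 2 + b ^ 2 - c := by
  have h4 : IsCoprime (n : ℤ) 4 := by
    have : IsCoprime (n : ℤ) ((2 ^ 2 : ℕ) : ℤ) :=
      Nat.isCoprime_iff_coprime.2 ((Nat.coprime_two_right.2 hn).pow_right 2)
    simpa using this
  obtain ⟨u, v, e⟩ := h4
  have h1 : IsCoprime (u * n + v * 4 * c) ((4 * n : ℕ) : ℤ) := by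
    push_cast
    refine IsCoprime.mul_right ⟨1, v - v * c, by linear_combination e⟩ ?_
    rw [add_comm, IsCoprime.add_mul_right_left_iff]
    exact IsCoprime.mul_left ⟨1, u, by linear_combination e⟩ hc
  obtain ⟨p, -, hp, h2⟩ := Nat.forall_exists_prime_gt_and_zmodEq 0
    (Nat.mul_ne_zero (by norm_num) hn.pos.ne') h1
  have : Fact p.Prime := ⟨hp⟩
  obtain ⟨k, hk⟩ := h2.dvd
  push_cast at hk
  have h3 : (p : ℤ) = 1 + 4 * (v * c - v - n * k) := by linear_combination e - hk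
  obtain ⟨a, b, h4⟩ := Nat.Prime.sq_add_sq (p := p) (by omega)
  refine ⟨a, b, u - u * c - 4 * k, ?_⟩
  have h5 : (a : ℤ) ^ 2 + b ^ 2 = p := by exact_mod_cast h4
  linear_combination h5 - hk + c * e

open Matrix

section LR

variable {R : Type} [CommRing R]

/-- left multiplication by a pure quaternion -/
def Lq (a b c : R) : Matrix (Fin 4) (Fin 4) R :=
  !![0, -a, -b, -c; a, 0, -c, b; b, c, 0, -a; c, -b, a, 0]
/-- right multiplication by a pure quaternion -/
def Rq (a b c : R) : Matrix (Fin 4) (Fin 4) R :=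
  !![0, -a, -b, -c; a, 0, c, -b; b, -c, 0, a; c, b, -a, 0]

theorem L_tr (a b c : R) : (Lq a b c)ᵀ = -Lq a b c := by
  ext i j; fin_cases i <;> fin_cases j <;> simp [Lq]
theorem R_tr (a b c : R) : (Rq a b c)ᵀ = -Rq a b c := by
  ext i j; fin_cases i <;> fin_cases j <;> simp [Rq]
theorem L_R (a b c x y z : R) : Rq x y z * Lq a b c = Lq a b c * Rq x y z := by
  ext i j; fin_cases i <;> fin_cases j <;> simp [Lq, Rq, mul_apply, Fin.sum_univ_four] <;> ring
theorem L_L (a b c x y z : R) : Lq x y z * Lq a b c =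
    -(Lq a b c * Lq x y z) - (2 * (a * x + b * y + c * z)) • 1 := by
  ext i j; fin_cases i <;> fin_cases j <;> simp [Lq, mul_apply, Fin.sum_univ_four] <;> ring
theorem R_R (a b c x y z : R) : Rq x y z * Rq a b c =
    -(Rq a b c * Rq x y z) - (2 * (a * x + b * y + c * z)) • 1 := by
  ext i j; fin_cases i <;> fin_cases j <;> simp [Rq, mul_apply, Fin.sum_univ_four] <;> ring
theorem L_sq (a b c : R) : Lq a b c * Lq a b c = -((a ^ 2 + b ^ 2 + c ^ 2) • 1) := by
  ext i j; fin_cases i <;> fin_cases j <;> simp [Lq, mul_apply, Fin.sum_univ_four] <;> ring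
theorem R_sq (a b c : R) : Rq a b c * Rq a b c = -((a ^ 2 + b ^ 2 + c ^ 2) • 1) := by
  ext i j; fin_cases i <;> fin_cases j <;> simp [Rq, mul_apply, Fin.sum_univ_four] <;> ring

end LR

variable {A : Type} [CommRing A]

/-- three symmetric matrices -/
structure Tri (J1 J2 K : Matrix (Fin 4) (Fin 4) A) (s β κ : A) : Prop where
  t1 : J1ᵀ = J1
  t2 : J2ᵀ = J2
  t3 : Kᵀ = K
  s1 : J1 * J1 = s • 1
  s2 : J2 * J2 = β • 1
  s3 : K * K = κ • 1
  c12 : J2 * J1 = J1 * J2
  c13 : K * J1 = J1 * K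
  c23 : K * J2 = -(J2 * K)
  p1 : ∀ φ : A →+* ℝ, 0 ≤ φ s
  p2 : ∀ φ : A →+* ℝ, 0 ≤ φ β
  p3 : ∀ φ : A →+* ℝ, 0 ≤ φ κ

theorem tri (x y a b c u v w : A) (h : a * u + b * v + c * w = 0) :
    Tri (Lq x y 0 * Rq u v w) (Lq 0 0 1 * Rq a b c) (Lq y (-x) 0 * Rq a b c)
      ((x ^ 2 + y ^ 2) * (u ^ 2 + v ^ 2 + w ^ 2)) (a ^ 2 + b ^ 2 + c ^ 2)
      ((x ^ 2 + y ^ 2) * (a ^ 2 + b ^ 2 + c ^ 2)) := by
  have k1 : ∀ a b c x y z a' b' c' x' y' z' : A, Lq a b c * Rq x y z * (Lq a' b' c' * Rq x' y' z') =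
      Lq a b c * Lq a' b' c' * (Rq x y z * Rq x' y' z') := fun _ _ _ _ _ _ _ _ _ _ _ _ => by
    rw [mul_assoc, ← mul_assoc (Rq _ _ _), L_R, mul_assoc, mul_assoc]
  have k2 : ∀ a b c x y z : A, (Lq a b c * Rq x y z)ᵀ = Lq a b c * Rq x y z :=
    fun _ _ _ _ _ _ => by rw [transpose_mul, L_tr, R_tr, neg_mul_neg, L_R]
  refine ⟨k2 .., k2 .., k2 .., ?_, ?_, ?_, ?_, ?_, ?_, fun φ => ?_, fun φ => ?_,
    fun φ => ?_⟩ <;> simp only [k1, map_mul, map_add, map_pow]
  · rw [L_sq, R_sq, neg_mul_neg, smul_mul_smul_comm, one_mul]; congr 1; ring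
  · rw [L_sq, R_sq, neg_mul_neg, smul_mul_smul_comm, one_mul]; congr 1; ring
  · rw [L_sq, R_sq, neg_mul_neg, smul_mul_smul_comm, one_mul]; congr 1; ring
  · rw [L_L x, R_R u, show u * a + v * b + w * c = 0 by linear_combination h]; simp
  · rw [L_L x, R_R u, show u * a + v * b + w * c = 0 by linear_combination h,
      show x * y + y * -x + 0 * 0 = 0 by ring]; simp
  · rw [L_L 0]; simp
  all_goals positivity

theorem exists_tri {ι ρ : Type} [Finite ι] [Finite ρ] (N : ℕ) (n : ι → ℕ) (r : ρ → ℕ) (m : ι → A)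
    (hn : ∀ i, Odd (n i)) (hr : ∀ j, Odd (r j))
    (hc : Pairwise fun o o' : Option (ι ⊕ ρ) => (o.elim N (Sum.elim n fun j => r j ^ 2)).Coprime
      (o'.elim N (Sum.elim n fun j => r j ^ 2))) :
    ∃ (J1 J2 K : Matrix (Fin 4) (Fin 4) A) (s β κ : A), Tri J1 J2 K s β κ ∧
      (∀ a b, (N : A) ∣ J1 a b - diagonal ![1, 1, -1, -1] a b) ∧
      (∀ a b, (N : A) ∣ J2 a b - diagonal ![1, -1, -1, 1] a b) ∧
      (N : A) ∣ s - 1 ∧ (N : A) ∣ β - 1 ∧ (N : A) ∣ κ - 1 ∧ (∀ i, (n i : A) ∣ s - m i) ∧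
      ∀ j, (r j : A) ^ 2 ∣ β - r j ∧ (r j : A) ^ 2 ∣ s - (r j - 1) ^ 2 := by
  choose P Q hPQ using fun i => sq2 (hn i) (c := -1) isCoprime_one_left.neg_left
  choose P' Q' hPQ' using fun j => sq2 (n := r j ^ 2) (hr j).pow (c := r j - 1)
    ⟨-(r j + 1), 1, by push_cast; ring⟩
  choose h hh using hn
  have h2 := crt (A := A) _ hc
  obtain ⟨x, hx⟩ := h2 fun o => o.elim 1 (Sum.elim 1 fun j => P' j)
  obtain ⟨y, hy⟩ := h2 fun o => o.elim 0 (Sum.elim 0 fun j => Q' j)
  obtain ⟨u, hu⟩ := h2 fun o => o.elim (-1) (Sum.elim (fun i => (m i + 1) * h i) fun j => Q' j)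
  obtain ⟨v, hv⟩ := h2 fun o => o.elim 0 (Sum.elim (fun i => P i * (m i - 1) * h i) fun j => -P' j)
  obtain ⟨w, hw⟩ := h2 fun o => o.elim 0 (Sum.elim (fun i => Q i * (m i - 1) * h i) 0)
  obtain ⟨a, ha⟩ := h2 fun o => o.elim 0 (Sum.elim 0 fun j => -(P' j * (r j + 1)))
  obtain ⟨b, hb⟩ := h2 fun o => o.elim 1 (Sum.elim 0 fun j => -(Q' j * (r j + 1)))
  obtain ⟨c, hc⟩ := h2 fun o => o.elim 0 (Sum.elim 0 (-1))
  have dz : ∀ (B : Type) [CommRing B] (k : ℕ) (z : ℤ), (k : B) = 0 → (k : ℤ) ∣ z → (z : B) = 0 :=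
    fun B _ k z h ⟨t, ht⟩ => by rw [ht, Int.cast_mul, Int.cast_natCast, h, zero_mul]
  refine ⟨_, _, _, _, _, _, tri x y (v * c - w * b) (w * a - u * c) (u * b - v * a) u v w (by ring),
    fun i j => dvd_of_hom fun B _ f e => ?_, fun i j => dvd_of_hom fun B _ f e => ?_,
    dvd_of_hom fun B _ f e => ?_, dvd_of_hom fun B _ f e => ?_, dvd_of_hom fun B _ f e => ?_,
    fun i => dvd_of_hom fun B _ f e => ?_, fun j => ?_⟩
  · fin_cases i <;> fin_cases j <;> simp [Lq, Rq, hx none B f e, hy none B f e, hu none B f e,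
      hv none B f e, hw none B f e]
  · fin_cases i <;> fin_cases j <;> simp [Lq, Rq, ha none B f e, hb none B f e, hc none B f e,
      hu none B f e, hv none B f e, hw none B f e]
  · simp [hx none B f e, hy none B f e, hu none B f e, hv none B f e, hw none B f e]
  · simp [ha none B f e, hb none B f e, hc none B f e, hu none B f e, hv none B f e, hw none B f e]
  · simp [ha none B f e, hb none B f e, hc none B f e, hu none B f e, hv none B f e, hw none B f e,
      hx none B f e, hy none B f e]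
  · have e1 := dz B _ _ e (hPQ i)
    have e2 := dz B (n i) (2 * h i + 1) e (by rw [hh i]; push_cast; rfl)
    push_cast at e1 e2
    simp only [map_sub, map_mul, map_add, map_pow, hx (some (.inl i)) B f e,
      hy (some (.inl i)) B f e, hu (some (.inl i)) B f e, hv (some (.inl i)) B f e,
      hw (some (.inl i)) B f e, Option.elim, Sum.elim_inl, Pi.one_apply, Pi.zero_apply,
      map_one, map_zero, map_intCast, map_natCast]
    linear_combination (f (m i) - 1) ^ 2 * h i ^ 2 * e1 + f (m i) * (2 * h i - 1) * e2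
  rw [← Nat.cast_pow]
  refine ⟨dvd_of_hom fun B _ f e => ?_, dvd_of_hom fun B _ f e => ?_⟩ <;>
    have e1 := dz B _ _ e (hPQ' j) <;>
    simp only [map_sub, map_mul, map_add, map_pow, hx (some (.inr j)) B f e,
      hy (some (.inr j)) B f e, hu (some (.inr j)) B f e, hv (some (.inr j)) B f e,
      hw (some (.inr j)) B f e, ha (some (.inr j)) B f e, hb (some (.inr j)) B f e,
      hc (some (.inr j)) B f e, Option.elim, Sum.elim_inr, Pi.neg_apply,
      Pi.one_apply, Pi.zero_apply, map_one, map_zero, map_intCast, map_natCast, map_neg] <;>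
    push_cast at e e1
  · linear_combination (1 + (r j + 1) ^ 2 * (P' j ^ 2 + Q' j ^ 2 + (r j - 1))) * e1 +
      (r j ^ 2 - 2) * e
  · linear_combination (P' j ^ 2 + Q' j ^ 2 + (r j - 1)) * e1

end Vale.Agent.P022K.PM.Dat
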