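import Vale.Agent.P022K.PM.Dat0
import Mathlib.RingTheory.DedekindDomain.Different
import Mathlib.RingTheory.DedekindDomain.Factorization
import Mathlib.RingTheory.Nakayama

/-!
# P022K / PM / Dat1: a self dual lattice in `M0 ^ 4` (helper95)
-/

namespace Vale.Agent.P022K.PM.Dat

open NumberField Matrix Module

variable {M0 : Type} [Field M0] [NumberField M0]

/-- integral vectors -/
def IsZ {ι : Type} (v : ι → ℚ) : Prop := ∀ i, ∃ z : ℤ, v i = z

/-- the dual of the ring of integers for the form `Tr (c x y)` -/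
def Du (c x : M0) : Prop :=
  ∀ a : M0, IsIntegral ℤ a → ∃ z : ℤ, Algebra.trace ℚ M0 (c * x * a) = z

theorem Du.add {c x y : M0} (h : Du c x) (h' : Du c y) : Du c (x + y) := fun a ha => by
  obtain ⟨z, hz⟩ := h a ha
  obtain ⟨w, hw⟩ := h' a ha
  exact ⟨z + w, by rw [mul_add, add_mul, map_add, hz, hw, Int.cast_add]⟩

theorem Du.mul {c x y : M0} (h : Du c x) (h' : IsIntegral ℤ y) : Du c (y * x) := fun a ha => by
  obtain ⟨z, hz⟩ := h _ (h'.mul ha)
  exact ⟨z, by rw [← hz]; congr 1; ring⟩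

omit [NumberField M0] in
theorem int_z (z : ℤ) : IsIntegral ℤ (z : M0) := isIntegral_algebraMap (R := ℤ) (x := z)

theorem exists_c0 (M0 : Type) [Field M0] [NumberField M0] {N : ℕ} (hN : 2 ≤ N) :
    ∃ (c : M0) (n : ℕ), c ≠ 0 ∧ n.Coprime N ∧ Du c 1 ∧ ∀ x, Du c x → IsIntegral ℤ (n * x) := by
  classical
  let D := Submodule.traceDual ℤ ℚ (1 : Submodule (𝓞 M0) M0)
  have hD : ∀ x, x ∈ D ↔ Du 1 x := fun x => by
    rw [Submodule.mem_traceDual]
    refine ⟨fun h a ha => ?_, fun h a ha => ?_⟩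
    · obtain ⟨z, hz⟩ := h a (Submodule.mem_one.2 ⟨⟨a, ha⟩, rfl⟩)
      exact ⟨z, by rw [one_mul]; exact hz.symm⟩
    · obtain ⟨a, rfl⟩ := Submodule.mem_one.1 ha
      obtain ⟨z, hz⟩ := h a a.2
      exact ⟨z, by rw [one_mul] at hz; exact hz.symm⟩
  have h1 := Submodule.traceDual_span_of_basis ℤ (K := ℚ) (1 : Submodule (𝓞 M0) M0)
    (integralBasis M0) (by ext x; rw [mem_span_integralBasis]; exact Submodule.mem_one)
  obtain ⟨d, hd, h2⟩ := exists_integral_multiples ℤ ℚ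
    (Finset.univ.image (integralBasis M0).traceDual)
  have h3 : ∀ x ∈ D, IsIntegral ℤ (d * x) := fun x hx => by
    have hx' : x ∈ Submodule.span ℤ (Set.range (integralBasis M0).traceDual) := h1 ▸ hx
    clear hx
    induction hx' using Submodule.span_induction with
    | mem x h => obtain ⟨i, rfl⟩ := h; simpa using h2 _ (Finset.mem_image_of_mem _ (Finset.mem_univ i))
    | zero => simpa using isIntegral_zero
    | add x y hx hy ihx ihy => rw [mul_add]; exact ihx.add ihy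
    | smul a x hx ih => rw [zsmul_eq_mul, mul_left_comm]; exact (int_z a).mul ih
  have hd' : (d : M0) ≠ 0 := Int.cast_ne_zero.2 hd
  have h1D : (1 : M0) ∈ D := Submodule.one_le_traceDual_one (Submodule.mem_one.2 ⟨1, map_one _⟩)
  let J : Ideal (𝓞 M0) := D.comap (LinearMap.toSpanSingleton (𝓞 M0) M0 (d : M0)⁻¹)
  have hJ : ∀ a : 𝓞 M0, a ∈ J ↔ (a : M0) * (d : M0)⁻¹ ∈ D := fun a => Iff.rfl
  have hdJ : (d : 𝓞 M0) ∈ J := (hJ _).2 (by simpa [hd'] using h1D)
  obtain ⟨a, ha⟩ := IsDedekindDomain.exists_sup_span_eq (I := Ideal.span {(N : 𝓞 M0)} * J) (J := J)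
    Ideal.mul_le_right (mul_ne_zero (by simp; omega) fun h => hd (by simpa [h] using hdJ))
  have haJ : a ∈ J := ha.le (Ideal.mem_sup_right (Ideal.mem_span_singleton_self a))
  obtain ⟨r, hr, h4⟩ := Submodule.exists_sub_one_mem_and_smul_le_of_fg_of_le_sup
    (I := Ideal.span {(N : ℤ)}) (N := (Submodule.span (𝓞 M0) {(a : M0) * (d : M0)⁻¹}).restrictScalars ℤ)
    (N' := D.restrictScalars ℤ) (P := D.restrictScalars ℤ)
    (h1 ▸ Submodule.fg_span (Set.finite_range _)) le_rfl fun x hx => by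
      have h5 : (⟨_, h3 x hx⟩ : 𝓞 M0) ∈ J := (hJ _).2 (by
        convert (show x ∈ D from hx) using 1
        change d * x * _ = x
        field_simp)
      obtain ⟨y', hy', z, hz, e⟩ := Submodule.mem_sup.1 (ha.ge h5)
      obtain ⟨y, hy, rfl⟩ := Ideal.mem_span_singleton_mul.1 hy'
      obtain ⟨z, rfl⟩ := Ideal.mem_span_singleton'.1 hz
      have e' : (N : M0) * y + z * a = d * x := by exact_mod_cast congrArg ((↑) : 𝓞 M0 → M0) e
      refine Submodule.mem_sup.2 ⟨z • ((a : M0) * (d : M0)⁻¹), Submodule.smul_mem _ z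
        (Submodule.mem_span_singleton_self _), (N : ℤ) • ((y : M0) * (d : M0)⁻¹),
        Submodule.smul_mem_smul (Ideal.mem_span_singleton_self _) ((hJ _).1 hy), ?_⟩
      rw [zsmul_eq_mul, Algebra.smul_def]
      field_simp
      rw [← e']
      simp [add_comm]
  have h5 : ∀ x ∈ D, ∃ o : 𝓞 M0, (o : M0) * ((a : M0) * (d : M0)⁻¹) = r * x := fun x hx => by
    obtain ⟨o, ho⟩ := Submodule.mem_span_singleton.1
      (h4 (Submodule.smul_mem_pointwise_smul x r _ hx))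
    exact ⟨o, by rw [← zsmul_eq_mul, ← ho]; rfl⟩
  obtain ⟨k, hk⟩ := Ideal.mem_span_singleton'.1 hr
  have h6 : IsCoprime r N := ⟨1, -k, by linear_combination -hk⟩
  have h7 : (a : M0) * (d : M0)⁻¹ ≠ 0 := fun h => by
    obtain ⟨o, ho⟩ := h5 1 h1D
    rw [h, mul_zero, mul_one, eq_comm, Int.cast_eq_zero] at ho
    rw [ho, isCoprime_zero_left, Int.isUnit_iff] at h6
    omega
  refine ⟨_, r.natAbs, h7, Nat.isCoprime_iff_coprime.1 (by simpa using h6.abs_left), ?_,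
    fun x hx => ?_⟩
  · simpa only [Du, one_mul, mul_one] using (hD _).1 ((hJ _).1 haJ)
  obtain ⟨o, ho⟩ := h5 ((a : M0) * (d : M0)⁻¹ * x) ((hD _).2 (by simpa only [Du, one_mul] using hx))
  rw [mul_left_comm (r : M0), mul_comm] at ho
  have h8 : IsIntegral ℤ (r * x) := mul_left_cancel₀ h7 ho ▸ o.2
  rw [Nat.cast_natAbs]
  rcases abs_choice r with h | h <;> rw [h]
  exacts [h8, by rw [Int.cast_neg, neg_mul]; exact h8.neg]

omit [NumberField M0] in
theorem int_eq {x y : M0} (h : IsIntegral ℤ x) (e : x = y) : IsIntegral ℤ y := e ▸ h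

omit [NumberField M0] in
theorem int_n (z : ℕ) : IsIntegral ℤ (z : M0) := by exact_mod_cast int_z (M0 := M0) z

theorem exists_co {c : M0} (hc : c ≠ 0) : ∃ (κ : Type) (_ : Fintype κ)
    (f f' : M0 ≃ₗ[ℚ] (κ → ℚ)), (∀ x y, f x ⬝ᵥ f' y = Algebra.trace ℚ M0 (c * x * y)) ∧
      (∀ x, IsZ (f x) ↔ IsIntegral ℤ x) ∧ ∀ x, IsZ (f' x) ↔ Du c x := by
  classical
  let b := integralBasis M0
  have h1 : ∀ x, IsZ (b.equivFun x) ↔ IsIntegral ℤ x := fun x => by
    refine Iff.trans ?_ ((mem_span_integralBasis M0).trans ⟨fun ⟨a, h⟩ => h ▸ a.2, fun h => ⟨⟨x, h⟩, rfl⟩⟩)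
    rw [Basis.mem_span_iff_repr_mem]
    exact forall_congr' fun i => exists_congr fun z => eq_comm
  have h2 : ∀ x y, b.equivFun x ⬝ᵥ b.traceDual.equivFun (c • y) =
      Algebra.trace ℚ M0 (c * x * y) := fun x y => by
    conv_rhs => rw [← b.sum_repr x]
    simp only [dotProduct, Basis.equivFun_apply, Basis.traceDual_repr_apply, Algebra.traceForm_apply,
      Finset.mul_sum, Finset.sum_mul, map_sum, mul_smul_comm, smul_mul_assoc, map_smul, smul_eq_mul]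
    exact Finset.sum_congr rfl fun i _ => by rw [mul_right_comm]
  refine ⟨_, inferInstance, b.equivFun, ((LinearEquiv.smulOfNeZero M0 M0 c hc).restrictScalars ℚ).trans
    b.traceDual.equivFun, h2, h1, fun x => ⟨fun h a ha => ?_, fun h i => ?_⟩⟩
  · choose u hu using (h1 a).2 ha
    choose v hv using h
    refine ⟨∑ i, u i * v i, ?_⟩
    rw [mul_right_comm, ← h2, Int.cast_sum]
    exact Finset.sum_congr rfl fun i _ => by rw [hu, Int.cast_mul, ← hv]; rfl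
  · obtain ⟨z, hz⟩ := h (b i) ((h1 _).1 fun j => by
      rw [Basis.equivFun_self]; split_ifs; exacts [⟨1, by simp⟩, ⟨0, by simp⟩])
    exact ⟨z, (b.traceDual_repr_apply _ i).trans hz⟩

theorem zar {c : M0} {n : ℕ} (h1 : Du c 1) (h2 : ∀ x, Du c x → IsIntegral ℤ (n * x)) {a b : ℤ}
    (h : (n : ℤ) ∣ a ^ 2 + b ^ 2 - -1) {x0 x1 x2 x3 : M0} (d0 : Du c x0) (d1 : Du c x1)
    (i2 : IsIntegral ℤ (x2 - (a * x0 + b * x1))) (i3 : IsIntegral ℤ (x3 - (b * x0 - a * x1))) :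
    Du c x2 ∧ Du c x3 ∧ IsIntegral ℤ (x0 + (a * x2 + b * x3)) ∧
      IsIntegral ℤ (x1 + (b * x2 - a * x3)) := by
  obtain ⟨t, ht⟩ := h
  have e : (a : M0) ^ 2 + b ^ 2 + 1 = n * t := by exact_mod_cast ht
  refine ⟨?_, ?_, ?_, ?_⟩
  · convert (h1.mul i2).add ((d0.mul (int_z a)).add (d1.mul (int_z b))) using 1; ring
  · convert (h1.mul i3).add ((d0.mul (int_z b)).add (d1.mul (int_z (-a)))) using 1; push_cast; ring
  · exact int_eq (((int_z t).mul (h2 _ d0)).add (((int_z a).mul i2).add ((int_z b).mul i3)))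
      (by linear_combination (-x0) * e)
  · exact int_eq (((int_z t).mul (h2 _ d1)).add (((int_z b).mul i2).sub ((int_z a).mul i3)))
      (by linear_combination (-x1) * e)

/-- a self dual lattice with coordinates -/
structure Lat (c : M0) (n g : ℕ) (F F' : (Fin 4 → M0) ≃ₗ[ℚ] (Fin g → ℚ)) : Prop where
  pair : ∀ x y, F x ⬝ᵥ F' y = Algebra.trace ℚ M0 (c * (x ⬝ᵥ y))
  dual : ∀ x, IsZ (F x) ↔ IsZ (F' x)
  smul : ∀ m : M0, IsIntegral ℤ m → ∀ x, IsZ (F x) → IsZ (F (m • x))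
  le : ∀ x, (∀ i, IsIntegral ℤ (x i)) → IsZ (F x)
  ge : ∀ x, IsZ (F x) → ∀ i, IsIntegral ℤ (n * x i)

theorem exists_lat (M0 : Type) [Field M0] [NumberField M0] {N : ℕ} (hN : 0 < N) (h2 : 2 ∣ N) :
    ∃ (c : M0) (n g : ℕ) (F F' : (Fin 4 → M0) ≃ₗ[ℚ] (Fin g → ℚ)), c ≠ 0 ∧ n.Coprime N ∧
      Lat c n g F F' := by
  obtain ⟨c, n, hc, hn, h3, h4⟩ := exists_c0 M0 (Nat.le_of_dvd hN h2)
  obtain ⟨κ, _, f, f', k1, k2, k3⟩ := exists_co hc
  obtain ⟨a, b, hab⟩ := sq2 (n := n) (Nat.coprime_two_right.1 (hn.coprime_dvd_right h2))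
    (c := -1) isCoprime_one_left.neg_left
  let S : Matrix (Fin 4) (Fin 4) M0 := !![1, 0, 0, 0; 0, 1, 0, 0; -a, -b, 1, 0; -b, a, 0, 1]
  let T : Matrix (Fin 4) (Fin 4) M0 := !![1, 0, 0, 0; 0, 1, 0, 0; a, b, 1, 0; b, -a, 0, 1]
  have hST : S * T = 1 := by
    ext i j; fin_cases i <;> fin_cases j <;> simp [S, T, mul_apply, Fin.sum_univ_four]
  have hTS := mul_eq_one_comm.1 hST
  let R : ((Fin 4) → κ → ℚ) ≃ₗ[ℚ] (Fin (Fintype.card (Fin 4 × κ)) → ℚ) :=
    (LinearEquiv.curry ℚ ℚ (Fin 4) κ).symm.trans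
      (LinearEquiv.funCongrLeft ℚ ℚ (Fintype.equivFin _).symm)
  have r1 : ∀ v, IsZ (R v) ↔ ∀ k, IsZ (v k) := fun v =>
    ((Fintype.equivFin (Fin 4 × κ)).symm.forall_congr_right
      (q := fun p : Fin 4 × κ => ∃ z : ℤ, v p.1 p.2 = z)).trans Prod.forall
  have r2 : ∀ v w, R v ⬝ᵥ R w = ∑ k, v k ⬝ᵥ w k := fun v w =>
    ((Fintype.equivFin (Fin 4 × κ)).symm.sum_comp fun p => v p.1 p.2 * w p.1 p.2).trans
      (Fintype.sum_prod_type _)
  let F := (((toLin'OfInv hTS hST).restrictScalars ℚ).trans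
    (LinearEquiv.piCongrRight ![f', f', f, f])).trans R
  let F' := (((toLin'OfInv (M := Sᵀ) (M' := Tᵀ) (by rw [← transpose_mul, hTS, transpose_one])
    (by rw [← transpose_mul, hST, transpose_one])).restrictScalars ℚ).trans
      (LinearEquiv.piCongrRight ![f, f, f', f'])).trans R
  have hF : ∀ x, F x = R ![f' (x 0), f' (x 1), f (x 2 - (a * x 0 + b * x 1)),
      f (x 3 - (b * x 0 - a * x 1))] := fun x => congrArg R <| funext fun k => by
    change ![f', f', f, f] k ((S *ᵥ x) k) = _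
    fin_cases k <;> refine congrArg _ ?_ <;> simp [S, mulVec, dotProduct, Fin.sum_univ_four] <;> ring
  have hF' : ∀ x, F' x = R ![f (x 0 + (a * x 2 + b * x 3)), f (x 1 + (b * x 2 - a * x 3)),
      f' (x 2), f' (x 3)] := fun x => congrArg R <| funext fun k => by
    change ![f, f, f', f'] k ((Tᵀ *ᵥ x) k) = _
    fin_cases k <;> refine congrArg _ ?_ <;> simp [T, mulVec, dotProduct, Fin.sum_univ_four] <;> ring
  have z : ∀ x, IsZ (F x) ↔ Du c (x 0) ∧ Du c (x 1) ∧ IsIntegral ℤ (x 2 - (a * x 0 + b * x 1)) ∧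
      IsIntegral ℤ (x 3 - (b * x 0 - a * x 1)) := fun x => by
    simp [hF, r1, Fin.forall_fin_succ, k2, k3, -map_sub, -map_add]
  have z' : ∀ x, IsZ (F' x) ↔ IsIntegral ℤ (x 0 + (a * x 2 + b * x 3)) ∧
      IsIntegral ℤ (x 1 + (b * x 2 - a * x 3)) ∧ Du c (x 2) ∧ Du c (x 3) := fun x => by
    simp [hF', r1, Fin.forall_fin_succ, k2, k3, -map_sub, -map_add]
  refine ⟨c, n, _, F, F', hc, hn, fun x y => ?_, fun x => ?_, fun m hm x => ?_, fun x hx => ?_,
    fun x hx i => ?_⟩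
  · rw [hF, hF', r2]
    simp only [Fin.sum_univ_four, cons_val_zero, cons_val_one, cons_val, dotProduct_comm (f' _), k1,
      ← map_add]
    congr 1
    simp only [dotProduct, Fin.sum_univ_four]
    ring
  · rw [z, z']
    refine ⟨fun ⟨d0, d1, i2, i3⟩ => ?_, fun ⟨i0, i1, d2, d3⟩ => ?_⟩
    · obtain ⟨e1, e2, e3, e4⟩ := zar h3 h4 hab d0 d1 i2 i3
      exact ⟨e3, e4, e1, e2⟩
    · obtain ⟨e1, e2, e3, e4⟩ := zar h3 h4 (a := -a) (b := -b) (by simpa using hab) d2 d3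
        (x2 := x 0) (x3 := x 1) (int_eq i0 (by push_cast; ring))
        (int_eq i1 (by push_cast; ring))
      exact ⟨e1, e2, int_eq e3 (by push_cast; ring), int_eq e4 (by push_cast; ring)⟩
  · rw [z, z]
    simp only [Pi.smul_apply, smul_eq_mul]
    exact fun ⟨d0, d1, i2, i3⟩ => ⟨d0.mul hm, d1.mul hm,
      int_eq (hm.mul i2) (by ring), int_eq (hm.mul i3) (by ring)⟩
  · exact (z x).2 ⟨by simpa using h3.mul (hx 0), by simpa using h3.mul (hx 1),
      (hx 2).sub (((int_z a).mul (hx 0)).add ((int_z b).mul (hx 1))),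
      (hx 3).sub (((int_z b).mul (hx 0)).sub ((int_z a).mul (hx 1)))⟩
  · obtain ⟨d0, d1, i2, i3⟩ := (z x).1 hx
    obtain ⟨e1, e2, -⟩ := zar h3 h4 hab d0 d1 i2 i3
    fin_cases i
    exacts [h4 _ d0, h4 _ d1, h4 _ e1, h4 _ e2]

end Vale.Agent.P022K.PM.Dat
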