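import Vale.Agent.P022K.PM.Dat1
import Mathlib.Algebra.Quaternion
import Mathlib.Algebra.Module.LinearMap.Rat
import Mathlib.LinearAlgebra.SymplecticGroup

/-!
# P022K / PM / Dat2: the symplectic basis of the quaternion algebra (helper95)
-/

namespace Vale.Agent.P022K.PM.Dat

open NumberField Matrix Module Quaternion

noncomputable section

/-- the raw data -/
structure Pre (M0 M : Type) [Field M0] [NumberField M0] [Field M] [NumberField M]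
    [Algebra M0 M] where
  J1 : Matrix (Fin 4) (Fin 4) M0
  J2 : Matrix (Fin 4) (Fin 4) M0
  K : Matrix (Fin 4) (Fin 4) M0
  s : M0
  β : M0
  κ : M0
  T : Tri J1 J2 K s β κ
  ω : M
  hω : ω ^ 2 = algebraMap M0 M s
  gen : ∀ y, ∃ a b : M0, y = algebraMap M0 M a + algebraMap M0 M b * ω
  tr : ∀ a b : M0, Algebra.trace M0 M (algebraMap M0 M a + algebraMap M0 M b * ω) = 2 * a
  ρ : M →ₐ[M0] Matrix (Fin 4) (Fin 4) M0
  hρ : ρ ω = J1
  ns : ∀ y : M, y ^ 2 ≠ algebraMap M0 M β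
  s0 : s ≠ 0
  κ0 : κ ≠ 0
  r3 : M0
  h3 : r3 ^ 2 = 3
  c : M0
  n : ℕ
  g : ℕ
  F : (Fin 4 → M0) ≃ₗ[ℚ] (Fin g → ℚ)
  F' : (Fin 4 → M0) ≃ₗ[ℚ] (Fin g → ℚ)
  hc : c ≠ 0
  L : Lat c n g F F'

namespace Pre

variable {M0 M : Type} [Field M0] [NumberField M0] [Field M] [NumberField M] [Algebra M0 M]
  (P : Pre M0 M)

/-- `β` in `M` -/
def b : M := algebraMap M0 M P.β

theorem β0 : P.β ≠ 0 := fun h => P.ns 0 (by simp [h])

theorem nrm {x y : M} (h : x ^ 2 - P.b * y ^ 2 = 0) : x = 0 ∧ y = 0 := by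
  by_cases hy : y = 0
  · simpa [hy] using h
  · exact absurd (by rw [div_pow, div_eq_iff (pow_ne_zero _ hy)]; exact sub_eq_zero.1 h)
      (P.ns (x / y))

theorem ρ_eq (a b : M0) :
    P.ρ (algebraMap M0 M a + algebraMap M0 M b * P.ω) = a • 1 + b • P.J1 := by
  rw [map_add, map_mul, AlgHom.commutes, AlgHom.commutes, P.hρ, ← Algebra.smul_def,
    Algebra.algebraMap_eq_smul_one]

theorem ρ_tr (y : M) : (P.ρ y)ᵀ = P.ρ y := by
  obtain ⟨a, b, rfl⟩ := P.gen y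
  rw [ρ_eq, transpose_add, transpose_smul, transpose_smul, transpose_one, P.T.t1]

theorem ρ_J2 (y : M) : P.J2 * P.ρ y = P.ρ y * P.J2 := by
  obtain ⟨a, b, rfl⟩ := P.gen y
  simp [-map_add, ρ_eq, mul_add, add_mul, P.T.c12]

theorem ρ_K (y : M) : P.K * P.ρ y = P.ρ y * P.K := by
  obtain ⟨a, b, rfl⟩ := P.gen y
  simp [-map_add, ρ_eq, mul_add, add_mul, P.T.c13]

/-- the matrix of `x + y j` -/
def Mx (x y : M) : Matrix (Fin 4) (Fin 4) M0 := P.ρ x + P.ρ y * P.J2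

theorem Mx_tr (x y : M) : (P.Mx x y)ᵀ = P.Mx x y := by
  rw [Mx, transpose_add, transpose_mul, ρ_tr, ρ_tr, P.T.t2, ρ_J2]

theorem Mx_mul (x y z w : M) :
    P.Mx x y * P.Mx z w = P.Mx (x * z + P.b * y * w) (x * w + y * z) := by
  have e : P.ρ P.b = P.J2 * P.J2 := by
    rw [b, AlgHom.commutes, P.T.s2, Algebra.algebraMap_eq_smul_one]
  simp only [Mx, mul_add, add_mul, map_add, mul_assoc, P.ρ_J2, ← mul_assoc P.J2]
  rw [← e]
  simp only [← mul_assoc, ← map_mul]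
  rw [mul_comm (y * w), ← mul_assoc]
  abel

theorem K_Mx (x y : M) : P.K * P.Mx x y = P.Mx x (-y) * P.K := by
  simp only [Mx, mul_add, add_mul, map_neg, neg_mul, ← mul_assoc, ρ_K]
  rw [mul_assoc, P.T.c23, mul_neg, mul_assoc]

/-- the identification of `E'` with `M0 ^ 4` -/
def θ : M × M →ₗ[M0] (Fin 4 → M0) where
  toFun X := P.Mx X.1 X.2 *ᵥ 1
  map_add' X Y := by simp only [Mx, Prod.fst_add, Prod.snd_add, map_add, add_mul, add_mulVec]; abel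
  map_smul' a X := by simp [Mx, ← smul_mulVec]

theorem θ_ap (x y : M) : P.θ (x, y) = P.Mx x y *ᵥ 1 := rfl

theorem Mx_θ (x y z w : M) :
    P.Mx x y *ᵥ P.θ (z, w) = P.θ (x * z + P.b * y * w, x * w + y * z) := by
  rw [θ_ap, mulVec_mulVec, Mx_mul, θ_ap]

theorem θ_alg (a : M0) : P.θ (algebraMap M0 M a, 0) = a • 1 := by
  simp [θ_ap, Mx, Algebra.algebraMap_eq_smul_one, smul_mulVec]

theorem θ_bij : Function.Bijective P.θ := by
  have h1 : Function.Injective P.θ := (injective_iff_map_eq_zero _).2 fun ⟨x, y⟩ h => by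
    by_contra h2
    have h3 : x ^ 2 - P.b * y ^ 2 ≠ 0 := fun e => h2 (Prod.ext (P.nrm e).1 (P.nrm e).2)
    have h4 := P.Mx_θ (x / (x ^ 2 - P.b * y ^ 2)) (-y / (x ^ 2 - P.b * y ^ 2)) x y
    rw [h, mulVec_zero, show x / (x ^ 2 - P.b * y ^ 2) * x + P.b * (-y / (x ^ 2 - P.b * y ^ 2)) * y =
      algebraMap M0 M 1 by rw [map_one]; field_simp; ring, show x / (x ^ 2 - P.b * y ^ 2) * y +
      -y / (x ^ 2 - P.b * y ^ 2) * x = 0 by ring, θ_alg] at h4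
    simpa using congrFun h4 0
  have h2 : finrank M0 M = 2 := by
    have := P.tr 1 0
    rw [map_zero, zero_mul, add_zero, Algebra.trace_algebraMap, nsmul_eq_mul, mul_one, mul_one] at this
    exact_mod_cast this
  exact ⟨h1, (LinearMap.injective_iff_surjective_of_finrank_eq_finrank (by simp [h2])).1 h1⟩

theorem dot_θ (x y z w : M) :
    P.θ (x, y) ⬝ᵥ P.θ (z, w) = 1 ⬝ᵥ P.θ (x * z + P.b * y * w, x * w + y * z) := by
  rw [← Mx_θ, dotProduct_mulVec, ← mulVec_transpose, Mx_tr, θ_ap]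

/-- the first coordinate of `δ` -/
def η0 : M := algebraMap M0 M (P.c / 2) * (4 + algebraMap M0 M (1 ⬝ᵥ P.J1 *ᵥ 1 / P.s) * P.ω)
/-- the second coordinate of `δ` -/
def η1 : M := algebraMap M0 M (P.c / (2 * P.β)) * (algebraMap M0 M (1 ⬝ᵥ P.J2 *ᵥ 1) +
  algebraMap M0 M (1 ⬝ᵥ (P.J1 * P.J2) *ᵥ 1 / P.s) * P.ω)

theorem tr_η (x y : M) : Algebra.trace M0 M (2 * (P.η0 * x + P.b * P.η1 * y)) =
    2 * (P.c * (1 ⬝ᵥ P.θ (x, y))) := by
  obtain ⟨a, a', rfl⟩ := P.gen x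
  obtain ⟨d, d', rfl⟩ := P.gen y
  have hs : algebraMap M0 M P.s ≠ 0 := by simpa using P.s0
  have hb : algebraMap M0 M P.β ≠ 0 := by simpa using P.β0
  rw [θ_ap, Mx, ρ_eq, ρ_eq, ← P.tr _ (P.c * (4 * a' + 1 ⬝ᵥ P.J1 *ᵥ 1 / P.s * a +
    1 ⬝ᵥ P.J2 *ᵥ 1 * d' + 1 ⬝ᵥ (P.J1 * P.J2) *ᵥ 1 / P.s * d))]
  congr 1
  simp only [η0, η1, b, add_mul, smul_mul_assoc, one_mul, add_mulVec, smul_mulVec, dotProduct_add,
    dotProduct_smul, smul_eq_mul, one_mulVec, map_mul, map_add, map_div₀, map_ofNat,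
    show (1 : Fin 4 → M0) ⬝ᵥ 1 = 4 by simp [dotProduct]]
  rw [← P.hω] at hs ⊢
  have := pow_ne_zero_iff two_ne_zero |>.1 hs
  field_simp
  ring

theorem η0_ne : P.η0 ≠ 0 := fun h => by
  have := P.tr_η (algebraMap M0 M 1) 0
  rw [h, θ_alg] at this
  simp [dotProduct, P.hc] at this

theorem nsq : ∃ t, (P.η0 ^ 2 - P.b * P.η1 ^ 2) * algebraMap M0 M P.κ = t ^ 2 := by
  obtain ⟨⟨k, l⟩, h⟩ := P.θ_bij.2 (P.K *ᵥ 1)
  have h1 : k * k + P.b * -l * l = algebraMap M0 M P.κ := by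
    refine congrArg Prod.fst (P.θ_bij.1 (a₁ := (_, k * l + -l * k)) (a₂ := (_, 0)) ?_)
    rw [← Mx_θ, h, mulVec_mulVec, ← K_Mx, ← mulVec_mulVec, ← θ_ap, h, mulVec_mulVec, P.T.s3, θ_alg,
      smul_mulVec, one_mulVec]
  have h2 : P.η0 * l + P.η1 * k = 0 := by
    by_contra h2
    have hb : P.b ≠ 0 := by simpa [b] using P.β0
    obtain ⟨z, hz⟩ : ∃ z, z * (P.b * (P.η0 * l + P.η1 * k)) = 1 := ⟨_, inv_mul_cancel₀ (mul_ne_zero hb h2)⟩
    have h3 := P.tr_η (0 * k + P.b * z * l) (0 * l + z * k)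
    have h4 : P.θ (0, z) ⬝ᵥ P.K *ᵥ 1 = -(P.θ (0, z) ⬝ᵥ P.K *ᵥ 1) := by
      conv_lhs => rw [dotProduct_mulVec, ← mulVec_transpose, P.T.t3, θ_ap, mulVec_mulVec, K_Mx,
        ← mulVec_mulVec, dotProduct_comm, dotProduct_mulVec, ← mulVec_transpose, Mx_tr, ← θ_ap]
      rw [← neg_dotProduct, ← map_neg, Prod.neg_mk, neg_zero]
    rw [← dot_θ, h, self_eq_neg.1 h4, show 2 * (P.η0 * (0 * k + P.b * z * l) +
      P.b * P.η1 * (0 * l + z * k)) = algebraMap M0 M 2 + algebraMap M0 M 0 * P.ω by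
        rw [map_ofNat, map_zero]; linear_combination 2 * hz, P.tr] at h3
    norm_num at h3
  exact ⟨P.η0 * k + P.b * P.η1 * l, by
    rw [← h1]; linear_combination (-P.b * (P.η0 * l + P.η1 * k)) * h2⟩

theorem neg (φ : M →+* ℝ) : φ P.b * φ (-P.η1) ^ 2 < φ P.η0 ^ 2 := by
  obtain ⟨t, h⟩ := P.nsq
  have h3 : φ (P.η0 ^ 2 - P.b * P.η1 ^ 2) ≠ 0 := (map_ne_zero φ).2 fun e => P.η0_ne (P.nrm e).1
  have h4 : 0 < φ (algebraMap M0 M P.κ) := (P.T.p3 (φ.comp (algebraMap M0 M))).lt_of_ne'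
    (by simpa using P.κ0)
  have h5 : φ (P.η0 ^ 2 - P.b * P.η1 ^ 2) * φ (algebraMap M0 M P.κ) = φ t ^ 2 := by
    rw [← map_mul, ← map_pow, h]
  have h6 := (nonneg_of_mul_nonneg_left (h5 ▸ sq_nonneg _) h4).lt_of_ne' h3
  simpa using h6

theorem sgn (φ : M →+* ℝ) : 0 < φ (algebraMap M0 M P.c * P.η0) := by
  let f := φ.comp (algebraMap M0 M)
  have h1 : φ P.ω ^ 2 = f P.s := by rw [← map_pow, P.hω]; rfl
  have hs : f P.s ≠ 0 := by simpa using P.s0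
  have h0 : φ P.ω ≠ 0 := fun h => hs (by rw [← h1, h]; simp)
  let A := P.J1.map f + φ P.ω • 1
  have h2 : A * A = (2 * φ P.ω) • A := by
    have : P.J1.map f * P.J1.map f = φ P.ω ^ 2 • 1 := by
      rw [← Matrix.map_mul, P.T.s1, h1]; ext i j; simp [one_apply, apply_ite f]
    simp only [A, mul_add, add_mul, this, mul_smul_comm, smul_mul_assoc, mul_one, one_mul]
    module
  have h3 : Aᵀ = A := by
    rw [transpose_add, ← transpose_map, P.T.t1, transpose_smul, transpose_one]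
  have h4 : 0 ≤ (A *ᵥ 1) ⬝ᵥ (A *ᵥ 1) := Finset.sum_nonneg fun i _ => mul_self_nonneg _
  rw [dotProduct_mulVec, ← mulVec_transpose, h3, mulVec_mulVec, h2, smul_mulVec, smul_dotProduct,
    add_mulVec, add_dotProduct, smul_mulVec, one_mulVec, smul_dotProduct,
    show (P.J1.map f *ᵥ 1) ⬝ᵥ 1 = f (1 ⬝ᵥ P.J1 *ᵥ 1) by simp [dotProduct, mulVec],
    show (1 : Fin 4 → ℝ) ⬝ᵥ 1 = 4 by simp [dotProduct]] at h4
  refine lt_of_le_of_ne ?_ ((map_ne_zero φ).2 (mul_ne_zero (by simpa using P.hc) P.η0_ne)).symm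
  have e : φ (algebraMap M0 M P.c * P.η0) = f P.c ^ 2 / (4 * φ P.ω ^ 2) *
      ((2 * φ P.ω) • (f (1 ⬝ᵥ P.J1 *ᵥ 1) + φ P.ω • 4)) := by
    simp only [η0, map_mul, map_add, map_div₀, map_ofNat, smul_eq_mul]
    change f _ * (f _ / 2 * (4 + f _ / f _ * _)) = _
    rw [← h1]
    field_simp
    ring
  rw [e]
  positivity

/-- the coordinates with respect to `1`, `ζ` -/
def X0 (x : ℍ[M,-1,P.b]) : Fin 4 → M0 :=
  P.θ (x.re - algebraMap M0 M P.r3 * x.imI, x.imJ - algebraMap M0 M P.r3 * x.imK)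
/-- the coordinates with respect to `1`, `ζ` -/
def X1 (x : ℍ[M,-1,P.b]) : Fin 4 → M0 := P.θ (2 * x.imI, 2 * x.imK)

/-- the basis -/
def e0 : ℍ[M,-1,P.b] →ₗ[ℚ] (Fin P.g ⊕ Fin P.g → ℚ) :=
  AddMonoidHom.toRatLinearMap (AddMonoidHom.mk' (fun x => Sum.elim (P.F (P.X0 x)) (P.F' (P.X1 x)))
    fun x y => by
      rw [← Sum.elim_add_add, ← map_add, ← map_add, X0, X0, X0, X1, X1, X1, ← map_add, ← map_add]
      congr 3 <;> ext <;> simp <;> ring)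

theorem e0_bij : Function.Bijective P.e0 := by
  refine ⟨(injective_iff_map_eq_zero _).2 fun x h => ?_, fun v => ?_⟩
  · have h0 : P.F (P.X0 x) = 0 := funext fun i => congrFun h (.inl i)
    have h1 : P.F' (P.X1 x) = 0 := funext fun i => congrFun h (.inr i)
    rw [LinearEquiv.map_eq_zero_iff, X0, map_eq_zero_iff _ P.θ_bij.1] at h0
    rw [LinearEquiv.map_eq_zero_iff, X1, map_eq_zero_iff _ P.θ_bij.1] at h1
    simp only [Prod.mk_eq_zero, mul_eq_zero, two_ne_zero, false_or] at h0 h1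
    simp only [h1, mul_zero, sub_zero] at h0
    exact QuaternionAlgebra.ext h0.1 h1.1 h0.2 h1.2
  · obtain ⟨⟨x, y⟩, h0⟩ := P.θ_bij.2 (P.F.symm (v ∘ .inl))
    obtain ⟨⟨z, w⟩, h1⟩ := P.θ_bij.2 (P.F'.symm (v ∘ .inr))
    refine ⟨⟨x + algebraMap M0 M P.r3 * (z / 2), z / 2, y + algebraMap M0 M P.r3 * (w / 2), w / 2⟩, ?_⟩
    change Sum.elim (P.F (P.θ _)) (P.F' (P.θ _)) = v
    simp only [add_sub_cancel_right, mul_div_cancel₀ _ (two_ne_zero' M), h0, h1,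
      LinearEquiv.apply_symm_apply, Sum.elim_comp_inl_inr]

/-- the basis -/
def e : ℍ[M,-1,P.b] ≃ₗ[ℚ] (Fin P.g ⊕ Fin P.g → ℚ) := LinearEquiv.ofBijective P.e0 P.e0_bij

theorem e_ap (x : ℍ[M,-1,P.b]) : P.e x = Sum.elim (P.F (P.X0 x)) (P.F' (P.X1 x)) := rfl

theorem sym (x y : ℍ[M,-1,P.b]) : P.e x ⬝ᵥ J (Fin P.g) ℚ *ᵥ P.e y =
    Algebra.trace ℚ M (2 * ((⟨0, P.η0, 0, -P.η1⟩ : ℍ[M,-1,P.b]) * star x * y).re) := by
  rw [e_ap, e_ap, J, fromBlocks_mulVec, Sum.elim_comp_inl, Sum.elim_comp_inr, zero_mulVec,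
    zero_mulVec, neg_mulVec, one_mulVec, one_mulVec, zero_add, add_zero, sumElim_dotProduct_sumElim,
    dotProduct_neg, dotProduct_comm (P.F' _), P.L.pair, P.L.pair, ← map_neg, ← map_add, X0, X0, X1,
    X1, dot_θ, dot_θ, ← mul_neg, ← mul_add, ← dotProduct_neg, ← dotProduct_add, ← map_neg, ← map_add,
    ← Algebra.trace_trace (S := M0) (T := M)]
  refine congrArg _ (mul_left_cancel₀ (two_ne_zero' M0) ?_)
  rw [Prod.neg_mk, Prod.mk_add_mk, ← tr_η, ← smul_eq_mul (2 : M0), ← map_smul, Algebra.smul_def,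
    map_ofNat]
  congr 1
  simp
  ring

theorem isZ_e (x : ℍ[M,-1,P.b]) :
    IsZ (P.e x) ↔ IsZ (P.F (P.X0 x)) ∧ IsZ (P.F (P.X1 x)) := by
  rw [P.L.dual (P.X1 x)]
  exact Sum.forall

end Pre

end

end Vale.Agent.P022K.PM.Dat
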