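import Mathlib.FieldTheory.Finite.Basic
import Mathlib.RingTheory.Artinian.Ring
import Mathlib.NumberTheory.Padics.ProperSpace
import Mathlib.NumberTheory.NumberField.Basic
import Mathlib.RingTheory.Ideal.Norm.AbsNorm
import Mathlib.RingTheory.Ideal.Quotient.HasFiniteQuotients
import Mathlib.Topology.Instances.Matrix
import Mathlib.Analysis.SpecificLimits.Normed

/-!
# P022K / PM / Dat5: local units are norms (helper95)
-/

namespace Vale.Agent.P022K.PM.Dat

open NumberField Module Polynomial Filter Topology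

noncomputable section

theorem two_sq {k : Type} [Field k] [Finite k] (v : k) : ∃ a b, v = a ^ 2 + b ^ 2 := by
  have := Fintype.ofFinite k
  by_cases h : ringChar k = 2
  · obtain ⟨a, rfl⟩ := FiniteField.isSquare_of_char_two h v
    exact ⟨a, 0, by ring⟩
  · obtain ⟨a, b, e⟩ := FiniteField.exists_root_sum_quadratic (f := X ^ 2) (g := X ^ 2 - C v)
      (degree_X_pow 2) (degree_X_pow_sub_C two_pos v) (FiniteField.odd_card_of_char_ne_two h)
    exact ⟨a, b, by simp at e; linear_combination -e⟩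

theorem fin_norm {Q : Type} [CommRing Q] [Finite Q] {v : Q} (hv : IsUnit v) :
    ∃ a b t, v = (a ^ 2 + b ^ 2) * (1 + t + t ^ 2) := by
  have h : ∀ I : MaximalSpectrum Q, ∃ a b : Q, v - (a ^ 2 + b ^ 2) ∈ I.asIdeal := fun I => by
    have := I.isMaximal
    let := Ideal.Quotient.field I.asIdeal
    have : Finite (Q ⧸ I.asIdeal) := .of_surjective _ Ideal.Quotient.mk_surjective
    obtain ⟨a, b, e⟩ := two_sq (Ideal.Quotient.mk I.asIdeal v)
    obtain ⟨a, rfl⟩ := Ideal.Quotient.mk_surjective a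
    obtain ⟨b, rfl⟩ := Ideal.Quotient.mk_surjective b
    exact ⟨a, b, Ideal.Quotient.eq.1 (by simpa using e)⟩
  choose a b h using h
  have hc : Pairwise (Function.onFun IsCoprime MaximalSpectrum.asIdeal) :=
    fun (I : MaximalSpectrum Q) _ => I.isCoprime_of_ne
  obtain ⟨A, hA⟩ := Ideal.exists_forall_sub_mem_ideal hc a
  obtain ⟨B, hB⟩ := Ideal.exists_forall_sub_mem_ideal hc b
  have h1 : v - (A ^ 2 + B ^ 2) ∈ nilradical Q := by
    rw [IsArtinianRing.nilradical_eq_iInf, Ideal.mem_iInf]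
    intro I
    rw [show v - (A ^ 2 + B ^ 2) = v - (a I ^ 2 + b I ^ 2) - (A + a I) * (A - a I) -
      (B + b I) * (B - b I) by ring]
    exact sub_mem (sub_mem (h I) (Ideal.mul_mem_left _ _ (hA I))) (Ideal.mul_mem_left _ _ (hB I))
  obtain ⟨w, hw⟩ : ∃ w, (A ^ 2 + B ^ 2) * w = 1 := by
    have := (mem_nilradical.1 (neg_mem h1)).isUnit_add_left_of_commute hv (.all _ _)
    exact isUnit_iff_exists_inv.1 (by simpa using this)
  let f : nilradical Q → nilradical Q := fun t => ⟨(1 + t) * t, Ideal.mul_mem_left _ _ t.2⟩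
  have hf : Function.Injective f := fun s t e => Subtype.ext <| by
    have h2 := (mem_nilradical.1 (add_mem s.2 t.2)).isUnit_one_add
    refine sub_eq_zero.1 (h2.mul_right_eq_zero.1 ?_)
    linear_combination congrArg Subtype.val e
  obtain ⟨t, ht⟩ := Finite.surjective_of_injective hf ⟨_, Ideal.mul_mem_left _ w h1⟩
  have ht' : (1 + t.1) * t.1 = w * (v - (A ^ 2 + B ^ 2)) := congrArg Subtype.val ht
  exact ⟨A, B, t, by linear_combination -(A ^ 2 + B ^ 2) * ht' - (v - (A ^ 2 + B ^ 2)) * hw⟩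

theorem apx_norm {F : Type} [Field F] [NumberField F] {v : 𝓞 F} {r : ℕ} (hr : r ≠ 0)
    (hv : IsCoprime v r) (k : ℕ) : ∃ a b t w α β : 𝓞 F,
      (a ^ 2 + b ^ 2) * (1 + t + t ^ 2) = v + r ^ k * α ∧ v * w = 1 + r ^ k * β := by
  obtain ⟨w, β, h⟩ := hv.pow_right (n := k)
  let I : Ideal (𝓞 F) := Ideal.span {(r : 𝓞 F) ^ k}
  have : Finite (𝓞 F ⧸ I) := Ring.HasFiniteQuotients.finiteQuotient (by
    rw [Ne, Ideal.span_singleton_eq_bot]; exact pow_ne_zero _ (Nat.cast_ne_zero.2 hr))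
  obtain ⟨a, b, t, e⟩ := fin_norm (v := Ideal.Quotient.mk I v) (.of_mul_eq_one (Ideal.Quotient.mk I w)
    (by rw [← map_mul, ← map_one (Ideal.Quotient.mk I), Ideal.Quotient.eq, Ideal.mem_span_singleton]
        exact ⟨-β, by linear_combination h⟩))
  obtain ⟨a, rfl⟩ := Ideal.Quotient.mk_surjective a
  obtain ⟨b, rfl⟩ := Ideal.Quotient.mk_surjective b
  obtain ⟨t, rfl⟩ := Ideal.Quotient.mk_surjective t
  obtain ⟨α, h1⟩ := Ideal.mem_span_singleton.1 (Ideal.Quotient.eq.1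
    (show Ideal.Quotient.mk I ((a ^ 2 + b ^ 2) * (1 + t + t ^ 2)) = Ideal.Quotient.mk I v by
      simpa using e.symm))
  exact ⟨a, b, t, w, α, -β, by linear_combination h1, by linear_combination h⟩

theorem cpt {S ι m : Type} [CommRing S] [Fintype ι] [Fintype m] [DecidableEq m] (b : Basis ι ℤ S)
    {r : ℕ} [Fact r.Prime] (Λ Λ' : S →+* Matrix m m ℚ_[r]) (v : S)
    (h : ∀ k : ℕ, ∃ z z' α β : S, Λ' z * Λ z = Λ (v + r ^ k * α) ∧ z * z' = 1 + r ^ k * β) :
    ∃ x x' : ι → ℤ_[r], (∑ i, (x i : ℚ_[r]) • Λ' (b i)) * ∑ i, (x i : ℚ_[r]) • Λ (b i) = Λ v ∧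
      (∑ i, (x i : ℚ_[r]) • Λ (b i)) * ∑ i, (x' i : ℚ_[r]) • Λ (b i) = 1 := by
  let T (Λ : S →+* Matrix m m ℚ_[r]) (x : ι → ℤ_[r]) := ∑ i, (x i : ℚ_[r]) • Λ (b i)
  have hT : ∀ Λ z, T Λ (fun i => b.repr z i) = Λ z := fun Λ z => by
    conv_rhs => rw [← b.sum_repr z, map_sum]
    simp only [T, PadicInt.coe_intCast, Int.cast_smul_eq_zsmul, map_zsmul]
  have hc : ∀ Λ (j : Fin 4), Continuous fun p : (Fin 4 → ι → ℤ_[r]) × ℤ_[r] => T Λ (p.1 j) :=
    fun Λ j => continuous_finsetSum _ fun i _ => by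
      have : Continuous fun p : (Fin 4 → ι → ℤ_[r]) × ℤ_[r] => (p.1 j i : ℚ_[r]) :=
        continuous_subtype_val.comp (f := fun p : (Fin 4 → ι → ℤ_[r]) × ℤ_[r] => p.1 j i) (by fun_prop)
      exact this.smul continuous_const
  have ht : Continuous fun p : (Fin 4 → ι → ℤ_[r]) × ℤ_[r] => (p.2 : ℚ_[r]) :=
    continuous_subtype_val.comp continuous_snd
  have hZ : IsClosed {p : (Fin 4 → ι → ℤ_[r]) × ℤ_[r] |
      T Λ' (p.1 0) * T Λ (p.1 0) = Λ v + (p.2 : ℚ_[r]) • T Λ (p.1 2) ∧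
      T Λ (p.1 0) * T Λ (p.1 1) = 1 + (p.2 : ℚ_[r]) • T Λ (p.1 3)} :=
    (isClosed_eq ((hc _ _).mul (hc _ _)) (continuous_const.add (ht.smul (hc _ _)))).inter
      (isClosed_eq ((hc _ _).mul (hc _ _)) (continuous_const.add (ht.smul (hc _ _))))
  obtain ⟨⟨x, _⟩, ⟨h1, h2⟩, rfl⟩ := (hZ.isCompact.image continuous_snd).isClosed.mem_of_tendsto
    (tendsto_pow_atTop_nhds_zero_of_norm_lt_one (x := (r : ℤ_[r]))
      (Padic.norm_p_lt_one (p := r)))
    (.of_forall fun k => by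
      obtain ⟨z, z', α, β, h1, h2⟩ := h k
      have e : ∀ y, ((r ^ k : ℤ_[r]) : ℚ_[r]) • Λ y = Λ (r ^ k * y) := fun y => by
        rw [← Nat.cast_pow, ← Nat.cast_pow, ← nsmul_eq_mul, map_nsmul, PadicInt.coe_natCast,
          Nat.cast_smul_eq_nsmul]
      refine ⟨(fun j i => b.repr (![z, z', α, β] j) i, _), ⟨?_, ?_⟩, rfl⟩ <;> simp only [hT, e]
      · exact h1.trans (map_add _ _ _)
      · exact (map_mul _ _ _).symm.trans ((congrArg Λ h2).trans (by rw [map_add, map_one]; rfl)))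
  exact ⟨x 0, x 1, by simpa using h1, by simpa using h2⟩

end

end Vale.Agent.P022K.PM.Dat
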