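import Vale.Agent.P022K.PM.TwSt
import Vale.Agent.P022K.CH.Defs
import Vale.Agent.P022K.TP.Defs

/-!
# P022K / PM: the datum, the adelic group, the representations, marked points (helper86)

`B = ℍ[M,-1,β]` acts on `V = B` on the left (`lm`) and on the right (`rm`).  `L = M(i)`,
`L0 = M0(i)`, `E' = M(j)` is the field of coefficients.
-/

set_option autoImplicit false
set_option linter.all false

open NumberField IsDedekindDomain Matrix Quaternion

noncomputable section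

namespace Vale.Agent.P022K.PM

open Vale.Agent.P022 Vale.Agent.P010MR Vale.Agent.P010MT8
open Vale.Agent.P022K.CH (Cp eps)
open Vale.Agent.P022K.TP (Af Pr am Mn chi Rel Hm La Algp)

/-- a prime number as an element of `Pr` -/
abbrev pp (p : ℕ) [h : Fact p.Prime] : Pr := ⟨p, h.out⟩

/-- the cyclotomic character -/
def cyc : GQ →* Af where
  toFun σ := chi Qb σ.toRingEquiv
  map_one' := map_one (chi Qb)
  map_mul' σ τ := map_mul (chi Qb) σ.toRingEquiv τ.toRingEquiv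

/-- the datum -/
structure QD where
  M0 : Type
  M : Type
  L0 : Type
  [f0 : Field M0]
  [n0 : NumberField M0]
  [fM : Field M]
  [nM : NumberField M]
  [fL : Field L0]
  [nL : NumberField L0]
  [aM : Algebra M0 M]
  [aL : Algebra M0 L0]
  real : IsTotallyReal M
  I : L0
  hI : I ^ 2 = -1
  gen : ∀ z : L0, ∃ x y : M0, z = algebraMap M0 L0 x + algebraMap M0 L0 y * I
  cj : L0 ≃ₐ[M0] L0
  cjI : cj I = -I
  z3 : ∃ ζ : L0, ζ ^ 2 + ζ + 1 = 0
  β : M
  pos : ∀ φ : M →+* ℝ, 0 < φ β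
  ram : ∀ p : ℕ, p.Prime → ∃ (l : ℕ) (_ : Fact l.Prime) (μ : M →+* PadicAlgCl l), l ≠ p ∧
    ∀ Y : ℍ[M,-1,β], ‖μ Y.re‖ ^ 2 ≤ ‖μ (Y * star Y).re‖
  d1 : M
  d3 : M
  neg : ∀ φ : M →+* ℝ, φ β * φ d3 ^ 2 < φ d1 ^ 2
  em : L0 →+* ℍ[M,-1,β]
  emA : ∀ x : M0, em (algebraMap M0 L0 x) = algebraMap M _ (algebraMap M0 M x)
  emI : em I = ⟨0, 1, 0, 0⟩
  g : ℕ
  e : ℍ[M,-1,β] ≃ₗ[ℚ] (Ix g → ℚ)
  sym : ∀ x y, pq (e x) (e y) =
    Algebra.trace ℚ M (2 * ((⟨0, d1, 0, d3⟩ : ℍ[M,-1,β]) * star x * y).re)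

attribute [instance] QD.f0 QD.n0 QD.fM QD.nM QD.fL QD.nL QD.aM QD.aL

namespace QD

variable (D : QD)

/-- the quaternion algebra -/
abbrev B : Type := ℍ[D.M,-1,D.β]
/-- scalars -/
def sc (m : D.M) : D.B := algebraMap D.M D.B m
/-- `i` -/
def bi : D.B := ⟨0, 1, 0, 0⟩
/-- `j` -/
def bj : D.B := ⟨0, 0, 1, 0⟩
/-- the polarisation -/
def δ : D.B := ⟨0, D.d1, 0, D.d3⟩
/-- the reduced norm -/
def nrd (b : D.B) : D.M := (b * star b).re
/-- elements of `L = M(i)` -/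
def InL (b : D.B) : Prop := b.imJ = 0 ∧ b.imK = 0
/-- the matrix of a linear map -/
def mx (f : D.B →ₗ[ℚ] D.B) : Mi D.g ℚ :=
  LinearMap.toMatrix' (D.e.toLinearMap ∘ₗ f ∘ₗ D.e.symm.toLinearMap)
/-- left multiplication -/
def lm (b : D.B) : Mi D.g ℚ := D.mx (LinearMap.mulLeft ℚ b)
/-- right multiplication -/
def rm (b : D.B) : Mi D.g ℚ := D.mx (LinearMap.mulRight ℚ b)
/-- `x ↦ j⁻¹ x j` -/
def wm : Mi D.g ℚ := D.lm (D.sc D.β⁻¹ * D.bj) * D.rm D.bj
/-- left multiplication by an element of `L0` -/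
def l0 (z : D.L0) : Mi D.g ℚ := D.lm (D.em z)
/-- the locus -/
def Loc : Set (Mc D.g) := {τ | τ ∈ Hg D.g ∧ ∀ b, Hm τ τ (D.rm b)}

/-- the conditions on an adelic matrix -/
structure At (c : Af) (s : ℤˣ) (u : Mi D.g Af) : Prop where
  sim : uᵀ * J (Fin D.g) Af * u = c • J (Fin D.g) Af
  cm : ∀ m : D.M, u * am (D.rm (D.sc m)) = am (D.rm (D.sc m)) * u
  cj : u * am (D.rm D.bj) = am (D.rm D.bj) * u
  ci : u * am (D.rm D.bi) = ((s : ℤ) : Af) • (am (D.rm D.bi) * u)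

variable {D}

theorem At.mul {c c' : Af} {s s' : ℤˣ} {u u' : Mi D.g Af}
    (h : D.At c s u) (h' : D.At c' s' u') : D.At (c * c') (s * s') (u * u') where
  sim := by
    rw [transpose_mul, show u'ᵀ * uᵀ * J (Fin D.g) Af * (u * u') =
      u'ᵀ * (uᵀ * J (Fin D.g) Af * u) * u' by simp only [Matrix.mul_assoc], h.sim,
      Matrix.mul_smul, Matrix.smul_mul, h'.sim, smul_smul]
  cm m := by rw [Matrix.mul_assoc, h'.cm, ← Matrix.mul_assoc, h.cm, Matrix.mul_assoc]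
  cj := by rw [Matrix.mul_assoc, h'.cj, ← Matrix.mul_assoc, h.cj, Matrix.mul_assoc]
  ci := by
    rw [Matrix.mul_assoc, h'.ci, Matrix.mul_smul, ← Matrix.mul_assoc, h.ci, Matrix.smul_mul,
      smul_smul, Matrix.mul_assoc, Units.val_mul, Int.cast_mul, mul_comm ((s : ℤ) : Af)]

theorem At.inv {c c' : Af} {s : ℤˣ} {u u' : Mi D.g Af}
    (h : D.At c s u) (e : u * u' = 1) (e' : u' * u = 1) (hc : c' * c = 1) :
    D.At c' s⁻¹ u' where
  sim := by
    have : c' • (u'ᵀ * (uᵀ * J (Fin D.g) Af * u) * u') =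
        c' • (u'ᵀ * (c • J (Fin D.g) Af) * u') := by rw [h.sim]
    rw [show u'ᵀ * (uᵀ * J (Fin D.g) Af * u) * u' = (u * u')ᵀ * J (Fin D.g) Af * (u * u') by
      simp only [transpose_mul, Matrix.mul_assoc], e, transpose_one, Matrix.one_mul,
      Matrix.mul_one, Matrix.mul_smul, Matrix.smul_mul, smul_smul, hc, one_smul] at this
    exact this.symm
  cm m := by
    have := congrArg (fun x => u' * x * u') (h.cm m)
    simp only [← Matrix.mul_assoc, e', Matrix.one_mul] at this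
    rw [this, Matrix.mul_assoc _ u, e, Matrix.mul_one]
  cj := by
    have := congrArg (fun x => u' * x * u') h.cj
    simp only [← Matrix.mul_assoc, e', Matrix.one_mul] at this
    rw [this, Matrix.mul_assoc _ u, e, Matrix.mul_one]
  ci := by
    have := congrArg (fun x => u' * x * u') h.ci
    simp only [Matrix.mul_smul, Matrix.smul_mul, ← Matrix.mul_assoc, e', Matrix.one_mul] at this
    rw [this, Matrix.mul_assoc _ u, e, Matrix.mul_one, smul_smul, ← Int.cast_mul, ← Units.val_mul,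
      inv_mul_cancel, Units.val_one, Int.cast_one, one_smul]

end QD

/-- **the group**: pairs of a Galois element and an adelic similitude -/
def EE (D : QD) (η : GQ →* ℤˣ) : Subgroup (GQ × (Mi D.g Af)ˣ) where
  carrier := {x | D.At (cyc x.1) (η x.1) (x.2 : Mi D.g Af)}
  one_mem' := ⟨by simp, fun m => by simp, by simp, by simp⟩
  mul_mem' {x y} hx hy := by
    have := QD.At.mul hx hy
    rwa [← map_mul, ← map_mul] at this
  inv_mem' {x} hx := by
    have := QD.At.inv hx (u' := (x.2⁻¹ : (Mi D.g Af)ˣ).1) (c' := cyc x.1⁻¹) (by simp) (by simp)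
      (by rw [← map_mul, inv_mul_cancel, map_one])
    rwa [← map_inv] at this

section group

variable {D : QD} {η : GQ →* ℤˣ}

/-- the Galois component -/
def sg : EE D η →* GQ := (MonoidHom.fst _ _).comp (EE D η).subtype
/-- the adelic component -/
def uu : EE D η →* Mi D.g Af :=
  (Units.coeHom _).comp ((MonoidHom.snd _ _).comp (EE D η).subtype)
/-- the component at `r` -/
def mt (e : EE D η) (r : Pr) : Mi D.g ℚ_[r.1] := (uu e).map (TP.pr r)
/-- congruent to `1` modulo `n` -/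
def Cn (n : ℕ) (e : EE D η) : Prop := Mn n (uu e - 1)
/-- integral -/
def Int (e : EE D η) : Prop := Mn 1 (uu e)
/-- `e` is the rational matrix `a` at all primes different from `l` -/
def Rat (l : ℕ) (e : EE D η) (a : Mi D.g ℚ) : Prop := ∀ r : Pr, r.1 ≠ l → mt e r = ql r.1 a
/-- `L0 ⊗ 𝔸_f` -/
def TA (D : QD) : Submodule Af (Mi D.g Af) :=
  Submodule.span Af (Set.range fun z : D.L0 => am (D.l0 z))
/-- `𝓞_{L0} ⊗ Zhat` -/
def TZ (D : QD) : AddSubgroup (Mi D.g Af) :=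
  AddSubgroup.closure {x | ∃ c ∈ TP.Zn 1, ∃ z : 𝓞 D.L0, x = c • am (D.l0 z)}
/-- `e` is in `(𝓞_{L0} ⊗ Zhat)ˣ w ^ ε` -/
def InN (e : EE D η) : Prop :=
  (η (sg e) = 1 ∧ uu e ∈ TZ D) ∨ (η (sg e) = -1 ∧ uu e * am D.wm ∈ TZ D)
/-- a continuous section -/
structure Sec {Γ : Subgroup GQ} (s : Γ →* EE D η) : Prop where
  sg : ∀ d, sg (s d) = d
  cts : ∀ n : ℕ, 0 < n → ∃ N : Subgroup GQ, IsOpen (N : Set GQ) ∧ ∀ d : Γ, d.1 ∈ N → Cn n (s d)

end group

/-- an embedding of the field `M(i, √β)` -/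
structure Em (D : QD) (C : Type) [Field C] where
  φ : D.M →+* C
  ι : C
  s : C
  hι : ι ^ 2 = -1
  hs : s ^ 2 = φ D.β

namespace Em

variable {D : QD} {C : Type} [Field C] (μ : Em D C)

/-- the two coordinates on the eigenspace -/
def la (a : Fin 2) (x : D.B) : C :=
  μ.φ x.re + (-1) ^ (a : ℕ) * μ.ι * μ.φ x.imI +
    μ.s * (μ.φ x.imJ + (-1) ^ (a : ℕ) * μ.ι * μ.φ x.imK)
/-- the coordinates as a matrix -/
def Qm : Matrix (Fin 2) (Ix D.g) C := Matrix.of fun a k => μ.la a (D.e.symm (Pi.single k 1))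
/-- the value on `L0` -/
def z0 (z : D.L0) : C := μ.la 0 (D.em z)
/-- the value at `x + y √β` -/
def ev (a : D.M × D.M) : C := μ.φ a.1 + μ.s * μ.φ a.2
/-- composition with a map of fields -/
def map {C' : Type} [Field C'] (f : C →+* C') : Em D C' where
  φ := f.comp μ.φ
  ι := f μ.ι
  s := f μ.s
  hι := by rw [← map_pow, μ.hι, map_neg, map_one]
  hs := by rw [← map_pow, μ.hs]; rfl

end Em

section rep

variable {D : QD} {p : ℕ} [Fact p.Prime]

/-- `ρ` is the matrix of `u` on the eigenspace of `μ` -/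
def Rh (μ : Em D (Cp p)) (u : Mi D.g ℚ_[p]) (ρ : Matrix (Fin 2) (Fin 2) (Cp p)) : Prop :=
  μ.Qm * u.map (algebraMap ℚ_[p] (Cp p)) = ρ * μ.Qm

open Classical in
/-- the matrix of `u` on the eigenspace of `μ` -/
def rh (μ : Em D (Cp p)) (u : Mi D.g ℚ_[p]) : Matrix (Fin 2) (Fin 2) (Cp p) := epsilon (Rh μ u)

/-- the matrix of an element of the group -/
def re {η : GQ →* ℤˣ} (μ : Em D (Cp p)) (e : EE D η) : Matrix (Fin 2) (Fin 2) (Cp p) :=
  rh μ (mt e (pp p))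

/-- all entries have norm at most `c` -/
def Le (a : Matrix (Fin 2) (Fin 2) (Cp p)) (c : ℝ) : Prop := ∀ i j, ‖a i j‖ ≤ c

/-- all entries have norm less than one -/
def Lt (a : Matrix (Fin 2) (Fin 2) (Cp p)) : Prop := ∀ i j, ‖a i j‖ < 1

/-- the closure of the image of `L0` -/
def cl (μ : Em D (Cp p)) : Set (Cp p) := closure (Set.range μ.z0)

end rep

/-- `σ` acts on the residue field of `v` as the `k`-th power of the Frobenius -/
def Wl (v : AbsoluteValue Qb ℝ) (l k : ℕ) (σ : GQ) : Prop :=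
  σ ∈ stab v ∧ ∀ x : Qb, v x ≤ 1 → v (σ x - x ^ l ^ k) < 1

/-- **marked points**: algebraic points of the locus with a level structure -/
structure MP (D : QD) (η : GQ →* ℤˣ) where
  τ : Mc D.g
  k : EE D η
  loc : τ ∈ D.Loc
  alg : Algp τ
  one : sg k = 1

namespace MP

variable {D : QD} {η : GQ →* ℤˣ} (j : Qb →+* ℂ) (x : MP D η)

/-- `e` fixes `x` -/
def Fx (e : EE D η) : Prop := ∀ s : ℂ ≃+* ℂ, (∀ a, s (j a) = j (sg e a)) →
  Rel s x.τ x.τ (uu (x.k * e * x.k⁻¹))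

/-- change of the marking -/
def mv (k : EE D η) (h : sg k = 1) : MP D η :=
  ⟨x.τ, x.k * k, x.loc, x.alg, by rw [map_mul, x.one, h, one_mul]⟩

theorem fx_mv {k : EE D η} (h : sg k = 1) (e : EE D η) :
    (x.mv k h).Fx j e ↔ x.Fx j (k * e * k⁻¹) := by
  have e1 : sg (k * e * k⁻¹) = sg e := by rw [map_mul, map_mul, map_inv, h]; simp
  have e2 : x.k * k * e * (x.k * k)⁻¹ = x.k * (k * e * k⁻¹) * x.k⁻¹ := by group
  simp only [Fx, mv, e1, e2]

/-- complex multiplication through `lm`, of the type induced from the type `Φ` of `L0` -/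
def Cm (Φ : Set (D.L0 →+* Qb)) : Prop := ∃ b : D.Bˣ,
  (∀ z, D.InL z → Hm x.τ x.τ (D.lm (b * z * b⁻¹)) ∧
    uu x.k * am (D.lm z) = am (D.lm (b * z * b⁻¹)) * uu x.k) ∧
  (∀ φ, φ ∈ Φ ↔ φ.comp D.cj.toRingEquiv.toRingHom ∉ Φ) ∧
  ∀ z a, La x.τ x.τ (D.lm (b * D.em z * b⁻¹)) a → ∀ (c : ℂ) (y : Fin D.g → ℂ), y ≠ 0 →
    a *ᵥ y = c • y → ∃ φ ∈ Φ, c = j (φ z)

end MP

end Vale.Agent.P022K.PM
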