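import Vale.Agent.P022K.CH.Tame
import Vale.Agent.P022E.GW.TauG
import Mathlib.NumberTheory.LSeries.PrimesInAP
import Mathlib.NumberTheory.LegendreSymbol.Basic
import Mathlib.Data.Nat.ChineseRemainder
import Mathlib.Data.Nat.Squarefree

/-!
# P022K / PM: imaginary quadratic fields with prescribed local behaviour (helper95)
-/

namespace Vale.Agent.P022K.PM

open NumberField Vale.Agent.P022 Vale.Agent.P022.H443 Vale.Agent.P022D.W
open Vale.Agent.P022E.GW (Ov Fb)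

noncomputable section

/-- `χ` is the character of `ℚ(θ)`, `θ ^ 2 = d` -/
def Qc4 (d : ℤ) (θ : Qb) (χ : GQ →* ℤˣ) : Prop :=
  θ ^ 2 = d ∧ ∀ g : GQ, g θ = ((χ g : ℤ) : Qb) * θ

/-- a character of the decomposition group with values `±1` -/
structure Qch (P : Ideal (𝓞 Qb)) (ψ : GQ → ℤˣ) : Prop where
  mul : ∀ g ∈ dec P, ∀ h ∈ dec P, ψ (g * h) = ψ g * ψ h
  opn : ∃ U : Subgroup GQ, IsOpen (U : Set GQ) ∧ ∀ g ∈ U ⊓ dec P, ψ g = 1

variable {d d' : ℤ} {θ θ' : Qb} {χ χ' : GQ →* ℤˣ} {l : ℕ} {P : Ideal (𝓞 Qb)} {ψ ψ' : GQ → ℤˣ}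

theorem Qc4.ne (h : Qc4 d θ χ) (hd : d ≠ 0) : θ ≠ 0 := fun e => hd (by
  have := h.1; rw [e] at this; exact_mod_cast this.symm)

theorem ex_qc (hd : d ≠ 0) : ∃ θ χ, Qc4 d θ χ := by
  obtain ⟨θ, h⟩ := IsAlgClosed.exists_pow_nat_eq (d : Qb) two_pos
  have h0 : θ ≠ 0 := fun e => hd (by rw [e] at h; exact_mod_cast h.symm)
  have : ∀ g : GQ, ∃ ε : ℤˣ, g θ = ((ε : ℤ) : Qb) * θ := fun g =>
    (sq_eq_sq_iff_eq_or_eq_neg.1 (show g θ ^ 2 = θ ^ 2 by rw [← map_pow, h, map_intCast])).elim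
      (fun e => ⟨1, by simpa using e⟩) fun e => ⟨-1, by simpa using e⟩
  choose f hf using this
  refine ⟨θ, .mk' f fun a b => Units.ext (Int.cast_injective (α := Qb) (mul_right_cancel₀ h0 ?_)),
    h, hf⟩
  rw [← hf, AlgEquiv.mul_apply, hf b, map_mul, map_intCast, hf a]
  push_cast
  ring

theorem Qc4.mul (h : Qc4 d θ χ) (h' : Qc4 d' θ' χ') : Qc4 (d * d') (θ * θ') (χ * χ') :=
  ⟨by rw [mul_pow, h.1, h'.1, Int.cast_mul], fun g => by
    rw [map_mul, h.2, h'.2, MonoidHom.mul_apply]; push_cast; ring⟩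

theorem Qc4.one_iff (h : Qc4 d θ χ) (hd : d ≠ 0) {g : GQ} :
    χ g = 1 ↔ ∀ x : Qb, x ^ 2 = d → g x = x := by
  refine ⟨fun e x hx => ?_, fun e => Units.ext (Int.cast_injective (α := Qb)
    (mul_right_cancel₀ (h.ne hd) (by rw [← h.2, e θ h.1]; simp)))⟩
  rcases sq_eq_sq_iff_eq_or_eq_neg.1 (hx.trans h.1.symm) with rfl | rfl <;> simp [h.2, e]

theorem unit_iff {a b : ℤˣ} (h : a = 1 ↔ b = 1) : a = b := by revert a b; decide

theorem Qc4.uniq (h : Qc4 d θ χ) (h' : Qc4 d θ' χ') (hd : d ≠ 0) : χ = χ' :=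
  MonoidHom.ext fun _ => unit_iff ((h.one_iff hd).trans (h'.one_iff hd).symm)

theorem Qc4.opn (h : Qc4 d θ χ) (hd : d ≠ 0) : IsOpen (χ.ker : Set GQ) :=
  Subgroup.isOpen_mono (H₁ := MulAction.stabilizer GQ θ) (fun g e => Units.ext
    (Int.cast_injective (α := Qb) (mul_right_cancel₀ (h.ne hd) (by rw [← h.2, show g θ = θ from e]; simp))))
    (P022E.GW.Kc.stab_open θ)

theorem Qc4.qch (h : Qc4 d θ χ) (hd : d ≠ 0) : Qch P χ :=
  ⟨fun _ _ _ _ => map_mul _ _ _, _, h.opn hd, fun _ h => h.1⟩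

theorem Qc4.conj (h : Qc4 d θ χ) (hd : d < 0) {c : GQ} (hc : IsConj c) : χ c = -1 := by
  obtain ⟨j, hj⟩ := hc
  refine (Int.units_eq_one_or _).resolve_left fun e => ?_
  have h1 := congrArg (fun y => (j y).re) h.1
  have h2 : (j θ).im = 0 := Complex.conj_eq_iff_im.1 (by rw [← hj, (h.one_iff hd.ne).1 e θ h.1])
  simp only [sq, map_mul, Complex.mul_re, h2, map_intCast, Complex.intCast_re] at h1
  nlinarith [mul_self_nonneg (j θ).re, (Int.cast_lt_zero (R := ℝ)).2 hd]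

theorem ov_int (hP : Ov l P) {z : ℤ} (h : (z : 𝓞 Qb) ∈ P) : (l : ℤ) ∣ z := by
  by_contra e
  obtain ⟨a, b, e⟩ := (Nat.prime_iff_prime_int.1 hP.1).irreducible.coprime_iff_not_dvd.2 e
  refine hP.2.1.ne_top ((Ideal.eq_top_iff_one _).2 ?_)
  have := add_mem (P.mul_mem_left a hP.2.2) (P.mul_mem_left b h)
  rwa [show (a : 𝓞 Qb) * l + b * z = 1 by exact_mod_cast congrArg (Int.cast : ℤ → 𝓞 Qb) e] at this

theorem Qc4.frob (h : Qc4 d θ χ) (hP : Ov l P) (hd : ¬ (l : ℤ) ∣ d) {g : GQ} {n : ℕ}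
    (hg : ∀ x : 𝓞 Qb, g • x - x ^ (2 * n + 1) ∈ P) : (l : ℤ) ∣ χ g - d ^ n := by
  let X : 𝓞 Qb := ⟨θ, .of_pow two_pos (h.1 ▸ isIntegral_algebraMap (R := ℤ))⟩
  have e1 : X ^ 2 = d := RingOfIntegers.ext h.1
  have e2 : g • X = (χ g : ℤ) * X := RingOfIntegers.ext (h.2 g)
  have e3 := hg X
  rw [e2, pow_succ, pow_mul, e1, ← sub_mul] at e3
  exact ov_int hP (by exact_mod_cast ((hP.2.1.mem_or_mem e3).resolve_right fun k =>
    hd (ov_int hP (e1 ▸ P.pow_mem_of_mem k 2 two_pos))))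

theorem unit_eq (hl : l.Prime) (h2 : l ≠ 2) {a b : ℤˣ} (h : (l : ℤ) ∣ a - b) : a = b := by
  have : ¬ (l : ℤ) ∣ 2 := fun e =>
    h2 ((Nat.prime_dvd_prime_iff_eq hl Nat.prime_two).1 (by exact_mod_cast e))
  rcases Int.units_eq_one_or a with rfl | rfl <;> rcases Int.units_eq_one_or b with rfl | rfl <;>
    simp_all

theorem Qc4.unr (h : Qc4 d θ χ) (hP : Ov l P) (h2 : l ≠ 2) (hd : ¬ (l : ℤ) ∣ d) :
    ∀ s ∈ inP P, χ s = 1 := fun s hs =>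
  unit_eq hP.1 h2 (by simpa using h.frob hP hd (n := 0) fun x => by simpa using hs x)

theorem Qc4.two {c : ℤ} (h : Qc4 (1 - 4 * c) θ χ) (hP : Ov 2 P) :
    (∀ s ∈ inP P, χ s = 1) ∧ ∀ φ, Fb 2 P φ → (χ φ = 1 ↔ 2 ∣ c) := by
  have h1 : ((1 + θ) / 2) ^ 2 - (1 + θ) / 2 + c = 0 := by
    have := h.1; push_cast at this; linear_combination this / 4
  let X : 𝓞 Qb := ⟨(1 + θ) / 2, Polynomial.X ^ 2 + (Polynomial.C (-1) * Polynomial.X + Polynomial.C c),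
    Polynomial.monic_X_pow_add (Polynomial.degree_linear_le.trans_lt (by decide)), by
      simp [-eq_intCast]; linear_combination h1⟩
  have e1 : X ^ 2 - X + c = 0 := RingOfIntegers.ext h1
  have e2 : ∀ g : GQ, (χ g = 1 → g • X = X) ∧ (χ g ≠ 1 → g • X = 1 - X) := fun g =>
    ⟨fun e => RingOfIntegers.ext (show g ((1 + θ) / 2) = (1 + θ) / 2 by simp [h.2, e, map_ofNat]),
      fun e => RingOfIntegers.ext (show g ((1 + θ) / 2) = 1 - (1 + θ) / 2 by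
        simp [h.2, (Int.units_eq_one_or _).resolve_left e, map_ofNat]; ring)⟩
  have e3 := P.mul_mem_left X hP.2.2
  refine ⟨fun s hs => not_not.1 fun e => ?_, fun φ hφ => ⟨fun e => ?_, fun k => not_not.1 fun e => ?_⟩⟩
  · have := add_mem (hs X) e3
    rw [(e2 s).2 e, show 1 - X - X + X * (2 : ℕ) = (1 : ℤ) by push_cast; ring] at this
    simpa using ov_int hP this
  · have := hφ X
    rw [(e2 φ).1 e, show X - X ^ 2 = c by linear_combination -e1] at this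
    exact ov_int hP this
  · have := add_mem (hφ X) e3
    rw [(e2 φ).2 e, show 1 - X - X ^ 2 + X * (2 : ℕ) = (1 + c : ℤ) by
      push_cast; linear_combination -e1] at this
    have := ov_int hP this
    omega

theorem Qch.mul' (h : Qch P ψ) (h' : Qch P ψ') : Qch P fun g => ψ g * ψ' g := by
  obtain ⟨U, h1, h2⟩ := h.opn
  obtain ⟨U', h1', h2'⟩ := h'.opn
  exact ⟨fun a ha b hb => by rw [h.mul a ha b hb, h'.mul a ha b hb, mul_mul_mul_comm], U ⊓ U',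
    h1.inter h1', fun g k => by rw [h2 g ⟨k.1.1, k.2⟩, h2' g ⟨k.1.2, k.2⟩, mul_one]⟩

theorem Qch.pow (h : Qch P ψ) {g : GQ} (hg : g ∈ dec P) (n : ℕ) : ψ (g ^ n) = ψ g ^ n :=
  map_pow (MonoidHom.mk' (fun g : dec P => ψ g) fun a b => h.mul _ a.2 _ b.2) ⟨g, hg⟩ n

theorem Qch.tame (hP : Ov l P) : ∃ τ ∈ inP P, ∀ ψ, Qch P ψ →
    (l ≠ 2 → ψ τ = 1 → ∀ s ∈ inP P, ψ s = 1) ∧
      ∀ φ, Fb l P φ → (∀ s ∈ inP P, ψ s = 1) → ψ φ = 1 → ∀ g ∈ dec P, ψ g = 1 := by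
  obtain ⟨τ, hτ, H⟩ := CH.Loc.tame hP
  refine ⟨τ, hτ, fun ψ h => ⟨fun h2 e s hs => ?_, fun φ hφ e e' g hg => ?_⟩⟩ <;>
    obtain ⟨U, h1, h3⟩ := h.opn
  · obtain ⟨φ, hφ⟩ := exists_phi hP.1 hP.2.1 hP.2.2
    obtain ⟨N, T⟩ := H φ hφ U h1
    obtain ⟨k, p, hp, rfl⟩ := T.cyc s hs
    obtain ⟨n, hn⟩ := T.wild p hp
    have h4 := T.ID (T.NI hp)
    have h5 := h3 _ ⟨hn, pow_mem h4 _⟩
    rw [h.pow h4, Int.units_pow_eq_pow_mod_two, Nat.odd_iff.1 (hP.1.odd_of_ne_two h2).pow,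
      pow_one] at h5
    rw [h.mul _ (pow_mem (T.ID hτ) _) _ h4, h.pow (T.ID hτ), e, h5, one_pow, one_mul]
  · obtain ⟨N, T⟩ := H φ hφ U h1
    obtain ⟨k, s, hs, u, hu, rfl⟩ := T.gen g hg
    have h4 := pow_mem T.phi k
    have h5 := (mul_mem_cancel_right (T.ID hs)).1 hg
    have h6 := (mul_mem_cancel_right h4).1 h5
    rw [h.mul _ h5 _ (T.ID hs), h.mul _ h6 _ h4, h.pow T.phi, e', e s hs, h3 u ⟨hu, h6⟩]
    simp

theorem delta_loc (hP : Ov l P) (h : Qch P ψ) (h2 : l = 2 → ∀ s ∈ inP P, ψ s = 1) {m : ℕ}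
    (hm : Squarefree m) (hl : l ∣ m ↔ ¬ ∀ s ∈ inP P, ψ s = 1) :
    ∃ a, a.Coprime (if l = 2 then 8 else l) ∧ ∀ r, r ≡ a [MOD if l = 2 then 8 else l] →
      (l = 2 → m * r % 4 = 3) ∧ ∀ θ χ, Qc4 (-(m * r : ℕ)) θ χ → ∀ g ∈ dec P, χ g = ψ g := by
  obtain ⟨τ, hτ, H⟩ := Qch.tame hP
  obtain ⟨φ, hφ⟩ := exists_phi hP.1 hP.2.1 hP.2.2
  have m0 : (-m : ℤ) ≠ 0 := by simpa using hm.ne_zero
  have ee : ∀ {a b : ℤˣ}, a * b = 1 → a = b := fun e => by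
    rw [eq_inv_of_mul_eq_one_left e, Int.units_inv_eq_self]
  split_ifs with e
  · subst e
    have ho : m % 2 = 1 := Nat.two_dvd_ne_zero.1 fun k => hl.1 k (h2 rfl)
    have h8 : m * m % 8 = 1 := by
      have : m % 8 = 1 ∨ m % 8 = 3 ∨ m % 8 = 5 ∨ m % 8 = 7 := by omega
      rcases this with k | k | k | k <;> simp [Nat.mul_mod, k]
    refine ⟨m * if ψ φ = 1 then 7 else 3, Nat.Coprime.pow_right 3 (Nat.coprime_two_right.2
      ((Nat.odd_iff.2 ho).mul (by split_ifs <;> decide))), fun r hr => ?_⟩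
    have h3 : m * r % 8 = if ψ φ = 1 then 7 else 3 := by
      rw [hr.mul_left m, ← mul_assoc, Nat.mul_mod, h8]; split_ifs <;> rfl
    refine ⟨fun _ => by split_ifs at h3 <;> omega, fun θ χ q g hg => ?_⟩
    generalize m * r = n at h3 q
    obtain ⟨c, hc⟩ : ∃ c : ℤ, -(n : ℤ) = 1 - 4 * c := ⟨(n + 1) / 4, by split_ifs at h3 <;> omega⟩
    have h4 := (hc ▸ q).two hP
    refine ee ((H _ ((q.qch (by omega)).mul' h)).2 φ hφ (fun s hs => by rw [h4.1 s hs, h2 rfl s hs]; rfl)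
      ?_ g hg)
    rw [unit_iff ((h4.2 φ hφ).trans (show 2 ∣ c ↔ ψ φ = 1 from ?_)),
      Int.units_mul_self]
    split_ifs at h3 with k <;> simp only [k, iff_true, iff_false] <;> omega
  have : Fact l.Prime := ⟨hP.1⟩
  obtain ⟨θ0, χ0, q0⟩ := ex_qc m0
  have h3 : ∀ s ∈ inP P, χ0 s * ψ s = 1 := by
    by_cases k : ∀ s ∈ inP P, ψ s = 1
    · exact fun s hs => by
        rw [k s hs, q0.unr hP e (fun h => hl.1 (by simpa [Int.natCast_dvd_natCast] using h) k) s hs]; rfl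
    obtain ⟨m', rfl⟩ := hl.2 k
    have h4 : ¬ (l : ℤ) ∣ -m' := fun h => hP.1.not_isUnit (hm l (mul_dvd_mul_left l
      (by simpa [Int.natCast_dvd_natCast] using h)))
    obtain ⟨θa, χa, qa⟩ := ex_qc (d := l) (by simpa using hP.1.ne_zero)
    obtain ⟨θb, χb, qb⟩ := ex_qc (d := -m') fun h => h4 (h ▸ dvd_zero _)
    obtain rfl := q0.uniq (by simpa using qa.mul qb) m0
    obtain ⟨s, hs, h5⟩ := P022E.GW.Tg.ex_gn' hP
    refine (H _ ((q0.qch m0).mul' h)).1 e ?_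
    rw [(Int.units_eq_one_or (ψ τ)).resolve_left fun h => k ((H _ ‹_›).1 e h),
      (Int.units_eq_one_or ((χa * χb) τ)).resolve_left fun h => ?_]
    · rfl
    have h6 := (H _ (q0.qch m0)).1 e h s hs
    rw [MonoidHom.mul_apply, qb.unr hP e h4 s hs, mul_one] at h6
    have h7 := h5 θa (by simpa using qa.1)
    rw [qa.2, h6] at h7
    exact qa.ne (by simpa using hP.1.ne_zero) (by simpa [eq_neg_iff_add_eq_zero, ← two_mul] using h7)
  obtain ⟨a, a0, ha⟩ : ∃ a : ZMod l, a ≠ 0 ∧ a ^ (l / 2) = ((χ0 φ * ψ φ : ℤˣ) : ℤ) := by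
    rcases Int.units_eq_one_or (χ0 φ * ψ φ) with k | k <;> rw [k]
    · exact ⟨1, one_ne_zero, by simp⟩
    · obtain ⟨a, ha⟩ := FiniteField.exists_nonsquare (F := ZMod l) (by rwa [ZMod.ringChar_zmod_n])
      have a0 : a ≠ 0 := fun h => ha (h ▸ IsSquare.zero)
      exact ⟨a, a0, by simpa using ((ZMod.pow_div_two_eq_neg_one_or_one l a0).resolve_left
        fun h => ha ((ZMod.euler_criterion l a0).2 h))⟩
  refine ⟨a.val, ZMod.val_coe_unit_coprime (Units.mk0 a a0), fun r hr => ⟨fun h => absurd h e,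
    fun θ χ q g hg => ?_⟩⟩
  have h4 : ((r : ℤ) : ZMod l) = a := by
    rw [Int.cast_natCast, (ZMod.natCast_eq_natCast_iff _ _ _).2 hr, ZMod.natCast_zmod_val]
  have h5 : ¬ (l : ℤ) ∣ r := fun h => a0 (h4 ▸ (ZMod.intCast_zmod_eq_zero_iff_dvd _ _).2 h)
  have r0 : (r : ℤ) ≠ 0 := fun h => h5 (h ▸ dvd_zero _)
  obtain ⟨θ1, χ1, q1⟩ := ex_qc r0
  obtain rfl := q.uniq (by simpa using q0.mul q1) (by simpa using mul_ne_zero m0 r0)
  have h6 := (ZMod.intCast_zmod_eq_zero_iff_dvd _ _).2 (q1.frob hP h5 (n := l / 2) (g := φ)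
    (by rwa [Nat.two_mul_div_two_add_one_of_odd (hP.1.odd_of_ne_two e)]))
  rw [Int.cast_sub, Int.cast_pow, h4, ha, ← Int.cast_sub, ZMod.intCast_zmod_eq_zero_iff_dvd] at h6
  refine ee ((mul_right_comm _ _ _).trans ((H _ (((q0.qch m0).mul' h).mul' (q1.qch r0))).2 φ hφ
    (fun s hs => by rw [h3 s hs, q1.unr hP e h5 s hs]; rfl) ?_ g hg))
  rw [unit_eq hP.1 e h6, Int.units_mul_self]

/-- the unramified character of order two -/
theorem unr2 (hP : Ov l P) : ∃ χ : GQ →* ℤˣ, Qch P χ ∧ (∀ s ∈ inP P, χ s = 1) ∧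
    ∀ φ, Fb l P φ → χ φ = -1 := by
  by_cases e : l = 2
  · subst e
    obtain ⟨θ, χ, q⟩ := ex_qc (d := 1 - 4 * 1) (by decide)
    exact ⟨χ, q.qch (by decide), (q.two hP).1, fun φ h => (Int.units_eq_one_or _).resolve_left
      fun k => absurd (((q.two hP).2 φ h).1 k) (by decide)⟩
  have : Fact l.Prime := ⟨hP.1⟩
  obtain ⟨a, ha⟩ := FiniteField.exists_nonsquare (F := ZMod l) (by rwa [ZMod.ringChar_zmod_n])
  obtain ⟨r, rfl⟩ := ZMod.intCast_surjective a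
  have a0 : (r : ZMod l) ≠ 0 := fun h => ha (h ▸ IsSquare.zero)
  have h5 : ¬ (l : ℤ) ∣ r := fun h => a0 ((ZMod.intCast_zmod_eq_zero_iff_dvd _ _).2 h)
  have r0 : r ≠ 0 := fun h => h5 (h ▸ dvd_zero _)
  obtain ⟨θ, χ, q⟩ := ex_qc r0
  refine ⟨χ, q.qch r0, q.unr hP e h5, fun φ hφ => unit_eq hP.1 e ?_⟩
  have h6 := (ZMod.intCast_zmod_eq_zero_iff_dvd _ _).2 (q.frob hP h5 (n := l / 2) (g := φ)
    (by rwa [Nat.two_mul_div_two_add_one_of_odd (hP.1.odd_of_ne_two e)]))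
  rw [Int.cast_sub, Int.cast_pow, (ZMod.pow_div_two_eq_neg_one_or_one l a0).resolve_left
    fun h => ha ((ZMod.euler_criterion l a0).2 h)] at h6
  exact (ZMod.intCast_zmod_eq_zero_iff_dvd _ _).1 (by simpa using h6)

/-- **DELTA** -/
theorem delta (Z : Finset ℕ) (P : ℕ → Ideal (𝓞 Qb)) (ψ : ℕ → GQ → ℤˣ)
    (h : ∀ l ∈ Z, Ov l (P l) ∧ Qch (P l) (ψ l) ∧ (l = 2 → ∀ s ∈ inP (P l), ψ l s = 1)) (B : ℕ) :
    ∃ (Δ : ℕ) (θ : Qb) (η : GQ →* ℤˣ), B < Δ ∧ Δ % 4 = 3 ∧ Squarefree Δ ∧ θ ^ 2 = -(Δ : Qb) ∧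
      (∀ g : GQ, g θ = ((η g : ℤ) : Qb) * θ) ∧
      (∀ g, η g = 1 ↔ ∀ x : Qb, x ^ 2 = -(Δ : Qb) → g x = x) ∧ IsOpen {g | η g = 1} ∧
      (∀ c, IsConj c → η c = -1) ∧ ∀ l ∈ Z, ∀ g ∈ dec (P l), η g = ψ l g := by
  classical
  let R := Z.filter fun l => ¬ ∀ s ∈ inP (P l), ψ l s = 1
  have hR : ∀ l ∈ R, l.Prime := fun l k => (h l (Finset.mem_filter.1 k).1).1.1
  let m := ∏ l ∈ R, l
  have hm : Squarefree m := Finset.squarefree_prod_of_pairwise_isCoprime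
    (fun a ha b hb e => Nat.coprime_iff_isRelPrime.1 ((Nat.coprime_primes (hR a ha) (hR b hb)).2 e))
    fun l k => (hR l k).squarefree
  have hd : ∀ l, l.Prime → (l ∣ m ↔ l ∈ R) := fun l k => ⟨fun e => by
    obtain ⟨a, ha, e⟩ := (Prime.dvd_finsetProd_iff k.prime _).1 e
    rwa [(Nat.prime_dvd_prime_iff_eq k (hR a ha)).1 e], Finset.dvd_prod_of_mem _⟩
  have hA : ∀ l, ∃ a, l ∈ insert 2 Z → a.Coprime (if l = 2 then 8 else l) ∧
      ∀ r, r ≡ a [MOD if l = 2 then 8 else l] → (l = 2 → m * r % 4 = 3) ∧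
        (l ∈ Z → ∀ θ χ, Qc4 (-(m * r : ℕ)) θ χ → ∀ g ∈ dec (P l), χ g = ψ l g) := fun l => by
    by_cases k : l ∈ Z
    · obtain ⟨a, h1, h2⟩ := delta_loc (h l k).1 (h l k).2.1 (h l k).2.2 hm
        ((hd l (h l k).1.1).trans (by simp [R, k]))
      exact ⟨a, fun _ => ⟨h1, fun r hr => ⟨(h2 r hr).1, fun _ => (h2 r hr).2⟩⟩⟩
    have ho : l = 2 → m % 2 = 1 := fun e => Nat.two_dvd_ne_zero.1 fun k' =>
      k (e ▸ (Finset.mem_filter.1 ((hd 2 Nat.prime_two).1 k')).1)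
    refine ⟨m * 3, fun e => ?_⟩
    obtain rfl := (Finset.mem_insert.1 e).resolve_right k
    refine ⟨Nat.Coprime.pow_right 3 (Nat.coprime_two_right.2 ((Nat.odd_iff.2 (ho rfl)).mul (by decide))),
      fun r hr => ⟨fun _ => ?_, fun e => absurd e k⟩⟩
    have : m % 4 = 1 ∨ m % 4 = 3 := by have := ho rfl; omega
    rw [(hr.of_dvd (show 4 ∣ 8 by decide)).mul_left m]
    rcases this with k | k <;> simp [Nat.mul_mod, k]
  choose a ha using hA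
  have hp : ∀ l ∈ insert 2 Z, l.Prime := fun l k =>
    (Finset.mem_insert.1 k).elim (· ▸ Nat.prime_two) fun k => (h l k).1.1
  have n0 : ∀ l ∈ insert 2 Z, (if l = 2 then 8 else l) ≠ 0 := fun l k => by
    split_ifs; exacts [by decide, (hp l k).ne_zero]
  obtain ⟨A, hA⟩ := Nat.chineseRemainderOfFinset a (fun l => if l = 2 then 8 else l) (insert 2 Z) n0
    fun x hx y hy e => by
      have := (Nat.coprime_primes (hp x hx) (hp y hy)).2 e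
      refine (this.pow 3 3).coprime_dvd_left ?_ |>.coprime_dvd_right ?_ <;> beta_reduce <;>
        split_ifs with k <;> simp [k]
  obtain ⟨r, h1, h2, h3⟩ := Nat.forall_exists_prime_gt_and_modEq (max B m)
    (Finset.prod_ne_zero_iff.2 n0) (a := A) (Nat.Coprime.prod_right fun l k => by
      rw [Nat.Coprime, (hA l k).gcd_eq]; exact (ha l k).1)
  have h4 := fun l k => (ha l k).2 r ((h3.of_dvd (Finset.dvd_prod_of_mem _ k)).trans (hA l k))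
  have h5 : 0 < m := Nat.pos_of_ne_zero hm.ne_zero
  have h6 : (-(m * r : ℕ) : ℤ) < 0 := neg_neg_of_pos (Nat.cast_pos.2 (mul_pos h5 h2.pos))
  obtain ⟨θ, χ, q⟩ := ex_qc h6.ne
  refine ⟨m * r, θ, χ, (le_max_left _ _).trans_lt (h1.trans_le (Nat.le_mul_of_pos_left _ h5)),
    (h4 2 (by simp)).1 rfl, (Nat.squarefree_mul ((Nat.coprime_comm.1 (h2.coprime_iff_not_dvd.2
      (Nat.not_dvd_of_pos_of_lt h5 ((le_max_right _ _).trans_lt h1)))))).2 ⟨hm, h2.squarefree⟩,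
    by simpa using q.1, q.2, fun g => by simpa using q.one_iff h6.ne, q.opn h6.ne,
    fun c => q.conj h6, fun l k => (h4 l (by simp [k])).2 k θ χ q⟩

end

end Vale.Agent.P022K.PM
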