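import Vale.Agent.P022K.PM.Dic0
import Vale.Agent.P022K.TP.Gt

/-!
# P022K / PM / Dic1: integrality and elements of the group supported at one place (helper4)
-/

set_option linter.all false

open NumberField Matrix Quaternion Module

noncomputable section

namespace Vale.Agent.P022K.PM

open Vale.Agent.P022 Vale.Agent.P010MR Vale.Agent.P010MT8
open Vale.Agent.P022K.CH (Cp eps)
open Vale.Agent.P022K.TP (Af Pr am Mn pr)

variable {D : QD} {p : ℕ} [Fact p.Prime] {η : GQ →* ℤˣ}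

/-- the lattice at `p` is the ring of integers -/
def LatP (D : QD) (p : ℕ) [Fact p.Prime] : Prop :=
  ∀ x : D.B, (∀ i, ‖(D.e x i : ℚ_[p])‖ ≤ 1) ↔ ∀ (μ : Em D (Cp p)) a, ‖μ.la a x‖ ≤ 1

theorem Le.mul {a b : Matrix (Fin 2) (Fin 2) (Cp p)} {s t : ℝ} (h : Le a s) (h' : Le b t) :
    Le (a * b) (s * t) :=
  nmul ((norm_nonneg _).trans (h 0 0)) ((norm_nonneg _).trans (h' 0 0)) h h'

theorem le_one' : Le (1 : Matrix (Fin 2) (Fin 2) (Cp p)) 1 := fun i j => by
  rw [one_apply]; split_ifs <;> simp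

theorem Le.add {a b : Matrix (Fin 2) (Fin 2) (Cp p)} {s : ℝ} (h : Le a s) (h' : Le b s) :
    Le (a + b) s := fun i j =>
  (IsUltrametricDist.norm_add_le_max _ _).trans (max_le (h i j) (h' i j))

namespace LatP

variable (H : LatP D p)

include H

theorem Qm (μ : Em D (Cp p)) (a k) : ‖μ.Qm a k‖ ≤ 1 := (H _).1 (fun i => by
  rw [D.e.apply_symm_apply, Pi.single_apply]; split_ifs <;> simp) μ a

/-- the lattice condition for local vectors -/
theorem vec {m : Type} {x : Matrix (Ix D.g) m ℚ_[p]} {c : ℚ_[p]} (hc : c ≠ 0) (h : ∀ (μ : Em D (Cp p)) a k,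
    ‖(μ.Qm * x.map (algebraMap ℚ_[p] (Cp p)) : Matrix _ _ _) a k‖ ≤ ‖c‖) (i k) : ‖x i k‖ ≤ ‖c‖ := by
  choose w hw using fun i => Padic.rat_dense p (x i k / c) one_pos
  have h1 : ∀ i, ‖(w i : ℚ_[p])‖ ≤ 1 := by
    have := (H (D.e.symm w)).2 fun μ a => by
      rw [← congrFun (μ.Qm_e _) a, D.e.apply_symm_apply]
      have e : (μ.Qm *ᵥ fun i => (w i : Cp p)) a = (μ.Qm * x.map (algebraMap ℚ_[p] (Cp p)) :
          Matrix _ _ _) a k / algebraMap _ _ c +
          ∑ i, μ.Qm a i * algebraMap ℚ_[p] (Cp p) (w i - x i k / c) := by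
        simp [mulVec, dotProduct, mul_apply, mul_sub, Finset.sum_div, mul_div_assoc,
          -Fintype.sum_sum_type]
      rw [e]
      refine (IsUltrametricDist.norm_add_le_max _ _).trans (max_le ?_ ?_)
      · rw [norm_div, norm_algebraMap']
        exact div_le_one_of_le₀ (h μ a k) (norm_nonneg _)
      · refine IsUltrametricDist.norm_sum_le_of_forall_le_of_nonneg zero_le_one fun i _ => ?_
        rw [norm_mul, norm_algebraMap', norm_sub_rev]
        exact mul_le_one₀ (H.Qm μ a i) (norm_nonneg _) (hw i).le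
    rwa [D.e.apply_symm_apply] at this
  rw [← div_le_one (norm_pos_iff.2 hc), ← norm_div, ← sub_add_cancel (x i k / c) (w i)]
  exact (IsUltrametricDist.norm_add_le_max _ _).trans (max_le (hw i).le (h1 i))

/-- small blocks give a small matrix -/
theorem nle {u : Mi D.g ℚ_[p]} {c : ℚ_[p]} (hc : c ≠ 0)
    (h : ∀ μ : Em D (Cp p), ∃ ρ, Rh μ u ρ ∧ Le ρ ‖c‖) : Nle u ‖c‖ := H.vec hc fun μ a k => by
  obtain ⟨ρ, h1, h2⟩ := h μ
  rw [h1, ← mul_one ‖c‖]
  exact nmul (norm_nonneg _) zero_le_one h2 (H.Qm μ) a k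

/-- a small matrix has small blocks at the split places -/
theorem le {μ : Em D (Cp p)} (hμ : μ.Sp) {u ρ} (h : Rh μ u ρ) {c : ℝ} (h0 : 0 ≤ c) (hu : Nle u c) :
    Le ρ c := by
  intro i j
  obtain ⟨y, y', -, h1, h2⟩ := exists_loc hμ (h := single j j 1) fun a b => by
    rw [single_apply]; split_ifs; exacts [one_mem _, zero_mem _]
  let o : Matrix (Ix D.g) Unit ℚ_[p] := Matrix.of fun k _ => D.e 1 k
  have h3 : ∀ μ' : Em D (Cp p), μ'.Qm * o.map (algebraMap ℚ_[p] (Cp p)) = Matrix.of fun _ _ => 1 :=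
    fun μ' => by
    ext a k
    simpa [Em.la, mulVec, dotProduct, mul_apply, o] using congrFun (μ'.Qm_e 1) a
  have h4 : ∀ a k, ‖(y * o) a k‖ ≤ ‖(1 : ℚ_[p])‖ := H.vec one_ne_zero fun μ' a k => by
    obtain ⟨ρ', h5, -, h6⟩ := h2 μ'
    rw [Matrix.map_mul, ← Matrix.mul_assoc, h5, Matrix.mul_assoc, h3, norm_one, ← mul_one (1 : ℝ)]
    refine nmul zero_le_one zero_le_one ?_ (by simp) a k
    rcases h6 with h6 | h6
    · simpa only [zero_smul, sub_zero, Le] using h6.2 0 1 fun a b => by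
        rw [zero_smul, sub_zero, single_apply]; split_ifs <;> simp
    · exact h6.2 ▸ le_one'
  have h5 : (μ.Qm * (u.map (algebraMap ℚ_[p] (Cp p)) * (y * o).map (algebraMap ℚ_[p] (Cp p))) :
      Matrix _ _ _) i () = ρ i j := by
    rw [← Matrix.mul_assoc, h, Matrix.map_mul, Matrix.mul_assoc, ← Matrix.mul_assoc μ.Qm, h1,
      Matrix.mul_assoc, h3]
    fin_cases j <;> simp [mul_apply, single_apply, Finset.filter_eq]
  rw [← h5, ← one_mul c, ← mul_one c]
  exact nmul zero_le_one (by simpa) (H.Qm μ) (nmul h0 zero_le_one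
    (fun a b => (norm_algebraMap' _ _).trans_le (hu a b))
    fun a b => (norm_algebraMap' _ _).trans_le ((h4 a b).trans_eq norm_one)) i ()

theorem le_int {μ : Em D (Cp p)} (hμ : μ.Sp) {e : EE D η} (h : Int e) : Le (re μ e) 1 :=
  H.le hμ (re_rh μ e) zero_le_one fun i j => TP.mem_Z1.1 (h i j) (pp p)

theorem le_sub {μ : Em D (Cp p)} (hμ : μ.Sp) {e e' : EE D η} {n : ℕ} (h : Mn n (uu e - uu e')) :
    Le (re μ e - re μ e') ‖(n : ℚ_[p])‖ :=
  H.le hμ ((re_rh μ e).sub (re_rh μ e')) (norm_nonneg _) (by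
    rw [mt_eq, mt_eq, ← map_sub]; exact fun i j => h i j (pp p))

theorem le_cn {μ : Em D (Cp p)} (hμ : μ.Sp) {e : EE D η} {n : ℕ} (h : Cn n e) :
    Le (re μ e - 1) ‖(n : ℚ_[p])‖ :=
  re_one μ (η := η) ▸ H.le_sub hμ (by rw [map_one]; exact h)

end LatP

theorem re_mem {μ : Em D (Cp p)} (hμ : μ.Sp) (e : EE D η) (i j) : re μ e i j ∈ μ.Kf :=
  (re_rh μ e).mem hμ i j

theorem re_gm (μ : Em D (Cp p)) (γ : Gp p) (e : EE D η) : re (μ.gm γ) e = (re μ e).map γ :=
  ((re_rh μ e).gm γ).eq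

theorem ext_mp {n : Type} [Fintype n] [DecidableEq n] {X Y : Matrix n n Af}
    (h : ∀ r, mp r X = mp r Y) : X = Y :=
  Matrix.ext fun i j => TP.ext_pr fun r => congrFun (congrFun (h r) i) j

/-- an adele with one component -/
theorem exists_sgl (r : Pr) (x : ℚ_[r.1]) :
    ∃ y : Af, pr r y = x ∧ ∀ r', r' ≠ r → pr r' y = 0 := by
  obtain ⟨q, hq⟩ := Padic.rat_dense r.1 x one_pos
  refine ⟨TP.mkA (Pi.single r x) q.den q.den_pos fun r' => ?_, by rw [TP.pr_mkA, Pi.single_eq_same],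
    fun r' h => by rw [TP.pr_mkA, Pi.single_eq_of_ne h]⟩
  rcases eq_or_ne r' r with rfl | h
  · rw [Pi.single_eq_same, ← sub_add_cancel x q, mul_add]
    refine (Padic.nonarchimedean _ _).trans (max_le ?_ ?_)
    · rw [norm_mul]; exact mul_le_one₀ (TP.nat_le _ _) (norm_nonneg _) hq.le
    · rw [show (q.den : ℚ_[r'.1]) * q = (q.num : ℤ) by exact_mod_cast Rat.den_mul_eq_num q]
      exact Padic.norm_int_le_one _
  · simp [Pi.single_eq_of_ne h]

/-- an adelic matrix which is one away from `r` -/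
theorem exists_at {n : Type} [Fintype n] [DecidableEq n] (r : Pr) (x : Matrix n n ℚ_[r.1]) :
    ∃ y : Matrix n n Af, mp r y = x ∧ ∀ r', r' ≠ r → mp r' y = 1 := by
  choose y h1 h2 using fun i j => exists_sgl r ((x - 1) i j)
  refine ⟨Matrix.of y + 1, ?_, fun r' h => ?_⟩ <;> rw [map_add, map_one]
  · exact eq_sub_iff_add_eq.1 (Matrix.ext h1)
  · exact add_eq_right.2 (Matrix.ext fun i j => h2 i j r' h)

/-- **elements supported at one place** -/
theorem exists_one {μ : Em D (Cp p)} (hμ : μ.Sp) {h : Matrix (Fin 2) (Fin 2) (Cp p)}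
    (hh : ∀ i j, h i j ∈ μ.Kf) (hd : h.det = 1) (η : GQ →* ℤˣ) :
    ∃ k : EE D η, sg k = 1 ∧ re μ k = h ∧ (∀ r : Pr, r.1 ≠ p → mt k r = 1) ∧
      (∀ μ' : Em D (Cp p), (∀ γ, μ'.φ ≠ gc γ μ.φ) → re μ' k = 1) ∧
      (LatP D p → Le h 1 → Int k) ∧
      ∀ n : ℕ, n ≠ 0 → LatP D p → Le (h - 1) ‖(n : ℚ_[p])‖ → Cn n k := by
  obtain ⟨u, u', h1, h2, h3⟩ := exists_loc hμ hh
  have h4 : u' * u = 1 := Rh.ext fun μ' => by
    obtain ⟨ρ, a, b, c⟩ := h3 μ'
    refine ⟨1, ?_, rh_one'⟩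
    have := b.mul a
    rwa [adjugate_mul, show ρ.det = 1 from c.elim (fun c => c.1.elim fun γ c => by
      rw [c.2, hd, map_one]) fun c => by rw [c.2, det_one], one_smul] at this
  obtain ⟨y, h5, h6⟩ := exists_at (pp p) u
  have h7 : ∀ r : Pr, r.1 ≠ p → mp r y = 1 := fun r hr => h6 r fun e => hr (congrArg _ e)
  obtain ⟨k, h8, h9⟩ := exists_EE (η := η) 1 (u := y) (by
    rw [map_one, map_one]
    refine QD.At.of_comm (ext_mp fun r => ?_) fun b => ext_mp fun r => ?_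
    · rw [one_smul, map_mul, map_mul, show mp r yᵀ = (mp r y)ᵀ from rfl,
        show mp r (J _ _) = J _ _ from Matrix.map_J _ (pr r).toRingHom]
      rcases eq_or_ne r (pp p) with rfl | hr
      · rw [h5, h1.adj, mul_assoc, h4, mul_one]
      · simp [h6 r hr]
    · rw [QD.al_one, map_mul, map_mul, am, mp_cA]
      rcases eq_or_ne r (pp p) with rfl | hr
      · exact h5 ▸ h1.cm b
      · simp [h6 r hr])
  have h10 : mt k (pp p) = u := by rw [mt_eq, h9, h5]
  refine ⟨k, h8, (h10 ▸ h2).eq, fun r hr => by rw [mt_eq, h9, h7 r hr], fun μ' H => ?_,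
    fun H hl i j => TP.mem_Z1.2 fun r => ?_, fun n hn H hl i j r => ?_⟩
  · obtain ⟨ρ, a, -, c⟩ := h3 μ'
    exact (h10 ▸ a).eq.trans (c.elim (fun c => c.1.elim fun γ c => (H γ c.1).elim) fun c => c.2)
  · change ‖mp r (uu k) i j‖ ≤ 1
    rw [h9]
    rcases eq_or_ne r (pp p) with rfl | hr
    · rw [h5, ← norm_one (α := ℚ_[p])]
      refine H.nle one_ne_zero (fun μ' => (h3 μ').imp fun ρ c => ⟨c.1, ?_⟩) i j
      rw [norm_one]
      exact c.2.2.elim (fun c => by simpa using c.2 0 1 (by simpa using hl)) fun c => c.2 ▸ le_one'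
    · rw [h6 r hr, one_apply]; split_ifs <;> simp
  · change ‖mp r (uu k - 1) i j‖ ≤ _
    rw [h9, map_sub, map_one]
    rcases eq_or_ne r (pp p) with rfl | hr
    · rw [h5]
      refine H.nle (Nat.cast_ne_zero.2 hn) (fun μ' => ?_) i j
      obtain ⟨ρ, a, -, c⟩ := h3 μ'
      exact ⟨_, a.sub rh_one', c.elim (fun c => by simpa using c.2 1 _ (by simpa using hl))
        fun c a b => by simp [c.2]⟩
    · simp [h6 r hr]

end Vale.Agent.P022K.PM
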