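import Vale.Agent.P022K.PM.TwD

/-!
# P022K / PM: fixed points near a smooth fixed point, with a prescribed tangent direction
-/

namespace Vale.Agent.P022K.PM

open Polynomial Filter Topology Vale.Agent.P022 Vale.Agent.P022K.MB

/-- point derivations -/
def Pder {K A Ω : Type*} [CommRing K] [CommRing A] [CommRing Ω] [Algebra K A] [Algebra K Ω]
    (y : A → Ω) (δ : A →ₗ[K] Ω) : Prop := ∀ a b, δ (a * b) = y a * δ b + y b * δ a

/-- a point derivation that kills the etale coordinates vanishes -/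
theorem Pder.zero {K A Ω : Type*} [Field K] [CommRing A] [Field Ω] [Algebra K A] [Algebra K Ω]
    {n : ℕ} {t : Fin n → A} {u : A} {f h : (MvPolynomial (Fin n) K)[X]} (hk : evl K t u f = 0)
    (hd : ∀ r, ∃ (m : ℕ) (q : _), evl K t u h ^ m * r = evl K t u q) (y : A →ₐ[K] Ω)
    (h1 : y (evl K t u h) ≠ 0) (h2 : y (evl K t u (derivative f)) ≠ 0) {δ : A →ₗ[K] Ω}
    (hδ : Pder y δ) (h0 : ∀ k, δ (t k) = 0) (r : A) : δ r = 0 := by
  have e1 : δ 1 = 0 := by simpa using hδ 1 1
  have e2 : ∀ P : MvPolynomial (Fin n) K, δ (MvPolynomial.aeval t P) = 0 := fun P => by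
    induction P using MvPolynomial.induction_on with
    | C c => rw [MvPolynomial.aeval_C, Algebra.algebraMap_eq_smul_one, map_smul, e1, smul_zero]
    | add P Q hP hQ => rw [map_add, map_add, hP, hQ, add_zero]
    | mul_X P k hP => rw [map_mul, hδ, hP, MvPolynomial.aeval_X, h0, mul_zero, mul_zero, add_zero]
  have e3 : ∀ q, δ (evl K t u q) = y (evl K t u (derivative q)) * δ u := fun q => by
    induction q using Polynomial.induction_on with
    | C c => rw [evl_C, e2, derivative_C, map_zero, map_zero, zero_mul]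
    | add P Q hP hQ => rw [map_add, map_add, hP, hQ, map_add, map_add, map_add, add_mul]
    | monomial l c hP =>
      rw [pow_succ, ← mul_assoc, map_mul, hδ, hP, derivative_mul (g := X), derivative_X, evl_X]
      simp only [map_add, map_mul, evl_X, map_one]
      ring
  have e4 : δ u = 0 := (mul_eq_zero.1 ((e3 f).symm.trans (by rw [hk, map_zero]))).resolve_left h2
  obtain ⟨m, q, hq⟩ := hd r
  have e5 := hδ (evl K t u h ^ m) r
  rw [hq, e3, ← map_pow, e3, e4, mul_zero, mul_zero, mul_zero, add_zero, map_pow, map_pow] at e5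
  exact (mul_eq_zero.1 e5.symm).resolve_left (pow_ne_zero _ h1)

/-- small rational perturbations in a given direction avoid a hypersurface -/
theorem exists_small' {v : AbsoluteValue Qb ℝ} {q : ℚ} (hq : q ≠ 0) (h1 : v q < 1) {κ : Type*}
    [Finite κ] {c : MvPolynomial κ Qb} (hc : c ≠ 0) (w : κ → Qb) (x0 : κ → ℚ) :
    ∃ x : ℕ → κ → ℚ, (∀ k, MvPolynomial.eval (fun i => w i + x k i) c ≠ 0) ∧
      (∀ i, Tendsto (fun k => v (x k i)) atTop (𝓝 0)) ∧
      ∀ i, Tendsto (fun k => v (((q : Qb) ^ k)⁻¹ * x k i - x0 i)) atTop (𝓝 0) := by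
  have hq' : (q : Qb) ≠ 0 := Rat.cast_ne_zero.2 hq
  have h0 : 0 < v q := v.pos hq'
  have key : ∀ k : ℕ, ∃ e : κ → ℚ, MvPolynomial.eval (fun i => w i + q ^ k * x0 i + e i) c ≠ 0 ∧
      ∀ i, v (e i) < v q ^ k * v q ^ k := fun k => by
    obtain ⟨e, a, b⟩ := exists_small hq h1 hc fun i => w i + q ^ k * x0 i
    obtain ⟨l, hl⟩ := (eventually_all.2 fun i => (b i).eventually_lt_const
      (show 0 < v q ^ k * v q ^ k by positivity)).exists
    exact ⟨e l, a l, hl⟩
  choose e he1 he2 using key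
  have h2 := tendsto_pow_atTop_nhds_zero_of_lt_one h0.le h1
  have h3 : ∀ i, Tendsto (fun k => v (((q : Qb) ^ k)⁻¹ * (q ^ k * x0 i + e k i : ℚ) - x0 i)) atTop
      (𝓝 0) := fun i => by
    refine squeeze_zero (fun _ => v.nonneg _) (fun k => ?_) h2
    rw [Rat.cast_add, Rat.cast_mul, Rat.cast_pow, mul_add, inv_mul_cancel_left₀ (pow_ne_zero _ hq'),
      add_sub_cancel_left, map_mul, map_inv₀, map_pow, inv_mul_le_iff₀ (pow_pos h0 _)]
    exact (he2 k i).le
  refine ⟨fun k i => q ^ k * x0 i + e k i, fun k => ?_, fun i => ?_, h3⟩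
  · simpa only [Rat.cast_add, Rat.cast_mul, Rat.cast_pow, add_assoc] using he1 k
  · have h4 : Tendsto (fun k => v q ^ k * v (x0 i) + v q ^ k * v q ^ k) atTop (𝓝 0) := by
      simpa using (h2.mul_const (v (x0 i))).add (h2.mul h2)
    refine squeeze_zero (fun _ => v.nonneg _) (fun k => ?_) h4
    rw [Rat.cast_add, Rat.cast_mul, Rat.cast_pow]
    exact (v.add_le _ _).trans (add_le_add (by rw [map_mul, map_pow]) (he2 k i).le)

/-- **DENS2** -/
theorem dens2 {A E Ω : Type} [CommRing A] [IsDomain A] [Algebra Qb A] [Group E]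
    [MulSemiringAction E A] [NontriviallyNormedField Ω] [CompleteSpace Ω] [Algebra Qb Ω]
    {p : ℕ} {v : AbsoluteValue Qb ℝ} (hv : IsPl p v) (hΩ : ∀ x, v x = ‖algebraMap Qb Ω x‖)
    {D : Subgroup GQ} (hD : D ≤ stab v)
    (s : D →* E) (hs : ∀ (d : D) (c : Qb), s d • algebraMap Qb A c = algebraMap Qb A ((d : GQ) c))
    (hc : ∀ z : A, ∃ N : Subgroup GQ, IsOpen (N : Set GQ) ∧ ∀ d : D, (d : GQ) ∈ N → s d • z = z)
    {y : A →ₐ[Qb] Qb} (hy : Sm y) (hf : ∀ (d : D) r, y (s d • r) = (d : GQ) (y r)) {a : A}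
    (ha : a ≠ 0) : ∃ (κ : Type) (_ : Fintype κ) (dl : κ → A →ₗ[Qb] Ω),
      (∀ m, Pder (fun r => algebraMap Qb Ω (y r)) (dl m)) ∧
      (∀ δ : A →ₗ[Qb] Ω, Pder (fun r => algebraMap Qb Ω (y r)) δ →
        ∃ c : κ → Ω, ∀ r, δ r = ∑ m, c m * dl m r) ∧
      ∀ x : κ → ℚ, ∃ (c : ℕ → Ω) (Y : ℕ → (A →ₐ[Qb] Qb)), (∀ k, c k ≠ 0) ∧
        Tendsto c atTop (𝓝 0) ∧
        (∀ k, Y k a ≠ 0 ∧ ∀ (d : D) r, Y k (s d • r) = (d : GQ) (Y k r)) ∧
        ∀ r, Tendsto (fun k => (algebraMap Qb Ω (Y k r) - algebraMap Qb Ω (y r)) / c k) atTop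
          (𝓝 (∑ m, (x m : Ω) * dl m r)) := by
  classical
  obtain ⟨_, _, _, _, -, q0, hq0, hq1⟩ := hv.exists_model
  obtain ⟨n, t, u, f, h, hk, hd, h1, h2⟩ := hy
  let j : Qb →ₐ[Qb] Ω := Algebra.ofId Qb Ω
  obtain ⟨ev, e0, e1, e2, e3⟩ := exists_par hk hd (j.comp y) ((_root_.map_ne_zero j).2 h1)
    ((_root_.map_ne_zero j).2 h2)
  set t0 : Fin n → Ω := fun k => (j.comp y) (t k) with ht0
  obtain ⟨J, _, z, c, hz, hcz⟩ := exists_family (exists_inv (fun d r => s d • r)
    (fun d => smul_add _) (fun d c r => by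
      rw [Algebra.smul_def, smul_mul', hs, ← Algebra.smul_def])
    (fun d d' r => by rw [map_mul, mul_smul]) hc) (fun o : Option (Fin n) => o.elim u t)
  choose Dr hDr using e2
  have hpr : ∀ k, HasStrictFDerivAt (fun τ => ev τ (t k))
      (ContinuousLinearMap.proj k : (Fin n → Ω) →L[Ω] Ω) t0 := fun k =>
    (ContinuousLinearMap.proj k : (Fin n → Ω) →L[Ω] Ω).hasStrictFDerivAt.congr_of_eventuallyEq
      (e1.mono fun τ hτ => (hτ k).symm)
  let dd : (Fin n → Ω) → A →ₗ[Qb] Ω := fun ξ =>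
    { toFun := fun r => Dr r ξ
      map_add' := fun r r' => congrArg (· ξ) ((hDr (r + r')).hasFDerivAt.unique (by
        simpa only [map_add] using ((hDr r).fun_add (hDr r')).hasFDerivAt))
      map_smul' := fun c r => (congrArg (fun L : (Fin n → Ω) →L[Ω] Ω => L ξ)
        ((hDr (c • r)).hasFDerivAt.unique (f₁' := algebraMap Qb Ω c • Dr r) (by
          simpa only [Algebra.smul_def, map_mul, AlgHom.commutes, Algebra.algebraMap_self_apply] using
            ((hDr r).fun_const_smul (algebraMap Qb Ω c)).hasFDerivAt))).trans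
              (algebraMap_smul Ω c (Dr r ξ)) }
  have hdd : ∀ ξ, Pder (fun r => algebraMap Qb Ω (y r)) (dd ξ) := fun ξ r r' => by
    have := congrArg (· ξ) ((hDr (r * r')).hasFDerivAt.unique (by
      simpa only [map_mul] using ((hDr r).fun_mul (hDr r')).hasFDerivAt))
    rw [e0] at this
    exact this
  obtain ⟨κ, _, m, i, hcard, hi⟩ := exists_coords (fun x => Dr (z x)) fun k => by
    have h3 : HasStrictFDerivAt (fun τ => ev τ (t k)) (∑ x, j (c (some k) x) • Dr (z x)) t0 := by
      have := HasStrictFDerivAt.fun_sum (u := Finset.univ) fun x _ =>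
        (hDr (z x)).fun_const_smul (j (c (some k) x))
      refine this.congr_of_eventuallyEq (Eventually.of_forall fun τ => Eq.symm ?_)
      change ev τ (t k) = _
      rw [show t k = _ from hcz (some k), map_sum]
      exact Finset.sum_congr rfl fun x _ => by rw [map_smul, Algebra.smul_def]; rfl
    have h4 := hpr k
    have h5 := congrArg ContinuousLinearMap.toLinearMap (h4.hasFDerivAt.unique h3.hasFDerivAt)
    refine (Submodule.mem_span_range_iff_exists_fun Ω).2 ⟨fun x => j (c (some k) x), ?_⟩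
    rw [ContinuousLinearMap.coe_proj] at h5
    rw [h5]
    simp
  have hΦ : HasStrictFDerivAt (fun τ x => ev τ (z (m x))) (i : (Fin n → Ω) →L[Ω] (κ → Ω)) t0 := by
    rw [hi]; exact hasStrictFDerivAt_pi.2 fun x => hDr _
  have hw0 : (fun x => ev t0 (z (m x))) = fun x => j (y (z (m x))) := by rw [e0]; rfl
  have hind : AlgebraicIndependent Qb fun x => z (m x) := by
    rw [algebraicIndependent_iff]
    intro P hP
    refine MvPolynomial.map_injective (algebraMap Qb Ω) (algebraMap Qb Ω).injective ?_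
    rw [map_zero]
    refine eq_zero_of_nhds (w := fun x => ev t0 (z (m x))) ?_
    rw [← hΦ.map_nhds_eq_of_equiv, eventually_map]
    refine Eventually.of_forall fun τ => ?_
    rw [MvPolynomial.eval_map, ← MvPolynomial.aeval_def, ← MvPolynomial.comp_aeval_apply, hP,
      map_zero]
  have halg : Algebra.IsAlgebraic (Algebra.adjoin Qb (Set.range t)) A := by
    let ρ : MvPolynomial (Fin n) Qb →+* Algebra.adjoin Qb (Set.range t) :=
      (MvPolynomial.aeval fun k => ⟨t k, Algebra.subset_adjoin ⟨k, rfl⟩⟩).toRingHom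
    have h3 : ∀ q, aeval u (q.map ρ) = evl Qb t u q := fun q => by
      rw [aeval_def, eval₂_map, evl_apply]
      congr 1
      ext <;> simp [ρ]
    have hu : IsAlgebraic (Algebra.adjoin Qb (Set.range t)) u :=
      ⟨f.map ρ, fun e => h2 (by rw [← h3, ← derivative_map, e, derivative_zero, map_zero, map_zero]),
        by rw [h3, (hk f).2 dvd_rfl]⟩
    have h5 : ∀ q, IsAlgebraic (Algebra.adjoin Qb (Set.range t)) (aeval u q) := fun q =>
      Algebra.adjoin_le (S := Subalgebra.algebraicClosure (Algebra.adjoin Qb (Set.range t)) A)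
        (Set.singleton_subset_iff.2 hu) (aeval_mem_adjoin_singleton _ u)
    refine ⟨fun r => ?_⟩
    obtain ⟨l, q, hq⟩ := hd r
    have h4 : evl Qb t u h ^ l ≠ 0 := pow_ne_zero _ fun e => h1 (by rw [e, map_zero])
    refine IsAlgebraic.of_mul (mem_nonZeroDivisors_of_ne_zero h4) ?_ ?_
    · rw [← h3]; exact (h5 _).pow _
    · rw [hq, ← h3]; exact h5 _
  have hb : IsTranscendenceBasis Qb fun x => z (m x) :=
    hind.isTranscendenceBasis_of_trdeg_le_of_finite ((Algebra.IsAlgebraic.trdeg_le_cardinalMk Qb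
      (Set.range t)).trans (Cardinal.mk_range_le.trans (by simp [hcard])))
  have hal := hb.isAlgebraic
  have hsur : ∀ r : Algebra.adjoin Qb (Set.range fun x => z (m x)), ∃ P : MvPolynomial κ Qb,
      MvPolynomial.aeval (fun x => z (m x)) P = r := fun r =>
    (Algebra.adjoin_range_eq_range_aeval Qb _).le r.2
  obtain ⟨c0, hc0, hc1⟩ := (hal.1 a).exists_nonzero_dvd (mem_nonZeroDivisors_of_ne_zero ha)
  obtain ⟨P0, hP0⟩ := hsur c0
  choose c1 hc2 hc3 using fun o : Option (Fin n) => (hal.1 (o.elim u t)).exists_integral_multiple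
  choose P1 hP1 using fun o => hsur (c1 o)
  have hne : ∀ (P : MvPolynomial κ Qb) (r : Algebra.adjoin Qb (Set.range fun x => z (m x))),
      r ≠ 0 → MvPolynomial.aeval (fun x => z (m x)) P = r → P ≠ 0 := fun P r hr e e' =>
    hr (Subtype.ext (by rw [← e, e', map_zero]; rfl))
  have hsum : ∀ (ξ : κ → Ω) r, Dr r (i.symm ξ) = ∑ b, ξ b * dd (i.symm (Pi.single b 1)) r :=
    fun ξ r => by
      conv_lhs => rw [pi_eq_sum_univ' ξ]
      simp only [map_sum, map_smul, smul_eq_mul]
      rfl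
  refine ⟨κ, inferInstance, fun b => dd (i.symm (Pi.single b 1)), fun _ => hdd _,
    fun δ hδ => ⟨i fun k => δ (t k), fun r => ?_⟩, fun x0 => ?_⟩
  · rw [← hsum, i.symm_apply_apply, ← sub_eq_zero]
    refine Pder.zero ((hk f).2 dvd_rfl) hd (j.comp y) ((_root_.map_ne_zero j).2 h1)
      ((_root_.map_ne_zero j).2 h2) (δ := δ - dd fun k => δ (t k)) (fun a b => ?_) (fun k => ?_) r
    · simp only [LinearMap.sub_apply]
      rw [hδ, hdd]
      change _ = algebraMap Qb Ω (y a) * _ + algebraMap Qb Ω (y b) * _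
      ring
    · change δ (t k) - Dr (t k) _ = 0
      rw [(hDr (t k)).hasFDerivAt.unique (hpr k).hasFDerivAt]
      exact sub_self _
  obtain ⟨x, hx1, hx2, hx3⟩ := exists_small' hq0 hq1 (mul_ne_zero (hne _ _ hc0 hP0)
    (Finset.prod_ne_zero_iff.2 fun o (_ : o ∈ Finset.univ) => hne _ _ (hc2 o) (hP1 o)))
    (fun x => y (z (m x))) x0
  let F := hΦ.toOpenPartialHomeomorph _
  have hF : ∀ τ, F τ = fun x => ev τ (z (m x)) := fun _ => rfl
  have hs0 : t0 ∈ F.source := hΦ.mem_toOpenPartialHomeomorph_source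
  let w : ℕ → κ → Ω := fun k b => j (y (z (m b)) + x k b)
  have hw : Tendsto w atTop (𝓝 (F t0)) := by
    rw [hF, hw0]
    refine tendsto_pi_nhds.2 fun b => tendsto_iff_norm_sub_tendsto_zero.2 ?_
    refine (hx2 b).congr fun k => ?_
    rw [hΩ, ← map_sub, add_sub_cancel_left]; rfl
  have hτ : Tendsto (fun k => F.symm (w k)) atTop (𝓝 t0) := (F.tendsto_symm hs0).comp hw
  have hev : ∀ r, Tendsto (fun k => ‖ev (F.symm (w k)) r - j (y r)‖) atTop (𝓝 0) := fun r => by
    have := ((hDr r).continuousAt.tendsto).comp hτ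
    rw [e0] at this
    exact tendsto_iff_norm_sub_tendsto_zero.1 this
  -- a radius of uniqueness
  obtain ⟨ε, hε, hU⟩ : ∃ ε > 0, ∀ y' : A →ₐ[Qb] Ω, (∀ b, ‖y' (z b) - j (y (z b))‖ < ε) →
      ∃ τ ∈ F.source, y' = ev τ := by
    let L : (J → Ω) → (Fin n → Ω) × Ω := fun ξ =>
      (fun k => ∑ b, j (c (some k) b) * ξ b, ∑ b, j (c none b) * ξ b)
    have hL : ∀ y' : A →ₐ[Qb] Ω, L (fun b => y' (z b)) = (fun k => y' (t k), y' u) := fun y' => by
      have h3 : ∀ o, y' (o.elim u t) = ∑ b, j (c o b) * y' (z b) := fun o => by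
        rw [hcz o, map_sum]
        exact Finset.sum_congr rfl fun x _ => by rw [map_smul, Algebra.smul_def]; rfl
      exact Prod.ext (funext fun k => (h3 (some k)).symm) (h3 none).symm
    have hLc : Continuous L := by fun_prop
    have h3 := (hLc.tendsto' _ _ (hL (j.comp y))).eventually
      (e3.and ((continuous_fst.tendsto _).eventually (F.open_source.mem_nhds hs0)))
    obtain ⟨ε, hε, h4⟩ := Metric.eventually_nhds_iff.1 h3
    refine ⟨ε, hε, fun y' hy' => ?_⟩
    have h5 := h4 (y := fun b => y' (z b)) ((dist_pi_lt_iff hε).2 fun b => by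
      rw [dist_eq_norm]; exact hy' b)
    rw [hL] at h5
    exact ⟨_, h5.2, h5.1 y' rfl rfl⟩
  have hgood : ∀ᶠ k in atTop, ∃ Y : A →ₐ[Qb] Qb, j.comp Y = ev (F.symm (w k)) ∧ Y a ≠ 0 ∧
      ∀ (d : D) r, Y (s d • r) = (d : GQ) (Y r) := by
    filter_upwards [hw.eventually (F.open_target.mem_nhds (F.map_source hs0)),
      hτ.eventually (((hDr (evl Qb t u h)).continuousAt.eventually_ne (by
        rw [e0]; exact (_root_.map_ne_zero j).2 h1))),
      eventually_all.2 fun b => (hev (z b)).eventually_lt_const hε] with k k1 k2 k3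
    set y' := ev (F.symm (w k)) with hy'
    have k4 : (fun b => y' (z (m b))) = w k := F.right_inv k1
    have k5 : ∀ P : MvPolynomial κ Qb, y' (MvPolynomial.aeval (fun x => z (m x)) P) =
        j (MvPolynomial.eval (fun b => y (z (m b)) + x k b) P) := fun P => by
      rw [MvPolynomial.comp_aeval_apply, k4, ← MvPolynomial.aeval_eq_eval,
        MvPolynomial.comp_aeval_apply]
    have k6 := hx1 k
    rw [map_mul, map_prod] at k6
    have k7 : ∀ o : Option (Fin n), y' (o.elim u t) ∈ j.range := fun o => by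
      obtain ⟨Q, hQ, hQ0⟩ := hc3 o
      choose g hg using hsur
      let χ : Algebra.adjoin Qb (Set.range fun x => z (m x)) →+* j.range :=
        (y'.toRingHom.comp (algebraMap _ A)).codRestrict j.range fun r =>
          ⟨_, (k5 (g r)).symm.trans (congrArg y' (hg r))⟩
      have : Algebra.IsIntegral Qb j.range := ⟨fun r => by
        obtain ⟨_, b, rfl⟩ := r
        exact (isIntegral_algHom_iff j.range.val Subtype.val_injective).1 isIntegral_algebraMap⟩
      have k8 : IsIntegral Qb (y' (c1 o • o.elim u t)) := by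
        refine isIntegral_trans (A := j.range) _ ⟨Q.map χ, hQ.map _, ?_⟩
        rw [eval₂_map]
        exact (hom_eval₂ Q _ y'.toRingHom _).symm.trans (by rw [hQ0, map_zero])
      obtain ⟨b, hb⟩ := minpoly.mem_range_of_degree_eq_one Qb _
        (IsAlgClosed.degree_eq_one_of_irreducible Qb (minpoly.irreducible k8))
      have k9 : y' (c1 o) ≠ 0 := by
        rw [← hP1, k5, _root_.map_ne_zero]
        exact Finset.prod_ne_zero_iff.1 (right_ne_zero_of_mul k6) o (Finset.mem_univ o)
      refine ⟨b / MvPolynomial.eval (fun b => y (z (m b)) + x k b) (P1 o), ?_⟩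
      rw [Algebra.smul_def, map_mul] at hb
      change j _ = _
      rw [map_div₀, ← k5, hP1, div_eq_iff k9, mul_comm]
      exact hb
    choose b hb using k7
    have k8 : ∀ q, y' (evl Qb t u q) = j (evl Qb (fun k => b (some k)) (b none) q) := fun q => by
      rw [map_evl, map_evl]
      congr 2
      · exact funext fun k => (hb (some k)).symm
      · exact (hb none).symm
    have k9 : ∀ r, y' r ∈ j.range := fun r => by
      obtain ⟨l, q, hq⟩ := hd r
      refine ⟨evl Qb (fun k => b (some k)) (b none) q /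
        evl Qb (fun k => b (some k)) (b none) h ^ l, ?_⟩
      change j _ = _
      rw [map_div₀, map_pow, ← k8, ← k8, ← hq, map_mul, map_pow,
        mul_div_cancel_left₀ _ (pow_ne_zero l k2)]
    let Y : A →ₐ[Qb] Qb := (AlgEquiv.ofInjective j j.injective).symm.toAlgHom.comp
      (y'.codRestrict j.range k9)
    have hY : ∀ r, j (Y r) = y' r := fun r => congrArg Subtype.val
      ((AlgEquiv.ofInjective j j.injective).apply_symm_apply ⟨y' r, k9 r⟩)
    refine ⟨Y, AlgHom.ext hY, fun e => left_ne_zero_of_mul k6 (j.injective ?_), fun d r => ?_⟩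
    · obtain ⟨a', ha'⟩ := hc1
      change j _ = j 0
      rw [← k5, hP0, show (c0 : A) = a * a' from ha', map_mul, ← hY, e, map_zero, zero_mul]
    · have k10 : ∀ b, tw (s d) d (hs d) Y (z b) = (d : GQ) (Y (z b)) := fun b => by
        change (d : GQ) (Y ((s d)⁻¹ • z b)) = _
        rw [← map_inv, hz b]
      obtain ⟨τ, k11, k12⟩ := hU (j.comp (tw (s d) d (hs d) Y)) fun b => by
        rw [AlgHom.comp_apply, k10, ← hz b d, hf, hz b d, ← map_sub, ← map_sub]
        change ‖algebraMap Qb Ω _‖ < ε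
        rw [← hΩ, hD d.2, hΩ, map_sub]
        change ‖j _ - j _‖ < ε
        rw [hY]
        exact k3 b
      have k13 : τ = F.symm (w k) := by
        refine F.injOn k11 (F.map_target k1) ?_
        rw [F.right_inv k1, hF, ← k12]
        funext b
        have k14 : Y (z (m b)) = y (z (m b)) + x k b := j.injective ((hY _).trans (congrFun k4 b))
        rw [AlgHom.comp_apply, k10, k14, map_add, map_ratCast, ← hf, hz]
      rw [k13] at k12
      have k15 : tw (s d) d (hs d) Y (s d • r) = Y (s d • r) :=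
        j.injective ((congrArg (fun P : A →ₐ[Qb] Ω => P (s d • r)) k12).trans (hY _).symm)
      rw [← k15]
      change (d : GQ) (Y ((s d)⁻¹ • s d • r)) = _
      rw [inv_smul_smul]
  obtain ⟨k0, hk0⟩ := eventually_atTop.1 hgood
  choose Y hY1 hY2 using fun k => hk0 (k + k0) (Nat.le_add_left _ _)
  have hq2 : j q0 ≠ 0 := (_root_.map_ne_zero j).2 (Rat.cast_ne_zero.2 hq0)
  have hlim : ∀ r, Tendsto (fun k => (ev (F.symm (w k)) r - j (y r)) / j q0 ^ k) atTop
      (𝓝 (∑ b, (x0 b : Ω) * dd (i.symm (Pi.single b 1)) r)) := fun r => by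
    have h5 : HasFDerivAt F.symm (i.symm : (κ → Ω) →L[Ω] (Fin n → Ω)) (F t0) :=
      hΦ.to_localInverse.hasFDerivAt
    have h3 : HasFDerivAt (fun ξ => ev (F.symm ξ) r)
        ((Dr r).comp (i.symm : (κ → Ω) →L[Ω] (Fin n → Ω))) (F t0) :=
      HasFDerivAt.comp (F t0) (g := fun τ => ev τ r)
        (by rw [F.left_inv hs0]; exact (hDr r).hasFDerivAt) h5
    have h4 := (hasFDerivWithinAt_univ.2 h3).lim (c := fun k => (j q0 ^ k)⁻¹)
      (d := fun k => w k - F t0) (v := fun b => (x0 b : Ω)) (tendsto_sub_nhds_zero_iff.2 hw)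
      (.of_forall fun _ => trivial) (tendsto_pi_nhds.2 fun b =>
        tendsto_iff_norm_sub_tendsto_zero.2 ((hx3 b).congr fun k => by
          rw [hΩ, hF, hw0, map_sub, map_mul, map_inv₀, map_pow, map_ratCast _ (x0 b)]
          simp only [w, Pi.smul_apply, Pi.sub_apply, map_add, add_sub_cancel_left, smul_eq_mul]
          rfl))
    rw [← hsum]
    refine h4.congr fun k => ?_
    rw [add_sub_cancel, F.left_inv hs0, e0, smul_eq_mul, div_eq_inv_mul]
    rfl
  refine ⟨fun k => j q0 ^ (k + k0), Y, fun k => pow_ne_zero _ hq2,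
    (tendsto_pow_atTop_nhds_zero_of_norm_lt_one ((hΩ q0).symm.trans_lt hq1)).comp
      (tendsto_add_atTop_nat k0), hY2,
    fun r => ((hlim r).comp (tendsto_add_atTop_nat k0)).congr fun k => ?_⟩
  rw [Function.comp, ← hY1]
  rfl

end Vale.Agent.P022K.PM
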