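import Vale.Agent.P022K.PM.Twist

/-!
# P022K / PM: change of the frame without a condition on the determinant (helper22)
-/

open NumberField Matrix Quaternion

noncomputable section

namespace Vale.Agent.P022K.PM

open Vale.Agent.P022 Vale.Agent.P010MR Vale.Agent.P010MT8
open Vale.Agent.P022K.CH (Cp Kp Op red eps)
open Vale.Agent.P022K.TP Gr QD Fxg

variable {D : QD} {η : GQ →* ℤˣ} {j : Qb →+* ℂ} {N p : ℕ} [Fact p.Prime]

namespace F2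

/-- finitely many classes modulo squares and principal units -/
theorem cls (E : IntermediateField ℚ_[p] (Cp p)) [FiniteDimensional ℚ_[p] E] :
    ∃ C : Finset E, (∀ c ∈ C, c ≠ 0) ∧ ∀ x : E, x ≠ 0 → ∃ c ∈ C, ∃ y : E,
      ‖c * x / y ^ 2 - 1‖ < 1 := by
  have := FiniteDimensional.proper ℚ_[p] E
  have h0 : 0 < ‖(p : E)‖ := norm_pos_iff.2 (Nat.cast_ne_zero.2 (Fact.out : p.Prime).ne_zero)
  have h1 : 1 < ‖(p : E)⁻¹ ^ 2‖ := by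
    rw [norm_pow, norm_inv]
    exact one_lt_pow₀ ((one_lt_inv₀ h0).2 CH.norm_p_lt) two_ne_zero
  let K : Set E := Metric.closedBall 0 1 ∩ {x | 1 / ‖(p : E)⁻¹ ^ 2‖ ≤ ‖x‖}
  have h2 : ∀ x ∈ K, 0 < ‖x‖ := fun x hx => (one_div_pos.2 (one_pos.trans h1)).trans_le hx.2
  obtain ⟨C, h3, h4⟩ := ((isCompact_closedBall (0 : E) 1).inter_right
    (isClosed_le continuous_const continuous_norm) : IsCompact K).elim_nhds_subcover
    (fun c => Metric.ball c ‖c‖) fun c hc => Metric.ball_mem_nhds c (h2 c hc)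
  refine ⟨C, fun c hc => norm_pos_iff.1 (h2 c (h3 c hc)), fun x hx => ?_⟩
  obtain ⟨n, h5, h6, h7, -⟩ := rescale_to_shell_zpow h1 one_pos (inv_ne_zero hx)
  obtain ⟨c, hc, h8⟩ := Set.mem_iUnion₂.1 (h4 ⟨mem_closedBall_zero_iff.2 h6.le, h7⟩)
  refine ⟨c, hc, (p : E)⁻¹ ^ n, ?_⟩
  rw [← zpow_natCast, ← _root_.zpow_mul, mul_comm n, _root_.zpow_mul, zpow_natCast]
  generalize ((p : E)⁻¹ ^ 2) ^ n = w at h5 h8
  rw [mem_ball_iff_norm, smul_eq_mul] at h8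
  have h9 : ‖w * x⁻¹‖ = ‖c‖ := by
    rw [← sub_add_cancel (w * x⁻¹) c, IsUltrametricDist.norm_add_eq_max_of_norm_ne_norm h8.ne,
      max_eq_right h8.le]
  rw [show c * x / w - 1 = -(w * x⁻¹ - c) / (w * x⁻¹) by field_simp; ring, norm_div, norm_neg, h9]
  exact (div_lt_one (h2 c (h3 c hc))).2 h8

theorem mn_conj {g : ℕ} (a b : Mi g Af) :
    ∃ d, 0 < d ∧ ∀ n (x : Mi g Af), Mn (d * n) x → Mn n (a * x * b) := by
  obtain ⟨d, hd, h1⟩ := exists_cont_r (m := Ix g) b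
  obtain ⟨e, he, h2⟩ := exists_cont_r (m := Ix g) aᵀ
  refine ⟨e * d, Nat.mul_pos he hd, fun n x hx => ?_⟩
  have := h1 _ _ (h2 _ _ (mul_assoc e d n ▸ hx).tr).tr
  rwa [← transpose_mul, transpose_transpose] at this

theorem cz_ta {z : D.Bˣ} (hz : D.InL z) {t : Mi D.g Af} (ht : t ∈ TA D) :
    am (D.lm z) * t * am (D.lm (z⁻¹ : D.Bˣ)) = t := by
  rw [span_comm ht fun y => ?_, mul_assoc, Fxg.lm_inv, mul_one]
  rw [l0, ← lm_mul, ← lm_mul]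
  congr 1
  ext <;> simp [hz.1, hz.2, (em_eq y).1, (em_eq y).2, mul_comm, add_comm]

theorem sec_cz {Γ : Subgroup GQ} {s : Γ →* EE D η} (h : Sec s) (z : D.Bˣ) :
    Sec ((cz z).comp s) := by
  obtain ⟨a, ha, h1⟩ := mn_conj (am (D.lm z)) (am (D.lm (z⁻¹ : D.Bˣ)))
  refine ⟨h.sg, fun n hn => (h.cts _ (Nat.mul_pos ha hn)).imp fun U hU => ⟨hU.1, fun d hd => ?_⟩⟩
  have := h1 _ _ (hU.2 d hd)
  rwa [mul_sub, sub_mul, mul_one, Fxg.lm_inv] at this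

theorem mt_cz (z : D.Bˣ) (e : EE D η) (r : Pr) :
    mt (cz z e) r = ql r.1 (D.lm z) * mt e r * ql r.1 (D.lm (z⁻¹ : D.Bˣ)) := by
  rw [mt_eq, uu_cz, map_mul, map_mul]
  exact congrArg₂ (· * _ * ·) (mp_cA r _) (mp_cA r _)

theorem lB_inv (μ : Em D (Cp p)) (z : D.Bˣ) : μ.lB z * μ.lB (z⁻¹ : D.Bˣ) = 1 :=
  ((rh_lm' (μ := μ) z.1).mul (rh_lm' (z⁻¹).1)).unq (by
    rw [← mp_am, ← mp_am, ← map_mul, Fxg.lm_inv, map_one]; exact rh_one')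

theorem re_cz (μ : Em D (Cp p)) {z : D.Bˣ} {e e' : EE D η}
    (h : mt e' (pp p) = ql p (D.lm z) * mt e (pp p) * ql p (D.lm (z⁻¹ : D.Bˣ))) :
    re μ e' = μ.lB z * re μ e * (μ.lB z)⁻¹ := by
  rw [inv_eq_right_inv (lB_inv μ z)]
  exact Rh.eq (h ▸ ((rh_lm' _).mul (re_rh μ e)).mul (rh_lm' _))

theorem lB_det (μ : Em D (Cp p)) (z : D.B) : (μ.lB z).det = μ.φ (D.nrd z) := by
  simp [Em.lB, det_fin_two, QD.nrd]
  linear_combination (-(μ.φ z.imI) ^ 2 + μ.s ^ 2 * μ.φ z.imK ^ 2) * μ.hι -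
    (μ.φ z.imJ ^ 2 + μ.φ z.imK ^ 2) * μ.hs

end F2

open F2

variable {q : ℕ} [Fact q.Prime] {μ : Em D (Cp p)} {μ' : Em D (Cp q)} {ρ : GQ →* GL (Fin 2) (Kp p)}

/-- **frame** for sections near the torus -/
theorem frame2 (h : Lv η N μ μ' ρ) (j : Qb →+* ℂ) : ∃ m, 0 < m ∧ ∀ (x : MP D η) (Γ : Subgroup GQ)
    (s : Γ →* EE D η), Lp j x s → (∀ d : Γ, η d = 1 ∧ ∃ t ∈ TA D, Mn m (uu (s d) - t)) →
    ∀ g : M2 (Cp p), (∀ i k, g i k ∈ c0 μ) → g.det ≠ 0 → (∀ d, Le (g⁻¹ * re μ (s d) * g) 1) →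
    (∀ d : Γ, (g⁻¹ * re μ (s d) * g).map red = (ρ d : M2 (Kp p))) →
    ∃ (x' : MP D η) (s' : Γ →* EE D η) (z : D.Bˣ), Lp j x' s' ∧ ∀ d, Lg μ μ' ρ (s' d) ∧
      ∀ r : Pr, r.1 ≠ p →
        mt (s' d) r = ql r.1 (D.lm z) * mt (s d) r * ql r.1 (D.lm (z⁻¹ : D.Bˣ)) := by
  obtain ⟨-, -, E, _, hE⟩ := val D η N p h.ok h.hp μ h.io
  obtain ⟨C, h1, h2⟩ := cls E
  choose z a b h3 h4 y h5 h6 using fun c : C => nz D N p h.ok h.hp μ h.io c.1.1 (hE ▸ c.1.2)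
    fun e => h1 _ c.2 (Subtype.ext e)
  choose k h7 h8 using fun c => mn_conj (am (D.lm (z c))) (am (D.lm ((z c)⁻¹ : D.Bˣ)))
  refine ⟨(∏ c, k c) * q, Nat.mul_pos (Finset.prod_pos fun c _ => h7 c) (Fact.out : q.Prime).pos,
    fun x Γ s hs ht g a1 a2 a3 a4 => ?_⟩
  have kf := fun x => h.ok.kf h.hp μ (x := x)
  have a5 : g.det ∈ E := by
    rw [← hE] at a1
    rw [det_fin_two]
    exact sub_mem (mul_mem (a1 _ _) (a1 _ _)) (mul_mem (a1 _ _) (a1 _ _))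
  obtain ⟨c, hc, w, a6⟩ := h2 ⟨_, a5⟩ fun e => a2 (congrArg Subtype.val e)
  replace a6 : ‖c.1 * g.det / w.1 ^ 2 - 1‖ < 1 := a6
  obtain ⟨c, rfl⟩ : ∃ c' : C, c'.1 = c := ⟨⟨c, hc⟩, rfl⟩
  obtain ⟨x', b1⟩ := conjz D η j x _ _ _ (h4 c)
  have b2 : ∀ d, ∃ t ∈ TA D, Mn q (uu (cz (z c) (s d)) - t) ∧ Mn 1 t := fun d => by
    obtain ⟨t, b3, b4⟩ := (ht d).2
    have := h8 c _ _ (b4.anti (mul_dvd_mul_right (Finset.dvd_prod_of_mem _ (Finset.mem_univ c)) q))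
    rw [mul_sub, sub_mul, cz_ta (h3 c) b3] at this
    exact ⟨t, b3, this, by simpa using Mn.sub (hs.int d) (b4.anti (one_dvd _))⟩
  have b3 : ∀ e : EE D η, (μ.lB (z c) * g)⁻¹ * re μ (cz (z c) e) * (μ.lB (z c) * g) =
      g⁻¹ * re μ e * g := fun e => by
      have := mul_eq_one_comm.1 (lB_inv μ (z c))
      rw [re_cz μ (mt_cz _ e _), Matrix.mul_inv_rev, inv_eq_left_inv this]
      simp only [mul_assoc, ← mul_assoc (μ.lB ((z c)⁻¹ : D.Bˣ)) (μ.lB (z c)), this, one_mul]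
  have b4 : y c ≠ 0 := fun e => D.nrd_ne_zero (z c).ne_zero (μ.φ.injective (by simp [h6, e]))
  have b5 : Lp j x' ((cz (z c)).comp s) := by
    refine ⟨sec_cz hs.sec _, fun d => ?_, fun d => ?_⟩
    · obtain ⟨e', e1, e2, e3⟩ := b1 (s d) (by rw [hs.sec.sg, (ht d).1])
      obtain rfl : e' = cz (z c) (s d) := ext_EE e1 e2
      exact e3 (hs.fx d)
    · obtain ⟨t, -, e1, e2⟩ := b2 d
      have := (e1.anti (one_dvd _)).add e2
      rwa [sub_add_cancel] at this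
  have b6 : ∀ d : Γ, Mon (η d) (re μ' (cz (z c) (s d))) := fun d => by
    obtain ⟨t, e0, e1, -⟩ := b2 d
    obtain ⟨u, e2⟩ := ta_diag μ' e0
    have e3 := h.ok.le h.hq ((re_rh μ' (cz (z c) (s d))).sub e2) (norm_nonneg (q : ℚ_[q]))
      fun i k => e1 i k (pp q)
    rw [(ht d).1]
    exact ⟨fun _ => ⟨by simpa using (e3 0 1).trans_lt Padic.norm_p_lt_one,
      by simpa using (e3 1 0).trans_lt Padic.norm_p_lt_one⟩, fun e => absurd e (by decide)⟩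
  have b7 : ∀ i k, (μ.lB (z c) * g) i k ∈ c0 μ := fun i k => by
    rw [← kf, mul_apply]
    exact sum_mem fun l _ => mul_mem ((rh_lm' _).mem (h.ok.sp h.hp h.io) _ _) ((kf _).2 (a1 _ _))
  have b8 : w.1 ∈ c0 μ := by rw [← hE]; exact w.2
  obtain ⟨x'', s', z', c1, -, c2⟩ := frame h b5 b6 b7
    ((kf _).1 (mul_mem ((kf _).2 (h5 c)) ((kf _).2 b8)))
    (by rwa [det_mul, lB_det, h6, mul_pow, mul_right_comm, mul_comm _ (y c ^ 2),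
      mul_div_mul_left _ _ (pow_ne_zero _ b4)]) (fun d => (b3 (s d)).symm ▸ a3 d)
    fun d => (congrArg (·.map red) (b3 (s d))).trans (a4 d)
  exact ⟨x'', s', z c, c1, fun d => ⟨(c2 d).1, fun r hr => ((c2 d).2.2 r hr).trans (mt_cz _ _ r)⟩⟩

end Vale.Agent.P022K.PM
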