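import Vale.Agent.P022K.PM.Grp
import Vale.Agent.P022K.PM.Md
import Vale.Agent.P022K.PM.Mbv
import Vale.Agent.P022K.CH.Fld

/-!
# P022K / PM: global points from local points (helper22)
-/

open NumberField Matrix

noncomputable section

namespace Vale.Agent.P022K.PM

open Vale.Agent.P022 Vale.Agent.P022K.TP
open Vale.Agent.P022D.W (dec)

variable {D : QD} {η : GQ →* ℤˣ}

namespace Gw

/-- complex conjugations are conjugate -/
theorem conj {c c' : GQ} (h : IsConj c) (h' : IsConj c') : ∃ t : GQ, c' = t⁻¹ * c * t := by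
  obtain ⟨φ, hφ⟩ := h
  obtain ⟨ψ, hψ⟩ := h'
  let _ : Algebra Qb ℂ := φ.toAlgebra
  have : IsScalarTower ℚ Qb ℂ := IsScalarTower.of_algebraMap_eq' (RingHom.ext_rat _ _)
  let t : GQ := ψ.toRatAlgHom.restrictNormal' Qb
  have ht : ∀ x, φ (t x) = ψ x := fun x => ψ.toRatAlgHom.restrictNormal_commutes Qb x
  refine ⟨t, ?_⟩
  rw [mul_assoc, eq_inv_mul_iff_mul_eq]
  exact AlgEquiv.ext fun x => φ.injective (by
    rw [AlgEquiv.mul_apply, AlgEquiv.mul_apply, hφ, ht, ht, hψ])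

theorem fx_one (x : MP D η) (j : Qb →+* ℂ) : x.Fx j 1 := fun s hs => by
  rw [mul_one, mul_inv_cancel, map_one]
  refine x.alg s fun z hz => ?_
  obtain ⟨a, rfl⟩ := exists_j j hz
  rw [hs, map_one, AlgEquiv.one_apply]

/-- an open subgroup without a given complex conjugation -/
theorem exists_open {c : GQ} (h : IsConj c) : ∃ N : Subgroup GQ, IsOpen (N : Set GQ) ∧ c ∉ N := by
  obtain ⟨φ, hφ⟩ := h
  obtain ⟨a, ha⟩ := exists_j φ (z := Complex.I) ⟨Polynomial.X ^ 2 + 1,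
    (Polynomial.monic_X_pow_add_C 1 two_ne_zero).ne_zero, by simp⟩
  refine ⟨MulAction.stabilizer GQ a, stabilizer_isOpen_of_isIntegral a, fun h => ?_⟩
  have := hφ a
  rw [show c a = a from h, ha, Complex.conj_I] at this
  exact Complex.I_ne_zero (by linear_combination this / 2)

/-- the section over the group of order two -/
theorem exists_sec {Γ : Subgroup GQ} {e : EE D η} (hc : IsConj (sg e)) (he : e * e = 1)
    (h : ∀ g, g ∈ Γ ↔ g = 1 ∨ g = sg e) : ∃ s : Γ →* EE D η, Sec s ∧ ∀ d, s d = 1 ∨ s d = e := by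
  classical
  obtain ⟨N, h1, h2⟩ := exists_open hc
  have h3 : sg e ≠ 1 := fun h => h2 (h ▸ N.one_mem)
  have h4 : sg e * sg e = 1 := by rw [← map_mul, he, map_one]
  let s : Γ →* EE D η := MonoidHom.mk' (fun d => if d.1 = 1 then 1 else e) fun a b => by
    rcases (h _).1 a.2 with ha | ha <;> rcases (h _).1 b.2 with hb | hb <;>
      simp [ha, hb, h3, h4, he]
  have e1 : ∀ d, s d = if d.1 = 1 then 1 else e := fun _ => rfl
  refine ⟨s, ⟨fun d => ?_, fun n _ => ⟨N, h1, fun d hd => ?_⟩⟩, fun d => ?_⟩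
  · rcases (h _).1 d.2 with hd | hd <;> simp [e1, hd, h3]
  · rw [e1, if_pos (((h _).1 d.2).resolve_right fun h => h2 (h ▸ hd))]
    exact Cn.one n
  · rw [e1]
    split_ifs
    exacts [.inl rfl, .inr rfl]

end Gw

/-- **GTW** -/
theorem gtw (hL : LIFT) (hV : VAL) (hI : INTR) : GTW := by
  intro D η j p q _ _ N μ μ' ρ h Z P x s hs x0 e0 h1 h2 h3 h4 U hU n hn
  have hc : IsConj (sg e0) := ⟨j, h1⟩
  obtain ⟨v0, a1, a2⟩ := MB.exists_pl_conj hc
  obtain ⟨s0, a3, a4⟩ := Gw.exists_sec hc h2 a2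
  choose v b1 b2 using fun l : Z => MB.exists_pl (hs l l.2).1
  let Γ : Option Z → Subgroup GQ := fun i => i.elim (MB.stab v0) fun l => dec (P l)
  have hΓ : ∀ i : Option Z, Γ i = stab (i.elim v0 v) := fun i => by
    cases i
    exacts [rfl, (b2 _).1.symm]
  obtain ⟨H, r, y, c1, c2, c3, c4, c5, -, c6, c7⟩ := twm twt (h.adm hL hV hI) j (ι := Option Z)
    (p := fun i => i.elim 0 Subtype.val) (by
      rintro (_ | a) (_ | b) e
      exacts [rfl, absurd e.symm (hs b b.2).1.1.ne_zero, absurd e (hs a a.2).1.1.ne_zero,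
        congrArg _ (Subtype.ext e)])
    (v := fun i => i.elim v0 v) (fun i => by cases i; exacts [a1, b1 _]) (Γ := Γ)
    (fun i => hΓ i ▸ MB.dec_stab _) (fun i => match i with | none => s0 | some l => s l)
    (fun i => match i with | none => a3 | some l => (hs l l.2).2.1.sec)
    (fun i => match i with
      | none => fun d => (a4 d).elim (fun e => e ▸ one_mem _) fun e => e ▸ h4
      | some l => (hs l l.2).2.2) (fun i => i.elim x0 fun l => x l)
    (fun i => match i with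
      | none => fun d => (a4 d).elim (fun e => e ▸ Gw.fx_one x0 j) fun e => e ▸ h3
      | some l => (hs l l.2).2.1.fx) hU hn
  have key : ∀ i, Γ i ≤ H := fun i d hd => by
    obtain ⟨e, -, -, -, d1⟩ := c7 i 1
    obtain ⟨a, d2, -⟩ := d1 ⟨d, hd⟩
    exact (show _ = d from d2) ▸ c1.conj_mem _ a.2 _
  refine ⟨H, r, y, c1, c2, c3, fun c hc' => ?_, fun l hl Q hQ d hd => ?_,
    ⟨c4, c6, fun d => (c5 d).1⟩, c5, fun l hl σ => ?_⟩
  · obtain ⟨t, rfl⟩ := Gw.conj hc hc'
    exact c1.conj_mem' _ (key none ((a2 _).2 (.inr rfl))) t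
  · obtain ⟨g, rfl⟩ := CH.Fld.ov_conj (hs l hl).1 hQ
    simpa [mul_assoc] using c1.conj_mem _ (key (some ⟨l, hl⟩) (CH.Fld.mem_dec_smul.1 hd)) g
  · obtain ⟨e, d1, -, d2, d3⟩ := c7 (some ⟨l, hl⟩) σ
    refine ⟨e, d1, d2 (hΓ _), fun d a ha => ?_⟩
    obtain ⟨a', d4, d5⟩ := d3 d
    rw [d2 (hΓ _), ← ha, mul_left_inj, mul_right_inj] at d4
    exact Subtype.ext d4 ▸ d5

end Vale.Agent.P022K.PM
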