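import Vale.Agent.P022K.PM.Pss
import Vale.Agent.P022K.PM.Twist
import Vale.Agent.P022K.PM.Gli

/-!
# P022K / PM: local points with complex multiplication at primes which are not split (helper44)
-/

set_option autoImplicit false

open NumberField Matrix

noncomputable section

namespace Vale.Agent.P022K.PM

open Vale.Agent.P022 Vale.Agent.P010MR Vale.Agent.P010MT8
open Vale.Agent.P022.H443 (inP)
open Vale.Agent.P022D.W (dec)
open Vale.Agent.P022E.GW (Ov Fb)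
open Vale.Agent.P022K.CH (Cp Kp Id red eps)
open Vale.Agent.P022K.CH.Weil (fb_zero fb_add fb_pow fb_div fb_conj)
open Vale.Agent.P022K.TP hiding Cn Ty
open QD Sc

variable {D : QD} {η : GQ →* ℤˣ} {j : Qb →+* ℂ} {x : MP D η} {θ : D.L0} {N l : ℕ} {P : Id}

namespace Sc

theorem ext2 {G E : Type} [Group G] [Group E] (η : G →* ℤˣ) {H : Subgroup G}
    (t : ↥(H ⊓ η.ker) →* E) {ρ : G} (r : ρ ∈ H) (h : η ρ = -1) (e : E)
    (R1 : ∀ d d' : ↥(H ⊓ η.ker), ρ * d * ρ⁻¹ = d' → e * t d = t d' * e)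
    (R2 : ∀ d : ↥(H ⊓ η.ker), ρ * ρ = d → e * e = t d) :
    ∃ s : H →* E, s ⟨ρ, r⟩ = e ∧ ∀ (d : H) (hd : η d = 1), s d = t ⟨d, d.2, hd⟩ := by
  classical
  have k : (-1 : ℤˣ) ≠ 1 := by decide
  obtain ⟨ρ, rfl⟩ : ∃ x : H, x = ρ := ⟨⟨ρ, r⟩, rfl⟩
  let t' : H → E := fun d => if hd : η d = 1 then t ⟨d, d.2, hd⟩ else 1
  have k0 : ∀ (d : H) (hd : η d = 1), t' d = t ⟨d, d.2, hd⟩ := fun d hd => dif_pos hd
  have R0 : ∀ a b : H, η a = 1 → η b = 1 → t' (a * b) = t' a * t' b := fun a b ha hb => by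
    rw [k0 a ha, k0 b hb, k0 _ (by simp [ha, hb])]
    exact t.map_mul ⟨a, a.2, ha⟩ ⟨b, b.2, hb⟩
  have R3 : ∀ d : H, η d = 1 → e * t' d = t' (ρ * d * ρ⁻¹) * e := fun d hd => by
    rw [k0 d hd, k0 _ (by simp [hd])]
    exact R1 _ _ rfl
  have R4 : e * e = t' (ρ * ρ) := by
    rw [k0 _ (by simp [h])]
    exact R2 _ rfl
  refine ⟨MonoidHom.mk' (fun g => if η g = 1 then t' g else t' (g * ρ⁻¹) * e) fun a b => ?_,
    (if_neg (h ▸ k)).trans ?_, fun d hd => (if_pos hd).trans (k0 d hd)⟩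
  · rcases Int.units_eq_one_or (η a) with ha | ha <;>
      rcases Int.units_eq_one_or (η b) with hb | hb <;>
      simp only [Subgroup.coe_mul, map_mul, ha, hb, mul_one, one_mul, k, if_true, if_false,
        neg_mul_neg]
    · exact R0 a b ha hb
    · rw [mul_assoc a, R0 a _ ha (by simp [hb, h]), mul_assoc]
    · rw [mul_assoc _ e, R3 b hb, ← mul_assoc, ← R0 _ _ (by simp [ha, h]) (by simp [hb])]
      simp [mul_assoc]
    · rw [mul_assoc, ← mul_assoc e, R3 _ (by simp [hb, h]), mul_assoc _ e, R4,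
        ← R0 _ _ (by simp [hb, h]) (by simp [h]), ← R0 _ _ (by simp [ha, h]) (by simp [hb, h])]
      simp [mul_assoc]
  · rw [Subtype.coe_eta, mul_inv_cancel, k0 1 η.map_one]
    exact (congrArg (· * e) t.map_one).trans (one_mul e)

theorem nt_comm {e : EE D η} (h : Nt e) {t : Mi D.g Af} (ht : t ∈ TA D) :
    uu e * t = am (D.ww (η (sg e))) * t * am (D.ww (η (sg e))) * uu e := by
  conv_lhs => rw [← mul_one (uu e), ← am_ww (η (sg e)), ← mul_one t, ← am_ww (η (sg e))]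
  conv_rhs => rw [← mul_one (uu e), ← am_ww (η (sg e)), ← mul_assoc (uu e), ← mul_assoc,
    ← ta_comm (nt_iff.1 h).2 (ta_ww _ ht)]
  simp only [mul_assoc]

theorem nt_conj {e e' : EE D η} (h : Nt e) (ht : uu e' ∈ TA D) :
    uu (e * e' * e⁻¹) = am (D.ww (η (sg e))) * uu e' * am (D.ww (η (sg e))) := by
  rw [map_mul, map_mul, nt_comm h ht, mul_assoc _ (uu e), uu_mul_inv, mul_one]

theorem ts_conj {e e' : EE D η} (h : Nt e) (hx : x.Fx j e) (h' : Ts j x e') :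
    Ts j x (e * e' * e⁻¹) :=
  ⟨(fxg D η j x).2.1 _ _ ((fxg D η j x).2.1 _ _ hx h'.fx) ((fxg D η j x).2.2.1 _ hx),
    nt_conj h h'.ta ▸ ta_ww _ h'.ta, (h.1.mul h'.int).mul h.1.inv⟩

theorem rat_conj {e e' : EE D η} (h : Nt e) (ht : uu e' ∈ TA D) {a : D.L0}
    (ha : Rat l e' (D.l0 a)) : Rat l (e * e' * e⁻¹) (D.l0 (D.cs (η (sg e)) a)) := fun r hr => by
  rw [mt_eq, nt_conj h ht, map_mul, map_mul, ← mt_eq, ha r hr, ← mul_one (D.l0 (D.cs _ a)),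
    ← D.ww_sq (η (sg e)), ← mul_assoc, ← ww_l0]
  simp only [am, ← mp_cA, ql]
  rw [← map_mul, ← map_mul, ← Matrix.map_mul, ← Matrix.map_mul]

theorem nt_ta {e : EE D η} (h : Nt e) (h1 : η (sg e) = 1) : uu e ∈ TA D := by
  simpa only [h1, ww_one, am_one, mul_one] using (nt_iff.1 h).2

theorem nt_of {e : EE D η} (h : uu e ∈ TA D) (hi : Int e) (h1 : η (sg e) = 1) : Nt e :=
  ⟨hi, .inl ⟨h1, h⟩⟩

/-- the square of an element outside the torus -/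
theorem nt_sq {e : EE D η} (h : Nt e) (h1 : η (sg e) = -1) :
    uu (e * e) = -(cyc (sg e) • 1) := by
  have h2 := (nt_iff.1 h).2
  rw [h1] at h2
  have h3 := ta_norm h2 ((at_uu e).mul (D.ww_neg ▸ Gr.at_wm D)).sim
  rw [ta_comm (ta_ww _ h2) h2, mul_neg_one, neg_smul] at h3
  simp only [mul_assoc, am_ww, mul_one] at h3
  rwa [← mul_assoc (am _), am_ww, one_mul, ← map_mul] at h3

theorem ex_rho (hη : IsOpen {g | η g = 1}) (hP : Ov l P) {g : GQ} (hg : g ∈ dec P)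
    (h : η g = -1) : ∃ ρ m, Fb (l ^ m) P ρ ∧ η ρ = -1 := by
  obtain ⟨u, -, d, -, k, h1, h2, rfl⟩ := dense hP (V := ⊤) isOpen_univ le_rfl inf_le_left
    (U := η.ker) hη hg
  exact ⟨d, k, h2, by rwa [map_mul, show η u = 1 from h1, one_mul] at h⟩

theorem sq_int {y : D.L0} (hy : y ^ 2 = l ∨ y ^ 2 = -l) : IsIntegral ℤ y ∧ y * D.cj y = l := by
  refine ⟨IsIntegral.of_pow two_pos
    (hy.elim (· ▸ isIntegral_natCast l) (· ▸ (isIntegral_natCast l).neg)), ?_⟩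
  obtain ⟨ψ⟩ : Nonempty (D.L0 →+* ℂ) := inferInstance
  have h1 : ‖ψ y‖ ^ 2 = l := by rw [← norm_pow, ← map_pow]; rcases hy with h | h <;> simp [h]
  refine ψ.injective ?_
  rw [map_mul, conj_cj, Complex.mul_conj, Complex.normSq_eq_norm_sq, h1, map_natCast]
  rfl

/-- the point is supersingular -/
theorem ex_ss (gl : ∀ σ, ∃ e : EE D η, sg e = σ ∧ Nt e ∧ x.Fx j e) (ok : D.Ok N) (ck : x.Ck θ)
    (hP : Ov l P) {ρ : GQ} (r1 : ρ ∈ dec P) (h0 : η ρ = -1) {y : D.L0}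
    (hy : y ^ 2 = l ∨ y ^ 2 = -l) (k : ℕ) (d : GQ) (hd : d ∈ dec P ⊓ η.ker)
    (hf : Fb (l ^ k) P d) : ∃ e, sg e = d ∧ Ts j x e ∧ Rat l e (D.l0 (y ^ k)) := by
  have l0 : (l : D.L0) ≠ 0 := Nat.cast_ne_zero.2 hP.1.ne_zero
  obtain ⟨e, rfl, e1, e2⟩ := gl ρ
  obtain ⟨e0, rfl, b1, b2⟩ := gl d
  have b3 : Ts j x e0 := ⟨b2, nt_ta b1 hd.2, b1.1⟩
  obtain ⟨a, b4, b5, -⟩ := ratl D η j x θ e0 l k P ck hP b2 hf b3.ta
  have b6 := b3.inv.mul (ts_conj e1 e2 b3)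
  obtain ⟨a', b7, -, b8⟩ := ratl D η j x θ _ l 0 P ck hP b6.fx (fb_zero.2 (by
    simpa only [map_mul, map_inv] using fb_div hP hf (fb_conj r1 hf))) b6.ta
  have b9 := rat_mul b4 b7
  rw [mul_inv_cancel_left, ← l0_mul] at b9
  have b10 := rat_inj b9 (rat_conj e1 b3.ta b4)
  rw [h0, cs_neg] at b10
  have a0 : a ≠ 0 := left_ne_zero_of_mul (b5 ▸ pow_ne_zero k l0)
  obtain ⟨z, z1, z2, z3⟩ := ex_z (j := j) ck (z := y ^ k / a) (by
    rw [map_div₀, div_mul_div_comm, b5, map_pow, ← mul_pow, (sq_int hy).2,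
      div_self (pow_ne_zero k l0)])
  have z4 : IsIntegral ℤ (y ^ k / a) := IsIntegral.of_pow two_pos (by
    have h1 : (l : D.L0) ^ k / a ^ 2 = a' := by
      rw [← b5, ← b10]; field_simp
    rw [div_pow, ← pow_mul, mul_comm, pow_mul]
    rcases hy with h | h <;> rw [h]
    · exact h1 ▸ b8 b6.int
    · rw [neg_pow, mul_div_assoc, h1]
      exact (isIntegral_one.neg.pow k).mul (b8 b6.int))
  have z5 := rat_mul b4 (rat_of z2 l)
  rw [← l0_mul, mul_div_cancel₀ _ a0] at z5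
  exact ⟨_, by rw [map_mul, z1, mul_one],
    b3.mul ⟨z3, z2 ▸ ta_l0 _, by rw [Int, z2]; exact ok.lz _ z4⟩, z5⟩

theorem rat_sq (hP : Ov l P) {e : EE D η} (h : Nt e) (h1 : η (sg e) = -1) {m : ℕ}
    (hf : Fb (l ^ m) P (sg e)) : Rat l (e * e) (D.l0 (-(l : D.L0) ^ m)) := fun r hr => by
  have := Fact.mk hP.1
  obtain ⟨v, hv, -, -, -, hw⟩ := exists_wl hP
  rw [mt_eq, nt_sq h h1, ← D.l0A_apply, show -(l : D.L0) ^ m = -((l : ℚ) ^ m • 1) by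
    simp [Rat.smul_def], map_neg, map_neg, map_smul D.l0A, map_one]
  ext a b
  by_cases e : a = b <;> simp [mp_apply, cyc_wl hv ((hw _ _).2 hf) hr, ql, e]

/-- conjugation on the subgroup of index two -/
def cjg {ρ : GQ} (h : ρ ∈ dec P) : ↥(dec P ⊓ η.ker) →* ↥(dec P ⊓ η.ker) :=
  MonoidHom.mk' (fun d => ⟨ρ * d * ρ⁻¹, ((dec P).mul_mem ((dec P).mul_mem h d.2.1)
    ((dec P).inv_mem h)), η.normal_ker.conj_mem _ d.2.2 _⟩) fun _ _ => Subtype.ext (by simp)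

/-- extension from the subgroup of index two -/
theorem sec_two (ck : x.Ck θ) (hη : IsOpen {g | η g = 1}) (hP : Ov l P) {e : EE D η} (e1 : Nt e)
    (e2 : x.Fx j e) {m : ℕ} (hρ : Fb (l ^ m) P (sg e)) (h0 : η (sg e) = -1)
    {t : ↥(dec P ⊓ η.ker) →* EE D η} (b1 : Lp j x t) (b2 : ∀ d, uu (t d) ∈ TA D)
    {a : ℕ → GQ → D.L0}
    (b4 : ∀ k (d : ↥(dec P ⊓ η.ker)), Fb (l ^ k) P d → Rat l (t d) (D.l0 (a k d)))
    (c4 : ∀ k d, η d = 1 → Fb (l ^ k) P d → a k (sg e * d * (sg e)⁻¹) = D.cj (a k d))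
    (c5 : a (m + m) (sg e * sg e) = -(l : D.L0) ^ m) : ∃ s : dec P →* EE D η, Lp j x s ∧
      (∀ d, Nt (s d)) ∧ ∀ (d : dec P) (h : η d = 1), s d = t ⟨d, d.2, h⟩ := by
  classical
  have r1 := fb_dec hP.2.1 (pow_ne_zero m hP.1.ne_zero) hρ
  have hV : IsOpen (η.ker : Set GQ) := hη
  have b3 : ∀ d, Ts j x (t d) := fun d => ⟨b1.fx d, b2 d, b1.int d⟩
  have R1 : (MulAut.conj e⁻¹).toMonoidHom.comp (t.comp (cjg r1)) = t := by
    refine sec_unq hP hV inf_le_left le_rfl ⟨fun d => ?_, fun n hn => ?_⟩ b1.sec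
      (fun d => (e1.1.inv.mul (b1.int _)).mul e1.1.inv.inv) fun k d h => ?_
    · simp [b1.sec.sg, cjg, mul_assoc]
    · obtain ⟨U, u1, u2⟩ := b1.sec.cts n hn
      exact ⟨U.comap (MulAut.conj (sg e)).toMonoidHom,
        u1.preimage ((continuous_const.mul continuous_id).mul continuous_const),
        fun d hd => (u2 (cjg r1 d) hd).conj e1.1.inv⟩
    · have h1 := ts_conj e1 e2 (b3 d)
      have h2 := rat_conj e1 (b3 d).ta (b4 k d h)
      rw [h0, cs_neg, ← c4 k d d.2.2 h] at h2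
      have := ts_ext (l := l) stab_row ck h1.fx (b3 (cjg r1 d)).fx (h1.inv.mul (b3 _)).ta
        (by simp [b1.sec.sg, cjg]) fun r hr =>
          (h2 r hr).trans (b4 k (cjg r1 d) (fb_conj r1 h) r hr).symm
      change e⁻¹ * t (cjg r1 d) * e⁻¹⁻¹ = _
      rw [← this]
      group
  have R2 : e * e = t ⟨sg e * sg e, (dec P).mul_mem r1 r1, by simp [h0]⟩ := by
    have h1 : Ts j x (e * e) := ⟨(fxg D η j x).2.1 _ _ e2 e2,
      nt_ta (e1.mul e1) (by simp [h0]), e1.1.mul e1.1⟩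
    refine ts_ext (l := l) stab_row ck h1.fx (b3 _).fx (h1.inv.mul (b3 _)).ta
      (by simp [b1.sec.sg]) fun r hr => (rat_sq hP e1 h0 hρ r hr).trans ?_
    rw [← c5]
    exact (b4 _ ⟨_, _⟩ (fb_add hP hρ hρ) r hr).symm
  obtain ⟨s, hs, k1⟩ := ext2 η t r1 h0 e (fun d d' h => by
    have h1 : e⁻¹ * t (cjg r1 d) * e⁻¹⁻¹ = t d := DFunLike.congr_fun R1 d
    rw [← h1, inv_inv, mul_assoc, mul_inv_cancel_left, show cjg r1 d = d' from Subtype.ext h])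
    fun d h => R2.trans (congrArg t (Subtype.ext h))
  have k3 : ∀ d, Nt (t d) := fun d => nt_of (b2 d) (b1.int d) ((b1.sec.sg d).symm ▸ d.2.2)
  have k2 : ∀ d : dec P, sg (s d) = d ∧ Nt (s d) ∧ x.Fx j (s d) := fun d => by
    rcases Int.units_eq_one_or (η d) with h | h
    · exact k1 d h ▸ ⟨b1.sec.sg _, k3 _, b1.fx _⟩
    · rw [← inv_mul_cancel_right d ⟨sg e, r1⟩, map_mul s, hs, k1 _ (by simp [h, h0])]
      exact ⟨by simp [b1.sec.sg], (k3 _).mul e1, (fxg D η j x).2.1 _ _ (b1.fx _) e2⟩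
  refine ⟨s, ⟨⟨fun d => (k2 d).1, fun n hn => ?_⟩, fun d => (k2 d).2.2, fun d => (k2 d).2.1.1⟩,
    fun d => (k2 d).2.1, k1⟩
  obtain ⟨U, u1, u2⟩ := b1.sec.cts n hn
  exact ⟨U ⊓ η.ker, u1.inter hV, fun d hd => k1 d hd.2 ▸ u2 _ hd.1⟩

end Sc

/-- **INDS** -/
theorem inds (gl : ∀ σ, ∃ e : EE D η, sg e = σ ∧ Nt e ∧ x.Fx j e) (ok : D.Ok N) (ck : x.Ck θ)
    (hη : IsOpen {g | η g = 1}) (hP : Ov l P) {ρ : GQ} {m : ℕ} (hρ : Fb (l ^ m) P ρ)
    (h0 : η ρ = -1) {y : D.L0} (hy : y ^ 2 = l ∨ y ^ 2 = -l) (c : GQ → D.L0)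
    (c1 : ∀ d ∈ dec P, η d = 1 → Ru (c d))
    (c2 : ∀ d ∈ dec P, ∀ d' ∈ dec P, η d = 1 → η d' = 1 → c (d * d') = c d * c d')
    (c3 : ∃ U : Subgroup GQ, IsOpen (U : Set GQ) ∧ ∀ d ∈ U ⊓ dec P, η d = 1 → c d = 1)
    (c4 : ∀ k d, η d = 1 → Fb (l ^ k) P d → c (ρ * d * ρ⁻¹) * y ^ k = D.cj (c d * y ^ k))
    (c5 : c (ρ * ρ) * y ^ (m + m) = -(l : D.L0) ^ m) :
    ∃ s : dec P →* EE D η, Lp j x s ∧ (∀ d, Nt (s d)) ∧
      ∀ k (d : dec P), η d = 1 → Fb (l ^ k) P d → Rat l (s d) (D.l0 (c d * y ^ k)) := by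
  obtain ⟨s0, a1, a2, a3⟩ := sec_ext (j := j) stab_row deep ok ck hη hP (V := η.ker) hη inf_le_left
    le_rfl y (ex_ss gl ok ck hP (fb_dec hP.2.1 (pow_ne_zero m hP.1.ne_zero) hρ) h0 hy)
    (sq_int hy).1 (sq_int hy).2
  obtain ⟨s1, b1, b2⟩ := twist ok ck a1 (c := fun d => c d)
    (fun d => nt_of (a2 d) (a1.int d) ((a1.sec.sg d).symm ▸ d.2.2)) (fun d => c1 d d.2.1 d.2.2)
    (fun d d' => by rw [show η d = 1 from d.2.2, cs_one]; exact c2 _ d.2.1 _ d'.2.1 d.2.2 d'.2.2)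
    (c3.imp fun U h => ⟨h.1, fun d hd => h.2 d ⟨hd, d.2.1⟩ d.2.2⟩)
  have b4 : ∀ k (d : ↥(dec P ⊓ η.ker)), Fb (l ^ k) P d → Rat l (s1 d) (D.l0 (c d * y ^ k)) :=
    fun k d h => l0_mul D _ _ ▸ rat_tw (b2 d).2 (a3 k d h)
  obtain ⟨e, rfl, e1, e2⟩ := gl ρ
  obtain ⟨s, s1, s2, s3⟩ := sec_two ck hη hP e1 e2 hρ h0 b1
    (fun d => nt_ta (b2 d).1 ((b1.sec.sg d).symm ▸ d.2.2)) (a := fun k d => c d * y ^ k) b4 c4 c5
  exact ⟨s, s1, s2, fun k d h h' => s3 d h ▸ b4 k _ h'⟩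

/-- **INDS** for the unramified quadratic character -/
theorem inds0 (gl : ∀ σ, ∃ e : EE D η, sg e = σ ∧ Nt e ∧ x.Fx j e) (ok : D.Ok N) (ck : x.Ck θ)
    (hη : IsOpen {g | η g = 1}) (hP : Ov l P) (ur : ∀ k g, Fb (l ^ k) P g → η g = (-1) ^ k)
    {y : D.L0} (hy : y ^ 2 = -l) : ∃ s : dec P →* EE D η, Lp j x s ∧ (∀ d, Nt (s d)) ∧
      ∀ k (d : dec P), Fb (l ^ (2 * k)) P d → Rat l (s d) (D.l0 ((-l) ^ k)) := by
  obtain ⟨φ, hφ⟩ := P022D.W.exists_phi hP.1 hP.2.1 hP.2.2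
  have h1 : Fb (l ^ 1) P φ := (pow_one l).symm ▸ hφ
  obtain ⟨s, a, b, c⟩ := inds gl ok ck hη hP h1 (ur 1 φ h1) (.inr hy) (fun _ => 1)
    (fun _ _ _ => ⟨1, one_pos, one_pow 1⟩) (fun _ _ _ _ _ _ => (one_mul 1).symm)
    ⟨⊤, isOpen_univ, fun _ _ _ => rfl⟩ (fun k d h h' => by
      obtain ⟨k, rfl⟩ := (even_iff_two_dvd.1 ((neg_one_pow_eq_one_iff_even (by decide)).1
        ((ur k d h').symm.trans h)))
      simp [pow_mul, hy]) (by simpa using hy)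
  exact ⟨s, a, b, fun k d h => by
    simpa [pow_mul, hy] using c _ d (by simp [ur _ _ h]) h⟩

/-- continuous functions are determined by their values on the Weil elements -/
theorem weil_ext (hP : Ov l P) {Γ V : Subgroup GQ} (hV : IsOpen (V : Set GQ)) (hΓ : Γ ≤ dec P)
    (hle : dec P ⊓ V ≤ Γ) : Dense {d : Γ | ∃ k, Fb (l ^ k) P d} := fun d =>
  mem_closure_iff.2 fun O h1 h2 => by
    obtain ⟨O, h0, rfl⟩ := isOpen_induced_iff.1 h1
    obtain ⟨U, -, u1, u2⟩ := Glue.exists_normal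
      ((h0.preimage (continuous_inv.mul_const d.1)).mem_nhds (by simpa using h2))
    obtain ⟨u, -, d0, h3, k, h4, h5, h6⟩ := dense hP hV hΓ hle u1 d.2
    exact ⟨⟨d0, h3⟩, by simpa [h6] using u2 h4, k, h5⟩

/-- two monomial representations which agree on the subgroup of index two -/
theorem mono_match {G K : Type} [Group G] [Field K] (η : G →* ℤˣ) {a b : G → M2 K}
    (ha : ∀ g h, a (g * h) = a g * a h) (hb : ∀ g h, b (g * h) = b g * b h)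
    (e : ∀ g, η g = 1 → a g = b g ∧ Gr.Mo 1 (b g)) {ρ : G} (h : η ρ = -1) (h1 : Gr.Mo (-1) (a ρ))
    (h2 : Gr.Mo (-1) (b ρ)) (hd : (a ρ).det = (b ρ).det) (h0 : (b ρ).det ≠ 0) (g : G) :
    a g * diagonal ![a ρ 0 1 / b ρ 0 1, 1] = diagonal ![a ρ 0 1 / b ρ 0 1, 1] * b g := by
  have k : ∀ g, η g = 1 → ∀ t, a g * diagonal ![t, 1] = diagonal ![t, 1] * b g := fun g hg t => by
    obtain ⟨a1, a2⟩ := (e g hg).2.1 rfl
    rw [(e g hg).1]
    ext i k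
    fin_cases i <;> fin_cases k <;> simp [a1, a2, mul_comm]
  rcases Int.units_eq_one_or (η g) with hg | hg
  · exact k g hg _
  obtain ⟨a1, a2⟩ := h1.2 rfl
  obtain ⟨b1, b2⟩ := h2.2 rfl
  simp only [det_fin_two, a1, b1, zero_mul, zero_sub, neg_inj, ne_eq, neg_eq_zero] at hd h0
  have h3 := left_ne_zero_of_mul h0
  rw [← inv_mul_cancel_right g ρ, ha, hb, ← mul_assoc, ← k _ (by simp [hg, h]), mul_assoc,
    mul_assoc]
  congr 1
  ext i k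
  fin_cases i <;> fin_cases k <;> simp [a1, a2, b1, b2, h3]
  field_simp
  linear_combination hd

end Vale.Agent.P022K.PM
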