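import Vale.Agent.P022K.CH.Fld

/-!
# P022K / PM: killing ramification by a totally real Galois field
-/

set_option autoImplicit false

open NumberField Pointwise

namespace Vale.Agent.P022K.PM

open Vale.Agent.P022 Vale.Agent.P022K.CH
open Vale.Agent.P022D.W (dec)
open Vale.Agent.P022E.GW (Ov)
open Vale.Agent.P022K.Glue (Dsj)

/-- **KILL**: a totally real Galois field, split at `W`, disjoint from `U`, whose completions at
the primes in `T` contain those of `V` -/
theorem kill (W T : Finset ℕ) (hT : Disjoint T W) {V : Subgroup GQ} (hn : V.Normal)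
    (hV : IsOpen (V : Set GQ)) (U : Subgroup GQ) (hu : U.Normal) (hU : IsOpen (U : Set GQ)) :
    ∃ N : Subgroup GQ, N.Normal ∧ IsOpen (N : Set GQ) ∧ (∀ c, IsConj c → c ∈ N) ∧
      (∀ l ∈ W, ∀ P, Ov l P → dec P ≤ N) ∧ Dsj N U ∧ ∀ l ∈ T, ∀ P, Ov l P → N ⊓ dec P ≤ V := by
  classical
  induction T using Finset.induction_on with
  | empty => exact ⟨⊤, inferInstance, isOpen_univ, fun _ _ => trivial, fun _ _ _ _ => le_top,
      fun g => ⟨g, trivial, by simp⟩, by simp⟩
  | insert l T _ ih =>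
    rw [Finset.disjoint_insert_left] at hT
    obtain ⟨N, a1, a2, a3, a4, a5, a6⟩ := ih hT.2
    by_cases h : ∃ P, Ov l P
    swap
    · refine ⟨N, a1, a2, a3, a4, a5, fun q hq P hP => ?_⟩
      rcases Finset.mem_insert.1 hq with rfl | hq
      exacts [absurd ⟨P, hP⟩ h, a6 q hq P hP]
    obtain ⟨P₀, h₀⟩ := h
    obtain ⟨n, k⟩ := fld_gen (U ⊓ N) (hU.inter a2) W hT.1 h₀ hV
    obtain ⟨H, b1, -, b3, b4, b5, -, b7, -⟩ := k n le_rfl
    have : Finite (GQ ⧸ H) := H.quotient_finite_of_isOpen b1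
    have : H.FiniteIndex := H.finiteIndex_of_finite_quotient
    refine ⟨N ⊓ H.normalCore, inferInstance, a2.inter (Subgroup.isOpen_of_isClosed_of_finiteIndex _
      (H.normalCore_isClosed (H.isClosed_of_isOpen b1))), fun c hc => ⟨a3 c hc, b3 c hc⟩,
      fun q hq P hP => le_inf (a4 q hq P hP) (b4 q hq P hP), fun g => ?_, fun q hq P hP x hx => ?_⟩
    · obtain ⟨x, c1, c2⟩ := a5 g
      obtain ⟨y, c3, c4⟩ := b7 x
      exact ⟨y, ⟨(N.mul_mem_cancel_left (N.inv_mem c1)).1 c4.2, c3⟩, by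
        simpa [mul_assoc] using U.mul_mem c2 c4.1⟩
    rcases Finset.mem_insert.1 hq with rfl | hq
    · obtain ⟨g, rfl⟩ := Fld.ov_conj h₀ hP
      have h1 : g⁻¹ * x * g ∈ V ⊓ dec P₀ := b5 ▸ ⟨H.normalCore_le (by
        simpa using (H.normalCore_normal).conj_mem _ hx.1.2 g⁻¹), Fld.mem_dec_smul.1 hx.2⟩
      simpa [mul_assoc] using hn.conj_mem _ h1.1 g
    · exact a6 q hq P hP ⟨hx.1.1, hx.2⟩

end Vale.Agent.P022K.PM
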