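import Vale.Agent.P022K.MB.Alg

/-!
# P022K / PM / Kras: local constancy of the Galois action on the fibres of a Galois cover (helper4)

`B / A` is a cover with finite group `Γ`.  Points are algebra maps, with the topology of
pointwise convergence.
-/

namespace Vale.Agent.P022K.PM

open Polynomial Filter Topology MulSemiringAction

/-- extension of a point along an integral injective map -/
theorem exists_over {K A B Ω : Type*} [CommRing K] [CommRing A] [CommRing B] [Field Ω]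
    [IsAlgClosed Ω] [Algebra K A] [Algebra K B] [Algebra K Ω] [Algebra A B] [IsScalarTower K A B]
    [Algebra.IsIntegral A B] [FaithfulSMul A B] (Q : A →ₐ[K] Ω) :
    ∃ P : B →ₐ[K] Ω, ∀ a, P (algebraMap A B a) = Q a := by
  have := RingHom.ker_isPrime Q
  obtain ⟨q, hq, h⟩ := Ideal.exists_ideal_over_prime_of_isIntegral (RingHom.ker Q) (⊥ : Ideal B) (by
    rw [← RingHom.ker_eq_comap_bot, (RingHom.injective_iff_ker_eq_bot _).1
      (FaithfulSMul.algebraMap_injective A B)]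
    exact bot_le)
  have : q.LiesOver (RingHom.ker Q) := ⟨h.2.symm⟩
  have := h.1
  let _ : Algebra (A ⧸ RingHom.ker Q) Ω := (RingHom.kerLift Q.toRingHom).toAlgebra
  have : FaithfulSMul (A ⧸ RingHom.ker Q) Ω :=
    (faithfulSMul_iff_algebraMap_injective _ _).2 (RingHom.kerLift_injective Q.toRingHom)
  have : Module.IsTorsionFree (A ⧸ RingHom.ker Q) (B ⧸ q) :=
    Module.isTorsionFree_iff_faithfulSMul.2 inferInstance
  let φ : (B ⧸ q) →ₐ[A ⧸ RingHom.ker Q] Ω := IsAlgClosed.lift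
  have h1 : ∀ a, φ (Ideal.Quotient.mk q (algebraMap A B a)) = Q a := fun a =>
    φ.commutes (Ideal.Quotient.mk _ a)
  exact ⟨⟨φ.toRingHom.comp (Ideal.Quotient.mk q), fun c => by
    rw [IsScalarTower.algebraMap_apply K A B]
    exact (h1 _).trans (Q.commutes c)⟩, h1⟩

section ev

variable {A l : Type*} [CommRing A] [NontriviallyNormedField l]

/-- value at `r` of the polynomial with coefficients `q (p.coeff i)` -/
noncomputable def pv (p : A[X]) (x : (A → l) × l) : l := p.sum fun i a => x.1 a * x.2 ^ i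

theorem continuous_pv (p : A[X]) : Continuous (pv (l := l) p) := by
  unfold pv Polynomial.sum
  fun_prop

theorem pv_hom (p : A[X]) (Q : A →+* l) (r : l) : pv p (Q, r) = p.eval₂ Q r := by
  rw [eval₂_eq_sum]; rfl

/-- simple roots move continuously -/
theorem root_near [CompleteSpace l] (p : A[X]) (Q : A →+* l) {r : l} (h0 : p.eval₂ Q r = 0)
    (h1 : (derivative p).eval₂ Q r ≠ 0) {W : Set ((A → l) × l)} (hW : W ∈ 𝓝 (⇑Q, r)) :
    ∀ᶠ q in 𝓝 ⇑Q, ∃ r', pv p (q, r') = 0 ∧ (q, r') ∈ W := by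
  obtain ⟨U, hU, V, hV, hUV⟩ := mem_nhds_prod_iff.1 hW
  let G : (p.support → l) × l → l := fun x => ∑ i : p.support, x.1 i * x.2 ^ (i : ℕ)
  let c : (A → l) → p.support → l := fun q i => q (p.coeff i)
  have hG : ∀ q r', G (c q, r') = pv p (q, r') := fun q r' =>
    Finset.sum_coe_sort p.support fun i => q (p.coeff i) * r' ^ i
  have h2 := MB.eventually_exists_zero (G := G) (a := c Q) (b := r)
    (Finset.analyticAt_fun_sum _ fun i _ => (((ContinuousLinearMap.proj i).comp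
      (ContinuousLinearMap.fst l (p.support → l) l)).analyticAt _).mul (analyticAt_snd.pow _))
    (by rw [hG, pv_hom, h0]) (by
      simpa only [hG, pv_hom, derivative_map, eval_map] using (p.map Q).hasDerivAt r) h1 (prod_mem_nhds univ_mem hV)
  have h3 : Continuous c := by fun_prop
  filter_upwards [hU, h3.continuousAt.eventually h2] with q hq ⟨r', h4, h5⟩
  exact ⟨r', hG q r' ▸ h4, hUV ⟨hq, h5.2⟩⟩

end ev

section cover

variable {K A B Γ : Type*} [Field K] [CommRing A] [CommRing B] [Algebra K A] [Algebra K B]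
  [Algebra A B] [IsScalarTower K A B] [Group Γ] [MulSemiringAction Γ B] [SMulCommClass Γ K B]
  [SMulCommClass Γ A B]

/-- the point has trivial stabiliser -/
def Free (Γ : Type*) {B Ω : Type*} [One Γ] [SMul Γ B] (Q : B → Ω) : Prop :=
  ∀ γ : Γ, (∀ b, Q (γ • b) = Q b) → γ = 1

theorem Free.eq {Ω : Type*} {Q : B → Ω} (h : Free Γ Q) {γ δ : Γ} (e : ∀ b, Q (γ • b) = Q (δ • b)) :
    γ = δ := mul_inv_eq_one.1 (h _ fun b => by rw [mul_smul, e, smul_inv_smul])

theorem smul_alg (γ : Γ) (a : A) : γ • algebraMap A B a = algebraMap A B a := smul_algebraMap γ a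

variable [Finite Γ] [Infinite K] [Algebra.IsInvariant A B Γ]

omit [Algebra K A] [IsScalarTower K A B] [SMulCommClass Γ A B] in
/-- two points over the same point are conjugate -/
theorem exists_conj {Ω : Type*} [Field Ω] [Algebra K Ω] (P Q : B →ₐ[K] Ω)
    (h : ∀ a, P (algebraMap A B a) = Q (algebraMap A B a)) : ∃ γ : Γ, ∀ b, P b = Q (γ • b) := by
  have := Fintype.ofFinite Γ
  by_contra hn
  push Not at hn
  obtain ⟨b, hb⟩ := Submodule.exists_forall_notMem_of_forall_ne_top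
    (fun γ : Γ => LinearMap.eqLocus P.toLinearMap (Q.comp (toAlgHom K B γ)).toLinearMap) fun γ e => by
      obtain ⟨b, hb⟩ := hn γ
      exact hb (e.ge Submodule.mem_top : b ∈ _)
  obtain ⟨m, hm⟩ := Algebra.IsInvariant.charpoly_mem_lifts A B Γ b
  have h1 : (P : B →+* Ω).comp (algebraMap A B) = (Q : B →+* Ω).comp (algebraMap A B) :=
    RingHom.ext h
  have h2 : (charpoly Γ b).eval₂ (Q : B →+* Ω) (P b) = 0 := by
    rw [← hm, coe_mapRingHom, eval₂_map, ← h1, ← eval₂_map, ← coe_mapRingHom, hm]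
    exact (eval₂_at_apply (P : B →+* Ω) b).trans (by rw [eval_charpoly, map_zero])
  rw [charpoly_eq, eval₂_finsetProd, Finset.prod_eq_zero_iff] at h2
  obtain ⟨γ, -, h3⟩ := h2
  exact hb γ (by simpa [sub_eq_zero] using h3)

/-- a free point lifts in families -/
theorem lift_near [FaithfulSMul A B] {l : Type*} [NontriviallyNormedField l] [CompleteSpace l]
    [Algebra K l] (Q0 : B →ₐ[K] l) (hf : Free Γ Q0) {N : Set (B → l)} (hN : N ∈ 𝓝 ⇑Q0) :
    ∀ᶠ q in 𝓝 fun a => Q0 (algebraMap A B a), ∀ Q : A →ₐ[K] l, ⇑Q = q →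
      ∃ Q' : B →ₐ[K] l, (∀ a, Q' (algebraMap A B a) = Q a) ∧ ⇑Q' ∈ N := by
  classical
  have := Fintype.ofFinite Γ
  obtain ⟨z, hz⟩ := Submodule.exists_forall_notMem_of_forall_ne_top
    (fun γ : {γ : Γ // γ ≠ 1} =>
      LinearMap.eqLocus (Q0.comp (toAlgHom K B γ.1)).toLinearMap Q0.toLinearMap) fun γ e =>
      γ.2 (hf _ fun b => (e.ge Submodule.mem_top : b ∈ _))
  let u : B[X] := ∏ δ ∈ Finset.univ.erase (1 : Γ), (X - C (δ • z))
  have hu : Q0 (u.eval z) ≠ 0 := by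
    rw [eval_prod, map_prod, Finset.prod_ne_zero_iff]
    intro δ hδ h
    exact hz ⟨δ, Finset.ne_of_mem_erase hδ⟩ (Eq.symm (by simpa [sub_eq_zero] using h))
  have hp : ∀ b : B, ∃ p : A[X], aeval z p = u.eval z * b := fun b => by
    obtain ⟨p, hp⟩ : (∑ γ : Γ, γ • (u * C b)) ∈ lifts (algebraMap A B) :=
      (lifts_iff_coeff_lifts _).2 fun n => Algebra.IsInvariant.isInvariant (G := Γ) _ fun g => by
        rw [← coeff_smul, Finset.smul_sum]
        simp only [← mul_smul]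
        exact congrArg (coeff · n) (Equiv.sum_comp (Equiv.mulLeft g) fun γ : Γ => γ • (u * C b))
    refine ⟨p, ?_⟩
    rw [aeval_def, ← eval_map, ← coe_mapRingHom, hp, eval_finsetSum, Finset.sum_eq_single 1]
    · simp
    · intro γ _ hγ
      rw [smul_mul', eval_mul, Finset.smul_prod', eval_prod,
        Finset.prod_eq_zero (i := γ⁻¹) (by simpa using hγ) (by simp [smul_sub, smul_C]), zero_mul]
    · simp
  choose p hp using hp
  obtain ⟨m, hm⟩ := Algebra.IsInvariant.charpoly_mem_lifts A B Γ z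
  rw [coe_mapRingHom] at hm
  let q0 : A →+* l := (Q0 : B →+* l).comp (algebraMap A B)
  have h0 : ∀ f : A[X], f.eval₂ q0 (Q0 z) = Q0 (aeval z f) := fun f =>
    (hom_eval₂ f _ (Q0 : B →+* l) z).symm
  have h1 : aeval z (derivative m) = u.eval z := by
    rw [aeval_def, ← eval_map, ← derivative_map, hm, charpoly_eq,
      ← Finset.mul_prod_erase _ _ (Finset.mem_univ 1)]
    simp [u]
  have h2 : pv (p 1) (q0, Q0 z) ≠ 0 := by rwa [pv_hom, h0, hp, mul_one]
  let Φ : (A → l) × l → B → l := fun x b => pv (p b) x / pv (p 1) x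
  have h3 : ContinuousAt Φ (q0, Q0 z) := continuousAt_pi.2 fun b =>
    (continuous_pv _).continuousAt.div (continuous_pv _).continuousAt h2
  have h4 : Φ (q0, Q0 z) = Q0 := funext fun b => by
    simp only [Φ, pv_hom, h0, hp, mul_one, map_mul, mul_div_cancel_left₀ _ hu]
  filter_upwards [root_near m q0 (r := Q0 z) (by
    rw [h0, aeval_def, ← eval_map, hm, eval_charpoly, map_zero]) (by rwa [h0, h1])
    (inter_mem (h3.preimage_mem_nhds (h4 ▸ hN)) ((continuous_pv _).continuousAt.eventually_ne h2))]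
  rintro q ⟨r, h5, h6, h7⟩ Q rfl
  have := Algebra.IsInvariant.isIntegral A B Γ
  let i := IsScalarTower.toAlgHom K l (AlgebraicClosure l)
  obtain ⟨P, hP⟩ := exists_over (B := B) (i.comp Q)
  have h8 : ∀ (γ : Γ) (f : A[X]), i r = P (γ • z) →
      i (f.eval₂ (Q : A →+* l) r) = P (γ • aeval z f) := fun γ f e => by
    have e1 := hom_eval₂ f (Q : A →+* l) i.toRingHom r
    have e2 := hom_eval₂ f (algebraMap A B) (P.comp (toAlgHom K B γ)).toRingHom z
    refine e1.trans (Eq.trans ?_ e2.symm)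
    congr 1
    exact RingHom.ext fun a => ((congrArg P (smul_alg γ a)).trans (hP a)).symm
  obtain ⟨γ, hγ⟩ : ∃ γ : Γ, i r = P (γ • z) := by
    have e1 : (charpoly Γ z).eval₂ P.toRingHom (i r) = 0 := by
      rw [← hm, eval₂_map, show P.toRingHom.comp (algebraMap A B) =
        i.toRingHom.comp (Q : A →+* l) from RingHom.ext hP]
      refine (hom_eval₂ m (Q : A →+* l) i.toRingHom r).symm.trans ?_
      rw [← pv_hom]
      exact (congrArg i h5).trans (map_zero i)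
    rw [charpoly_eq, eval₂_finsetProd, Finset.prod_eq_zero_iff] at e1
    obtain ⟨γ, -, h3⟩ := e1
    exact ⟨γ, by simpa [sub_eq_zero] using h3⟩
  obtain ⟨Q', hQ'⟩ := MB.exists_ext ((aeval z : A[X] →ₐ[A] B).restrictScalars K)
    (eval₂AlgHom Q r fun _ => Commute.all _ _) (fun f hf => (map_eq_zero i).1
      ((h8 γ f hγ).trans (by rw [show aeval z f = 0 from hf, smul_zero, map_zero]))) (p 1)
    (by exact (pv_hom (p 1) (Q : A →+* l) r).symm.trans_ne h7) fun b => ⟨p b, by simp [hp]⟩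
  have h9 : ∀ f : A[X], Q' (aeval z f) = pv f (Q, r) := fun f =>
    (hQ' f).trans (pv_hom f (Q : A →+* l) r).symm
  refine ⟨Q', fun a => by simpa using hQ' (C a), ?_⟩
  have : ⇑Q' = Φ (Q, r) := funext fun b => eq_div_of_mul_eq h7 (by
    rw [← h9, ← h9, hp, hp, ← map_mul, mul_one, mul_comm])
  exact this ▸ h6

variable [FaithfulSMul A B] {k l : Type*} [NontriviallyNormedField k] [CompleteSpace k]
  [NontriviallyNormedField l] [NormedAlgebra k l] [FiniteDimensional k l] [Algebra K k]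
  [Algebra K l] [IsScalarTower K k l]

/-- KRAS: near a free point the Galois action on the fibre is constant -/
theorem kras (Q0 : B →ₐ[K] l) (hf : Free Γ Q0) (q0 : A →ₐ[K] k)
    (h0 : ∀ a, Q0 (algebraMap A B a) = algebraMap k l (q0 a)) (s : (l ≃ₐ[k] l) → Γ)
    (hs : ∀ σ b, σ (Q0 b) = Q0 (s σ • b)) {N : Set (B → l)} (hN : N ∈ 𝓝 ⇑Q0) :
    ∀ᶠ q in 𝓝 ⇑q0, ∀ Q : A →ₐ[K] k, ⇑Q = q → ∃ Q' : B →ₐ[K] l,
      (∀ a, Q' (algebraMap A B a) = algebraMap k l (Q a)) ∧ ⇑Q' ∈ N ∧ Free Γ Q' ∧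
        ∀ σ b, σ (Q' b) = Q' (s σ • b) := by
  have := FiniteDimensional.complete k l
  have h1 : ∀ᶠ q in 𝓝 ⇑Q0, ∀ (σ : l ≃ₐ[k] l) (γ : Γ), γ ≠ s σ → ∃ b, σ (q b) ≠ q (γ • b) := by
    refine eventually_all.2 fun σ => eventually_all.2 fun γ => ?_
    by_cases e : γ = s σ
    · simp [e]
    obtain ⟨b, hb⟩ := not_forall.1 fun h => e (hf.eq (γ := γ) (δ := s σ) h)
    have h2 : Continuous fun q : B → l => σ (q b) - q (γ • b) :=
      (σ.toLinearMap.continuous_of_finiteDimensional.comp (continuous_apply b)).sub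
        (continuous_apply _)
    filter_upwards [h2.continuousAt.eventually_ne (y := 0) (by
      rw [hs]; exact sub_ne_zero.2 (Ne.symm hb))] with q hq _
    exact ⟨b, sub_ne_zero.1 hq⟩
  have h2 : Tendsto (fun q : A → k => fun a => algebraMap k l (q a)) (𝓝 q0)
      (𝓝 fun a => Q0 (algebraMap A B a)) := by
    rw [funext h0]
    exact Continuous.tendsto (by fun_prop) _
  filter_upwards [h2.eventually (lift_near (A := A) Q0 hf (inter_mem hN h1))]
  rintro q hq Q rfl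
  obtain ⟨Q', h3, h4, h5⟩ := hq ((IsScalarTower.toAlgHom K k l).comp Q) rfl
  have h6 : ∀ (σ : l ≃ₐ[k] l) (γ : Γ), (∀ b, σ (Q' b) = Q' (γ • b)) → γ = s σ := fun σ γ h => by
    by_contra e
    obtain ⟨b, hb⟩ := h5 σ γ e
    exact hb (h b)
  refine ⟨Q', h3, h4, fun γ h => ?_, fun σ => ?_⟩
  · rw [h6 1 γ fun b => (h b).symm]
    exact hf _ fun b => (hs 1 b).symm
  · obtain ⟨γ, hγ⟩ := exists_conj (A := A) (Γ := Γ) ((σ.restrictScalars K).toAlgHom.comp Q') Q'
      fun a => by rw [AlgHom.comp_apply, h3]; exact σ.commutes _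
    exact h6 σ γ hγ ▸ hγ

omit [Algebra K A] [IsScalarTower K A B] [SMulCommClass Γ A B] [FaithfulSMul A B] in
/-- the homomorphism attached to a free point -/
theorem exists_hom {G Ω : Type*} [Group G] [Field Ω] [Algebra K Ω] (r : G →* Ω ≃ₐ[K] Ω)
    (P : B →ₐ[K] Ω) (hf : Free Γ P) (h : ∀ g a, r g (P (algebraMap A B a)) = P (algebraMap A B a)) :
    ∃ ρ : G →* Γ, ∀ g b, r g (P b) = P (ρ g • b) := by
  choose ρ hρ using fun g => exists_conj (A := A) (Γ := Γ) ((r g).toAlgHom.comp P) P (h g)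
  have hρ' : ∀ g b, r g (P b) = P (ρ g • b) := hρ
  exact ⟨MonoidHom.mk' ρ fun g g' => hf.eq fun b => by
    rw [← hρ', map_mul, AlgEquiv.mul_apply, hρ', hρ', mul_smul], hρ'⟩

end cover

/-- `Q0` is a limit of points outside any given hypersurface -/
def Acc {K A l : Type*} [CommRing K] [CommRing A] [Algebra K A] [CommRing l] [Algebra K l]
    [TopologicalSpace l] (Q0 : A →ₐ[K] l) : Prop :=
  ∀ W ∈ 𝓝 ⇑Q0, ∀ a : A, a ≠ 0 → ∃ Q : A →ₐ[K] l, Q a ≠ 0 ∧ ⇑Q ∈ W

/-- neighbourhoods of points are controlled by finitely many functions -/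
theorem exists_fam {K A ι : Type*} [CommRing K] [CommRing A] [Algebra K A] [Finite ι]
    {l : ι → Type*} [∀ i, CommRing (l i)] [∀ i, Algebra K (l i)] [∀ i, TopologicalSpace (l i)]
    (Q0 : ∀ i, A →ₐ[K] l i) (h : ∀ i, Acc (Q0 i)) (W : ∀ i, Set (A → l i))
    (hW : ∀ i, W i ∈ 𝓝 ⇑(Q0 i)) : ∃ (J : Finset A) (W' : ∀ i, Set (J → l i)),
      (∀ i, ∀ a : A, a ≠ 0 → ∃ Q : A →ₐ[K] l i, Q a ≠ 0 ∧ W' i ∈ 𝓝 fun n : J => Q n) ∧
      ∀ i, ∀ q : A → l i, (fun n : J => q n) ∈ W' i → q ∈ W i := by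
  simp only [nhds_pi, mem_pi] at hW
  choose I hI t ht hW using hW
  refine ⟨(Set.finite_iUnion hI).toFinset,
    fun i => {f | ∀ n : (Set.finite_iUnion hI).toFinset, n.1 ∈ I i → f n ∈ t i n},
    fun i a ha => ?_, fun i q hq => hW i fun a ha => hq ⟨a, by simpa using ⟨i, ha⟩⟩ ha⟩
  obtain ⟨Q, h1, h2⟩ := h i ((I i).pi fun a => interior (t i a))
    (set_pi_mem_nhds (hI i) fun a _ => interior_mem_nhds.2 (ht i a)) a ha
  refine ⟨Q, h1, eventually_all.2 fun n => ?_⟩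
  by_cases e : n.1 ∈ I i
  · filter_upwards [(continuous_apply n).continuousAt.preimage_mem_nhds
      (mem_interior_iff_mem_nhds.1 (h2 _ e))] with f hf _ using hf
  · simp [e]

/-- from Moret-Bailly's theorem for `A` to the cover `B` -/
theorem cover_nhds {K A B Γ : Type*} [Field K] [Infinite K] [CommRing A] [CommRing B] [Algebra K A]
    [Algebra K B] [Algebra A B] [IsScalarTower K A B] [Group Γ] [Finite Γ] [MulSemiringAction Γ B]
    [SMulCommClass Γ K B] [SMulCommClass Γ A B] [Algebra.IsInvariant A B Γ] [FaithfulSMul A B]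
    {k l : Type*} [NontriviallyNormedField k] [CompleteSpace k] [NontriviallyNormedField l]
    [NormedAlgebra k l] [FiniteDimensional k l] [Algebra K k] [Algebra K l] [IsScalarTower K k l]
    (Q0 : B →ₐ[K] l) (hf : Free Γ Q0) (q0 : A →ₐ[K] k)
    (h0 : ∀ a, Q0 (algebraMap A B a) = algebraMap k l (q0 a)) (s : (l ≃ₐ[k] l) → Γ)
    (hs : ∀ σ b, σ (Q0 b) = Q0 (s σ • b)) {N : Set (B → l)} (hN : N ∈ 𝓝 ⇑Q0) :
    ∃ W ∈ 𝓝 ⇑q0, ∀ Q : A →ₐ[K] k, ⇑Q ∈ W → ∀ (Ω : Type*) [Field Ω] [Algebra K Ω]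
      (e : l →ₐ[K] Ω) (P : B →ₐ[K] Ω), (∀ a, P (algebraMap A B a) = e (algebraMap k l (Q a))) →
        ∃ (Q' : B →ₐ[K] l) (γ : Γ), ⇑Q' ∈ N ∧ Free Γ Q' ∧ (∀ σ b, σ (Q' b) = Q' (s σ • b)) ∧
          ∀ b, P b = e (Q' (γ • b)) := by
  refine ⟨_, kras Q0 hf q0 h0 s hs hN, fun Q hQ Ω _ _ e P hP => ?_⟩
  obtain ⟨Q', h1, h2, h3, h4⟩ := hQ Q rfl
  obtain ⟨γ, hγ⟩ := exists_conj (A := A) (Γ := Γ) P (e.comp Q') fun a => by
    rw [hP, AlgHom.comp_apply, h1]
  exact ⟨Q', γ, h2, h3, h4, hγ⟩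

/-- MBG: Moret-Bailly's theorem with prescribed local Galois action on the fibre of a cover -/
theorem mbg (K : Type) [Field K] [CharZero K] (ι : Type) [Finite ι] (k l : ι → Type)
    [∀ i, NontriviallyNormedField (k i)] [∀ i, NontriviallyNormedField (l i)]
    [∀ i, NormedAlgebra (k i) (l i)] [∀ i, ProperSpace (k i)]
    [∀ i, FiniteDimensional (k i) (l i)]
    [∀ i, Algebra K (k i)] [∀ i, Algebra K (l i)] [∀ i, IsScalarTower K (k i) (l i)]
    (hd : DenseRange (fun a : K => fun i => algebraMap K (k i) a))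
    {A F B Γ : Type*} [CommRing A] [IsDomain A] [Algebra K A] [Algebra.FiniteType K A] [Field F]
    [Algebra A F] [IsFractionRing A F] [Algebra K F] [IsScalarTower K A F]
    (hc : ∀ z : F, IsAlgebraic K z → ∃ c : K, algebraMap K F c = z)
    [CommRing B] [Algebra K B] [Algebra A B] [IsScalarTower K A B] [Group Γ] [Finite Γ]
    [MulSemiringAction Γ B] [SMulCommClass Γ K B] [SMulCommClass Γ A B]
    [Algebra.IsInvariant A B Γ] [FaithfulSMul A B]
    (Q0 : ∀ i, B →ₐ[K] l i) (hf : ∀ i, Free Γ (Q0 i)) (q0 : ∀ i, A →ₐ[K] k i)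
    (h0 : ∀ i a, Q0 i (algebraMap A B a) = algebraMap (k i) (l i) (q0 i a))
    (ha : ∀ i, Acc (q0 i)) (s : ∀ i, (l i ≃ₐ[k i] l i) → Γ)
    (hs : ∀ i σ b, σ (Q0 i b) = Q0 i (s i σ • b)) (N : ∀ i, Set (B → l i))
    (hN : ∀ i, N i ∈ 𝓝 ⇑(Q0 i)) {δ : A} (hδ : δ ≠ 0) :
    ∃ P : B →ₐ[K] AlgebraicClosure K, P (algebraMap A B δ) ≠ 0 ∧
      ∀ (i : ι) (Ω : Type) [Field Ω] [Algebra K Ω] (e : l i →ₐ[K] Ω)
        (j : AlgebraicClosure K →ₐ[K] Ω),
        (∀ a, j (P (algebraMap A B a)) ∈ Set.range fun x => e (algebraMap (k i) (l i) x)) ∧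
        ∃ (Q : B →ₐ[K] l i) (γ : Γ), ⇑Q ∈ N i ∧ Free Γ Q ∧ (∀ σ b, σ (Q b) = Q (s i σ • b)) ∧
          ∀ b, j (P b) = e (Q (γ • b)) := by
  choose W hW h using fun i => cover_nhds.{_, _, _, _, _, _, 0} (Q0 i) (hf i) (q0 i) (h0 i) (s i)
    (hs i) (hN i)
  obtain ⟨J, W', h1, h2⟩ := exists_fam q0 ha W hW
  obtain ⟨P0, h3, h4⟩ := MB.mba K ι k k hd hc (fun n : J => (n : A)) W' h1 hδ
  have := Algebra.IsInvariant.isIntegral A B Γ
  obtain ⟨P, hP⟩ := exists_over (B := B) P0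
  refine ⟨P, by rwa [hP], fun i Ω _ _ e j => ?_⟩
  obtain ⟨Q, τ, h5, h6⟩ := h4 i Ω (e.comp (IsScalarTower.toAlgHom K (k i) (l i))) j
  have h7 : ∀ a, j (P (algebraMap A B a)) = e (algebraMap (k i) (l i) (Q a)) := fun a => by
    rw [hP, h6, Subsingleton.elim τ 1]; rfl
  exact ⟨fun a => ⟨_, (h7 a).symm⟩, h i Q (h2 i Q h5) Ω e (j.comp P) h7⟩

end Vale.Agent.P022K.PM
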