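import Vale.Agent.P022K.PM.Lat2A
import Vale.Agent.P022K.CH.Weil
import Vale.Agent.P022K.RT.Tr
import Vale.Agent.P022E.GW.Unr
import Vale.Agent.P022D.L2.Ar

/-!
# P022K / PM: lattices in non split extensions at two, the unipotent case
-/

set_option autoImplicit false
set_option linter.all false

open Filter NumberField

noncomputable section

namespace Vale.Agent.P022K.PM.L2

open Vale.Agent.P022 Vale.Agent.P022.H853 Vale.Agent.P022K.CH Vale.Agent.P022K.CH.Weil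
open Vale.Agent.P022.H443 (inP galQb)
open Vale.Agent.P022D.W (dec dec_gen exists_phi phi_mem inP_le_dec isClosed_dec)
open Vale.Agent.P022E.GW (Ov Fb)
open Vale.Agent.P022D.L2 (Wd Rel Holds hp)

/-- **OM2** -/
def OM2 : Prop := ∀ (ι : Qb →+* Cp 2) (P : Id), Ov 2 P → ∀ β : dec P → Kp 2,
  IsLocallyConstant β → (∀ x y, β (x * y) = β x + β y) →
  ∃ (ξ : dec P →* Qbˣ) (α : Cp 2) (δ : ℝ), IsOpen (ξ.ker : Set (dec P)) ∧ (∀ d, ξ d ^ 8 = 1) ∧
    ((∀ s : dec P, s.1 ∈ inP P → β s = 0) → ξ = 1) ∧ ‖α - 1‖ < 1 ∧ 0 < δ ∧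
    ∀ (E : Subfield (Cp 2)) (ψ b : dec P → Cp 2) (a : Cp 2), ‖a - α‖ < δ → Continuous ψ →
      Continuous b → (∀ x y, ψ (x * y) = ψ x * ψ y) → (∀ x y, b (x * y) = b x + ψ x * b y) →
      (∀ (d : dec P) k, Fb (2 ^ k) P d → ψ d * (ι (ξ d) * a ^ k) ^ 2 = eps 2 d) →
      (∀ d, ψ d ∈ E) → (∀ d, b d ∈ E) → (∀ d, ∃ x ∈ E, ‖x‖ ≤ 1 ∧ red x = β d) →
      (¬ ∃ t, ∀ d, b d = t * (ψ d - 1)) → ∃ s ∈ E, ∃ t ∈ E, s ≠ 0 ∧
        ∀ d, ‖s * b d + t * (ψ d - 1)‖ ≤ 1 ∧ red (s * b d + t * (ψ d - 1)) = β d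

variable {P : Id}

theorem ex_rel (h : Ov 2 P) : ∃ (g : Fin 3 → dec P) (U : Ultrafilter Wd), Rel U ∧ Holds g U := by
  obtain ⟨j, hc, hj, -⟩ := RT.Tr.exists_j 2 h
  obtain ⟨g, a, ha⟩ := P022D.L2.ar
  obtain ⟨U, hU, hH⟩ := P022D.L2.relS _ g a ha
  refine ⟨fun i => j (g i), U, hU, fun M _ ρ k => ?_⟩
  obtain ⟨a, b⟩ := hH M (ρ.comp j) ⟨k.1.preimage hc, fun x => k.2 _⟩
  exact ⟨a, fun x => by obtain ⟨y, rfl⟩ := hj x; exact b y⟩

/-- the elements of integral degree are dense -/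
theorem dns {l : ℕ} (h : Ov l P) {S : Set (dec P)} (hS : IsClosed S)
    (H : ∀ (d : dec P) k, Fb (l ^ k) P d → d ∈ S) (d : dec P) : d ∈ S := by
  have := galQb
  by_contra k
  obtain ⟨φ, hφ⟩ := exists_phi h.1 h.2.1 h.2.2
  obtain ⟨U, hU, e⟩ := isOpen_induced_iff.1
    (hS.isOpen_compl.preimage (continuous_inv.mul (continuous_const (y := d))))
  have h1 : (1 : dec P) ∈ Subtype.val ⁻¹' U := by rw [e]; simpa using k
  obtain ⟨N, hN⟩ := ProfiniteGrp.exist_openNormalSubgroup_sub_open_nhds_of_one hU h1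
  obtain ⟨n, s, u, hs, hu, e'⟩ := dec_gen h.1 h.2.1 h.2.2 hφ d.2 N.toSubgroup N.isOpen
  have f : Fb (l ^ (1 * n + 0)) P (φ ^ n * s) :=
    fb_add h (fb_pow h (by rwa [pow_one]) n) (fb_zero.2 hs)
  have ud : u ∈ dec P := ((dec P).mul_mem_cancel_right (fb_dec h f)).1 (mul_assoc u _ _ ▸ e' ▸ d.2)
  have : (⟨u, ud⟩ : dec P) ∈ Subtype.val ⁻¹' U := hN hu
  rw [e] at this
  exact this (H _ _ (by simpa [e', mul_assoc] using f))

theorem ex_lam (h : Ov 2 P) : ∃ lam : dec P → Kp 2, IsLocallyConstant lam ∧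
    (∀ x y, lam (x * y) = lam x + lam y) ∧ ∀ (d : dec P) (k : ℕ), Fb (2 ^ k) P d → lam d = k := by
  obtain ⟨φ, hφ⟩ := exists_phi h.1 h.2.1 h.2.2
  obtain ⟨δ, V, hV, h1, h2, h3, h4⟩ := P022E.GW.Unr.deg h.1 h.2.1 h.2.2 hφ (N := 2) two_ne_zero
  let c := ZMod.castHom (dvd_refl 2) (Kp 2)
  have ad : ∀ x y : dec P, c (δ (x * y : dec P)) = c (δ x) + c (δ y) := fun x y => by
    rw [← map_add, ← h1 _ x.2 _ y.2]; rfl
  refine ⟨fun d => c (δ d), P022E.GW.Unr.lc_of _ V hV _ ad fun v hv => by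
    rw [h4 _ hv v.2, map_zero], ad, fun d k hd => ?_⟩
  have f : Fb (2 ^ k) P (φ ^ k) := by simpa using fb_pow (a := 1) h (by rwa [pow_one]) k
  have i := fb_div h f hd
  have := h1 _ (fb_dec h f) _ (inP_le_dec i)
  rw [mul_inv_cancel_left, h3 _ i, add_zero, P022E.GW.Unr.dpow h.1 h.2.1 hφ h1 h2 h3] at this
  simp only [this, map_natCast]

/-- a logarithm -/
def lo (u : ZMod 32) : ZMod 8 := (u.val ^ 2 / 8 : ℕ)

theorem lo_mul : ∀ u v : ZMod 32, u.val % 2 = 1 → v.val % 2 = 1 → lo (u * v) = lo u + lo v := by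
  decide +kernel

theorem ex_xi (h : Ov 2 P) : ∃ (ξ : dec P →* Qbˣ) (z : Qbˣ), IsOpen (ξ.ker : Set (dec P)) ∧
    (z : Qb) ^ 4 = -1 ∧ (∀ d, ∃ n : ℕ, ξ d = z ^ n) ∧ ∃ s : dec P, s.1 ∈ inP P ∧ ξ s = z := by
  have hz := zt_prim 8
  let z := Units.mk0 _ (hz.ne_zero (by norm_num))
  have h8 : z ^ 8 = 1 := Units.ext hz.pow_eq_one
  let E := AddChar.zmodChar 8 h8
  have od : ∀ u : (ZMod 32)ˣ, (u : ZMod 32).val % 2 = 1 := fun u => Nat.odd_iff.1
    (Nat.coprime_two_right.1 ((ZMod.val_coe_unit_coprime u).coprime_dvd_right (by norm_num)))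
  let θ : (ZMod 32)ˣ →* Qbˣ := MonoidHom.mk' (fun u => E (lo u)) fun u v => by
    rw [Units.val_mul, lo_mul _ _ (od u) (od v), AddChar.map_add_eq_mul]
  obtain ⟨s, hs, e⟩ := H297.L3.inert_cyc (m := 32) (k := 5) (m' := 1) h.1 (by norm_num)
    (by norm_num) h.2.1 h.2.2 (ZMod.unitOfCoprime 3 (by norm_num)) Nat.modEq_one
  refine ⟨θ.comp ((cyc 32).comp (dec P).subtype), z, Subgroup.isOpen_mono
    (H₁ := (cyc 32).ker.comap (dec P).subtype) (fun d hd => ?_)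
    ((isOpen_cyc 32).preimage continuous_subtype_val),
    (hz.pow (by norm_num) (show 8 = 4 * 2 from rfl)).eq_neg_one_of_two_right, fun d => ⟨_, rfl⟩,
    ⟨s, inP_le_dec hs⟩, hs, ?_⟩
  · exact (congrArg θ hd).trans (map_one θ)
  · exact (congrArg θ e).trans (pow_one z)

theorem eps_two (g : GQ) : ‖eps 2 g - 1‖ ≤ ‖(2 : Cp 2)‖ := by
  have : ‖eps 2 g - 1‖ < 1 := mem_Gz_p.1 fun x hx => by
    rcases sq_eq_one_iff.1 hx with rfl | rfl <;> simp
  rw [eps_eq, ← map_one (zc 2), ← map_sub, norm_zc] at this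
  obtain ⟨v, hv⟩ := (PadicInt.norm_lt_one_iff_dvd _).1 this
  rw [eps_eq, ← map_one (zc 2), ← map_sub, hv, map_mul, map_natCast, mul_comm]
  exact nmul' ((norm_zc v).trans_le v.2) le_rfl

theorem om2 : OM2 := by
  intro ι P h β lc ad
  have := galQb
  have : CompactSpace (dec P) := isCompact_iff_compactSpace.1 (isClosed_dec P).isCompact
  obtain ⟨φ, hφ⟩ := exists_phi h.1 h.2.1 h.2.2
  obtain ⟨g, U, hU, hH⟩ := ex_rel h
  obtain ⟨lam, l1, l2, l3⟩ := ex_lam h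
  obtain ⟨ξ0, z, x1, x2, x3, σ, x4, x5⟩ := ex_xi h
  obtain ⟨x, hx⟩ : ∃ x, x = ι z ^ 2 - 1 := ⟨_, rfl⟩
  have i4 : ι z ^ 4 = -1 := by rw [← map_pow, x2, map_neg, map_one]
  have nx : ‖x‖ ^ 2 = ‖(2 : Cp 2)‖ := by
    have : ‖ι z‖ = 1 := (pow_eq_one_iff_of_nonneg (norm_nonneg _) (by norm_num : 4 ≠ 0)).1 (by
      rw [← _root_.norm_pow, i4, norm_neg, norm_one])
    rw [← _root_.norm_pow, show x ^ 2 = -(2 * ι z ^ 2) by rw [hx]; linear_combination i4, norm_neg,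
      norm_mul, _root_.norm_pow, this, one_pow, mul_one]
  have h1 : ‖x‖ < 1 := by nlinarith [two_lt, norm_nonneg x]
  have h0 : x ≠ 0 := fun e => two_ne_zero (norm_eq_zero.1 (nx.symm.trans (by simp [e])))
  have hp0 := norm_pos_iff.2 h0
  have h2 : ‖(2 : Cp 2)‖ < ‖x‖ := by nlinarith
  have fφ : Fb (2 ^ 1) P (⟨φ, phi_mem h.1 h.2.1 hφ⟩ : dec P) := by rwa [pow_one]
  have two : (2 : Kp 2) = 0 := CharTwo.two_eq_zero
  obtain ⟨ξ, s, y1, y2, y3, y4, y5⟩ : ∃ (ξ : dec P →* Qbˣ) (s : Kp 2),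
      IsOpen (ξ.ker : Set (dec P)) ∧ (∀ d, ∃ n : ℕ, ξ d = z ^ n) ∧
      ((∀ s : dec P, s.1 ∈ inP P → β s = 0) → ξ = 1) ∧
      (∃ d, lg x (ι (ξ d) ^ 2) + s * lam d ≠ 0) ∧
      (∑ j, (lg x (ι (ξ (g (hp j))) ^ 2) + s * lam (g (hp j))) * β (g j) = 0 ∨
        ∃ c, ∀ d, β d = c * (lg x (ι (ξ d) ^ 2) + s * lam d)) := by
    by_cases k : ∑ j, lam (g (hp j)) * β (g j) = 0 ∨ ∀ s : dec P, s.1 ∈ inP P → β s = 0
    · refine ⟨1, 1, by simp, fun d => ⟨0, (pow_zero z).symm⟩, fun _ => rfl,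
        ⟨⟨φ, phi_mem h.1 h.2.1 hφ⟩, by simp [lg_one, l3 _ _ fφ]⟩, k.imp (by simp [lg_one]) fun k => ⟨β ⟨φ, phi_mem h.1 h.2.1 hφ⟩, fun d => ?_⟩⟩
      simp only [MonoidHom.one_apply, Units.val_one, map_one, one_pow, lg_one, zero_add, one_mul]
      generalize (⟨φ, _⟩ : dec P) = φ at fφ
      refine sub_eq_zero.1 (dns h ((lc.sub ((IsLocallyConstant.const (β φ)).mul
        l1)).isClosed_fiber 0) (fun d n hd => sub_eq_zero.2 ?_) d)
      have b1 : β 1 = 0 := k 1 (one_mem _)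
      have pw : ∀ n : ℕ, β (φ ^ n) = β φ * n := fun n => by
        induction n with
        | zero => simp [b1]
        | succ n ih => rw [pow_succ, ad, ih, Nat.cast_succ, mul_add_one]
      have := ad (φ ^ n) ((φ ^ n)⁻¹ * d)
      rw [mul_inv_cancel_left, k ((φ ^ n)⁻¹ * d) (fb_div h (g := (φ : GQ) ^ n)
        (by simpa using fb_pow h fφ n) hd), add_zero, pw, ← l3 d n hd] at this
      exact this
    · rw [not_or] at k
      refine ⟨ξ0, -(∑ j, lg x (ι (ξ0 (g (hp j))) ^ 2) * β (g j)) / ∑ j, lam (g (hp j)) * β (g j),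
        x1, x3, fun e => absurd e k.2, ⟨σ, ?_⟩, Or.inl ?_⟩
      · rw [l3 σ 0 (fb_zero.2 x4), x5, lg, ← hx, div_self h0, red_one]
        simp
      · simp only [add_mul, Finset.sum_add_distrib, mul_assoc, ← Finset.mul_sum]
        rw [div_mul_cancel₀ _ k.1, add_neg_cancel]
  obtain ⟨c, c1, rfl⟩ := red_surj s
  obtain ⟨α, hα⟩ := IsAlgClosed.exists_pow_nat_eq (1 + c * x) two_pos
  have nα : ‖α‖ = 1 := (pow_eq_one_iff_of_nonneg (norm_nonneg _) two_ne_zero).1 (by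
    rw [← _root_.norm_pow]; exact none (by rw [hα, add_sub_cancel_left]; exact nmul c1 h1))
  have mα : ‖α - 1‖ < 1 := by
    refine lt_of_pow_lt_pow_left₀ 2 zero_le_one ?_
    rw [← _root_.norm_pow, one_pow, show (α - 1) ^ 2 = c * x + (-α + 1) * 2 by linear_combination hα]
    exact nadd (nmul c1 h1) (nmul (nadd' ((norm_neg α).trans_le nα.le) norm_one.le) two_lt)
  refine ⟨ξ, α, ‖x‖, y1, fun d => ?_, y3, mα, hp0, fun E ψ b a ha cψ cb mψ co fb e1 e2 e3 ns => ?_⟩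
  · obtain ⟨n, e⟩ := y2 d
    rw [e, ← pow_mul, mul_comm, pow_mul, show z ^ 8 = 1 from Units.ext (by
      rw [Units.val_pow_eq_pow_val, show 8 = 4 * 2 from rfl, pow_mul, x2]; simp), one_pow]
  have bξ : ∀ d, Bl x (ι (ξ d) ^ 2) := fun d => by
    obtain ⟨n, e⟩ := y2 d
    rw [e, Units.val_pow_eq_pow_val, map_pow, ← pow_mul, mul_comm, pow_mul]
    exact (Bl.pow h1 h0 (by simp [Bl, ← hx, h0]) n).1
  have ba : Bl x (a ^ 2) ∧ lg x (a ^ 2) = red c := by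
    have k : ‖(a ^ 2 - 1) / x - c‖ < 1 := by
      rw [show (a ^ 2 - 1) / x - c = (a - α + (α + α)) * ((a - α) / x) by
        field_simp
        linear_combination hα]
      exact nmul (nadd' (ha.trans h1).le (nadd' nα.le nα.le)) (by rwa [norm_div, div_lt_one hp0])
    have k' : Bl x (a ^ 2) := by simpa [Bl] using nadd' k.le c1
    exact ⟨k', (red_eq_iff k' c1).2 k⟩
  have fr : ∀ (d : dec P) k, Fb (2 ^ k) P d →
      Bl x (ψ d) ∧ lg x (ψ d) = lg x (ι (ξ d) ^ 2) + red c * lam d := fun d k hd => by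
    have e := fb d k hd
    rw [mul_pow, ← pow_mul, mul_comm k, pow_mul] at e
    have p := ba.1.pow h1 h0 k
    have w := (bξ d).mul h1 h0 p.1
    have ε : ‖(eps 2 d - 1) / x‖ < 1 := by
      rw [norm_div, div_lt_one hp0]
      exact (eps_two _).trans_lt h2
    have q := Bl.of h1 h0 w.1 (e ▸ ε.le)
    have r := (q.mul h1 h0 w.1).2
    rw [e, w.2, p.2, ba.2, show lg x (eps 2 d) = 0 from red0 ε] at r
    refine ⟨q, ?_⟩
    rw [l3 d k hd]
    linear_combination -r - (lg x (ι (ξ d) ^ 2) + k * red c) * two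
  have hb : ∀ d, Bl x (ψ d) := dns h
    (isClosed_le ((cψ.sub continuous_const).div_const x).norm continuous_const)
    fun d k hd => (fr d k hd).1
  have C : Co ψ b := ⟨cψ, mψ, fun d => (hb d).lt h1 h0, cb, co⟩
  have lξ : IsLocallyConstant ξ := (IsLocallyConstant.iff_exists_open _).2 fun d =>
    ⟨{y | d⁻¹ * y ∈ ξ.ker}, y1.preimage (continuous_const.mul continuous_id), by simp,
      fun y hy => (inv_mul_eq_one.1 (by simpa using hy)).symm⟩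
  have lψ : IsLocallyConstant fun d => lg x (ψ d) := by
    simpa [lg, div_eq_inv_mul] using (C.lin 0 x⁻¹).red_lc fun d => by
      simpa [Bl, div_eq_inv_mul] using hb d
  have f : ∀ d, lg x (ψ d) = lg x (ι (ξ d) ^ 2) + red c * lam d := fun d => sub_eq_zero.1 (dns h
    ((lψ.sub ((lξ.comp fun u : Qbˣ => lg x (ι u ^ 2)).add ((IsLocallyConstant.const (red c)).mul
      l1))).isClosed_fiber 0) (fun d k hd => sub_eq_zero.2 (fr d k hd).2) d)
  simp only [← f] at y4 y5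
  refine C.core hU hH h2 h1 hb y4 lc ad (y5.elim id fun ⟨t, ht⟩ => ?_) e1 e2 e3 ns
  simp only [ht, mul_left_comm _ t, ← Finset.mul_sum, C.bff hU hH h2 h1 hb, mul_zero]

end Vale.Agent.P022K.PM.L2
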