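import Vale.Agent.P022K.CH.Eps
import Vale.Agent.P022D.L2.Rel

/-!
# P022K / PM: cocycles on a group with a relation of Hilbert type
-/

set_option autoImplicit false
set_option linter.all false

open Filter

noncomputable section

namespace Vale.Agent.P022K.PM.L2

open Vale.Agent.P022K.CH
open Vale.Agent.P022D.L2 (Wd ev fx mA mC Rel Holds hp)
open Vale.Agent.P022D.L2.RelP (ev_nil ev_cons ev_map mA_cons)
open IsUltrametricDist (norm_add_le_max)

theorem nadd {x y : Cp 2} {r : ℝ} (h : ‖x‖ < r) (h' : ‖y‖ < r) : ‖x + y‖ < r :=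
  (norm_add_le_max x y).trans_lt (max_lt h h')

theorem nadd' {x y : Cp 2} {r : ℝ} (h : ‖x‖ ≤ r) (h' : ‖y‖ ≤ r) : ‖x + y‖ ≤ r :=
  (norm_add_le_max x y).trans (max_le h h')

theorem nmul {x y : Cp 2} {r : ℝ} (h : ‖x‖ ≤ 1) (h' : ‖y‖ < r) : ‖x * y‖ < r := by
  rw [norm_mul]
  exact (mul_le_of_le_one_left (norm_nonneg _) h).trans_lt h'

theorem nmul' {x y : Cp 2} {r : ℝ} (h : ‖x‖ ≤ 1) (h' : ‖y‖ ≤ r) : ‖x * y‖ ≤ r := by
  rw [norm_mul]
  exact (mul_le_of_le_one_left (norm_nonneg _) h).trans h'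

theorem none {x : Cp 2} (h : ‖x - 1‖ < 1) : ‖x‖ = 1 := by
  have := IsUltrametricDist.norm_add_eq_max_of_norm_ne_norm (x := x - 1) (y := 1)
    (by rw [norm_one]; exact h.ne)
  rwa [sub_add_cancel, norm_one, max_eq_right h.le] at this

theorem two_lt : ‖(2 : Cp 2)‖ < 1 := by exact_mod_cast norm_p_lt (p := 2)

theorem red0 {x : Cp 2} (h : ‖x‖ < 1) : red x = 0 :=
  ((red_eq_iff h.le (by simp)).2 (by rwa [sub_zero])).trans red_zero

theorem lt_of_red {x : Cp 2} (h : ‖x‖ ≤ 1) (e : red x = 0) : ‖x‖ < 1 := by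
  simpa using (red_eq_iff h (by simp : ‖(0 : Cp 2)‖ ≤ 1)).1 (e.trans red_zero.symm)

theorem fx_map {R S : Type} [CommRing R] [CommRing S] (φ : R →+* S) (e : Fin 3 → R) (j : Fin 3)
    (w : Wd) : φ (fx e j w) = fx (fun i => φ (e i)) j w := by
  induction w with
  | nil => simp [fx]
  | cons i w ih => simp [fx, ih, apply_ite φ]

theorem fx_two {A : Type} [CommRing A] (ι : ZMod 2 →+* A) {δ : Fin 3 → A}
    (h : ∀ i k, δ i * δ k = 0) (j : Fin 3) (w : Wd) :
    fx (fun i => 1 + δ i) j w = ι (mA j w) + ∑ i, δ i * ι (mC i j w) := by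
  induction w with
  | nil => simp [mA, mC, fx]
  | cons k w ih =>
    have e : δ k * ∑ i, δ i * ι (mC i j w) = 0 := by
      simp only [Finset.mul_sum, ← mul_assoc, h, zero_mul, Finset.sum_const_zero]
    simp only [mA_cons, mC, fx, ih, map_add, apply_ite ι, map_one, map_zero, mul_add, mul_ite,
      mul_zero, Finset.sum_add_distrib, Finset.sum_ite_eq, Finset.mem_univ, if_true]
    linear_combination e

/-- the Fox derivatives of a word of Hilbert type -/
theorem fox {y : Fin 3 → Cp 2} {t : ℝ} (h2 : ‖(2 : Cp 2)‖ < t) (h1 : t < 1) (hy : ∀ i, ‖y i‖ ≤ t)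
    {w : Wd} (ha : ∀ j, mA j w = 0) (hc : ∀ i j, mC i j w = if i = hp j then 1 else 0) (j : Fin 3) :
    ‖fx (fun i => 1 + y i) j w - y (hp j)‖ < t := by
  have t0 : 0 < t := (norm_nonneg _).trans_lt h2
  let J : Ideal (Op 2) :=
    { carrier := {z | ‖(z : Cp 2)‖ < t}
      add_mem' := fun a b => nadd a b
      zero_mem' := by simpa using t0
      smul_mem' := fun c z a => nmul (norm_Op c) a }
  let Y : Fin 3 → Op 2 := fun i => ⟨y i, mem_op.2 ((hy i).trans h1.le)⟩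
  let π := Ideal.Quotient.mk J
  have : CharP (Op 2 ⧸ J) 2 := CharTwo.of_one_ne_zero_of_two_eq_zero
    (fun e => h1.not_gt (by simpa [J] using (Ideal.Quotient.eq_zero_iff_mem (a := 1)).1 e))
    ((map_ofNat π 2).symm.trans (Ideal.Quotient.eq_zero_iff_mem.2 h2))
  have e := fx_two (ZMod.castHom dvd_rfl (Op 2 ⧸ J)) (δ := fun i => π (Y i)) (fun i k => by
    rw [← map_mul]
    refine Ideal.Quotient.eq_zero_iff_mem.2 (show ‖y i * y k‖ < t from ?_)
    rw [norm_mul]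
    nlinarith [hy i, hy k, norm_nonneg (y i), norm_nonneg (y k)]) j w
  simp only [ha, hc, map_zero, zero_add, apply_ite, map_one, mul_one, mul_zero, Finset.sum_ite_eq',
    Finset.mem_univ, if_true] at e
  have e2 : π (fx (fun i => 1 + Y i) j w) = π (Y (hp j)) := by
    rw [fx_map, ← e]
    simp only [map_add, map_one]
  have e3 : ‖(Op 2).subtype (fx (fun i => 1 + Y i) j w - Y (hp j))‖ < t := Ideal.Quotient.eq.1 e2
  rwa [map_sub, fx_map] at e3

variable {G : Type} [Group G] [TopologicalSpace G] [IsTopologicalGroup G] [CompactSpace G]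

/-- a cocycle for a residually trivial character -/
structure Co (ψ c : G → Cp 2) : Prop where
  cψ : Continuous ψ
  mul : ∀ x y, ψ (x * y) = ψ x * ψ y
  one : ∀ x, ‖ψ x - 1‖ < 1
  cc : Continuous c
  co : ∀ x y, c (x * y) = c x + ψ x * c y

namespace Co

variable {ψ c : G → Cp 2} (h : Co ψ c) {g : Fin 3 → G} {U : Ultrafilter Wd}
include h

theorem nrm (x : G) : ‖ψ x‖ = 1 := none (h.one x)

theorem ne (x : G) : ψ x ≠ 0 := fun e => by simpa [e] using h.nrm x

theorem p1 : ψ 1 = 1 := mul_left_cancel₀ (h.ne 1) (by rw [← h.mul, mul_one, mul_one])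

theorem c1 : c 1 = 0 := by
  have := h.co 1 1
  rw [one_mul, h.p1, one_mul] at this
  linear_combination -this

theorem lin (s t : Cp 2) : Co ψ fun x => s * c x + t * (ψ x - 1) :=
  ⟨h.cψ, h.mul, h.one, (h.cc.const_mul s).add ((h.cψ.sub continuous_const).const_mul t),
    fun x y => by rw [h.co, h.mul]; ring⟩

theorem slf : Co ψ fun x => ψ x - 1 := by simpa using h.lin 0 1

theorem nm (x y : G) {r : ℝ} (a : ‖c x‖ < r) (b : ‖c y‖ < r) : ‖c (x * y)‖ < r := by
  rw [h.co]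
  exact nadd a (nmul (h.nrm x).le b)

theorem inv (x : G) : ‖c x⁻¹‖ = ‖c x‖ := by
  have := h.co x x⁻¹
  rw [mul_inv_cancel, h.c1, eq_comm, add_eq_zero_iff_eq_neg] at this
  rw [this, norm_neg, norm_mul, h.nrm, one_mul]

theorem co_ev (w : Wd) : c (ev g w) = ∑ j, fx (fun i => ψ (g i)) j w * c (g j) := by
  induction w with
  | nil => simp [ev_nil, fx, h.c1]
  | cons k w ih =>
    rw [ev_cons, h.co, ih]
    simp only [fx, add_mul, Finset.sum_add_distrib, ite_mul, one_mul, zero_mul, Finset.sum_ite_eq,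
      Finset.mem_univ, if_true, Finset.mul_sum, mul_assoc]

theorem small (x : G) {r : ℝ} (hr : 0 < r) : ∀ᶠ k : ℕ in atTop, ‖c (x ^ 2 ^ k)‖ < r := by
  obtain ⟨δ, d1, d2, d3⟩ : ∃ δ : ℝ, δ < 1 ∧ ‖ψ x - 1‖ < δ ∧ ‖(2 : Cp 2)‖ < δ := by
    obtain ⟨δ, a, b⟩ := exists_between (max_lt (h.one x) two_lt)
    exact ⟨δ, b, (max_lt_iff.1 a).1, (max_lt_iff.1 a).2⟩
  have d0 : 0 < δ := (norm_nonneg _).trans_lt d3
  have a : ∀ n : ℕ, ‖ψ (x ^ n) - 1‖ < δ := fun n => by
    induction n with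
    | zero => simpa [h.p1] using d0
    | succ n ih => rw [pow_succ]; exact h.slf.nm _ _ ih d2
  have b : ∀ k : ℕ, ‖c (x ^ 2 ^ k)‖ ≤ δ ^ k * ‖c x‖ := fun k => by
    induction k with
    | zero => simp
    | succ k ih =>
      rw [pow_succ 2, pow_mul, sq, h.co, show ∀ u v : Cp 2, u + v * u = (v - 1 + 2) * u from
        fun u v => by ring, norm_mul, pow_succ', mul_assoc]
      exact mul_le_mul (nadd (a _) d3).le ih (norm_nonneg _) d0.le
  have := (tendsto_pow_atTop_nhds_zero_of_lt_one d0.le d1).mul_const ‖c x‖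
  rw [zero_mul] at this
  exact (this.eventually_lt_const hr).mono fun k hk => (b k).trans_lt hk

theorem key (hH : Holds g U) {r : ℝ} (hr : 0 < r) :
    (∀ᶠ w in (U : Filter Wd), ‖c (ev g w)‖ < r) ∧ ∀ x, ∃ w, ‖c x - c (ev g w)‖ < r := by
  obtain ⟨M, hM⟩ := (isCompact_range h.cc.norm).bddAbove
  obtain ⟨m, hm⟩ := NormedField.exists_lt_norm (Cp 2) M
  replace hM : ∀ x, ‖c x‖ ≤ ‖m‖ := fun x => (hM ⟨x, rfl⟩).trans hm.le
  have k := h.lin 0 m
  simp only [zero_mul, zero_add] at k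
  let N : Subgroup G :=
    { carrier := {x | ‖m * (ψ x - 1)‖ < r ∧ ‖c x‖ < r}
      mul_mem' := fun a b => ⟨k.nm _ _ a.1 b.1, h.nm _ _ a.2 b.2⟩
      one_mem' := by simpa [h.p1, h.c1] using hr
      inv_mem' := fun a => ⟨(k.inv _).trans_lt a.1, (h.inv _).trans_lt a.2⟩ }
  have : N.Normal := ⟨fun x a y => by
    have e : ψ y * ψ y⁻¹ = 1 := by rw [← h.mul, mul_inv_cancel, h.p1]
    have e' : c y + ψ y * c y⁻¹ = 0 := by rw [← h.co, mul_inv_cancel, h.c1]
    refine ⟨?_, ?_⟩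
    · rw [h.mul, h.mul, show ψ y * ψ x * ψ y⁻¹ = ψ x by linear_combination ψ x * e]
      exact a.1
    · rw [h.co, h.co, h.mul, show c y + ψ y * c x + ψ y * ψ x * c y⁻¹ =
        -(c y * (ψ x - 1)) + ψ y * c x by linear_combination ψ x * e']
      refine nadd (lt_of_le_of_lt ?_ a.1) (nmul (h.nrm y).le a.2)
      rw [norm_neg, norm_mul, norm_mul]
      exact mul_le_mul_of_nonneg_right (hM y) (norm_nonneg _)⟩
  obtain ⟨a, b⟩ := hH _ (QuotientGroup.mk' N) ⟨by
    simp only [QuotientGroup.mk'_apply, QuotientGroup.eq_one_iff]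
    exact (isOpen_lt k.cc.norm continuous_const).inter (isOpen_lt h.cc.norm continuous_const),
    fun x => ((k.small x hr).and (h.small x hr)).exists.imp fun n hn => by
      rw [← map_pow]; exact (QuotientGroup.eq_one_iff _).2 hn⟩
  refine ⟨a.mono fun w hw => ?_, fun x => (b x).imp fun w hw => ?_⟩
  · rw [ev_map] at hw
    exact ((QuotientGroup.eq_one_iff _).1 hw).2
  · rw [ev_map] at hw
    have e := h.co x (x⁻¹ * ev g w)
    rw [mul_inv_cancel_left] at e
    rw [e, sub_add_cancel_left, norm_neg]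
    exact nmul (h.nrm x).le (QuotientGroup.eq.1 hw).2

theorem bd (hH : Holds g U) {r : ℝ} (a : ∀ j, ‖c (g j)‖ < r) (x : G) : ‖c x‖ < r := by
  have hr : 0 < r := (norm_nonneg _).trans_lt (a 0)
  obtain ⟨w, hw⟩ := (h.key hH hr).2 x
  rw [← sub_add_cancel (c x) (c (ev g w))]
  refine nadd hw ?_
  clear hw
  induction w with
  | nil => simpa [ev_nil, h.c1] using hr
  | cons i w ih => rw [ev_cons]; exact h.nm _ _ (a i) ih

theorem bd' (hH : Holds g U) {r : ℝ} (a : ∀ j, ‖c (g j)‖ ≤ r) (x : G) : ‖c x‖ ≤ r :=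
  le_of_forall_gt fun _ hs => h.bd hH (fun j => (a j).trans_lt hs) x

theorem red_lc (a : ∀ x, ‖c x‖ ≤ 1) : IsLocallyConstant fun x => red (c x) :=
  (IsLocallyConstant.iff_eventually_eq _).2 fun x =>
    (((h.cc.sub continuous_const).norm.continuousAt (x := x)).eventually_lt
      (continuousAt_const (y := (1 : ℝ))) (by simp)).mono fun y hy => (red_eq_iff (a y) (a x)).2 hy

theorem red_ad (a : ∀ x, ‖c x‖ ≤ 1) (x y : G) : red (c (x * y)) = red (c x) + red (c y) := by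
  rw [h.co, red_add (a x) (nmul' (h.nrm x).le (a y)), red_mul (h.nrm x).le (a y),
    (red_eq_iff (h.nrm x).le norm_one.le).2 (h.one x), red_one, one_mul]

theorem red_eq (hH : Holds g U) (a : ∀ x, ‖c x‖ ≤ 1) {β : G → Kp 2} (lc : IsLocallyConstant β)
    (ad : ∀ y z, β (y * z) = β y + β z) (e : ∀ j, red (c (g j)) = β (g j)) (x : G) :
    red (c x) = β x := by
  let ρ : G →* Multiplicative (Kp 2) := MonoidHom.mk' (fun x => .ofAdd (red (c x) - β x))
    fun x y => by rw [h.red_ad a, ad, ← ofAdd_add]; congr 1; ring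
  obtain ⟨w, hw⟩ := (hH _ ρ ⟨((h.red_lc a).sub lc).isOpen_fiber 0, fun x => ⟨1, by
    rw [pow_one, sq]; exact CharTwo.add_self_eq_zero (red (c x) - β x)⟩⟩).2 x
  have : ∀ j, ρ (g j) = 1 := fun j => sub_eq_zero.2 (e j)
  exact sub_eq_zero.1 (show ρ x = 1 from hw.trans (by simp [ev, this]))

end Co

/-- congruent to `1` modulo `x` -/
def Bl (x z : Cp 2) : Prop := ‖(z - 1) / x‖ ≤ 1

/-- the first term -/
def lg (x z : Cp 2) : Kp 2 := red ((z - 1) / x)

section

variable {x z z' : Cp 2}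

theorem Bl.one : Bl x 1 := by simp [Bl]

theorem lg_one : lg x 1 = 0 := by simp [lg, red_zero]

theorem Bl.lt (h1 : ‖x‖ < 1) (h0 : x ≠ 0) (h : Bl x z) : ‖z - 1‖ < 1 := by
  rw [← div_mul_cancel₀ (z - 1) h0]
  exact nmul h h1

theorem Bl.mul (h1 : ‖x‖ < 1) (h0 : x ≠ 0) (h : Bl x z) (h' : Bl x z') :
    Bl x (z * z') ∧ lg x (z * z') = lg x z + lg x z' := by
  have e : (z * z' - 1) / x = (z - 1) / x + (z' - 1) / x + (z - 1) / x * ((z' - 1) / x * x) := by
    field_simp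
    ring
  have k := nmul h (nmul h' h1)
  unfold Bl lg
  rw [e, red_add (nadd' h h') k.le, red_add h h', red0 k, add_zero]
  exact ⟨nadd' (nadd' h h') k.le, rfl⟩

theorem Bl.pow (h1 : ‖x‖ < 1) (h0 : x ≠ 0) (h : Bl x z) (n : ℕ) :
    Bl x (z ^ n) ∧ lg x (z ^ n) = n * lg x z := by
  induction n with
  | zero => simp [Bl.one, lg_one]
  | succ n ih =>
    rw [pow_succ, (ih.1.mul h1 h0 h).2, ih.2, Nat.cast_succ, add_mul, one_mul]
    exact ⟨(ih.1.mul h1 h0 h).1, rfl⟩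

theorem Bl.of (h1 : ‖x‖ < 1) (h0 : x ≠ 0) (h : Bl x z') (h' : Bl x (z * z')) : Bl x z := by
  have n := none (h.lt h1 h0)
  have e : (z - 1) / x * z' = (z * z' - 1) / x + -((z' - 1) / x) := by ring
  have := nadd' h' ((norm_neg _).trans_le h)
  rwa [← e, norm_mul, n, mul_one] at this

theorem red_dot {F v : Fin 3 → Cp 2} (a : ∀ j, ‖F j‖ ≤ 1) (b : ∀ j, ‖v j‖ ≤ 1) :
    ‖∑ j, F j * v j‖ ≤ 1 ∧ red (∑ j, F j * v j) = ∑ j, red (F j) * red (v j) := by
  have k := fun j => nmul' (a j) (b j)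
  simp only [Fin.sum_univ_three, red_add (nadd' (k 0) (k 1)) (k 2), red_add (k 0) (k 1),
    red_mul (a _) (b _), and_true]
  exact nadd' (nadd' (k 0) (k 1)) (k 2)

end

/-- the vector product -/
def cr (u v : Fin 3 → Cp 2) (k : Fin 3) : Cp 2 := u (k + 1) * v (k + 2) - u (k + 2) * v (k + 1)

theorem cr_id (B Y v : Fin 3 → Cp 2) (k j : Fin 3) : cr B Y k * v j =
    cr v Y k * B j + cr B v k * Y j + if j = k then ∑ i, cr B Y i * v i else 0 := by
  fin_cases k <;> fin_cases j <;> simp [cr, Fin.sum_univ_three] <;> ring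

theorem cr_zero {B Y : Fin 3 → Cp 2} (h : ∀ k, cr B Y k = 0) (i j : Fin 3) :
    B j * Y i = B i * Y j := by
  have a := h 0
  have b := h 1
  have c := h 2
  simp [cr, sub_eq_zero] at a b c
  fin_cases i <;> fin_cases j <;> simp [a, b, c]

theorem cr_mem {E : Subfield (Cp 2)} {B Y : Fin 3 → Cp 2} (a : ∀ j, B j ∈ E) (b : ∀ j, Y j ∈ E)
    (k : Fin 3) : cr B Y k ∈ E := sub_mem (mul_mem (a _) (b _)) (mul_mem (a _) (b _))

namespace Co

variable {ψ b : G → Cp 2} (h : Co ψ b) {g : Fin 3 → G} {U : Ultrafilter Wd} (hU : Rel U)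
  (hH : Holds g U) {x : Cp 2} (h2 : ‖(2 : Cp 2)‖ < ‖x‖) (h1 : ‖x‖ < 1) (hb : ∀ y, Bl x (ψ y))
include h hU hH h2 h1 hb

theorem ex_F {r : ℝ} (hr : 0 < r) : ∃ F : Fin 3 → Cp 2,
    (∀ j, ‖F j‖ ≤ 1 ∧ red (F j) = lg x (ψ (g (hp j)))) ∧ ‖∑ j, F j * b (g j)‖ < r ∧
      ‖∑ j, F j * (ψ (g j) - 1)‖ < r := by
  have x0 : 0 < ‖x‖ := (norm_nonneg _).trans_lt h2
  obtain ⟨w, a1, a2, a3, a4⟩ := ((h.key hH (mul_pos hr x0)).1.and
    ((h.slf.key hH (mul_pos hr x0)).1.and hU.mag)).exists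
  rw [h.co_ev] at a1
  have a5 := h.slf.co_ev (g := g) w
  rw [a5] at a2
  refine ⟨fun j => fx (fun i => ψ (g i)) j w / x, fun j => ?_, ?_, ?_⟩
  · have := fox (y := fun i => ψ (g i) - 1) h2 h1
      (fun i => by simpa [Bl, div_le_one x0] using hb (g i)) a3 a4 j
    simp only [add_sub_cancel] at this
    have e : ‖fx (fun i => ψ (g i)) j w / x - (ψ (g (hp j)) - 1) / x‖ < 1 := by
      rwa [← sub_div, norm_div, div_lt_one x0]
    have n : ‖fx (fun i => ψ (g i)) j w / x‖ ≤ 1 := by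
      simpa using nadd' e.le (hb (g (hp j)))
    exact ⟨n, (red_eq_iff n (hb _)).2 e⟩
  · simpa only [div_mul_eq_mul_div, ← Finset.sum_div, norm_div, div_lt_iff₀ x0] using a1
  · simpa only [div_mul_eq_mul_div, ← Finset.sum_div, norm_div, div_lt_iff₀ x0] using a2

theorem bff : ∑ j, lg x (ψ (g (hp j))) * lg x (ψ (g j)) = 0 := by
  have x0 : 0 < ‖x‖ := (norm_nonneg _).trans_lt h2
  obtain ⟨F, a, -, c⟩ := h.ex_F hU hH h2 h1 hb x0
  have := (red_dot (fun j => (a j).1) fun j => hb (g j)).2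
  simp only [fun j => (a j).2] at this
  refine this.symm.trans (red0 ?_)
  simpa only [← mul_div_assoc, ← Finset.sum_div, norm_div, div_lt_one x0] using c

theorem core (hn : ∃ y, lg x (ψ y) ≠ 0) {β : G → Kp 2} (lc : IsLocallyConstant β)
    (ad : ∀ y z, β (y * z) = β y + β z) (o : ∑ j, lg x (ψ (g (hp j))) * β (g j) = 0)
    {E : Subfield (Cp 2)} (e1 : ∀ y, ψ y ∈ E) (e2 : ∀ y, b y ∈ E)
    (e3 : ∀ y, ∃ v ∈ E, ‖v‖ ≤ 1 ∧ red v = β y) (ns : ¬ ∃ t, ∀ y, b y = t * (ψ y - 1)) :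
    ∃ s ∈ E, ∃ t ∈ E, s ≠ 0 ∧
      ∀ y, ‖s * b y + t * (ψ y - 1)‖ ≤ 1 ∧ red (s * b y + t * (ψ y - 1)) = β y := by
  obtain ⟨i, hi⟩ : ∃ i, lg x (ψ (g i)) ≠ 0 := by
    by_contra! k
    obtain ⟨y, hy⟩ := hn
    have := (h.lin 0 x⁻¹).bd hH (r := 1) (fun j => by
      simpa [div_eq_inv_mul] using lt_of_red (hb _) (k j)) y
    exact hy (red0 (by simpa [div_eq_inv_mul] using this))
  obtain ⟨k, rfl⟩ : ∃ k, hp k = i := ⟨hp i, by fin_cases i <;> rfl⟩
  let B : Fin 3 → Cp 2 := fun j => b (g j)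
  let Y : Fin 3 → Cp 2 := fun j => ψ (g j) - 1
  have apx : ∀ (v : Fin 3 → Cp 2) (r : ℝ), 0 < r → ∃ F : Fin 3 → Cp 2,
      (∀ j, ‖F j‖ ≤ 1 ∧ red (F j) = lg x (ψ (g (hp j)))) ∧ ‖F k‖ = 1 ∧
        ‖cr B Y k * ∑ j, F j * v j - F k * ∑ i, cr B Y i * v i‖ < r := fun v r hr => by
    have p : 0 < ‖cr v Y k‖ + ‖cr B v k‖ + 1 := by positivity
    obtain ⟨F, a, c, d⟩ := h.ex_F hU hH h2 h1 hb (div_pos hr p)
    refine ⟨F, a, (a k).1.eq_or_lt.resolve_right fun e => hi ((a k).2.symm.trans (red0 e)), ?_⟩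
    have e : cr B Y k * ∑ j, F j * v j - F k * ∑ i, cr B Y i * v i =
        cr v Y k * ∑ j, F j * B j + cr B v k * ∑ j, F j * Y j := by
      have : ∀ j, cr B Y k * (F j * v j) = cr v Y k * (F j * B j) + cr B v k * (F j * Y j) +
          if j = k then F k * ∑ i, cr B Y i * v i else 0 := fun j => by
        have := cr_id B Y v k j
        split_ifs at this ⊢ with e
        · subst e; linear_combination F j * this
        · linear_combination F j * this
      rw [Finset.mul_sum, Finset.sum_congr rfl fun j _ => this j]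
      simp only [Finset.sum_add_distrib, Finset.sum_ite_eq', Finset.mem_univ, if_true,
        add_sub_cancel_right, ← Finset.mul_sum]
    rw [e]
    rw [lt_div_iff₀ p] at c d
    refine nadd ?_ ?_ <;> rw [norm_mul] <;>
      nlinarith [norm_nonneg (cr v Y k), norm_nonneg (cr B v k), norm_nonneg (∑ j, F j * B j),
        norm_nonneg (∑ j, F j * Y j)]
  have n0 : cr B Y k ≠ 0 := fun e => ns ⟨B (hp k) / Y (hp k), fun y => by
    have z : ∀ i, cr B Y i = 0 := fun i => norm_le_zero_iff.1 (le_of_forall_gt fun r hr => by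
      obtain ⟨F, -, a, c⟩ := apx (Pi.single i 1) r hr
      simpa [e, a, Pi.single_apply] using c)
    have y0 : Y (hp k) ≠ 0 := fun e => hi (by simp only [lg]; rw [show ψ _ - 1 = 0 from e]; simp [red_zero])
    have := (h.lin 1 (-(B (hp k) / Y (hp k)))).bd' hH (r := 0) (fun j => norm_le_zero_iff.2 (by
      have := cr_zero z (hp k) j
      show 1 * B j + _ * Y j = 0
      field_simp
      linear_combination this)) y
    linear_combination norm_le_zero_iff.1 this⟩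
  choose v v1 v2 v3 using fun j => e3 (g j)
  have n1 := norm_pos_iff.2 n0
  have d : ‖(∑ i, cr B Y i * v i) / cr B Y k‖ < 1 := by
    obtain ⟨F, a, c, d⟩ := apx v _ n1
    have := red_dot (fun j => (a j).1) v2
    simp only [fun j => (a j).2, v3, o] at this
    have e := nadd (mul_lt_of_lt_one_right n1 (lt_of_red this.1 this.2) |> (norm_mul _ _).trans_lt)
      ((norm_neg _).trans_lt d)
    rwa [← sub_eq_add_neg, sub_sub_cancel, norm_mul, c, one_mul, ← div_lt_one n1, ← norm_div] at e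
  have eY : ∀ j, Y j ∈ E := fun j => sub_mem (e1 _) (one_mem E)
  have eB : ∀ j, B j ∈ E := fun j => e2 _
  obtain ⟨s, s1, s2, s3⟩ : ∃ s ∈ E, s ≠ 0 ∧ ∀ j, ‖(s - cr v Y k / cr B Y k) * B j‖ < 1 := by
    by_cases e : cr v Y k / cr B Y k = 0
    · obtain ⟨n, hn⟩ := (eventually_all.2 fun j => ((tendsto_pow_atTop_nhds_zero_of_lt_one
        (norm_nonneg (2 : Cp 2)) two_lt).mul_const ‖B j‖).eventually_lt_const
          (show 0 * ‖B j‖ < 1 by simp)).exists
      exact ⟨2 ^ n, pow_mem (ofNat_mem E 2) n, pow_ne_zero n two_ne_zero, fun j => by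
        simpa [e] using hn j⟩
    · exact ⟨_, div_mem (cr_mem v1 eY k) (cr_mem eB eY k), e, fun j => by simp⟩
  refine ⟨s, s1, cr B v k / cr B Y k, div_mem (cr_mem eB v1 k) (cr_mem eB eY k), s2, ?_⟩
  have c := h.lin s (cr B v k / cr B Y k)
  have u : ∀ j, ‖s * B j + cr B v k / cr B Y k * Y j - v j‖ < 1 := fun j => by
    have e := cr_id B Y v k j
    split_ifs at e
    · rw [show _ - v j = (s - cr v Y k / cr B Y k) * B j + -((∑ i, cr B Y i * v i) / cr B Y k) by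
        field_simp
        linear_combination -e]
      exact nadd (s3 j) ((norm_neg _).trans_lt d)
    · rw [show _ - v j = (s - cr v Y k / cr B Y k) * B j by
        field_simp
        linear_combination -e]
      exact s3 j
  have u1 : ∀ j, ‖s * B j + cr B v k / cr B Y k * Y j‖ ≤ 1 := fun j => by
    simpa using nadd' (u j).le (v2 j)
  have u2 := c.bd' hH u1
  exact fun y => ⟨u2 y, c.red_eq hH u2 lc ad
    (fun j => ((red_eq_iff (u1 j) (v2 j)).2 (u j)).trans (v3 j)) y⟩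

end Co

end Vale.Agent.P022K.PM.L2
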