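import Vale.Agent.P022K.RT.L5Cup
import Vale.Agent.P022K.RT.L5Z1p

/-!
# P022K / PM: the cup product on the local Galois group, odd `p` (helper1)

`main`: for every cocycle `β` of the cyclotomic character there is a character `lam a₁ + μ a₀`
whose annihilator is a plane that contains `β`.
-/

set_option autoImplicit false
set_option linter.all false

noncomputable section

namespace Vale.Agent.P022K.PM.Lo3

open Finset Module
open Vale.Agent.P022K.RT.Tr (Gp)
open Vale.Agent.P022K.RT.L5 Vale.Agent.P022K.RT.L5.Cu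

section gen

variable {G F : Type} [Group G] [TopologicalSpace G] [Field F]

/-- the coboundaries of degree two -/
def B2 (θ : G → F) : Submodule F (G → G → F) where
  carrier := {f | ∃ z : G → F, IsLocallyConstant z ∧ ∀ x y, z (x * y) = z x + θ x * z y + f x y}
  add_mem' := fun ⟨z, h1, h2⟩ ⟨w, h3, h4⟩ => ⟨z + w, h1.add h3, fun x y => by
    simp only [Pi.add_apply, h2, h4]; ring⟩
  zero_mem' := ⟨0, IsLocallyConstant.const 0, fun _ _ => by simp⟩
  smul_mem' := fun r _ ⟨z, h1, h2⟩ => ⟨r • z, h1.comp (r • ·), fun x y => by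
    simp only [Pi.smul_apply, h2, smul_eq_mul]; ring⟩

/-- locally constant cocycles -/
structure Zc (θ c : G → F) : Prop where
  lc : IsLocallyConstant c
  mul : ∀ x y, c (x * y) = c x + θ x * c y

theorem b2_cob {θ a : G → F} (la : IsLocallyConstant a) (ma : ∀ x y, a (x * y) = a x + a y) :
    (fun x y => (θ x - 1) * a y) ∈ B2 θ :=
  ⟨-a, la.neg, fun x y => by simp only [Pi.neg_apply, ma]; ring⟩

variable {p : ℕ} [Fact p.Prime] [Algebra (ZMod p) F] {θ : G → ZMod p}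

theorem b2_up {f : G → G → ZMod p} (h : f ∈ B2 θ) :
    (fun x y => algebraMap (ZMod p) F (f x y)) ∈ B2 fun x => algebraMap (ZMod p) F (θ x) :=
  let ⟨z, h1, h2⟩ := h
  ⟨_, h1.comp (algebraMap (ZMod p) F), fun x y => by simp [h2]⟩

theorem b2_down {f : G → G → ZMod p}
    (h : (fun x y => algebraMap (ZMod p) F (f x y)) ∈ B2 fun x => algebraMap (ZMod p) F (θ x)) :
    f ∈ B2 θ := by
  obtain ⟨z, h1, h2⟩ := h
  obtain ⟨r, hr⟩ := (Algebra.linearMap (ZMod p) F).exists_leftInverse_of_injective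
    (LinearMap.ker_eq_bot.2 (algebraMap (ZMod p) F).injective)
  refine ⟨_, h1.comp r, fun x y => ?_⟩
  simp only [Function.comp_apply, h2, map_add, ← Algebra.smul_def, map_smul, smul_eq_mul]
  exact congrArg _ (LinearMap.congr_fun hr _)

/-- generators over the prime field are generators over every field -/
theorem span_up [CompactSpace G] {c₀ c₁ c₂ : G → ZMod p}
    (h : ∀ c, Zc θ c → ∃ x y w, ∀ g, c g = x * c₀ g + y * c₁ g + w * c₂ g) {β : G → F}
    (hβ : Zc (fun x => algebraMap (ZMod p) F (θ x)) β) : ∃ x y w : F, ∀ g, β g =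
      x * algebraMap _ _ (c₀ g) + y * algebraMap _ _ (c₁ g) + w * algebraMap _ _ (c₂ g) := by
  classical
  let e := Basis.ofVectorSpace (ZMod p) F
  choose x y w H using fun i => h (fun g => e.repr (β g) i) ⟨hβ.lc.comp fun v => e.repr v i,
    fun g g' => by simp only [hβ.mul, map_add, ← Algebra.smul_def, map_smul, Finsupp.add_apply,
      Finsupp.smul_apply, smul_eq_mul]⟩
  let T := hβ.lc.range_finite.toFinset.biUnion fun v => (e.repr v).support
  refine ⟨∑ i ∈ T, x i • e i, ∑ i ∈ T, y i • e i, ∑ i ∈ T, w i • e i, fun g => ?_⟩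
  have e1 : β g = ∑ i ∈ T, e.repr (β g) i • e i := by
    conv_lhs => rw [← e.linearCombination_repr (β g), Finsupp.linearCombination_apply]
    exact Finsupp.sum_of_support_subset _ (subset_biUnion_of_mem (fun v => (e.repr v).support)
      (by simp)) _ fun i _ => zero_smul _ _
  rw [e1, sum_mul, sum_mul, sum_mul, ← sum_add_distrib, ← sum_add_distrib]
  refine sum_congr rfl fun i _ => ?_
  rw [H]
  simp only [Algebra.smul_def, map_add, map_mul]
  ring

end gen

variable {p : ℕ} [hp : Fact p.Prime] {ω : Gp p →* (ZMod p)ˣ} {ζ : Om p} {a : Gp p → ZMod p}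

/-- Kummer data -/
structure Km (ω : Gp p →* (ZMod p)ˣ) (ζ b B : Om p) (c : Gp p → ZMod p) : Prop where
  pw : B ^ p = b
  ne : B ≠ 0
  act : ∀ g, g B = ζ ^ (c g).val * B
  z : Zc (fun x => (ω x : ZMod p)) c

theorem prod_zmod (f : ℕ → Om p) : ∏ i ∈ range p, f i = ∏ r : ZMod p, f r.val := by
  refine prod_nbij' (fun b => (b : ZMod p)) (fun r => r.val) ?_ ?_ ?_ ?_ ?_
  · exact fun _ _ => mem_univ _
  · exact fun r _ => mem_range.2 (ZMod.val_lt r)
  · exact fun b hb => ZMod.val_cast_of_lt (mem_range.1 hb)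
  · exact fun r _ => ZMod.natCast_zmod_val r
  · intro b hb
    rw [ZMod.val_cast_of_lt (mem_range.1 hb)]

theorem pw_sum (hζ : IsPrimitiveRoot ζ p) (t : ZMod p → ZMod p) (s : Finset (ZMod p)) :
    ζ ^ (∑ i ∈ s, t i).val = ∏ i ∈ s, ζ ^ (t i).val := by
  classical
  induction s using Finset.induction_on with
  | empty => simp
  | insert a s ha ih => rw [sum_insert ha, prod_insert ha, pw_add hζ, ih]

/-- **a norm has a vanishing cup product** -/
theorem cb_of_norm (hω : Cyc p ω) (hζ : IsPrimitiveRoot ζ p) (ha : Hom a) {σ : Gp p}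
    (hσ : a σ = 1) {δ : Om p} (δ0 : δ ≠ 0) (hδ : ∀ h, a h = 0 → h δ = δ) :
    ∃ B c, Km ω ζ (Nm σ δ) B c ∧ (fun x y => c x * a y) ∈ B2 fun x => (ω x : ZMod p) := by
  choose γ hγ using fun i : ZMod p => IsAlgClosed.exists_pow_nat_eq ((σ ^ i.val) δ) hp.out.pos
  have γ0 : ∀ i, γ i ≠ 0 := fun i e => (map_ne_zero (σ ^ i.val)).2 δ0 (by
    rw [← hγ, e, zero_pow hp.out.ne_zero])
  choose t ht using fun (i : ZMod p) (g : Gp p) => ex_log hζ (γ0 (i + a g)) (γ := g (γ i)) (by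
    rw [← map_pow, hγ, hγ, ← AlgEquiv.mul_apply, ← mul_inv_cancel_left (σ ^ (i + a g).val) (g * _),
      AlgEquiv.mul_apply, hδ]
    rw [ha.ma, ha.ma, ha.inv, ha.pow, ha.pow, hσ, ZMod.natCast_zmod_val, ZMod.natCast_zmod_val]
    ring)
  have tm : ∀ i g g', t i (g * g') = t (i + a g') g + ω g * t i g' := fun i g g' =>
    pw_inj hζ (mul_right_cancel₀ (γ0 (i + a (g * g'))) (by
      rw [← ht, AlgEquiv.mul_apply, ht i g', map_mul, pw_map hζ hω, ht, pw_add hζ, ha.ma,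
        add_assoc, add_comm (a g')]
      ring))
  have tl : ∀ i, IsLocallyConstant (t i) := fun i =>
    (IsLocallyConstant.iff_eventually_eq _).2 fun g => by
      have l1 : IsLocallyConstant fun g : Gp p => g (γ i) :=
        lc_of _ (γ i) fun g u e => by rw [AlgEquiv.mul_apply, e]
      filter_upwards [l1.eventually_eq g, ha.lc.eventually_eq g] with y h1 h2
      exact pw_inj hζ (mul_right_cancel₀ (γ0 (i + a g)) (by rw [← ht, ← h1, ht, h2]))
  have ls : ∀ (r : ZMod p → ZMod p), IsLocallyConstant fun g => ∑ i, r i * t i g := fun r =>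
    (IsLocallyConstant.iff_eventually_eq _).2 fun g => by
      filter_upwards [Filter.eventually_all.2 fun i => (tl i).eventually_eq g] with y h
      exact sum_congr rfl fun i _ => by rw [h]
  refine ⟨∏ i, γ i, fun g => ∑ i, t i g, ⟨?_, prod_ne_zero_iff.2 fun i _ => γ0 i, fun g => ?_,
    by simpa using ls fun _ => 1, fun g g' => ?_⟩, _, ls fun i => -i, fun g g' => ?_⟩
  · rw [← prod_pow, Nm, prod_zmod]
    exact prod_congr rfl fun i _ => hγ i
  · rw [map_prod, pw_sum hζ, ← Equiv.prod_comp (Equiv.addRight (a g)) γ, ← prod_mul_distrib]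
    exact prod_congr rfl fun i _ => ht i g
  · simp only [tm, sum_add_distrib, ← mul_sum]
    rw [← Equiv.sum_comp (Equiv.addRight (a g')) fun i => t i g]
    rfl
  · beta_reduce
    rw [← Equiv.sum_comp (Equiv.addRight (a g')) fun i => -i * t i g,
      ← Equiv.sum_comp (Equiv.addRight (a g')) fun i => t i g, mul_sum, sum_mul, ← sum_add_distrib,
      ← sum_add_distrib]
    refine sum_congr rfl fun i _ => ?_
    rw [tm, Equiv.coe_addRight]
    ring

theorem le_add {x y : Om p} {r : ℝ} (h : ‖x‖ ≤ r) (h' : ‖y‖ ≤ r) : ‖x + y‖ ≤ r :=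
  (IsUltrametricDist.norm_add_le_max x y).trans (max_le h h')

/-- acts trivially on the residue field -/
def In (s : Gp p) : Prop := ∀ y : Om p, ‖y‖ ≤ 1 → ‖s y - y‖ < 1

/-- **a ramified character has a uniformiser** -/
theorem ram (p2 : p ≠ 2) (ha : Hom a) {s : Gp p} (hs : In s) (h0 : a s ≠ 0) :
    ∃ δ : Om p, (∀ h, a h = 0 → h δ = δ) ∧ ‖δ‖ ^ p = ‖(p : Om p)‖ := by
  have pp := p_pos (p := p)
  have p0 : (p : Om p) ≠ 0 := norm_pos_iff.1 pp
  have np : ∀ n : ℤ, ‖(p : Om p) ^ n‖ = (p : ℝ) ^ (-n) := fun n => by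
    rw [norm_zpow, norm_p, inv_zpow']
  have p1 : (1 : ℝ) < p := Nat.one_lt_cast.2 hp.out.one_lt
  by_cases hv : ∀ y : Om p, y ≠ 0 → (∀ h, a h = 0 → h y = y) → ∃ n : ℤ, ‖y‖ = (p : ℝ) ^ n
  · exfalso
    have N : ∀ y : Om p, (∀ h, a h = 0 → h y = y) →
        (∀ h, a h = 0 → h (s y - y) = s y - y) ∧ ‖s y - y‖ ≤ ‖(p : Om p)‖ * ‖y‖ := fun y hy => by
      have f : ∀ h, a h = 0 → h (s y - y) = s y - y := fun h hh => by
        rw [map_sub, ha.cj hy s h hh, hy h hh]
      refine ⟨f, ?_⟩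
      by_cases e : s y - y = 0
      · rw [e, norm_zero]; positivity
      obtain ⟨m, hm⟩ := hv _ e f
      obtain ⟨n, hn⟩ := hv y (by rintro rfl; simp at e) hy
      have := hs ((p : Om p) ^ n * y) (by
        rw [norm_mul, np, hn, ← zpow_add₀ (by positivity), neg_add_cancel, zpow_zero])
      rw [map_mul, map_zpow₀, map_natCast, ← mul_sub, norm_mul, np, hm,
        ← zpow_add₀ (by positivity), zpow_lt_one_iff_right₀ p1] at this
      rw [hm, hn, norm_p, ← zpow_neg_one, ← zpow_add₀ (by positivity)]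
      exact zpow_le_zpow_right₀ p1.le (by omega)
    obtain ⟨y, hy, ny⟩ := Vale.Agent.P022K.RT.Ku.sep ha.mh.ker
      (ha.mh.ker.isClosed_of_isOpen (ha.lc {0})) (s := s) h0
    obtain ⟨f1, -⟩ := N y hy
    obtain ⟨f2, n2⟩ := N _ f1
    obtain ⟨-, n3⟩ := N _ f2
    generalize hx : s y - y = x at f1 f2 n2 n3
    generalize hx1 : s x - x = x1 at f2 n2 n3
    have n4 : ‖s x1 - x1‖ ≤ ‖(p : Om p)‖ * (‖(p : Om p)‖ * ‖x‖) :=
      n3.trans (mul_le_mul_of_nonneg_left n2 pp.le)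
    have i1 : ∀ i : ℕ, ‖(s ^ i) x1 - x1‖ ≤ ‖s x1 - x1‖ := fun i => by
      induction i with
      | zero => simp
      | succ i ih =>
        rw [pow_succ, AlgEquiv.mul_apply, show (s ^ i) (s x1) - x1 =
          (s ^ i) (s x1 - x1) + ((s ^ i) x1 - x1) by rw [map_sub]; ring]
        exact le_add (nrm _ _).le ih
    have i2 : ∀ i : ℕ, ‖(s ^ i) x - x - i * x1‖ ≤ ‖s x1 - x1‖ := fun i => by
      induction i with
      | zero => simp
      | succ i ih =>
        rw [pow_succ, AlgEquiv.mul_apply, show (s ^ i) (s x) - x - (i + 1 : ℕ) * x1 =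
          ((s ^ i) x - x - i * x1) + ((s ^ i) x1 - x1) by rw [← hx1, map_sub]; push_cast; ring]
        exact le_add ih (i1 i)
    have i3 : ∀ i : ℕ, ‖(s ^ i) y - y - i * x - i.choose 2 * x1‖ ≤ ‖s x1 - x1‖ := fun i => by
      induction i with
      | zero => simp
      | succ i ih =>
        rw [pow_succ, AlgEquiv.mul_apply, Nat.choose_succ_succ' i 1, Nat.choose_one_right,
          show (s ^ i) (s y) - y - (i + 1 : ℕ) * x - (i + i.choose (1 + 1) : ℕ) * x1 =
            ((s ^ i) y - y - i * x - i.choose 2 * x1) + ((s ^ i) x - x - i * x1) by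
              rw [← hx, map_sub]; push_cast; ring]
        exact le_add ih (i2 i)
    obtain ⟨r, hr⟩ := hp.out.dvd_choose_self two_ne_zero (lt_of_le_of_ne hp.out.two_le p2.symm)
    have i4 := (i3 p).trans n4
    rw [hy _ (ha.powp s), hr] at i4
    have i5 : ‖((p * r : ℕ) : Om p) * x1‖ ≤ ‖(p : Om p)‖ * (‖(p : Om p)‖ * ‖x‖) := by
      rw [Nat.cast_mul, mul_assoc, norm_mul, norm_mul]
      exact mul_le_mul_of_nonneg_left ((mul_le_of_le_one_left (norm_nonneg _)
        (IsUltrametricDist.norm_natCast_le_one _ r)).trans n2) pp.le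
    have i6 := le_add i4 i5
    rw [show y - y - p * x - ((p * r : ℕ) : Om p) * x1 + ((p * r : ℕ) : Om p) * x1 = -(p * x) by
      ring, norm_neg, norm_mul, mul_le_mul_iff_right₀ pp] at i6
    have x0 : 0 < ‖x‖ := norm_pos_iff.2 (hx ▸ sub_ne_zero.2 ny)
    exact i6.not_gt (mul_lt_of_lt_one_left x0 p_lt)
  · push Not at hv
    obtain ⟨y, y0, hy, hn⟩ := hv
    obtain ⟨r, hr⟩ := fix (ha.nm h0 y0 hy)
    have e : ‖y‖ ^ p = ‖r‖ := by
      rw [← PadicAlgCl.norm_extends p r, hr]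
      simp only [Nm, norm_prod, nrm, prod_const, card_range]
    have r0 : r ≠ 0 := norm_pos_iff.1 (e ▸ pow_pos (norm_pos_iff.2 y0) p)
    rw [Padic.norm_eq_zpow_neg_valuation r0] at e
    have c : IsCoprime (p : ℤ) r.valuation :=
      (Nat.prime_iff_prime_int.1 hp.out).coprime_iff_not_dvd.2 fun ⟨m, hm⟩ => hn (-m)
        ((pow_left_inj₀ (norm_nonneg _) (by positivity) hp.out.ne_zero).1 (by
          rw [e, hm, ← zpow_natCast, ← zpow_mul]; congr 1; ring))
    obtain ⟨u, v, huv⟩ := c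
    refine ⟨(p : Om p) ^ u * y ^ v, fun h hh => by
      rw [map_mul, map_zpow₀, map_zpow₀, map_natCast, hy h hh], ?_⟩
    rw [norm_mul, np, norm_zpow, mul_pow, ← zpow_natCast, ← zpow_natCast, ← zpow_mul, ← zpow_mul,
      mul_comm v, zpow_mul ‖y‖, zpow_natCast, e, ← zpow_mul, ← zpow_add₀ (by positivity), norm_p,
      ← zpow_neg_one]
    congr 1
    linear_combination -huv

theorem ram' (p2 : p ≠ 2) (hω : Cyc p ω) (hζ : IsPrimitiveRoot ζ p) (ha : Hom a) {s : Gp p}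
    (hs : In s) (h0 : a s ≠ 0) : ∃ b B c, (∀ g : Gp p, g b = b) ∧ ‖b‖ = ‖(p : Om p)‖ ∧
      Km ω ζ b B c ∧ (fun x y => c x * a y) ∈ B2 fun x => (ω x : ZMod p) := by
  obtain ⟨δ, h1, h2⟩ := ram p2 ha hs h0
  obtain ⟨n, hn⟩ := ha.ex h0 1
  have δ0 : δ ≠ 0 := by
    rintro rfl
    rw [norm_zero, zero_pow hp.out.ne_zero] at h2
    exact p_pos.ne h2
  obtain ⟨B, c, h3, h4⟩ := cb_of_norm hω hζ ha hn δ0 h1
  exact ⟨_, B, c, ha.nm (hn ▸ one_ne_zero) δ0 h1,
    by simp only [Nm, norm_prod, nrm, prod_const, card_range, h2], h3, h4⟩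

theorem indep (p2 : p ≠ 2) (hω : Cyc p ω) (hζ : IsPrimitiveRoot ζ p) {b B B₁ : Om p}
    {c c₁ : Gp p → ZMod p} (fb : ∀ g : Gp p, g b = b) (nb : ‖b‖ = ‖(p : Om p)‖)
    (k : Km ω ζ b B c) (k₁ : Km ω ζ (p ^ p - p - 1) B₁ c₁) {x y w : ZMod p}
    (h : ∀ g, x * c g + y * c₁ g + w * (ω g - 1) = 0) : x = 0 ∧ y = 0 ∧ w = 0 := by
  have := ind p2 fb nb (w := B ^ x.val * B₁ ^ y.val * ζ ^ w.val) (i := x.val) (j := y.val)
    (fun g => by
      have e := congrArg (fun t : ZMod p => ζ ^ (t + w).val) (h g)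
      simp only [zero_add] at e
      rw [show x * c g + y * c₁ g + w * (ω g - 1) + w = c g * x + c₁ g * y + ω g * w by ring,
        pw_add hζ, pw_add hζ, pw_mul hζ (c g), pw_mul hζ (c₁ g)] at e
      rw [map_mul, map_mul, map_pow, map_pow, k.act, k₁.act, pw_map hζ hω, mul_pow, mul_pow, ← e]
      ring)
    (by rw [mul_pow, mul_pow, pw_pow hζ, mul_one, pow_right_comm B, pow_right_comm B₁, k.pw, k₁.pw])
  simp only [ZMod.natCast_zmod_val] at this
  obtain ⟨g, hg⟩ := (om p ω hω).1 (-1)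
  have e := h g
  rw [this.1, this.2, hg, zero_mul, zero_mul, zero_add, zero_add, mul_eq_zero] at e
  refine ⟨this.1, this.2, e.resolve_right fun e => p2 ?_⟩
  have : ((2 : ℕ) : ZMod p) = 0 := by
    rw [Units.val_neg, Units.val_one] at e
    push_cast
    linear_combination -e
  exact (Nat.prime_dvd_prime_iff_eq hp.out Nat.prime_two).1 ((ZMod.natCast_eq_zero_iff _ _).1 this)

theorem span3 (p2 : p ≠ 2) (hω : Cyc p ω) {c₀ c₁ : Gp p → ZMod p}
    (z₀ : Zc (fun x => (ω x : ZMod p)) c₀) (z₁ : Zc (fun x => (ω x : ZMod p)) c₁)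
    (i : ∀ x y w : ZMod p, (∀ g, x * c₀ g + y * c₁ g + w * (ω g - 1) = 0) → x = 0 ∧ y = 0 ∧ w = 0)
    (c : Gp p → ZMod p) (z : Zc (fun x => (ω x : ZMod p)) c) :
    ∃ x y w, ∀ g, c g = x * c₀ g + y * c₁ g + w * (ω g - 1) := by
  let ν : Representation (ZMod p) (Gp p) (ZMod p) :=
    ((Algebra.lmul (ZMod p) (ZMod p)).toMonoidHom.comp (Units.coeHom _)).comp ω
  have hν : ∀ g v, ν g v = ω g * v := fun _ _ => rfl
  obtain ⟨f, le⟩ := z1p' p ω (ZMod p) (ZMod p) ν ω.ker p2 hω inferInstance (om p ω hω).2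
    (fun u hu => LinearMap.ext fun v => by rw [hν, show ω u = 1 from hu]; simp) (fun u hu => hu) (by
      rw [Ne, ZMod.natCast_eq_zero_iff, Subgroup.index_ker]
      refine Nat.not_dvd_of_pos_of_lt Nat.card_pos ((Subgroup.card_le_card_group _).trans_lt ?_)
      rw [Nat.card_eq_fintype_card, ZMod.card_units]
      exact Nat.sub_lt hp.out.pos one_pos)
  have le1 : GW.h0 (GW.tw (GW.up ω)⁻¹ ν) ≤ 1 :=
    (Submodule.finrank_le _).trans (by simp [Module.finrank_pi_fintype])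
  have lo : IsLocallyConstant fun g => (ω g : ZMod p) - 1 :=
    (IsLocallyConstant.iff_eventually_eq _).2 fun g => by
      filter_upwards [((om p ω hω).2.preimage (continuous_mul_left g⁻¹)).mem_nhds (by simp)]
        with y hy
      rw [← mul_inv_cancel_left g y, map_mul, show ω (g⁻¹ * y) = 1 from hy, mul_one]
  let v : Fin 3 → ZR ν := ![⟨c₀, z₀.lc, z₀.mul⟩, ⟨c₁, z₁.lc, z₁.mul⟩, ⟨_, lo, fun x y => by
    rw [hν, map_mul, Units.val_mul]; ring⟩]
  have li : LinearIndependent (ZMod p) v := Fintype.linearIndependent_iff.2 fun r hr => by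
    obtain ⟨h1, h2, h3⟩ := i (r 0) (r 1) (r 2) fun g => by
      rw [Fin.sum_univ_three] at hr
      exact congrFun (congrArg Subtype.val hr) g
    intro j
    fin_cases j <;> assumption
  have top := li.span_eq_top_of_card_eq_finrank (le_antisymm li.fintype_card_le_finrank (by
    rw [finrank_self] at le
    simpa using le.trans (by omega)))
  obtain ⟨r, hr⟩ := (Submodule.mem_span_range_iff_exists_fun _).1
    (top ▸ Submodule.mem_top : (⟨c, z.lc, z.mul⟩ : ZR ν) ∈ Submodule.span _ (Set.range v))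
  rw [Fin.sum_univ_three] at hr
  exact ⟨r 0, r 1, r 2, fun g => (congrFun (congrArg Subtype.val hr) g).symm⟩

theorem Hom.add {a' : Gp p → ZMod p} (ha : Hom a) (ha' : Hom a') : Hom (a + a') :=
  ⟨ha.lc.add ha'.lc, fun x y => by simp only [Pi.add_apply, ha.ma, ha'.ma]; ring⟩

/-- the unramified character -/
theorem unr' (p2 : p ≠ 2) (hω : Cyc p ω) : ∃ (a : Gp p → ZMod p) (δ : Om p), Hom a ∧
    (∃ σ, a σ ≠ 0) ∧ (∀ s, In s → a s = 0) ∧ δ ≠ 0 ∧ (∀ h, a h = 0 → h δ = δ) ∧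
      ∀ σ, a σ ≠ 0 → Nm σ δ = p ^ p - p - 1 := by
  obtain ⟨ζ, hζ⟩ := ex_prim p 1
  rw [pow_one] at hζ
  obtain ⟨a, δ, A, h1, h2, h3, h4⟩ := unr (p := p)
  refine ⟨a, δ, A, h1, fun s hs => by_contra fun h0 => ?_, h2, h3, h4⟩
  obtain ⟨y, h5, h6⟩ := ram p2 A hs h0
  have y0 : y ≠ 0 := by
    rintro rfl
    rw [norm_zero, zero_pow hp.out.ne_zero] at h6
    exact p_pos.ne h6
  exact A.two hω hζ loc p2 h0 y0 h2 h5 h3 fun i j w fw e => ind p2 (A.nm h0 y0 h5)
    (by simp only [Nm, norm_prod, nrm, prod_const, card_range, h6]) fw (h4 s h0 ▸ e)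

/-- **the annihilators** -/
theorem main (p2 : p ≠ 2) (hω : Cyc p ω) {a₀ a₁ : Gp p → ZMod p} {δ : Om p} (A₀ : Hom a₀)
    (A₁ : Hom a₁) {σ s : Gp p} (hσ : a₀ σ = 1) (δ0 : δ ≠ 0) (hδ : ∀ h, a₀ h = 0 → h δ = δ)
    (nδ : Nm σ δ = p ^ p - p - 1) (hs : In s) (s0 : a₀ s = 0) (s1 : a₁ s ≠ 0)
    {F : Type} [Field F] [Algebra (ZMod p) F] {θ β : Gp p → F}
    (hθ : ∀ x, θ x = algebraMap (ZMod p) F (ω x)) (hβ : Zc θ β) : ∃ lam : ZMod p, ∃ μ : F, ∀ c, Zc θ c →
      (fun x y => c x * (algebraMap _ _ (lam * a₁ y) + μ * algebraMap _ _ (a₀ y))) ∈ B2 θ →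
      (¬ ∃ t, ∀ g, c g = t * (θ g - 1)) → ∃ r t, ∀ g, β g = r * c g + t * (θ g - 1) := by
  obtain rfl := funext hθ
  obtain ⟨ζ, hζ⟩ := ex_prim p 1
  rw [pow_one] at hζ
  obtain ⟨B₁, c₁, k₁, r₁⟩ := cb_of_norm hω hζ A₀ hσ δ0 hδ
  rw [nδ] at k₁
  obtain ⟨b₀, B₀, c₀, f₀, n₀, k₀, r₀⟩ := ram' p2 hω hζ A₁ hs s1
  obtain ⟨b₂, B₂, c₂, f₂, n₂, k₂, r₂⟩ := ram' p2 hω hζ (Hom.add A₀ A₁) hs
    (by rwa [Pi.add_apply, s0, zero_add])
  have sp := span3 p2 hω k₀.z k₁.z fun _ _ _ => indep p2 hω hζ f₀ n₀ k₀ k₁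
  obtain ⟨k, l, m, e⟩ := sp c₂ k₂.z
  have k0 : k ≠ 0 := fun h => one_ne_zero (indep p2 hω hζ f₂ n₂ k₂ k₁ (x := 1) (y := -l)
    (w := -m) fun g => by rw [e, h]; ring).1
  have X0 : (fun x y => c₀ x * a₀ y) ∉ B2 fun x => (ω x : ZMod p) := fun h => by
    obtain ⟨y, y0, h1, h2⟩ := A₀.norm_of hω hζ hσ k₀.ne k₀.act h
    exact A₀.two hω hζ loc p2 (hσ ▸ one_ne_zero) y0 δ0 h1 hδ fun i j w fw e =>
      ind p2 f₀ n₀ fw (by rw [← e, h2, k₀.pw, nδ])
  have o₀ := b2_cob (θ := fun x => (ω x : ZMod p)) A₀.lc A₀.ma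
  have o₁ := b2_cob (θ := fun x => (ω x : ZMod p)) A₁.lc A₁.ma
  have R : (fun x y => k * (c₀ x * a₀ y) + l * (c₁ x * a₁ y)) ∈ B2 fun x => (ω x : ZMod p) := by
    convert sub_mem r₂ (add_mem (add_mem (Submodule.smul_mem _ k r₀) (Submodule.smul_mem _ l r₁))
      (Submodule.smul_mem _ m (add_mem o₀ o₁))) using 1
    funext x y
    simp only [Pi.sub_apply, Pi.add_apply, Pi.smul_apply, smul_eq_mul, e]
    ring
  have l0 : l ≠ 0 := fun h => X0 (by
    convert Submodule.smul_mem _ k⁻¹ R using 1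
    funext x y
    simp only [Pi.smul_apply, smul_eq_mul, h, zero_mul, add_zero, inv_mul_cancel_left₀ k0])
  let φ := algebraMap (ZMod p) F
  have k0' : φ k ≠ 0 := (map_ne_zero φ).2 k0
  have l0' : φ l ≠ 0 := (map_ne_zero φ).2 l0
  have key : ∀ (lam : ZMod p) (μ x y w : F) (c : Gp p → F),
      (∀ g, c g = x * φ (c₀ g) + y * φ (c₁ g) + w * φ (ω g - 1)) →
      (fun x y => c x * (φ (lam * a₁ y) + μ * φ (a₀ y))) ∈ B2 (fun x => φ (ω x)) →
      x * μ * φ l = y * φ lam * φ k := fun lam μ x y w c hc h => by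
    by_contra n
    refine X0 (b2_down (F := F) ?_)
    convert Submodule.smul_mem _ (x * μ * φ l - y * φ lam * φ k)⁻¹ (sub_mem (Submodule.smul_mem _ (φ l)
      (sub_mem h (add_mem (add_mem (Submodule.smul_mem _ (x * φ lam) (b2_up r₀))
        (Submodule.smul_mem _ (y * μ) (b2_up r₁))) (add_mem
          (Submodule.smul_mem _ (w * μ) (b2_up o₀)) (Submodule.smul_mem _ (w * φ lam) (b2_up o₁))))))
      (Submodule.smul_mem _ (y * φ lam) (b2_up R))) using 1
    funext g g'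
    simp only [Pi.sub_apply, Pi.add_apply, Pi.smul_apply, smul_eq_mul, hc, map_mul, map_add]
    rw [eq_inv_mul_iff_mul_eq₀ (sub_ne_zero.2 n)]
    ring
  obtain ⟨x, y, w, eβ⟩ := span_up sp hβ
  by_cases x0 : x = 0
  · refine ⟨0, 1, fun c hc h n => ?_⟩
    obtain ⟨x', y', w', ec⟩ := span_up sp hc
    have := key 0 1 x' y' w' c ec h
    rw [map_zero, mul_zero, zero_mul, mul_one, mul_eq_zero, or_iff_left l0'] at this
    have y0 : y' ≠ 0 := fun h => n ⟨w', fun g => by simp [ec, this, h]⟩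
    refine ⟨y / y', w - y / y' * w', fun g => ?_⟩
    rw [eβ, ec, x0, this, map_sub, map_one]
    field_simp
    ring
  · refine ⟨1, y * φ k / (x * φ l), fun c hc h n => ?_⟩
    obtain ⟨x', y', w', ec⟩ := span_up sp hc
    have := key 1 _ x' y' w' c ec h
    have e' : x' * y = y' * x := by
      rw [map_one] at this
      field_simp at this
      linear_combination this
    have x1 : x' ≠ 0 := fun h => n ⟨w', fun g => by
      have : y' = 0 := by simpa [h, x0] using e'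
      simp [ec, this, h]⟩
    refine ⟨x / x', w - x / x' * w', fun g => ?_⟩
    rw [eβ, ec, map_sub, map_one]
    field_simp
    linear_combination algebraMap (ZMod p) F (c₁ g) * e'

end Vale.Agent.P022K.PM.Lo3
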