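import Vale.Agent.P022K.RT.Gir2a
import Vale.Agent.P022K.RT.L5Z1p
import Vale.Agent.P022K.Top.Coef
import Vale.Agent.P022K.CH.Weil

/-!
# P022K / PM: lattices in non split extensions, the generic case
-/

set_option autoImplicit false
set_option linter.all false

open Filter Topology

noncomputable section

namespace Vale.Agent.P022K.PM.La

open Vale.Agent.P022 Vale.Agent.P022.H853
open Vale.Agent.P022.H443 (inP)
open Vale.Agent.P022D.W (dec inP_le_dec)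
open Vale.Agent.P022E.GW (Ov Fb)
open Vale.Agent.P022K.CH
open Vale.Agent.P022K.RT.L5 (ZC)

variable {p : ℕ} [hp : Fact p.Prime]

theorem red_eps (g : GQ) : red (eps p g) = ((cyc p g : ZMod p).val : Kp p) := by
  have h1 : (((cyc (p ^ 1) g : ZMod (p ^ 1)).val : ℕ) : Kp p) = (cyc p g : ZMod p).val := by
    rw [CharP.natCast_eq_natCast (Kp p) p]
    have hz := zt_prim p
    have := (cyc_spec (m := p ^ 1) g (by rw [pow_one]; exact hz.pow_eq_one)).symm.trans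
      (cyc_spec g hz.pow_eq_one)
    rwa [(hz.isOfFinOrder hp.out.ne_zero).pow_eq_pow_iff_modEq, ← hz.eq_orderOf] at this
  rw [← h1, ← red_nat, red_eq_iff (norm_eps g).le (IsUltrametricDist.norm_natCast_le_one _ _),
    eps_eq, ← map_natCast (zc p), ← map_sub, norm_zc]
  refine ((PadicInt.norm_le_pow_iff_mem_span_pow _ 1).2 ?_).trans_lt
    (zpow_lt_one_of_neg₀ (Nat.one_lt_cast.2 hp.out.one_lt) (by simp))
  rw [← PadicInt.ker_toZModPow, RingHom.mem_ker, map_sub, ez_mod, map_natCast,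
    ZMod.natCast_zmod_val, sub_self]

theorem red_eps2 (h : p = 2) (g : GQ) : red (eps p g) = 1 := by
  subst h
  rw [red_eps, Subsingleton.elim (cyc 2 g) 1]
  simp [ZMod.val_one]

theorem cpt {P : Id} (h : Ov p P) : CompactSpace (dec P) := by
  obtain ⟨j, hc, hj, -⟩ := RT.Tr.exists_j p h
  exact hj.compactSpace hc

/-- a finite set is contained in a finite field -/
theorem ex_fin {S : Set (Kp p)} (h : S.Finite) : ∃ (F : Type) (_ : Field F) (_ : Finite F)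
    (_ : CharP F p) (f : F →+* Kp p), ∀ y ∈ S, ∃ x, f x = y := by
  obtain ⟨E, hE⟩ := ((eventually_all_finite h).2 fun y _ => Top.ev_res y).exists
  exact ⟨_, inferInstance, inferInstance, inferInstance, E.em.rk, hE⟩

/-- three cocycles are dependent -/
def Dep {G : Type} [Group G] [TopologicalSpace G] (θ : G → Kp p) : Prop :=
  ∀ c : Fin 3 → G → Kp p, (∀ i, c i ∈ ZC θ) →
    ∃ a : Fin 3 → Kp p, a ≠ 0 ∧ ∀ x, a 0 * c 0 x + a 1 * c 1 x + a 2 * c 2 x = 0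

theorem dep {P : Id} (h : Ov p P) (θ : dec P →* Kp p) (hθ : IsLocallyConstant θ)
    (hn : ∃ x, θ x ≠ red (eps p x)) : Dep θ := by
  intro c hc
  have := cpt h
  obtain ⟨F, _, _, _, f, hf⟩ := ex_fin (hθ.range_finite.union
    (Set.finite_iUnion fun i => (hc i).1.range_finite))
  choose θ₀ e0 using fun x => hf (θ x) (Or.inl ⟨x, rfl⟩)
  choose c₀ e1 using fun i x => hf (c i x) (Or.inr (Set.mem_iUnion.2 ⟨i, x, rfl⟩))
  obtain ⟨j, j1, j2, -, j3⟩ := RT.Tr.exists_j p h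
  let θ₁ : RT.Tr.Gp p →* F :=
    { toFun := fun σ => θ₀ (j σ)
      map_one' := f.injective (by rw [e0, map_one, map_one, map_one])
      map_mul' := fun σ τ => f.injective (by rw [map_mul f, e0, e0, e0, map_mul, map_mul]) }
  have l1 : IsLocallyConstant θ₁ := IsLocallyConstant.desc _ f
    (by simpa only [Function.comp_def, θ₁, MonoidHom.coe_mk, OneHom.coe_mk, e0] using
      hθ.comp_continuous j1) f.injective
  obtain ⟨x, hx⟩ := hn
  obtain ⟨σ, rfl⟩ := j2 x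
  have rk : Module.rank F (ZC θ₁) ≤ (2 : ℕ) := by
    by_cases h2 : p = 2
    · rw [red_eps2 h2] at hx
      subst h2
      exact RT.L5.zc2 θ₁ l1 ⟨σ, fun e => hx (by rw [← e0, ← map_one f, ← e]; rfl)⟩
    · let ω : dec P →* (ZMod p)ˣ := (cyc p).comp (dec P).subtype
      refine (RT.L5.ct RT.L5.z1p' h2 (ω := ω.comp j) (j3 ω fun g x hx => cyc_spec _ hx)
        ((isOpen_cyc p).preimage (continuous_subtype_val.comp j1)) θ₁ l1).2 ⟨σ, fun e => hx ?_⟩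
      rw [← e0, red_eps, show θ₀ (j σ) = ZMod.castHom (dvd_refl p) F (cyc p (j σ)) from e,
        ZMod.castHom_apply, ZMod.cast_eq_val, map_natCast]
  let v : Fin 3 → ZC θ₁ := fun i => ⟨fun σ => c₀ i (j σ), IsLocallyConstant.desc _ f
    (by simpa only [Function.comp_def, e1] using (hc i).1.comp_continuous j1) f.injective,
    fun σ τ => f.injective (by
      rw [map_add, map_mul f, e1, e1, e1, map_mul, (hc i).2, ← e0]; rfl)⟩
  have nl : ¬ LinearIndependent F v := fun e => by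
    have := e.cardinal_le_rank.trans rk
    norm_num at this
  obtain ⟨a, a1, i, a2⟩ := Fintype.not_linearIndependent_iff.1 nl
  refine ⟨fun i => f (a i), fun e => a2 (f.injective ((congrFun e i).trans (map_zero f).symm)),
    fun x => ?_⟩
  obtain ⟨τ, rfl⟩ := j2 x
  have := congrArg f (congrFun (congrArg Subtype.val a1) τ)
  simpa [Fin.sum_univ_three, v, e1] using this

section sat

variable {G : Type} [TopologicalSpace G]

theorem red_lc {f : G → Cp p} (hf : Continuous f) (h : ∀ x, ‖f x‖ ≤ 1) :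
    IsLocallyConstant fun x => red (f x) :=
  (IsLocallyConstant.iff_eventually_eq _).2 fun x => by
    filter_upwards [hf.continuousAt.eventually (Metric.ball_mem_nhds (f x) one_pos)] with y hy
    exact (red_eq_iff (h y) (h x)).2 (by rwa [← dist_eq_norm])

theorem ex_max [CompactSpace G] {f : G → Cp p} (hf : Continuous f) (h : ∃ x, f x ≠ 0) :
    ∃ y, f y ≠ 0 ∧ ∀ x, ‖f x / f y‖ ≤ 1 := by
  obtain ⟨x, hx⟩ := h
  obtain ⟨y, -, hy⟩ := isCompact_univ.exists_isMaxOn ⟨x, trivial⟩ hf.norm.continuousOn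
  have : 0 < ‖f y‖ := (norm_pos_iff.2 hx).trans_le (hy trivial)
  exact ⟨y, norm_pos_iff.1 this, fun z => by
    rw [norm_div, div_le_one this]; exact hy trivial⟩

variable [Group G]

theorem red_zc {ψ f : G → Cp p} (hψ : ∀ x, ‖ψ x‖ ≤ 1) (hf : Continuous f) (h : ∀ x, ‖f x‖ ≤ 1)
    (m : ∀ x y, f (x * y) = f x + ψ x * f y) : (fun x => red (f x)) ∈ ZC fun x => red (ψ x) :=
  ⟨red_lc hf h, fun x y => by
    beta_reduce
    rw [m, red_add (h x) (by rw [norm_mul]; exact mul_le_one₀ (hψ x) (norm_nonneg _) (h y)),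
      red_mul (hψ x) (h y)]⟩

/-- the conclusion -/
def Lat (E : Subfield (Cp p)) (ψ b : G → Cp p) (β : G → Kp p) : Prop :=
  ∃ s ∈ E, ∃ t ∈ E, s ≠ 0 ∧ ∀ d, ‖s * b d + t * (ψ d - 1)‖ ≤ 1 ∧
    red (s * b d + t * (ψ d - 1)) = β d

/-- the lattice of integral cocycles is saturated -/
theorem sat [CompactSpace G] (E : Subfield (Cp p)) {ψ b : G → Cp p} {β : G → Kp p}
    (c1 : Continuous ψ) (c2 : Continuous b) (m1 : ∀ x y, ψ (x * y) = ψ x * ψ y)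
    (m2 : ∀ x y, b (x * y) = b x + ψ x * b y) (n1 : ∀ x, ‖ψ x‖ ≤ 1) (e1 : ∀ x, ψ x ∈ E)
    (e2 : ∀ x, b x ∈ E) (e3 : ∀ x, ∃ y ∈ E, ‖y‖ ≤ 1 ∧ red y = β x) (h1 : ∃ x, ψ x - 1 ≠ 0)
    (ns : ¬ ∃ t, ∀ x, b x = t * (ψ x - 1)) (hβ : β ∈ ZC fun x => red (ψ x))
    (hd : Dep fun x => red (ψ x)) : Lat E ψ b β := by
  have ua : ∀ {x y : Cp p}, ‖x‖ ≤ 1 → ‖y‖ ≤ 1 → ‖x * y‖ ≤ 1 := fun a b => by
    rw [norm_mul]; exact mul_le_one₀ a (norm_nonneg _) b
  have ub : ∀ {x y : Cp p}, ‖x‖ ≤ 1 → ‖y‖ ≤ 1 → ‖x + y‖ ≤ 1 := fun a b =>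
    (IsUltrametricDist.norm_add_le_max _ _).trans (max_le a b)
  obtain ⟨x1, z1, k1⟩ := ex_max (f := fun x => ψ x - 1) (c1.sub continuous_const) h1
  let l1 : G → Cp p := fun x => (ψ x - 1) / (ψ x1 - 1)
  replace k1 : ∀ x, ‖l1 x‖ ≤ 1 := k1
  have d1 : Continuous l1 := (c1.sub continuous_const).div_const _
  have c3 : Continuous fun x => b x - b x1 * l1 x := c2.sub (continuous_const.mul d1)
  obtain ⟨x2, z2, k2⟩ := ex_max c3 (by
    by_contra e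
    push Not at e
    exact ns ⟨b x1 / (ψ x1 - 1), fun x => (sub_eq_zero.1 (e x)).trans (by ring)⟩)
  let l2 : G → Cp p := fun x => (b x - b x1 * l1 x) / (b x2 - b x1 * l1 x2)
  replace k2 : ∀ x, ‖l2 x‖ ≤ 1 := k2
  have v11 : l1 x1 = 1 := div_self z1
  have v21 : l2 x1 = 0 := by simp [l2, v11]
  have v22 : l2 x2 = 1 := div_self z2
  have q1 : ∀ x y, l1 (x * y) = l1 x + ψ x * l1 y := fun x y => by simp only [l1, m1]; ring
  obtain ⟨a, a0, ha⟩ := hd ![β, fun x => red (l1 x), fun x => red (l2 x)] fun i => by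
    fin_cases i
    exacts [hβ, red_zc n1 d1 k1 q1, red_zc (f := l2) n1 (c3.div_const _) k2 fun x y => by
      simp only [l2, m2, q1]; ring]
  replace ha : ∀ x, a 0 * β x + a 1 * red (l1 x) + a 2 * red (l2 x) = 0 := ha
  have b1 := ha x1
  have b2 := ha x2
  rw [v11, v21, red_one, red_zero] at b1
  rw [v22, red_one] at b2
  have a1 : a 0 ≠ 0 := fun e => a0 (funext fun i => by
    have e1 : a 1 = 0 := by simpa [e] using b1
    have e2 : a 2 = 0 := by simpa [e, e1] using b2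
    fin_cases i
    exacts [e, e1, e2])
  obtain ⟨y1, s1, s2, s3⟩ := e3 x1
  obtain ⟨y2, t1, t2, t3⟩ := e3 x2
  have el : ∀ x, l1 x ∈ E := fun x =>
    E.div_mem (E.sub_mem (e1 x) E.one_mem) (E.sub_mem (e1 x1) E.one_mem)
  obtain ⟨w, w1, w2, w3, w4⟩ : ∃ w ∈ E, w ≠ 0 ∧ ‖w‖ ≤ 1 ∧ red w = β x2 - β x1 * red (l1 x2) := by
    have u : red (y2 - y1 * l1 x2) = β x2 - β x1 * red (l1 x2) := by
      rw [red_sub t2 (ua s2 (k1 x2)), red_mul s2 (k1 x2), s3, t3]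
    by_cases e : y2 - y1 * l1 x2 = 0
    · refine ⟨p, natCast_mem E p, Nat.cast_ne_zero.2 hp.out.ne_zero, norm_p_lt.le, ?_⟩
      rw [← u, e, red_zero, red_nat, CharP.cast_eq_zero]
    · refine ⟨_, E.sub_mem t1 (E.mul_mem s1 (el x2)), e, ?_, u⟩
      rw [sub_eq_add_neg]
      exact ub t2 (by rw [norm_neg]; exact ua s2 (k1 x2))
  have es : w / (b x2 - b x1 * l1 x2) ∈ E :=
    E.div_mem w1 (E.sub_mem (e2 x2) (E.mul_mem (e2 x1) (el x2)))
  refine ⟨_, es, (y1 - w / (b x2 - b x1 * l1 x2) * b x1) / (ψ x1 - 1), E.div_mem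
    (E.sub_mem s1 (E.mul_mem es (e2 x1))) (E.sub_mem (e1 x1) E.one_mem), div_ne_zero w2 z2,
    fun d => ?_⟩
  rw [show w / (b x2 - b x1 * l1 x2) * b d + (y1 - w / (b x2 - b x1 * l1 x2) * b x1) / (ψ x1 - 1) *
    (ψ d - 1) = y1 * l1 d + w * l2 d by simp only [l2, l1]; ring]
  refine ⟨ub (ua s2 (k1 d)) (ua w3 (k2 d)), mul_left_cancel₀ a1 ?_⟩
  rw [red_add (ua s2 (k1 d)) (ua w3 (k2 d)), red_mul s2 (k1 d), red_mul w3 (k2 d), s3, w4]
  linear_combination red (l1 d) * b1 + red (l2 d) * (b2 - red (l1 x2) * b1) - ha d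

end sat

/-! ### Teichmüller lifts, Weil elements -/

theorem red_pow {x : Cp p} (h : ‖x‖ ≤ 1) (n : ℕ) : red (x ^ n) = red x ^ n := by
  rw [red_mk h, ← map_pow, ← red_coe]; rfl

theorem norm_root {x : Cp p} {n : ℕ} (hn : n ≠ 0) (h : x ^ n = 1) : ‖x‖ = 1 :=
  (pow_eq_one_iff_of_nonneg (norm_nonneg x) hn).1 (by rw [← _root_.norm_pow, h, norm_one])

theorem root_inj {x y : Cp p} {n : ℕ} (hn : ¬ p ∣ n) (hx : x ^ n = 1) (hy : y ^ n = 1)
    (h : red x = red y) : x = y := by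
  have n0 : n ≠ 0 := fun e => hn (e ▸ dvd_zero p)
  have y0 : y ≠ 0 := norm_ne_zero_iff.1 (by rw [norm_root n0 hy]; exact one_ne_zero)
  have z1 : (x / y) ^ n = 1 := by rw [div_pow, hx, hy, div_one]
  let a : Op p := ⟨x / y, mem_op.2 (norm_root n0 z1).le⟩
  have a1 : IsLocalRing.residue (Op p) a = 1 := by
    rw [← red_coe, ← red_one, red_eq_iff (norm_root n0 z1).le norm_one.le, div_sub_one y0, norm_div,
      norm_root n0 hy, div_one]
    exact (red_eq_iff (norm_root n0 hx).le (norm_root n0 hy).le).1 h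
  rcases mul_eq_zero.1 ((geom_sum_mul a n).trans (sub_eq_zero.2 (Subtype.ext z1))) with e | e
  · have := congrArg (IsLocalRing.residue (Op p)) e
    simp only [map_sum, map_pow, a1, one_pow, Finset.sum_const, Finset.card_range, nsmul_eq_mul,
      mul_one, map_zero] at this
    exact absurd this (cast_Kp.2 hn)
  · exact (div_eq_one_iff_eq y0).1 (congrArg Subtype.val (sub_eq_zero.1 e))

theorem ex_lift {y : Kp p} {n : ℕ} (hn : n ≠ 0) (hy : y ^ n = 1) :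
    ∃ x : Cp p, x ^ n = 1 ∧ red x = y := by
  obtain ⟨z, z1, rfl⟩ := red_surj y
  have : NeZero (n : Cp p) := ⟨Nat.cast_ne_zero.2 hn⟩
  obtain ⟨ζ, hζ⟩ := HasEnoughRootsOfUnity.exists_primitiveRoot (Cp p) n
  have e := congrArg (fun f => ‖Polynomial.eval z f‖)
    (Polynomial.X_pow_sub_one_eq_prod (Nat.pos_of_ne_zero hn) hζ)
  simp only [Polynomial.eval_sub, Polynomial.eval_pow, Polynomial.eval_X, Polynomial.eval_one,
    Polynomial.eval_prod, Polynomial.eval_C, norm_prod] at e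
  by_contra k
  push Not at k
  refine absurd ((red_eq_iff (x := z ^ n) (y := 1) (by
    rw [_root_.norm_pow]; exact pow_le_one₀ (norm_nonneg _) z1) norm_one.le).1
    (by rw [red_pow z1, hy, red_one])) (not_lt.2 ?_)
  rw [e]
  refine Finset.one_le_prod fun x hx => not_lt.1 fun u => ?_
  have hx' := (Polynomial.mem_nthRootsFinset (Nat.pos_of_ne_zero hn) _).1 hx
  exact k x hx' ((red_eq_iff z1 (norm_root hn hx').le).2 u).symm

/-- the Weil elements are dense -/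
theorem dense_w {P : Id} (h : Ov p P) : Dense {d : dec P | ∃ k, Fb (p ^ k) P d} := by
  obtain ⟨φ, hφ⟩ := P022D.W.exists_phi h.1 h.2.1 h.2.2
  have f1 : Fb (p ^ 1) P φ := by rw [pow_one]; exact hφ
  refine dense_iff_inter_open.2 fun O hO ⟨g, hg⟩ => ?_
  obtain ⟨O, o1, rfl⟩ := isOpen_induced_iff.1 hO
  obtain ⟨U, -, u1, u2⟩ := Glue.exists_normal (O := (fun u => u * g.1) ⁻¹' O)
    ((o1.preimage (continuous_mul_const _)).mem_nhds (by simpa using hg))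
  obtain ⟨k, s, u, k1, k2, k3⟩ := P022D.W.dec_gen h.1 h.2.1 h.2.2 hφ g.2 U u1
  have f2 := Weil.fb_add h (Weil.fb_pow h f1 k) (Weil.fb_zero.2 k1)
  refine ⟨⟨_, Weil.fb_dec h f2⟩, ?_, _, f2⟩
  have := u2 (U.inv_mem k2)
  rwa [Set.mem_preimage, k3, mul_assoc u, inv_mul_cancel_left] at this

theorem ex_tei {S : Set (Kp p)} (h : S.Finite) : ∃ (n : ℕ) (τ : Kp p → Cp p), ¬ p ∣ n ∧
    ∀ y ∈ S, y ≠ 0 → τ y ^ n = 1 ∧ red (τ y) = y := by
  obtain ⟨F, _, _, _, f, hf⟩ := ex_fin h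
  have := Fintype.ofFinite F
  have n1 : ¬ p ∣ Fintype.card F - 1 := by
    rw [← CharP.cast_eq_zero_iff F, Nat.cast_pred Fintype.card_pos, FiniteField.cast_card_eq_zero,
      zero_sub]
    exact neg_ne_zero.2 one_ne_zero
  have k : ∀ y, ∃ x : Cp p, y ∈ S → y ≠ 0 → x ^ (Fintype.card F - 1) = 1 ∧ red x = y := fun y => by
    by_cases e : y ∈ S ∧ y ≠ 0
    · obtain ⟨z, rfl⟩ := hf y e.1
      obtain ⟨x, hx⟩ := ex_lift (y := f z) (n := Fintype.card F - 1) (fun e => n1 (e ▸ dvd_zero p)) (by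
        rw [← map_pow, FiniteField.pow_card_sub_one_eq_one z fun k => e.2 (by rw [k, map_zero]),
          map_one])
      exact ⟨x, fun _ _ => hx⟩
    · exact ⟨0, fun a b => absurd ⟨a, b⟩ e⟩
  choose τ hτ using k
  exact ⟨_, τ, n1, hτ⟩

theorem red_root {x : Cp p} {m : ℕ} (h : x ^ p ^ m = 1) : ‖x‖ = 1 ∧ red x = 1 := by
  have n := norm_root (pow_ne_zero m hp.out.ne_zero) h
  refine ⟨n, sub_eq_zero.1 (pow_eq_zero_iff (pow_ne_zero m hp.out.ne_zero) |>.1 ?_)⟩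
  rw [sub_pow_char_pow, ← red_pow n.le, h, red_one, one_pow, sub_self]

theorem tri_mul {K : Type} [Field K] {A B : Matrix (Fin 2) (Fin 2) K} (a : A 1 0 = 0)
    (b : B 1 0 = 0) (a1 : A 1 1 ≠ 0) (b1 : B 1 1 ≠ 0) : (A * B) 1 1 = A 1 1 * B 1 1 ∧
    (A * B) 0 0 / (A * B) 1 1 = A 0 0 / A 1 1 * (B 0 0 / B 1 1) ∧
    (A * B) 0 1 / (A * B) 1 1 = A 0 1 / A 1 1 + A 0 0 / A 1 1 * (B 0 1 / B 1 1) := by
  simp only [Matrix.mul_apply, Fin.sum_univ_two, a, b, zero_mul, mul_zero, zero_add, add_zero]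
  refine ⟨trivial, ?_, ?_⟩ <;> field_simp
  ring

/-- the hypotheses on the extension class -/
def Fin1 (P : Id) (β : dec P → Kp p) (ξ : dec P → Cp p) (α : Cp p) (δ : ℝ)
    (R : (dec P → Cp p) → Prop) : Prop :=
  ∀ (E : Subfield (Cp p)) (ψ b : dec P → Cp p) (a : Cp p), ‖a - α‖ < δ → Continuous ψ →
    Continuous b → (∀ x y, ψ (x * y) = ψ x * ψ y) → (∀ x y, b (x * y) = b x + ψ x * b y) →
    (∀ (d : dec P) k, Fb (p ^ k) P d → ψ d * (ξ d * a ^ k) ^ 2 = eps p d) → (∀ d, ψ d ∈ E) →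
    (∀ d, b d ∈ E) → (∀ d, ∃ x ∈ E, ‖x‖ ≤ 1 ∧ red x = β d) →
    (¬ ∃ t, ∀ d, b d = t * (ψ d - 1)) → R ψ → Lat E ψ b β

variable (p) in
/-- the case where the ratio of the characters is the cyclotomic character -/
def OM : Prop := ∀ (ι : Qb →+* Cp p) (P : Id), Ov p P → ∀ β : dec P → Kp p, IsLocallyConstant β →
  (∀ x y, β (x * y) = β x + red (eps p x) * β y) → ∃ (ξ : dec P →* Qbˣ) (α : Cp p) (δ : ℝ),
    IsOpen (ξ.ker : Set (dec P)) ∧ (∃ m, ∀ d, ξ d ^ p ^ m = 1) ∧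
    (p = 2 → (∀ s : dec P, s.1 ∈ inP P → β s = 0) → ξ = 1) ∧ ‖α - 1‖ < 1 ∧ 0 < δ ∧
    Fin1 P β (fun d => ι (ξ d)) α δ fun _ => True

theorem coc (hO : OM p) {P : Id} (h : Ov p P) (χ : dec P →* Kp p) (hχ : IsLocallyConstant χ)
    {β : dec P → Kp p} (hβ : β ∈ ZC χ) {τ : dec P → Cp p} {U : Subgroup GQ}
    (hU : IsOpen (U : Set GQ)) (t1 : ∀ d : dec P, d.1 ∈ U → τ d = 1)
    (t2 : (∀ d, χ d = red (eps p d)) → ∀ d, τ d ^ 2 = 1) :
    ∃ (ξ : dec P →* Cp p) (α : Cp p) (δ : ℝ), IsOpen {d | ξ d = 1} ∧ (∃ m, ∀ d, ξ d ^ p ^ m = 1) ∧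
      (p = 2 → (∀ s : dec P, s.1 ∈ inP P → β s = 0) → ξ = 1) ∧ ‖α - 1‖ < 1 ∧ 0 < δ ∧
      Fin1 P β (fun d => ξ d * τ d) α δ fun ψ => ∀ d, ‖ψ d‖ ≤ 1 ∧ red (ψ d) = χ d := by
  by_cases e : ∀ d, χ d = red (eps p d)
  · obtain ⟨ι⟩ := ex_iota p
    obtain ⟨ξ, α, δ, k1, ⟨m, k2⟩, k3, k4, k5, k6⟩ :=
      hO ι P h β hβ.1 fun x y => by rw [hβ.2, e]
    refine ⟨ι.toMonoidHom.comp ((Units.coeHom Qb).comp ξ), α, δ, ?_, ⟨m, fun d => ?_⟩,
      fun a b => by rw [k3 a b]; ext; simp, k4, k5,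
      fun E ψ b a a1 a2 a3 a4 a5 a6 a7 a8 a9 a10 _ => k6 E ψ b a a1 a2 a3 a4 a5
        (fun d k hk => ?_) a7 a8 a9 a10 trivial⟩
    · convert k1 using 1
      ext d
      exact (map_eq_one_iff ι ι.injective).trans Units.val_eq_one
    · show ι (ξ d) ^ _ = 1
      rw [← map_pow, ← Units.val_pow_eq_pow_val, k2, Units.val_one, map_one]
    · rw [← a6 d k hk, mul_right_comm _ (τ d), mul_pow _ (τ d), t2 e, mul_one]
      rfl
  · have := cpt h
    refine ⟨1, 1, 1, by simp, ⟨0, by simp⟩, fun _ _ => rfl, by simp, one_pos,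
      fun E ψ b a a1 a2 a3 a4 a5 a6 a7 a8 a9 a10 a11 => ?_⟩
    have q : (fun d => red (ψ d)) = χ := funext fun d => (a11 d).2
    obtain ⟨s, ⟨s1, s2⟩, s3⟩ := eps_ram h U hU
    refine sat E a2 a3 a4 a5 (fun d => (a11 d).1) a7 a8 a9 ⟨⟨s, inP_le_dec s2⟩, fun k => s3 1
      one_ne_zero ?_⟩ a10 (q ▸ hβ) (q ▸ dep h χ hχ (not_forall.1 e))
    simpa [sub_eq_zero.1 k, t1 ⟨s, inP_le_dec s2⟩ s1] using
      (a6 ⟨s, inP_le_dec s2⟩ 0 (Weil.fb_zero.2 s2)).symm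

theorem core (hO : OM p) {P : Id} (r : GQ →* GL (Fin 2) (Kp p)) (h : Ov p P)
    (ro : IsOpen {g | r g = 1}) (rd : ∀ g, dt r g = red (eps p g))
    (rt : ∀ g ∈ dec P, r g 1 0 = 0) : ∃ (ξ : GQ → Cp p) (u : Cp p) (ε : ℝ) (A : Finset (Cp p)),
    (∀ g ∈ dec P, ∀ h ∈ dec P, ξ (g * h) = ξ g * ξ h) ∧
    (∃ U : Subgroup GQ, IsOpen (U : Set GQ) ∧ ∀ g ∈ U ⊓ dec P, ξ g = 1) ∧
    (∃ n, 0 < n ∧ ∀ g ∈ dec P, ξ g ^ n = 1) ∧ ‖u‖ = 1 ∧ 0 < ε ∧
    (p = 2 → (∀ s ∈ inP P, r s = 1) → ∀ s ∈ inP P, ξ s = 1) ∧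
    ∀ α, ‖α - u‖ < ε → ∀ E : Subfield (Cp p), (∀ a ∈ A, a ∈ E) →
      ∀ W : GQ → Matrix (Fin 2) (Fin 2) (Cp p),
      (∀ g ∈ dec P, ∀ h ∈ dec P, W (g * h) = W g * W h) → ContinuousOn W (dec P) →
      (∀ g ∈ dec P, ∀ i k, W g i k ∈ E) → (∀ g ∈ dec P, W g 1 0 = 0) →
      (∀ g ∈ dec P, (W g).det = eps p g) → (∀ k g, Fb (p ^ k) P g → W g 1 1 = ξ g * α ^ k) →
      (¬ ∃ x, ∀ g ∈ dec P, W g 0 1 = x * (W g 1 1 - W g 0 0)) →
      ∃ t ∈ E, ∃ x ∈ E, t ≠ 0 ∧ ∀ g ∈ dec P, ‖t * W g 0 1 + x * (W g 1 1 - W g 0 0)‖ ≤ 1 ∧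
        red (t * W g 0 1 + x * (W g 1 1 - W g 0 0)) = r g 0 1 ∧ red (W g 1 1) = r g 1 1 := by
  classical
  have := cpt h
  have lc : ∀ f : GL (Fin 2) (Kp p) → Kp p, IsLocallyConstant fun d : dec P => f (r d) := fun f =>
    (IsLocallyConstant.iff_eventually_eq _).2 fun x => by
      filter_upwards [(ro.preimage (f := fun y : dec P => x.1⁻¹ * y.1) (by fun_prop)).mem_nhds
        (by simp)] with y hy
      have : r (x.1⁻¹ * y.1) = 1 := hy
      rw [map_mul, map_inv, inv_mul_eq_one] at this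
      rw [this]
  have d1 : ∀ d : dec P, r d 0 0 * r d 1 1 = red (eps p d) := fun d => by
    rw [← rd, dt, Matrix.det_fin_two, rt d d.2, mul_zero, sub_zero]
  have d2 : ∀ d : dec P, r d 1 1 ≠ 0 := fun d e => (r d).isUnit.map Matrix.detMonoidHom |>.ne_zero
    (by show dt r d = 0; rw [rd, ← d1, e, mul_zero])
  have m := fun x y : dec P => tri_mul (rt x x.2) (rt y y.2) (d2 x) (d2 y)
  simp only [← Units.val_mul, ← map_mul, ← Subgroup.coe_mul] at m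
  let χ : dec P →* Kp p :=
    { toFun := fun d => r d 0 0 / r d 1 1
      map_one' := by simp
      map_mul' := fun x y => (m x y).2.1 }
  obtain ⟨n, τ, n1, hτ⟩ := ex_tei (lc fun A => A 1 1).range_finite
  replace hτ : ∀ d : dec P, τ (r d 1 1) ^ n = 1 ∧ red (τ (r d 1 1)) = r d 1 1 :=
    fun d => hτ _ ⟨d, rfl⟩ (d2 d)
  have n0 : n ≠ 0 := fun e => n1 (e ▸ dvd_zero p)
  have t0 : ∀ d : dec P, ‖τ (r d 1 1)‖ = 1 := fun d => norm_root n0 (hτ d).1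
  have t1 : ∀ d : dec P, r d = 1 → τ (r d 1 1) = 1 := fun d e =>
    root_inj n1 (hτ d).1 (one_pow n) (by rw [(hτ d).2, red_one, e]; rfl)
  have hβ : (fun d : dec P => r d 0 1 / r d 1 1) ∈ ZC χ :=
    ⟨lc fun A => A 0 1 / A 1 1, fun x y => (m x y).2.2⟩
  obtain ⟨ξ, u, δ, k1, ⟨a, k2⟩, k3, k4, k5, k6⟩ := coc hO h χ (lc fun A => A 0 0 / A 1 1) hβ
    (τ := fun d => τ (r d 1 1)) (U := r.ker) ro t1 fun e d =>
      root_inj n1 (by rw [← pow_mul, mul_comm, pow_mul, (hτ d).1, one_pow]) (one_pow n) (by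
        have e1 : r d 0 0 / r d 1 1 = _ := (e d).trans (d1 d).symm
        have e2 : r d 0 0 ≠ 0 := fun k => by
          have := map_mul χ d d⁻¹
          rw [mul_inv_cancel, map_one, show χ d = 0 from div_eq_zero_iff.2 (Or.inl k)] at this
          simp at this
        rw [red_pow (t0 d).le, (hτ d).2, red_one]
        rw [div_eq_iff (d2 d)] at e1
        exact mul_left_cancel₀ e2 (by linear_combination -e1))
  choose L L1 L2 using red_surj (p := p)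
  have u1 : ∀ {a : Cp p}, ‖a - 1‖ < 1 → ‖a‖ ≤ 1 := fun {a} e => by
    simpa using (IsUltrametricDist.norm_add_le_max (a - 1) 1).trans (max_le e.le norm_one.le)
  have u2 : ∀ {a : Cp p}, ‖a‖ ≤ 1 → red a ≠ 0 → ‖a‖ = 1 := fun {a} e k => e.eq_of_not_lt fun z =>
    k (by rw [← red_zero, red_eq_iff e (by simp)]; simpa using z)
  obtain ⟨O, o1, o2⟩ := isOpen_induced_iff.1 k1
  obtain ⟨U, -, o3, o4⟩ := Glue.exists_normal (o1.mem_nhds
    (show (1 : dec P) ∈ Subtype.val ⁻¹' O from o2 ▸ map_one ξ))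
  let ζ : GQ → Cp p := fun g => if k : g ∈ dec P then ξ ⟨g, k⟩ * τ (r g 1 1) else 0
  have z : ∀ d : dec P, ζ d = ξ d * τ (r d 1 1) := fun d => dif_pos d.2
  refine ⟨ζ, u, min δ 1, hβ.1.range_finite.toFinset.image L, fun x hx y hy => ?_,
    ⟨U ⊓ r.ker, o3.inter ro, fun g hg => ?_⟩, ⟨p ^ a * n, ?_, fun g hg => ?_⟩,
    u2 (u1 k4) ?_, lt_min k5 one_pos, fun p2 e s hs => ?_,
    fun α hα E hE W w1 w2 w3 w4 w5 w6 w7 => ?_⟩
  · rw [z ⟨x, hx⟩, z ⟨y, hy⟩, mul_mul_mul_comm, ← map_mul, root_inj n1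
      (x := τ (r x 1 1) * τ (r y 1 1)) (by rw [mul_pow, (hτ ⟨x, hx⟩).1, (hτ ⟨y, hy⟩).1, one_mul])
      (hτ (⟨x, hx⟩ * ⟨y, hy⟩)).1 (by
        rw [red_mul (t0 ⟨x, hx⟩).le (t0 ⟨y, hy⟩).le, (hτ ⟨x, hx⟩).2, (hτ ⟨y, hy⟩).2, (hτ _).2,
          (m _ _).1])]
    exact z (⟨x, hx⟩ * ⟨y, hy⟩)
  · rw [z ⟨g, hg.2⟩, t1 ⟨g, hg.2⟩ hg.1.2, mul_one]
    exact (o2 ▸ o4 hg.1.1 : (⟨g, hg.2⟩ : dec P) ∈ {d | ξ d = 1})
  · exact Nat.pos_of_ne_zero (mul_ne_zero (pow_ne_zero a hp.out.ne_zero) n0)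
  · rw [z ⟨g, hg⟩, mul_pow, pow_mul, k2, mul_comm (p ^ a), pow_mul (τ _), (hτ ⟨g, hg⟩).1]
    simp
  · rw [(red_eq_iff (u1 k4) norm_one.le).2 k4, red_one]
    exact one_ne_zero
  · rw [z ⟨s, inP_le_dec hs⟩, t1 ⟨s, _⟩ (e s hs), k3 p2 fun s hs => by simp [e s hs]]
    simp
  have a1 : ‖α - 1‖ < 1 := by
    simpa using (IsUltrametricDist.norm_add_le_max (α - u) (u - 1)).trans_lt
      (max_lt (hα.trans_le (min_le_right _ _)) k4)
  have c : ∀ i k, Continuous fun d : dec P => W d i k := fun i k =>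
    (continuousOn_iff_continuous_restrict.1 w2).matrix_elem i k
  have v1 : ∀ d : dec P, ‖W d 1 1 - τ (r d 1 1)‖ < 1 := fun d => by
    have cl : IsClosed {d : dec P | W d 1 1 - τ (r d 1 1) ∈ Metric.ball (0 : Cp p) 1} :=
      (IsUltrametricDist.isClosed_ball _ _).preimage
        ((c 1 1).sub ((lc fun A => A 1 1).comp τ).continuous)
    refine mem_ball_zero_iff.1 (cl.closure_subset_iff.2 ?_ (dense_w h d))
    rintro d ⟨k, hk⟩
    have b1 : ‖ξ d * τ (r d 1 1)‖ ≤ 1 := by rw [norm_mul, (red_root (k2 d)).1, t0, one_mul]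
    have b2 : ‖α ^ k‖ ≤ 1 := by rw [_root_.norm_pow]; exact pow_le_one₀ (norm_nonneg _) (u1 a1)
    refine mem_ball_zero_iff.2 ?_
    rw [w6 k d hk, z, ← red_eq_iff (by rw [norm_mul]; exact mul_le_one₀ b1 (norm_nonneg _) b2)
      (t0 d).le, red_mul b1 b2, red_mul (red_root (k2 d)).1.le (t0 d).le, (red_root (k2 d)).2,
      red_pow (u1 a1), (red_eq_iff (u1 a1) norm_one.le).2 a1, red_one]
    simp
  have v2 : ∀ d : dec P, ‖W d 1 1‖ ≤ 1 := fun d => by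
    simpa using (IsUltrametricDist.norm_add_le_max (W d 1 1 - τ (r d 1 1)) (τ (r d 1 1))).trans
      (max_le (v1 d).le (t0 d).le)
  have v3 : ∀ d : dec P, red (W d 1 1) = r d 1 1 := fun d =>
    ((red_eq_iff (v2 d) (t0 d).le).2 (v1 d)).trans (hτ d).2
  have v4 : ∀ d : dec P, ‖W d 1 1‖ = 1 := fun d => u2 (v2 d) (v3 d ▸ d2 d)
  have v5 : ∀ d : dec P, W d 1 1 ≠ 0 := fun d => norm_ne_zero_iff.1 (v4 d ▸ one_ne_zero)
  have v6 : ∀ d : dec P, W d 0 0 / W d 1 1 * W d 1 1 ^ 2 = eps p d := fun d => by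
    rw [← w5 d d.2, Matrix.det_fin_two, w4 d d.2]
    have := v5 d
    field_simp
    ring
  have mw := fun x y : dec P => tri_mul (w4 x x.2) (w4 y y.2) (v5 x) (v5 y)
  simp only [← w1 _ (Subtype.property _) _ (Subtype.property _), ← Subgroup.coe_mul] at mw
  obtain ⟨s, s1, t, s2, s3, s4⟩ := k6 E (fun d => W d 0 0 / W d 1 1) (fun d => W d 0 1 / W d 1 1) α
    (hα.trans_le (min_le_left _ _)) ((c 0 0).div (c 1 1) v5) ((c 0 1).div (c 1 1) v5)
    (fun x y => (mw x y).2.1) (fun x y => (mw x y).2.2)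
    (fun d k hk => by rw [← v6 d, w6 k d hk, z]) (fun d => E.div_mem (w3 d d.2 _ _) (w3 d d.2 _ _))
    (fun d => E.div_mem (w3 d d.2 _ _) (w3 d d.2 _ _))
    (fun d => ⟨_, hE _ (Finset.mem_image_of_mem L (by simp)), L1 _, L2 _⟩)
    (fun ⟨t, e⟩ => w7 ⟨-t, fun g hg => by
      have e1 := e ⟨g, hg⟩
      have e2 := v5 ⟨g, hg⟩
      simp only [div_sub_one e2, ← mul_div_assoc, div_left_inj' e2] at e1
      linear_combination e1⟩)
    fun d => by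
      have e1 : ‖W d 0 0 / W d 1 1‖ = 1 := by
        simpa only [norm_mul, _root_.norm_pow, v4, norm_eps, one_pow, mul_one] using
          congrArg norm (v6 d)
      have e2 := congrArg red (v6 d)
      rw [red_mul e1.le (by rw [_root_.norm_pow, v4, one_pow]), red_pow (v2 d), v3, ← d1] at e2
      refine ⟨e1.le, (eq_div_iff (d2 d)).2 (mul_right_cancel₀ (d2 d) ?_)⟩
      linear_combination e2
  refine ⟨s, s1, -t, E.neg_mem s2, s3, fun g hg => ?_⟩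
  obtain ⟨b1, b2⟩ := s4 ⟨g, hg⟩
  have e2 := v5 ⟨g, hg⟩
  rw [show s * W g 0 1 + -t * (W g 1 1 - W g 0 0) =
    W g 1 1 * (s * (W g 0 1 / W g 1 1) + t * (W g 0 0 / W g 1 1 - 1)) by field_simp; ring]
  refine ⟨by rw [norm_mul, v4 ⟨g, hg⟩, one_mul]; exact b1, ?_, v3 ⟨g, hg⟩⟩
  rw [red_mul (v2 ⟨g, hg⟩) b1, b2, v3 ⟨g, hg⟩, mul_div_cancel₀ _ (d2 ⟨g, hg⟩)]

end Vale.Agent.P022K.PM.La
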