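import Vale.Agent.P022K.PM.LatG
import Vale.Agent.P022K.PM.Lat2
import Vale.Agent.P022K.PM.St2

/-!
# P022K / PM: row LATP from the case of the cyclotomic character
-/

set_option autoImplicit false
set_option linter.all false

noncomputable section

namespace Vale.Agent.P022K.PM

theorem lat_of {p : ℕ} [Fact p.Prime] (h : La.OM p) : LAT p := fun P r hP hr ht => by
  obtain ⟨ξ, u, ε, A, k1, k2, k3, k4, k5, k6, k7⟩ := La.core h r hP hr.opn hr.det ht
  exact ⟨ξ, u, ε, A, ⟨k1, k2, k3⟩, k4, k5, fun e => k6 e.1 e.2.1, fun α a E _ b W w =>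
    k7 α a E.toSubfield b W w.mul w.cont w.mem w.tri w.det w.et w.ns⟩

theorem om_two : La.OM 2 := fun ι P h β b1 b2 => by
  obtain ⟨ξ, α, δ, k1, k2, k3, k4, k5, k6⟩ :=
    L2.om2 ι P h β b1 fun x y => by rw [b2, La.red_eps2 rfl, one_mul]
  exact ⟨ξ, α, δ, k1, ⟨3, k2⟩, fun _ => k3, k4, k5,
    fun E ψ b a a1 a2 a3 a4 a5 a6 a7 a8 a9 a10 _ => k6 E ψ b a a1 a2 a3 a4 a5 a6 a7 a8 a9 a10⟩

theorem lat_two : LAT 2 := lat_of om_two

theorem latp_of (h : ∀ (p : ℕ) [Fact p.Prime], 7 ≤ p → La.OM p) : LATP := fun p _ hp => by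
  rcases hp with rfl | hp
  exacts [lat_two, lat_of (h p hp)]

end Vale.Agent.P022K.PM
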