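import Vale.Agent.P022K.TP.Qd
import Vale.Agent.P022K.PM.Co5

/-!
# P022K / PM / Rh: the two dimensional representations of the datum (helper4)
-/

set_option linter.all false

open NumberField Matrix Quaternion Module

noncomputable section

namespace Vale.Agent.P022K.PM

open Vale.Agent.P022 Vale.Agent.P010MR Vale.Agent.P010MT8
open Vale.Agent.P022K.CH (Cp)
open Vale.Agent.P022K.TP (Af Pr am)

namespace QD

variable (D : QD)

theorem mx_ext {K : Type} [Field K] [CharZero K] {m : Type} {X Y : Matrix m (Ix D.g) K}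
    (h : ∀ x, X *ᵥ (fun i => (D.e x i : K)) = Y *ᵥ fun i => (D.e x i : K)) : X = Y := by
  ext i k
  have := congrFun (h (D.e.symm (Pi.single k 1))) i
  simpa [mulVec, dotProduct, Pi.single_apply, apply_ite] using this

/-- `x + y j` -/
def xy (a : D.M × D.M) : D.B := ⟨a.1, 0, a.2, 0⟩

theorem xy_eq (a : D.M × D.M) : D.xy a = D.sc a.1 + D.bj * D.sc a.2 := by
  ext <;> simp [xy, sc, bj]

instance : Fact (∀ r : D.M, r ^ 2 ≠ D.β + 0 * r) := ⟨fun r h =>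
  D.nrd_ne_zero (y := ⟨r, 0, 1, 0⟩) (fun e => one_ne_zero (congrArg QuaternionAlgebra.imJ e))
    (by simp [nrd]; linear_combination h)⟩

/-- the field of coefficients -/
abbrev Ef : Type := QuadraticAlgebra D.M D.β 0

instance : FiniteDimensional ℚ D.Ef := Module.Finite.trans D.M D.Ef

/-- the field of coefficients acts on the right -/
def rE : D.Ef →ₐ[ℚ] Mi D.g ℚ := RingHom.toRatAlgHom
  { toFun := fun a => D.rm (D.xy (a.re, a.im))
    map_one' := D.rm_one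
    map_mul' := fun a b => by
      rw [← rm_mul]; congr 1; ext <;> simp [xy] <;> ring
    map_zero' := D.rm_zero
    map_add' := fun a b => by rw [← rm_add]; congr 1; ext <;> simp [xy] }

theorem rE_apply (a : D.Ef) : D.rE a = D.rm (D.xy (a.re, a.im)) := rfl

theorem sy : Sy D.rE (J (Fin D.g) ℚ) where
  dim := by
    rw [← finrank_fintype_fun_eq_card ℚ, ← D.e.finrank_eq, ← finrank_mul_finrank ℚ D.M D.B,
      ← finrank_mul_finrank ℚ D.M D.Ef, QuaternionAlgebra.finrank_eq_four,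
      QuadraticAlgebra.finrank_eq_two, mul_assoc, two_mul 2]
  alt := J_transpose _ _
  unit := isUnit_det_J _ _
  adj a := D.rm_adj (by ext <;> simp [xy, δ] <;> ring)

variable {D}

theorem comm_rE {K : Type} [Field K] [CharZero K] {u : Mi D.g K}
    (h1 : ∀ m, u * (D.rm (D.sc m)).map (↑) = (D.rm (D.sc m)).map (↑) * u)
    (h2 : u * (D.rm D.bj).map (↑) = (D.rm D.bj).map (↑) * u) (a : D.Ef) :
    u * (D.rE a).map (↑) = (D.rE a).map (↑) * u := by
  let c := (Rat.castHom K).mapMatrix (m := Ix D.g)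
  change u * c _ = c _ * u
  rw [rE_apply, xy_eq, rm_add, rm_mul, map_add, map_mul]
  exact Commute.add_right (h1 _) (Commute.mul_right (h1 _) h2)

end QD

namespace Em

variable {D : QD} {K : Type} [Field K] [CharZero K] (μ : Em D K)

/-- the embedding of the field of coefficients -/
def eE : D.Ef →+* K where
  toFun a := μ.ev (a.re, a.im)
  map_one' := by simp [ev, QuadraticAlgebra.re_one, QuadraticAlgebra.im_one]
  map_mul' a b := by simp [ev]; linear_combination (-μ.φ a.im * μ.φ b.im) * μ.hs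
  map_zero' := by simp [ev]
  map_add' a b := by simp [ev]; ring

theorem eE_apply (a : D.Ef) : μ.eE a = μ.ev (a.re, a.im) := rfl

/-- the coordinates are linear -/
def laL (a : Fin 2) : D.B →ₗ[ℚ] K := AddMonoidHom.toRatLinearMap
  (AddMonoidHom.mk' (μ.la a) fun x y => by simp [la]; ring)

theorem Qm_e (x : D.B) : μ.Qm *ᵥ (fun i => (D.e x i : K)) = fun a => μ.la a x := funext fun a => by
  have h : ∀ v : Ix D.g → ℚ, μ.laL a (D.e.symm v) =
      ∑ k, μ.laL a (D.e.symm (Pi.single k 1)) * v k := fun v => by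
    conv_lhs => rw [← Finset.univ_sum_single v, map_sum, map_sum]
    refine Finset.sum_congr rfl fun k _ => ?_
    rw [mul_comm, ← Rat.smul_def, ← map_smul, ← map_smul, ← Pi.single_smul, smul_eq_mul, mul_one]
  exact (h _).symm.trans (congrArg _ (D.e.symm_apply_apply x))

theorem cast_mulVec (a : Mi D.g ℚ) (v : Ix D.g → ℚ) :
    a.map ((↑) : ℚ → K) *ᵥ (fun i => (v i : K)) = fun i => ((a *ᵥ v) i : K) :=
  funext fun i => by simp [mulVec, dotProduct]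

theorem la_xy (a : Fin 2) (x : D.B) (c : D.M × D.M) : μ.la a (x * D.xy c) = μ.ev c * μ.la a x := by
  simp [la, ev, QD.xy]
  linear_combination (-μ.φ c.2 * μ.φ x.imJ - (-1) ^ (a : ℕ) * μ.ι * μ.φ c.2 * μ.φ x.imK) * μ.hs

theorem ι_ne : μ.ι ≠ 0 := fun h => by simpa [h] using μ.hι

theorem fm : Fm D.rE μ.eE μ.Qm where
  eig a := D.mx_ext fun x => by
    rw [← mulVec_mulVec, cast_mulVec, QD.rE_apply, D.rm_ap, smul_mulVec, Qm_e, Qm_e]
    exact funext fun i => μ.la_xy i x _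
  spn y h := by
    let l : D.B → K := fun x => y ⬝ᵥ fun i => (D.e x i : K)
    have h1 : ∀ x c, l (x * D.xy c) = μ.ev c * l x := fun x c => by
      have := congrArg (· ⬝ᵥ fun i => (D.e x i : K)) (h ⟨c.1, c.2⟩)
      simp only [← dotProduct_mulVec, cast_mulVec, QD.rE_apply, D.rm_ap, smul_dotProduct] at this
      exact this
    have h2 : ∀ x x', l (x + x') = l x + l x' := fun x x' => by
      simp only [l, dotProduct, map_add, Pi.add_apply, Rat.cast_add, mul_add, Finset.sum_add_distrib]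
    refine ⟨![(l 1 - μ.ι * l D.bi) / 2, (l 1 + μ.ι * l D.bi) / 2], ?_⟩
    refine congrFun (D.mx_ext (X := Matrix.of fun _ : Unit => y)
      (Y := Matrix.of fun _ : Unit => _ ᵥ* μ.Qm) fun x => funext fun _ => ?_) ()
    change l x = (_ ᵥ* μ.Qm) ⬝ᵥ _
    rw [← dotProduct_mulVec, Qm_e, show x = 1 * D.xy (x.re, x.imJ) + D.bi * D.xy (x.imI, x.imK) by
      ext <;> simp [QD.xy, QD.bi], h2, h1, h1]
    generalize l D.bi = t
    simp [dotProduct, la, ev, QD.xy, QD.bi]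
    linear_combination (t * (μ.φ x.imI + μ.s * μ.φ x.imK)) * μ.hι
  ind c h := by
    have h1 : ∀ x, c 0 * μ.la 0 x + c 1 * μ.la 1 x = 0 := fun x => by
      have := congrArg (· ⬝ᵥ fun i => (D.e x i : K)) h
      simp only [← dotProduct_mulVec, Qm_e, zero_dotProduct] at this
      simpa [dotProduct] using this
    have h2 := h1 1
    have h3 := h1 D.bi
    simp [la, QD.bi] at h2 h3
    have h4 : c 0 = 0 := mul_left_cancel₀ (mul_ne_zero two_ne_zero μ.ι_ne)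
      (by linear_combination μ.ι * h2 + h3)
    exact funext fun i => by fin_cases i <;> simp_all

/-- the matrix of a quaternion -/
def lB (b : D.B) : Matrix (Fin 2) (Fin 2) K :=
  !![μ.φ b.re + μ.ι * μ.φ b.imI, μ.s * (μ.φ b.imJ + μ.ι * μ.φ b.imK);
    μ.s * (μ.φ b.imJ - μ.ι * μ.φ b.imK), μ.φ b.re - μ.ι * μ.φ b.imI]

theorem Qm_lm (b : D.B) : μ.Qm * (D.lm b).map ((↑) : ℚ → K) = μ.lB b * μ.Qm := D.mx_ext fun x => by
  rw [← mulVec_mulVec, ← mulVec_mulVec, cast_mulVec, D.lm_ap, Qm_e, Qm_e]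
  funext a
  fin_cases a <;> simp [la, lB, mulVec, dotProduct]
  · linear_combination (-μ.φ b.imI * μ.φ x.imI - μ.s * μ.φ b.imI * μ.φ x.imK + μ.s * μ.φ b.imK *
      μ.φ x.imI + μ.s ^ 2 * μ.φ b.imK * μ.φ x.imK) * μ.hι + (-μ.φ b.imJ * μ.φ x.imJ + μ.ι * μ.φ b.imJ *
      μ.φ x.imK - μ.ι * μ.φ b.imK * μ.φ x.imJ - μ.φ b.imK * μ.φ x.imK) * μ.hs
  · linear_combination (-μ.φ b.imI * μ.φ x.imI - μ.s * μ.φ b.imI * μ.φ x.imK + μ.s * μ.φ b.imK *
      μ.φ x.imI + μ.s ^ 2 * μ.φ b.imK * μ.φ x.imK) * μ.hι + (-μ.φ b.imJ * μ.φ x.imJ - μ.ι * μ.φ b.imJ *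
      μ.φ x.imK + μ.ι * μ.φ b.imK * μ.φ x.imJ - μ.φ b.imK * μ.φ x.imK) * μ.hs

theorem Qm_rm (c : D.M × D.M) : μ.Qm * (D.rm (D.xy c)).map ((↑) : ℚ → K) = μ.ev c • μ.Qm :=
  μ.fm.eig ⟨c.1, c.2⟩

end Em

section rep

variable {D : QD} {p : ℕ} [Fact p.Prime] {μ : Em D (Cp p)} {u u' : Mi D.g ℚ_[p]}
  {ρ ρ' : Matrix (Fin 2) (Fin 2) (Cp p)}

/-- extension of scalars -/
abbrev cK (p : ℕ) [Fact p.Prime] {g : ℕ} : Mi g ℚ_[p] →ₐ[ℚ_[p]] Mi g (Cp p) :=
  (Algebra.ofId ℚ_[p] (Cp p)).mapMatrix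

theorem cK_ql {g : ℕ} (a : Mi g ℚ) : cK p (ql p a) = a.map (↑) := by
  ext i j; simp [ql]

theorem Rh.unq (h : Rh μ u ρ) (h' : Rh μ u ρ') : ρ = ρ' := μ.fm.unq (h.symm.trans h')

theorem Rh.eq (h : Rh μ u ρ) : rh μ u = ρ := Rh.unq (Classical.epsilon_spec ⟨ρ, h⟩) h

theorem Rh.mul (h : Rh μ u ρ) (h' : Rh μ u' ρ') : Rh μ (u * u') (ρ * ρ') := by
  rw [Rh, Matrix.map_mul, ← Matrix.mul_assoc, h, Matrix.mul_assoc, h', Matrix.mul_assoc]

theorem Rh.add (h : Rh μ u ρ) (h' : Rh μ u' ρ') : Rh μ (u + u') (ρ + ρ') := by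
  change μ.Qm * cK p _ = _
  rw [map_add, Matrix.mul_add, Matrix.add_mul, ← h, ← h']; rfl

theorem Rh.smul (h : Rh μ u ρ) (c : ℚ_[p]) : Rh μ (c • u) (c • ρ) := by
  change μ.Qm * cK p _ = _
  rw [map_smul, Matrix.mul_smul, Matrix.smul_mul, ← h]; rfl

theorem rh_one' : Rh μ 1 1 := by
  change μ.Qm * cK p _ = _
  rw [map_one, Matrix.mul_one, Matrix.one_mul]

theorem rh_lm' (b : D.B) : Rh μ (ql p (D.lm b)) (μ.lB b) :=
  (congrArg _ (cK_ql _)).trans (μ.Qm_lm b)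

theorem rh_rm' (c : D.M × D.M) : Rh μ (ql p (D.rm (D.xy c))) (μ.ev c • 1) :=
  (congrArg _ (cK_ql _)).trans ((μ.Qm_rm c).trans (by simp))

/-- `u` commutes with the field of coefficients -/
def Cf (D : QD) {p : ℕ} [Fact p.Prime] (u : Mi D.g ℚ_[p]) : Prop :=
  ∀ a, u * (D.rE a).map (↑) = (D.rE a).map (↑) * u

theorem Cf.rh (h : Cf D u) (μ : Em D (Cp p)) : Rh μ u (rh μ u) :=
  Classical.epsilon_spec (μ.fm.ex fun a => by
    have := congrArg (cK p) (h a)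
    rw [map_mul, map_mul] at this
    exact cK_ql (p := p) (D.rE a) ▸ this)

theorem Rh.det (h : Rh μ u ρ) {q : ℚ_[p]} (h0 : q ≠ 0)
    (hq : uᵀ * J (Fin D.g) ℚ_[p] * u = q • J (Fin D.g) ℚ_[p]) : ρ.det = algebraMap _ _ q := by
  refine μ.fm.det D.sy ((map_ne_zero _).2 h0) ?_ h
  have := congrArg (cK p) hq
  rw [map_mul, map_mul, map_smul, ← Matrix.map_J _ (Rat.castHom ℚ_[p])] at this
  rw [algebraMap_smul, ← cK_ql]
  exact this

variable {η : GQ →* ℤˣ}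

theorem mt_eq (e : EE D η) (r : Pr) : mt e r = mp r (uu e) := rfl

theorem mt_cf (e : EE D η) (r : Pr) : Cf D (mt e r) := QD.comm_rE
  (fun m => by simpa only [map_mul, am, mp_cA, mt_eq] using congrArg (mp r) ((at_uu e).cm m))
  (by simpa only [map_mul, am, mp_cA, mt_eq] using congrArg (mp r) (at_uu e).cj)

theorem mt_sim (e : EE D η) (r : Pr) :
    (mt e r)ᵀ * J (Fin D.g) ℚ_[r.1] * mt e r = TP.pr r (cyc (sg e)) • J (Fin D.g) ℚ_[r.1] := by
  have := congrArg (mp r) e.2.sim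
  rw [map_mul, map_mul, mp_apply r (_ • _), Matrix.map_smul' _ _ _ (map_mul _),
    mp_apply r (J _ _)] at this
  rw [← Matrix.map_J _ (TP.pr r).toRingHom]
  exact this

theorem cyc_ne (σ : GQ) (r : Pr) : TP.pr r (cyc σ) ≠ 0 :=
  left_ne_zero_of_mul_eq_one (b := TP.pr r (cyc σ⁻¹)) (by rw [← map_mul, ← map_mul]; simp)

theorem re_rh (μ : Em D (Cp p)) (e : EE D η) : Rh μ (mt e (pp p)) (re μ e) := (mt_cf e (pp p)).rh μ

/-- the representation attached to `μ` -/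
def reH (μ : Em D (Cp p)) : EE D η →* Matrix (Fin 2) (Fin 2) (Cp p) where
  toFun := re μ
  map_one' := Rh.eq (by rw [mt_eq, map_one, map_one]; exact rh_one')
  map_mul' a b := Rh.eq (by rw [mt_eq, map_mul, map_mul]; exact (re_rh μ a).mul (re_rh μ b))

theorem re_one (μ : Em D (Cp p)) : re μ (1 : EE D η) = 1 := (reH μ).map_one

theorem re_mul (μ : Em D (Cp p)) (a b : EE D η) : re μ (a * b) = re μ a * re μ b :=
  (reH μ).map_mul a b

theorem re_det (μ : Em D (Cp p)) (e : EE D η) :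
    (re μ e).det = algebraMap _ _ (TP.pr (pp p) (cyc (sg e))) :=
  (re_rh μ e).det (cyc_ne _ _) (mt_sim e (pp p))

end rep

/-- **COMPAT** on the datum -/
theorem compat {D : QD} {η : GQ →* ℤˣ} {l : ℕ} {S : Subring (Mi D.g Af)} (h : TE l S)
    (hS : ∀ c, ∃ N : ℕ, N ≠ 0 ∧ N • am (D.rm (D.xy c)) ∈ S) {e : EE D η}
    (he : ∃ N : ℕ, N ≠ 0 ∧ N • uu e ∈ S) {q : ℚ} (hq : ∀ r : Pr, r.1 ≠ l → TP.pr r (cyc (sg e)) = q) :
    ∃ a : D.Ef, (∀ r : Pr, r.1 ≠ l → mt e r * mt e r + q • 1 = ql r.1 (D.rE a) * mt e r) ∧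
      (∀ (p : ℕ) [Fact p.Prime], p ≠ l → ∀ μ : Em D (Cp p), (re μ e).trace = μ.eE a) ∧
      ∀ f : Polynomial ℤ, (∀ r : Pr, r.1 ≠ l → Polynomial.aeval (mt e r) f = 0) →
        (f.Monic → IsIntegral ℤ a) ∧ ∀ φ : D.Ef →+* ℂ, ∃ z z' : ℂ, Polynomial.aeval z f = 0 ∧
          Polynomial.aeval z' f = 0 ∧ z + z' = φ a ∧ z * z' = q := by
  have h1 : ∀ r : Pr, r.1 ≠ l → (mt e r)ᵀ * (J (Fin D.g) ℚ).map (↑) * mt e r =
      q • (J (Fin D.g) ℚ).map (↑) := fun r hr => by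
    rw [show (J (Fin D.g) ℚ).map (↑) = J (Fin D.g) ℚ_[r.1] from Matrix.map_J _ (Rat.castHom _),
      mt_sim, hq r hr, Rat.cast_smul_eq_qsmul]
  obtain ⟨r0, h0⟩ : ∃ r : Pr, r.1 ≠ l :=
    (Nat.exists_infinite_primes (l + 1)).elim fun r hr => ⟨⟨r, hr.2⟩, (Nat.lt_of_succ_le hr.1).ne'⟩
  have h2 : q ≠ 0 := fun e0 => cyc_ne (sg e) r0 (by rw [hq r0 h0, e0, Rat.cast_zero])
  obtain ⟨a, ha⟩ := h.trace D.sy (fun a => hS _) he h0 (mt_cf e r0) (h1 r0 h0)
  refine ⟨a, ha, fun p _ hp μ => ?_, fun f hf =>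
    ⟨fun hm => D.sy.isIntegral h2 (h1 r0 h0) (mt_cf e r0) (ha r0 h0) hm (hf r0 h0),
      D.sy.roots h2 (h1 r0 h0) (mt_cf e r0) (ha r0 h0) (hf r0 h0)⟩⟩
  refine μ.fm.trace D.sy (q := q) (Rat.cast_ne_zero.2 h2) ?_ (re_rh μ e) ?_
  · have := congrArg (cK p) (h1 (pp p) hp)
    rw [map_mul, map_mul, map_rat_smul] at this
    rw [Rat.cast_smul_eq_qsmul, ← cK_ql]
    exact this
  · have := congrArg (cK p) (ha (pp p) hp)
    rw [map_add, map_mul, map_mul, map_rat_smul, map_one] at this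
    rw [Rat.cast_smul_eq_qsmul, ← cK_ql]
    exact this

end Vale.Agent.P022K.PM
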