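import Vale.Agent.P022K.PM.Wl
import Vale.Agent.P022K.PM.Co3
import Vale.Agent.P022K.PM.Rh
import Vale.Agent.P022K.Gd.Red
import Vale.Agent.P022K.Gd.Main

/-!
# P022K / PM: the local behaviour of the points of the locus at a finite place
-/

set_option autoImplicit false

open Matrix Polynomial Filter Topology IsLocalRing

noncomputable section

namespace Vale.Agent.P022K.PM

open Vale.Agent.P022 Vale.Agent.P010MR Vale.Agent.P010MT8 Vale.Agent.P010MP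
open Vale.Agent.P022K.TP hiding Cn
open Vale.Agent.P022K.CH (Cp)

variable {g l : ℕ} {j : Qb →+* ℂ} {v : AbsoluteValue Qb ℝ}

/-- `S` is the endomorphism ring of the reduction of `τ` at `v` -/
structure Lc (j : Qb →+* ℂ) (l : ℕ) (v : AbsoluteValue Qb ℝ) (τ : Mc g) (S : Subring (Mi g Af)) :
    Prop where
  te : TE l S
  rat : ∀ f : Mi g ℚ, Hm τ τ f → ∃ N : ℕ, N ≠ 0 ∧ N • am f ∈ S
  frb : ∀ k σ u (M : ℕ), Wl v l k σ → FxT j τ σ u → Mn 1 (M • u) → M • u ∈ S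
  wb : ∀ k σ u, Wl v l k σ → FxT j τ σ u → ∃ f : ℤ[X],
    (∀ r : Pr, r.1 ≠ l → aeval (mp r u) f = 0) ∧ ∀ z : ℂ, aeval z f = 0 → ‖z‖ ^ 2 ≤ l ^ k

theorem exists_mn1 (u : Mi g Af) : ∃ M : ℕ, M ≠ 0 ∧ Mn 1 (M • u) := by
  obtain ⟨d, hd, h⟩ := exists_den_fin fun x : Ix g × Ix g => u x.1 x.2
  exact ⟨d, hd.ne', fun a b => by simpa using h (a, b)⟩

theorem Lc.mem {τ : Mc g} {S : Subring (Mi g Af)} (h : Lc j l v τ S) {k : ℕ} {σ : GQ} {u : Mi g Af}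
    (hσ : Wl v l k σ) (hu : FxT j τ σ u) : ∃ N : ℕ, N ≠ 0 ∧ N • u ∈ S :=
  (exists_mn1 u).imp fun N hN => ⟨hN.1, h.frb k σ u N hσ hu hN.2⟩

variable [hl : Fact l.Prime]

theorem lc_of {τ : Mc g} (hτ : τ ∈ Hg g) (ι : ℂ ≃+* ℂ_[l])
    (hι : ∀ k σ, Wl v l k σ → ∃ s, Ext j σ s ∧ Gd.Fb ι l k s) {N : ℕ} (hN : 2 ≤ N)
    {T : P010MG0.TM (OO ℂ_[l]) (Ix g → ℚ)} (hB : IsB ι τ N T) (hT : T.Good) :
    Lc j l v τ (Es hl.out norm_p_lt hτ hN hB hT) := by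
  have := Gd.charP_res (C := ℂ_[l]) (p := l) norm_p_lt
  refine ⟨te_es .., rat_es _ _ _ _ _ _, fun k σ u M hσ hu hM => ?_, fun k σ u hσ hu => ?_⟩
  · obtain ⟨s, h1, h2⟩ := hι k σ hσ
    rw [← Nat.cast_smul_eq_nsmul Af] at hM ⊢
    exact Gd.red_mem h2 (hu s h1) (by omega) hB hT _ hM
  obtain ⟨s, h1, h2⟩ := hι k σ hσ
  obtain ⟨M, h0, hM⟩ := exists_mn1 u
  rw [← Nat.cast_smul_eq_nsmul Af] at hM
  obtain ⟨w, h3, h4⟩ := Gd.red h2 (hu s h1) hM (by omega) rfl hB hB hT hT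
  obtain ⟨f, h5, h6⟩ := Gd.exists_min (P010M59.rhom_alg _ _ hT.cube w)
  refine ⟨f.comp (M • X), fun r hr => ?_, fun z hz => ?_⟩
  · have ht := tpt_res hl.out norm_p_lt hτ hN hB hT
    have h7 : tau ht r hr w = mp r ((M : Af) • u) := (tau_rz ht r hr w).unq
      ((h4.ad l).rz ((Nat.coprime_primes r.2 hl.out).2 hr) hr _ _)
    rw [aeval_comp, map_nsmul, aeval_X, ← map_nsmul, ← Nat.cast_smul_eq_nsmul Af, ← h7]
    exact (aeval_algHom_apply (tau ht r hr).toIntAlgHom w f).trans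
      ((congrArg _ h5).trans (map_zero _))
  · rw [aeval_comp, map_nsmul, aeval_X] at hz
    have h7 := Gd.weil hT.cube h3 (h6 _ hz)
    rw [nsmul_eq_mul, norm_mul, mul_pow, Complex.norm_natCast, mul_comm] at h7
    push_cast at h7
    exact le_of_mul_le_mul_right h7 (by positivity)

variable {D : QD} {η : GQ →* ℤˣ}

/-- an identification `ℂ = ℂ_l` and a good model -/
theorem QD.good (D : QD) (j : Qb →+* ℂ) (hv : IsPl l v) : ∃ ι : ℂ ≃+* ℂ_[l],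
    (∀ a, ‖ι (j a)‖ = v a) ∧ (∀ k σ, Wl v l k σ → ∃ s, Ext j σ s ∧ Gd.Fb ι l k s) ∧
      ∀ τ ∈ D.Loc, ∃ N T, 2 ≤ N ∧ IsB ι τ N T ∧ T.Good := by
  obtain ⟨ι, h1, h2⟩ := exists_iso' j hv
  refine ⟨ι, h1, fun k σ h => (h2 k σ h).imp fun s hs => ⟨hs.1, hs.2.1, hs.2.2⟩, fun τ hτ => ?_⟩
  obtain ⟨n, h3, h4, h5⟩ := D.un' hl.out hτ (ι : ℂ →+* ℂ_[l]) norm_p_lt
  exact Gd.good_of_un hτ.1 h3 h4 h5

/-- every point of the locus has potentially good reduction -/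
theorem QD.lc (j : Qb →+* ℂ) (hv : IsPl l v) {τ : Mc D.g} (hτ : τ ∈ D.Loc) :
    ∃ S, Lc j l v τ S := by
  obtain ⟨ι, -, h2, h3⟩ := D.good j hv
  obtain ⟨N, T, hN, hB, hT⟩ := h3 τ hτ
  exact ⟨_, lc_of hτ.1 ι h2 hN hB hT⟩

omit hl in
theorem sg_conj (x : MP D η) (e : EE D η) : sg (x.k * e * x.k⁻¹) = sg e := by
  rw [map_mul, map_mul, map_inv, x.one]; simp

omit hl in
theorem mt_mul (a b : EE D η) (r : Pr) : mt (a * b) r = mt a r * mt b r := by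
  rw [mt_eq, map_mul, map_mul]; rfl

omit hl in
theorem mt_one (r : Pr) : mt (1 : EE D η) r = 1 := by rw [mt_eq, map_one, map_one]

omit hl in
theorem mt_conj {k a b : EE D η} {r : Pr} (h : mt (k * a * k⁻¹) r = mt (k * b * k⁻¹) r) :
    mt a r = mt b r := by
  have e : ∀ c : EE D η, mt c r = mt k⁻¹ r * mt (k * c * k⁻¹) r * mt k r := fun c => by
    rw [← mt_mul, ← mt_mul]; congr 1; group
  rw [e a, h, ← e b]

/-- **LOCG**: the trace of a Weil element -/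
theorem locg_tr (hv : IsPl l v) (x : MP D η) {e : EE D η} {k : ℕ} (h : Wl v l k (sg e))
    (hx : x.Fx j e) : ∃ a : D.Ef,
      (∀ r : Pr, r.1 ≠ l → mt e r * mt e r + ((l : ℚ) ^ k) • 1 = ql r.1 (D.rE a) * mt e r) ∧
      (∀ (p : ℕ) [Fact p.Prime], p ≠ l → ∀ μ : Em D (Cp p), (re μ e).trace = μ.eE a) ∧
      (∀ φ : D.Ef →+* ℂ, ‖φ a‖ ^ 2 ≤ 4 * l ^ k) ∧
      ((∃ N : ℕ, N ≠ 0 ∧ ∀ i, Mn 1 (N • uu e ^ i)) → IsIntegral ℤ a) := by
  obtain ⟨S, H⟩ := QD.lc j hv x.loc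
  obtain ⟨a, h1, h2, h3⟩ := compat H.te (fun c => H.rat _ (x.loc.2 _)) (H.mem h hx)
    (q := (l : ℚ) ^ k) fun r hr => by rw [sg_conj, cyc_wl hv h hr]; simp
  refine ⟨a, fun r hr => ?_, fun p _ hp μ => ?_, fun φ => ?_, fun ⟨N, h0, hN⟩ => ?_⟩
  · have e1 : mt x.k⁻¹ r * mt x.k r = 1 := by rw [← mt_mul, inv_mul_cancel, mt_one]
    have e2 : mt x.k⁻¹ r * mt (x.k * e * x.k⁻¹) r = mt e r * mt x.k⁻¹ r := by
      rw [← mt_mul, ← mt_mul]; congr 1; group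
    have := congrArg (fun y => mt x.k⁻¹ r * y * mt x.k r) (h1 r hr)
    simp only [mul_add, add_mul, ← mul_assoc, e2, mul_smul_comm, smul_mul_assoc, mul_one, e1] at this
    rw [mul_assoc (mt e r), e2, ql, mt_cf, mul_assoc _ (mt x.k⁻¹ r), e2] at this
    simpa only [mul_assoc, e1, mul_one, ql] using this
  · rw [← h2 p hp μ, re_mul, re_mul, trace_mul_cycle, ← re_mul, inv_mul_cancel, re_one, one_mul]
  · obtain ⟨f, h4, h5⟩ := H.wb k _ _ h hx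
    obtain ⟨z, z', h6, h7, h8, -⟩ := (h3 f h4).2 φ
    have := norm_add_le z z'
    rw [h8] at this
    nlinarith [h5 z h6, h5 z' h7, norm_nonneg (φ a), sq_nonneg (‖z‖ - ‖z'‖), norm_nonneg z,
      norm_nonneg z']
  obtain ⟨c, hc, h4⟩ := exists_mn1 (uu x.k)
  obtain ⟨d, hd, h5⟩ := exists_mn1 (uu x.k⁻¹)
  obtain ⟨f, h6, h7⟩ := H.te.int (c * N * d) (uu (x.k * e * x.k⁻¹)) (by positivity) fun i =>
    H.frb _ _ _ _ (h.pow hv i) (FxT.pow x.alg hx i) (by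
      rw [← map_pow, conj_pow, map_mul, map_mul, map_pow, ← smul_mul_smul_comm, ← smul_mul_smul_comm]
      exact Mn.mul (a := 1) (b := 1) (Mn.mul (a := 1) (b := 1) h4 (hN i)) h5)
  exact (h3 f h7).1 h6

/-- equality at one prime gives equality at all primes -/
theorem locg_inj (hv : IsPl l v) (x : MP D η) {e e' : EE D η} {k k' : ℕ} (h : Wl v l k (sg e))
    (h' : Wl v l k' (sg e')) (hx : x.Fx j e) (hx' : x.Fx j e') {r0 : Pr} (h0 : r0.1 ≠ l)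
    (E : mt e r0 = mt e' r0) (r : Pr) (hr : r.1 ≠ l) : mt e r = mt e' r := by
  obtain ⟨S, H⟩ := QD.lc j hv x.loc
  refine mt_conj (k := x.k) (H.te.inj h0 (H.mem h hx) (H.mem h' hx') ?_ r hr)
  rw [← mt_eq, ← mt_eq, mt_mul, mt_mul, E, ← mt_mul, ← mt_mul]

omit hl in
theorem Sec.cont_mt {Γ : Subgroup GQ} {s : Γ →* EE D η} (h : Sec s) (r : Pr) :
    Continuous fun d => mt (s d) r := by
  refine continuous_iff_continuousAt.2 fun d => ?_
  have h2 : Tendsto (fun d => mt (s d) r) (𝓝 1) (𝓝 1) := by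
    refine tendsto_pi_nhds.2 fun a => tendsto_pi_nhds.2 fun b => Metric.tendsto_nhds.2 fun ε hε => ?_
    obtain ⟨k, hk⟩ := exists_pow_lt_of_lt_one hε (Padic.norm_p_lt_one (p := r.1))
    obtain ⟨N, h1, h2⟩ := h.cts (r.1 ^ k) (pow_pos r.2.pos k)
    filter_upwards [(h1.preimage continuous_subtype_val).mem_nhds (one_mem N)] with d hd
    have h3 := h2 d hd a b r
    rw [Nat.cast_pow, norm_pow] at h3
    rw [dist_eq_norm, ← map_one (mp r), mt_eq, ← Matrix.sub_apply, ← map_sub]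
    exact h3.trans_lt hk
  have h3 : Tendsto (fun x => d⁻¹ * x) (𝓝 d) (𝓝 1) :=
    inv_mul_cancel d ▸ (continuous_const_mul d⁻¹).tendsto d
  have h4 := (h2.comp h3).const_mul (mt (s d) r)
  simpa [ContinuousAt, Function.comp_def, ← mt_mul, ← map_mul] using h4

/-- **LOCG**: the inertia group acts through a finite quotient away from `l` -/
theorem locg_fin (hv : IsPl l v) (x : MP D η) {Γ : Subgroup GQ} (hΓ : IsClosed (Γ : Set GQ))
    {s : Γ →* EE D η} (hs : Sec s) (hx : ∀ d, x.Fx j (s d)) : ∃ N : Subgroup GQ, N.Normal ∧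
      IsOpen (N : Set GQ) ∧ ∀ d : Γ, d.1 ∈ N → Wl v l 0 d → ∀ r : Pr, r.1 ≠ l → mt (s d) r = 1 := by
  obtain ⟨S, H⟩ := QD.lc j hv x.loc
  obtain ⟨r0, h0⟩ : ∃ r : Pr, r.1 ≠ l :=
    (Nat.exists_infinite_primes (l + 1)).elim fun r hr => ⟨⟨r, hr.2⟩, (Nat.lt_of_succ_le hr.1).ne'⟩
  have : CompactSpace (Γ ⊓ inr hv : Subgroup GQ) :=
    isCompact_iff_compactSpace.1 (hΓ.inter (closed_inr hv)).isCompact
  let i : (Γ ⊓ inr hv : Subgroup GQ) →* Γ := Subgroup.inclusion inf_le_left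
  let ρ : (Γ ⊓ inr hv : Subgroup GQ) →* Mi D.g ℚ_[r0.1] :=
    (mp r0).toRingHom.toMonoidHom.comp (uu.comp ((MulAut.conj x.k).toMonoidHom.comp (s.comp i)))
  have e : ∀ d, ρ d = mt x.k r0 * mt (s (i d)) r0 * mt x.k⁻¹ r0 := fun d => by
    rw [← mt_mul, ← mt_mul]; rfl
  have hw : ∀ d, Wl v l 0 (sg (s (i d))) := fun d => (hs.sg _).symm ▸ d.2.2
  obtain ⟨h1, -⟩ := H.te.fin h0 ρ (by
    rw [funext e]
    exact (continuous_const.mul ((hs.cont_mt r0).comp (continuous_subtype_val.subtype_mk _))).mul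
      continuous_const) fun d => (H.mem (hw d) (hx _)).elim fun N hN => ⟨_, N, hN.1, hN.2, rfl⟩
  obtain ⟨U, h2, h3⟩ := isOpen_induced_iff.1 h1
  obtain ⟨N, h4⟩ := ProfiniteGrp.exist_openNormalSubgroup_sub_open_nhds_of_one h2
    (show (1 : (Γ ⊓ inr hv : Subgroup GQ)) ∈ Subtype.val ⁻¹' U from h3 ▸ map_one ρ)
  refine ⟨N.toSubgroup, N.isNormal', N.isOpen, fun d hd hw' r hr => ?_⟩
  have h5 : ρ ⟨d, d.2, hw'⟩ = 1 := (Set.ext_iff.1 h3 ⟨d, d.2, hw'⟩).1 (h4 hd)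
  rw [← mt_one (D := D) (η := η), ← map_one s]
  refine locg_inj hv x ((hs.sg d).symm ▸ hw') (by rw [hs.sg]; exact Wl.one v l) (hx _) (hx _) h0
    (mt_conj (k := x.k) ?_) r hr
  rw [map_one, mul_one, mul_inv_cancel, mt_one]
  exact h5

omit hl in
theorem mt_pow (e : EE D η) (r : Pr) (n : ℕ) : mt (e ^ n) r = mt e r ^ n := by
  rw [mt_eq, map_pow, map_pow]; rfl

/-- elements of the inertia group have bounded finite order away from `l` -/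
theorem locg_ord (hv : IsPl l v) (x : MP D η) {Γ : Subgroup GQ} (hΓ : IsClosed (Γ : Set GQ))
    {s : Γ →* EE D η} (hs : Sec s) (hx : ∀ d, x.Fx j (s d)) : ∃ n : ℕ, n ≠ 0 ∧
      ∀ d : Γ, Wl v l 0 d → ∀ r : Pr, r.1 ≠ l → mt (s d) r ^ n = 1 := by
  obtain ⟨N, h1, h2, h3⟩ := locg_fin hv x hΓ hs hx
  have := Subgroup.quotient_finite_of_isOpen N h2
  refine ⟨N.index, Subgroup.index_ne_zero_of_finite, fun d hd r hr => ?_⟩
  rw [← mt_pow, ← map_pow]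
  exact h3 _ (N.pow_index_mem d.1) (pow_mem (show d.1 ∈ inr hv from hd) _) r hr

omit hl in
theorem eq_one_of_unip {A : Type} [Ring A] [Algebra ℚ A] {u : A} {n : ℕ} (hn : n ≠ 0)
    (h : u ^ n = 1) (h2 : u * u + 1 = 2 * u) : u = 1 := by
  have h3 : ∀ i : ℕ, u ^ i = 1 + i • (u - 1) := fun i => by
    induction i with
    | zero => simp
    | succ i ih =>
      rw [pow_succ, ih, add_mul, smul_mul_assoc, sub_mul, eq_sub_of_add_eq h2, succ_nsmul, two_mul,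
        one_mul, show u + u - 1 - u = u - 1 by abel]
      abel
  have h4 := h3 n
  rw [h, left_eq_add, ← Nat.cast_smul_eq_nsmul ℚ] at h4
  exact sub_eq_zero.1 ((smul_eq_zero_iff_right (Nat.cast_ne_zero.2 hn)).1 h4)

/-- an element of the inertia group with trace `2` at one place is trivial away from `l` -/
theorem locg_one (hv : IsPl l v) (x : MP D η) {Γ : Subgroup GQ} (hΓ : IsClosed (Γ : Set GQ))
    {s : Γ →* EE D η} (hs : Sec s) (hx : ∀ d, x.Fx j (s d)) {d : Γ} (hd : Wl v l 0 d)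
    {p : ℕ} [Fact p.Prime] (hp : p ≠ l) (μ : Em D (Cp p)) (h : (re μ (s d)).trace = 2)
    (r : Pr) (hr : r.1 ≠ l) : mt (s d) r = 1 := by
  obtain ⟨n, h0, hn⟩ := locg_ord hv x hΓ hs hx
  obtain ⟨a, h1, h2, -⟩ := locg_tr hv x ((hs.sg d).symm ▸ hd) (hx d)
  obtain rfl : a = 2 := μ.eE.injective (by rw [← h2 p hp μ, h, map_ofNat])
  refine eq_one_of_unip h0 (hn d hd r hr) ?_
  have := h1 r hr
  rwa [pow_zero, one_smul, map_ofNat, ql, show (2 : Mi D.g ℚ).map (↑) = (2 : Mi D.g ℚ_[r.1]) from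
    map_ofNat (Rat.castHom ℚ_[r.1]).mapMatrix 2] at this

end Vale.Agent.P022K.PM
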