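import Vale.Agent.P022K.PM.Inds
import Vale.Agent.P022K.PM.St2
import Vale.Agent.P022K.PM.Field
import Vale.Agent.P022K.CH.Eps

/-!
# P022K / PM: tools for the local points away from `p` and `q` (helper4)
-/

set_option autoImplicit false

open NumberField Matrix

noncomputable section

namespace Vale.Agent.P022K.PM.Lpl

open Vale.Agent.P022 Vale.Agent.P010MR Vale.Agent.P010MT8
open Vale.Agent.P022.H443 (inP)
open Vale.Agent.P022D.W (dec)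
open Vale.Agent.P022E.GW (Ov Fb)
open Vale.Agent.P022K.CH (Cp Kp Op Id red eps)
open Vale.Agent.P022K.CH.Weil (fb_zero fb_add fb_pow fb_div fb_conj)
open Vale.Agent.P022K.Top (GI iC Rp Rd Urc)
open Vale.Agent.P022K.TP hiding Cn Ty
open QD Gr Ti

variable {D : QD} {η : GQ →* ℤˣ} {j : Qb →+* ℂ} {x : MP D η} {θ : D.L0} {N l : ℕ} {P : Id}
  {p q : ℕ} [Fact p.Prime] [Fact q.Prime] {μ : Em D (Cp p)} {μ' : Em D (Cp q)}
  {ρ : GQ →* GL (Fin 2) (Kp p)} {Γ : Subgroup GQ}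

/-- the Weil elements are dense -/
theorem weil_cl (hP : Ov l P) {C : Set (dec P)} (hC : IsClosed C)
    (h : ∀ k (d : dec P), Fb (l ^ k) P d → d ∈ C) (d : dec P) : d ∈ C :=
  closure_minimal (fun d e => e.elim fun k => h k d) hC
    (weil_ext hP (V := ⊤) isOpen_univ le_rfl inf_le_left d)

theorem fbd (hP : Ov l P) {k : ℕ} {g : GQ} (h : Fb (l ^ k) P g) : g ∈ dec P :=
  CH.Weil.fb_dec hP h

theorem urc_pow {u : GQ → Cp p} (h : Urc P u) (hP : Ov l P) {φ d : GQ} (hφ : Fb l P φ) {k : ℕ}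
    (hd : Fb (l ^ k) P d) : u d = u φ ^ k := by
  have h0 : Fb (l ^ 1) P φ := (pow_one l).symm ▸ hφ
  have h1 : ∀ n : ℕ, u (φ ^ n) = u φ ^ n := fun n => by
    induction n with
    | zero => simpa using h.ine 1 (one_mem _)
    | succ n ih => rw [pow_succ, h.mul _ (pow_mem (fbd hP h0) n) _ (fbd hP h0), ih, pow_succ]
  have h2 := fb_pow hP h0 k
  rw [one_mul] at h2
  have h3 := fb_div hP h2 hd
  rw [← h1, ← mul_inv_cancel_left (φ ^ k) d, h.mul _ (fbd hP h2) _ (fbd hP (fb_zero.2 h3)),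
    h.ine _ h3, mul_one]

theorem pow_near {a b : Cp p} (ha : ‖a‖ ≤ 1) (hb : ‖b‖ ≤ 1) (k : ℕ) : ‖a ^ k - b ^ k‖ ≤ ‖a - b‖ := by
  induction k with
  | zero => simp
  | succ k ih =>
    rw [show a ^ (k + 1) - b ^ (k + 1) = a * (a ^ k - b ^ k) + (a - b) * b ^ k by ring]
    refine (IsUltrametricDist.norm_add_le_max _ _).trans (max_le ?_ ?_) <;> rw [norm_mul]
    · exact (mul_le_of_le_one_left (norm_nonneg _) ha).trans ih
    · exact mul_le_of_le_one_right (norm_nonneg _) (by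
        rw [norm_pow]; exact pow_le_one₀ (norm_nonneg _) hb)

theorem ex_le (a : M2 (Cp p)) : ∃ C, 0 < C ∧ Le a C :=
  ⟨∑ i, ∑ k, ‖a i k‖ + 1, by positivity, fun i k => ((Finset.single_le_sum
    (fun _ _ => norm_nonneg _) (Finset.mem_univ k)).trans (Finset.single_le_sum (f := fun i =>
      ∑ k, ‖a i k‖) (fun _ _ => by positivity) (Finset.mem_univ i))).trans (by simp)⟩

theorem ex_del (a b : M2 (Cp p)) {ε : ℝ} (h : 0 < ε) :
    ∃ δ, 0 < δ ∧ ∀ c, Le c δ → Le (a * c * b) ε := by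
  obtain ⟨A, h1, h2⟩ := ex_le a
  obtain ⟨B, h3, h4⟩ := ex_le b
  refine ⟨ε / (A * B), by positivity, fun c h5 => ?_⟩
  convert (h2.mul h5).mul h4 using 1
  field_simp

theorem le_iC (z : GI p) : Le (iC z).val 1 := fun i k => CH.mem_op.1 (z i k).2

theorem red_iC (z : GI p) : (iC z).val.map red = (Top.rd z).val :=
  Matrix.ext fun i k => CH.red_coe (z i k)

/-- the last step -/
theorem last (h : Lv η N μ μ' ρ) {s : Γ →* EE D η} (hs : Lp j x s) (hn : ∀ d, Nt (s d))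
    {V : GQ → GI p} (hV : Rd Γ V ρ) {g : M2 (Cp p)} (hg : ∀ i k, g i k ∈ c0 μ) {c : Cp p}
    (hc : c ∈ c0 μ) (h1 : ‖g.det / c ^ 2 - 1‖ < 1) {ε : ℝ} (hε : ε < 1)
    (h2 : ∀ d : Γ, Le ((iC (V d)).val - g⁻¹ * re μ (s d) * g) ε) :
    ∃ (x' : MP D η) (s' : Γ →* EE D η), Lp j x' s' ∧ (∀ d, Lg μ μ' ρ (s' d)) ∧
      (∃ z : GI p, Top.rd z = 1 ∧
        ∀ d : Γ, Le ((iC (V d)).val - (iC z⁻¹).val * re μ (s' d) * (iC z).val) ε) ∧
      ∀ d (r : Pr), r.1 ≠ p → mt (s' d) r = mt (s d) r := by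
  have h3 : ∀ d : Γ, Le (g⁻¹ * re μ (s d) * g) 1 := fun d i k => by
    rw [← sub_sub_cancel ((iC (V d)).val) (g⁻¹ * _ * g), Matrix.sub_apply, sub_eq_add_neg]
    exact (IsUltrametricDist.norm_add_le_max _ _).trans
      (max_le (le_iC _ i k) ((norm_neg _).trans_le ((h2 d i k).trans hε.le)))
  obtain ⟨x', s', z, a1, a2, a3⟩ := frame h hs (fun d => by
    simpa only [hs.sec.sg] using (nt_mon μ' (hn d)).mon) hg hc
    h1 h3 fun d => by
      rw [← hV d d.2, ← red_iC]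
      exact ((red_congr (le_iC _) (h3 d)).2 fun i k => (h2 d i k).trans_lt hε).symm
  refine ⟨x', s', a1, fun d => (a3 d).1, ⟨z, a2, fun d => ?_⟩, fun d => (a3 d).2.2⟩
  have e : (iC z⁻¹).val * re μ (s' d) * (iC z).val = g⁻¹ * re μ (s d) * g := by
    rw [map_inv]; exact (a3 d).2.1
  rw [e]
  exact h2 d

theorem re_cont (μ : Em D (Cp p)) {s : Γ →* EE D η} (h : Sec s) : Continuous fun d => re μ (s d) :=
  Units.continuous_val.comp (h.cont μ)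

theorem dg_le' (μ : Em D (Cp p)) {a : D.L0} (h : Ru a) : Le (μ.dg a) 1 := fun i k => by
  have h0 : ∀ {R : Type} [Monoid R] (f : D.L0 →* R), Ru (f a) := fun f =>
    h.imp fun _ h => ⟨h.1, by rw [← map_pow, h.2, map_one]⟩
  have h1 : ‖μ.zH a‖ = 1 := norm_ru (h0 μ.zH.toMonoidHom)
  have h2 : ‖μ.zH (D.cj a)‖ = 1 := norm_ru (h0 (μ.zH.toMonoidHom.comp D.cj))
  fin_cases i <;> fin_cases k <;> simp [Em.dg, ← Em.zH_apply, h1, h2]

/-- the split case -/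
theorem split (hC : CMET) (ok : D.Ok N) (hp : p ∣ N) (hη : IsOpen {g | η g = 1}) (j : Qb →+* ℂ)
    (hP : Ov l P) (hl : l ≠ p) (h1 : ∀ d ∈ dec P, η d = 1) {u u' : GQ → Cp p} (hu : Urc P u)
    (uu' : ∀ g ∈ dec P, u g * u' g = eps p g) {a : D.L0} (ha : IsIntegral ℤ a)
    (hn : a * D.cj a = l) (ord : ∀ [Fact l.Prime] (f : D.L0 →+* Cp l), ‖f (a + D.cj a)‖ = 1)
    {φ : GQ} (hφ : Fb l P φ) {δ : ℝ} (hd : ‖μ.z0 a - u φ‖ ≤ δ) {c : dec P → D.L0}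
    (c1 : ∀ d, Ru (c d)) (c2 : ∀ d d', c (d * d') = c d * c d')
    (c3 : ∃ U : Subgroup GQ, IsOpen (U : Set GQ) ∧ ∀ d : dec P, d.1 ∈ U → c d = 1) :
    ∃ (x : MP D η) (s : dec P →* EE D η), Lp j x s ∧ ∀ d, Nt (s d) ∧
      Le (μ.dg (c d) * diagonal ![u d, u' d] - re μ (s d)) δ ∧
      (d.1 ∈ inP P → Rat l (s d) (D.l0 (c d))) := by
  have := Fact.mk hP.1
  obtain ⟨θ, x, s, ck, -, a1, a2, a3⟩ := pss hC ok hη j hP h1 ha hn ord
  obtain ⟨s', b1, b2⟩ := twist ok ck a1 (fun d => ⟨a1.int d, .inl ⟨by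
    rw [a1.sec.sg, h1 d d.2], a2 d⟩⟩) c1 (fun d d' => by rw [c2, h1 d d.2, cs_one]) c3
  have a4 : ∀ d : dec P, ‖u d - re μ (s d) 0 0‖ ≤ δ := weil_cl hP
    (C := {d | ‖u d - re μ (s d) 0 0‖ ≤ δ}) (isClosed_le (hu.cont.domRestrict.sub
      ((re_cont μ a1.sec).matrix_elem 0 0)).norm continuous_const) fun k d h => by
    change ‖_‖ ≤ δ
    rw [(a3 k d h).1.re hl.symm μ, urc_pow hu hP hφ h, norm_sub_rev]
    exact (congrArg (fun t => ‖t - u φ ^ k‖) (map_pow μ.zH a k)).trans_le ((pow_near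
      (Dat.norm_int μ.zH ha) (hu.nrm _ (fbd hP (k := 1) ((pow_one l).symm ▸ hφ))).le k).trans hd)
  refine ⟨x, s', b1, fun d => ⟨(b2 d).1, ?_, fun h => ?_⟩⟩
  · rw [re_tw μ (b2 d).2, ← mul_sub, ← one_mul δ]
    refine (dg_le' μ (c1 d)).mul fun i k => ?_
    have e := re_eps μ (s d)
    have e1 := ok.le_int hp μ (a1.int d) 1 1
    have e2 := hu.nrm d d.2
    have e3 := a4 d
    have e4 := (norm_nonneg _).trans e3
    rw [Sc.re_diag μ (a2 d), det_diagonal, Fin.prod_univ_two, a1.sec.sg, ← uu' d d.2] at e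
    rw [Sc.re_diag μ (a2 d)]
    simp only [cons_val_zero, cons_val_one] at e
    have e5 : ‖u' d - re μ (s d) 1 1‖ ≤ δ := by
      rw [← one_mul ‖_‖, ← e2, ← norm_mul, mul_sub, ← e, ← sub_mul, norm_mul, norm_sub_rev]
      exact (mul_le_of_le_one_right (norm_nonneg _) e1).trans e3
    fin_cases i <;> fin_cases k <;> simp [e3, e4, e5]
  · simpa [l0_one] using rat_tw (b2 d).2 (a3 0 d (fb_zero.2 h)).1

/-- exact matching of monomial representations -/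
theorem mex (ok : D.Ok N) (hp : p ∣ N) (io : μ.ι ∈ c0 μ) (hT : TEI μ) (hη : IsOpen {g | η g = 1})
    (ck : x.Ck θ) {s : Γ →* EE D η} (hs : Lp j x s) (hn : ∀ d, Nt (s d)) {W : Γ → M2 (Cp p)}
    (mul : ∀ d d', W (d * d') = W d * W d') (e : ∀ d : Γ, η d = 1 → W d = re μ (s d)) {r : Γ}
    (h0 : η r = -1) (mo : Mo (-1) (W r)) (det : (W r).det = eps p r) (h1 : W r 0 1 ∈ c0 μ)
    (h2 : ‖W r 0 1‖ = 1) : ∃ (s' : Γ →* EE D η) (t : Cp p), Lp j x s' ∧ t ∈ c0 μ ∧ ‖t - 1‖ < 1 ∧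
      ∀ d, Nt (s' d) ∧ re μ (s' d) * diagonal ![t, 1] = diagonal ![t, 1] * W d ∧
        (η d = 1 → uu (s' d) = uu (s d)) := by
  classical
  have a1 : Mo (η r) (re μ (s r)) := hs.sec.sg r ▸ nt_mon μ (hn r)
  have a2 := ok.le_int hp μ (hs.int r)
  have a3 : ‖re μ (s r) 0 1‖ = 1 := norm_red (a2 0 1) fun h => det_ne ok hp μ (hs.int r) (by
    simp [det_fin_two, h, (a1.2 h0).1, CH.red_zero])
  have a4 := norm_ne_zero_iff.1 (a3 ▸ one_ne_zero)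
  have a5 := norm_ne_zero_iff.1 (h2 ▸ one_ne_zero)
  have kf := fun x => ok.kf hp μ (x := x)
  have a6 := div_mem ((kf _).2 h1) (re_mem (ok.sp hp io) (s r) 0 1)
  obtain ⟨z, z1, z2⟩ := hT _ ((kf _).1 a6) (by rw [norm_div, h2, a3, div_one])
  have z3 : Ru z := Pu.ru z1
  obtain ⟨s', b1, b2⟩ := twist ok ck hs hn (c := fun d => if η d = 1 then 1 else z)
    (fun d => by split_ifs; exacts [⟨1, one_pos, one_pow 1⟩, z3]) (fun d d' => by
      rcases Int.units_eq_one_or (η d) with h | h <;>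
        rcases Int.units_eq_one_or (η d') with h' | h' <;> simp [h, h', cs_one, cs_neg, z3.cj])
    ⟨η.ker, hη, fun d hd => if_pos hd⟩
  have b3 : re μ (s' r) 0 1 = μ.zH z * re μ (s r) 0 1 := by
    rw [re_tw μ (b2 r).2, if_neg (by simp [h0])]
    simp [Em.dg, Em.zH_apply]
  have b4 : ∀ d, Mo (η d.1) (re μ (s' d)) := fun d => b1.sec.sg d ▸ nt_mon μ (b2 d).1
  refine ⟨s', re μ (s' r) 0 1 / W r 0 1, b1, (kf _).1 (div_mem (re_mem (ok.sp hp io) _ _ _)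
    ((kf _).2 h1)), ?_, fun d => ⟨(b2 d).1, mono_match (η.comp Γ.subtype)
      (a := fun d => re μ (s' d)) (fun a b => by rw [map_mul, re_mul]) mul (fun d h => ?_) h0
      (h0 ▸ b4 r) mo (by rw [re_eps, b1.sec.sg, det]) (det ▸ CH.eps_ne _) d, fun h => ?_⟩⟩
  · rw [b3, show μ.zH z * re μ (s r) 0 1 / W r 0 1 - 1 = -(W r 0 1 / re μ (s r) 0 1 - μ.z0 z) *
      (re μ (s r) 0 1 / W r 0 1) by rw [← Em.zH_apply]; field_simp; ring, norm_mul, norm_div, a3,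
      h2, norm_neg]
    simpa using z2
  · have h' : η d = 1 := h
    have e' : re μ (s' d) = W d := by rw [e d h, re_tw μ (b2 d).2, if_pos h', dg_one, one_mul]
    exact ⟨e', e' ▸ h' ▸ b4 d⟩
  · rw [(b2 d).2, if_pos h, l0_one, am_one, one_mul]

/-- ordinary Weil numbers in `L0` -/
theorem wn_l0 {ν : Em D Qb} (cj : ∀ c, IsConj c → ∀ z, ν.z0 (D.cj z) = c (ν.z0 z)) {a : D.L0}
    (h : Wn l (ν.z0 a)) : IsIntegral ℤ a ∧ a * D.cj a = l ∧
      ∀ [Fact l.Prime] (f : D.L0 →+* Cp l), ‖f (a + D.cj a)‖ = 1 := by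
  obtain ⟨c, hc⟩ := Fld.ex_conj
  have h1 : IsIntegral ℤ a := (isIntegral_algHom_iff ν.zH.toIntAlgHom ν.zH.injective).1 h.int
  have h2 := h1.add (Sc.cj_int h1)
  refine ⟨h1, ν.zH.injective ?_, fun f => (Dat.norm_int f h2).antisymm (not_lt.1 fun n => ?_)⟩
  · rw [map_mul, map_natCast, Em.zH_apply, Em.zH_apply, cj c hc, h.nrm c hc]
  let ι : Qb →+* Cp l := (IsAlgClosed.lift : Qb →ₐ[ℚ] Cp l)
  obtain ⟨σ, h3⟩ := Fld.exists_gal ν.zH f ι
  obtain ⟨P, h4⟩ := MB.exists_emb' (ι.toRatAlgHom.comp σ)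
  refine h.ord c hc P h4.ov ⟨⟨ν.zH _, h2.map ν.zH.toIntAlgHom⟩, (h4 _).2 (h3 _ ▸ n), ?_⟩
  rw [← cj c hc]
  exact map_add ν.zH _ _

end Vale.Agent.P022K.PM.Lpl
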