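import Vale.Agent.P022K.PM.Inds
import Vale.Agent.P022K.PM.St2
import Vale.Agent.P022K.PM.Fld0
import Vale.Agent.P022K.CH.Eps

/-!
# P022K / PM: the local points of induced type (helper44)
-/

set_option autoImplicit false

open NumberField Matrix

noncomputable section

namespace Vale.Agent.P022K.PM

open Vale.Agent.P022 Vale.Agent.P010MR Vale.Agent.P010MT8
open Vale.Agent.P022.H443 (inP)
open Vale.Agent.P022D.W (dec)
open Vale.Agent.P022E.GW (Ov Fb)
open Vale.Agent.P022K.CH (Cp Kp Id red eps)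
open Vale.Agent.P022K.CH.Weil (fb_zero fb_add fb_pow fb_div fb_conj)
open Vale.Agent.P022K.Top (GI iC Rp Rd Urc)
open Vale.Agent.P022K.TP hiding Cn Ty
open QD Sc

/-- **LPL** in the induced case -/
def LPN : Prop := AllR fun {p} _ ι ρ => ∀ l P V y et ζ ζ' u u' (n : ℕ), Ov l P → l ≠ p →
  Rp (dec P) V → Rd (dec P) V ρ → Ct0 P V y et ζ ζ' u u' → (∃ g ∈ dec P, et g = -1) →
  Ev ι ρ fun q _ ι' C =>
    l ≠ q → (∀ g ∈ dec P, C.η g = et g) → ∃ (x : MP C.D C.η) (s : dec P →* EE C.D C.η),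
      C.Pt ι ι' ρ x s ∧ (∃ z : GI p, Top.rd z = 1 ∧ ∀ d : dec P, Le ((iC (V d)).val -
        (iC z⁻¹).val * re (C.ν.map ι) (s d) * (iC z).val) (‖(p : Cp p)‖ ^ n)) ∧
      ∀ d : dec P, d.1 ∈ inP P → et d = 1 → ζ d = 1 → (re (C.ν.map ι') (s d)).trace = 2

namespace Lpn

variable {p l : ℕ} [Fact p.Prime] {P : Id}

theorem z0_map {D : QD} {C C' : Type} [Field C] [Field C'] (ν : Em D C) (f : C →+* C') (z : D.L0) :
    (ν.map f).z0 z = f (ν.z0 z) := by simp [Em.z0, Em.la, Em.map]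

open Classical in
theorem ex_root (ι : Qb →+* Cp p) {n : ℕ} (hn : 0 < n) (c : ℚ) {a : Cp p} (h : a ^ n = c) :
    ∃ b ∈ (Polynomial.nthRoots n (c : Qb)).toFinset, ι b = a := by
  have h1 : a ∈ (Polynomial.nthRoots n (c : Qb)).map ι := by
    rw [Polynomial.nthRoots, ← (IsAlgClosed.splits _).roots_map]
    simpa [Polynomial.X_pow_sub_C_ne_zero hn, sub_eq_zero, -eq_ratCast] using h
  simpa using h1

theorem urc_fb {u : GQ → Cp p} (h : Urc P u) (hP : Ov l P) {φ d : GQ} (hφ : Fb (l ^ 1) P φ) {k : ℕ}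
    (hd : Fb (l ^ k) P d) : u d = u φ ^ k := by
  have h1 := CH.Weil.fb_dec hP hφ
  have h2 : ∀ k, u (φ ^ k) = u φ ^ k := fun k => by
    induction k with
    | zero => simpa using h.ine 1 (one_mem _)
    | succ k ih => rw [pow_succ, h.mul _ (pow_mem h1 k) _ h1, ih, pow_succ]
  have h3 := fb_div hP (fb_pow hP hφ k) ((one_mul k).symm ▸ hd)
  rw [← mul_inv_cancel_left (φ ^ k) d, h.mul _ (pow_mem h1 k) _ (P022D.W.inP_le_dec h3),
    h.ine _ h3, mul_one, h2]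

variable {D : QD} {η : GQ →* ℤˣ} {j : Qb →+* ℂ} {x : MP D η} {θ : D.L0} {N : ℕ}

/-- the point in the monomial frame -/
theorem core (gl : ∀ σ, ∃ e : EE D η, sg e = σ ∧ Nt e ∧ x.Fx j e) (ok : D.Ok N) (hp : p ∣ N)
    (ck : x.Ck θ) (hη : IsOpen {g | η g = 1}) (hP : Ov l P) (hl : l ≠ p) {μ : Em D (Cp p)}
    (io : μ.ι ∈ c0 μ) (hT : TEI μ) {V y ζ ζ' u u'} (hV : Rp (dec P) V)
    (h : Ct0 P V y η ζ ζ' u u') (ex : ∃ g ∈ dec P, η g = -1)
    (h1 : ∀ g ∈ dec P, ∃ z, μ.z0 z = ζ g) (h2 : ∀ a : Cp p, a ^ 2 = l → ∃ z, μ.z0 z = a) :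
    ∃ (s : dec P →* EE D η) (t : Cp p), Lp j x s ∧ t ∈ c0 μ ∧ ‖t - 1‖ < 1 ∧ ∀ d : dec P,
      Nt (s d) ∧ re μ (s d) * diagonal ![t, 1] = diagonal ![t, 1] * (y * iC (V d) * y⁻¹).val ∧
      (d.1 ∈ inP P → η d = 1 → ζ d = 1 → Rat l (s d) (D.l0 1)) := by
  classical
  obtain ⟨g, g1, g2⟩ := ex
  obtain ⟨ρ, m, r1, r2⟩ := ex_rho hη hP g1 g2
  have r3 := CH.Weil.fb_dec hP r1
  obtain ⟨φ, f0⟩ := P022D.W.exists_phi hP.1 hP.2.1 hP.2.2
  have f1 : Fb (l ^ 1) P φ := (pow_one l).symm ▸ f0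
  have f2 := CH.Weil.fb_dec hP f1
  have ue := h.eq ⟨g, g1, g2⟩
  have u0 : ∀ g ∈ dec P, u g ≠ 0 := fun g hg => norm_ne_zero_iff.1 (h.ur.nrm g hg ▸ one_ne_zero)
  obtain ⟨w, hw⟩ := h2 (u φ) (by rw [sq, ← CH.eps_frob hP hl f0, ← h.uu φ f2, ← ue φ f2])
  have w1 : w ^ 2 = l := μ.zH.injective (by
    rw [map_pow, map_natCast, μ.zH_apply, hw, sq, ← CH.eps_frob hP hl f0, ← h.uu φ f2, ← ue φ f2])
  have w2 : D.cj w = w := mul_left_cancel₀ (a := w) (fun e => hP.1.ne_zero (by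
    simpa [e] using w1.symm)) (by rw [(sq_int (.inl w1)).2, ← sq, w1])
  have w3 : ∀ {k d}, Fb (l ^ k) P d → μ.zH w ^ k = u d := fun hd => by
    rw [urc_fb h.ur hP f1 hd, μ.zH_apply, hw]
  choose! c hc using h1
  replace hc : ∀ g ∈ dec P, μ.zH (c g) = ζ g := hc
  obtain ⟨n, n0, n1⟩ := h.fin
  have c1 : ∀ d ∈ dec P, Ru (c d) := fun d hd =>
    ⟨n, n0, μ.zH.injective (by rw [map_pow, hc d hd, (n1 d hd).1, map_one])⟩
  have z0 : ∀ d ∈ dec P, ζ d ≠ 0 := fun d hd e => by simpa [e, n0.ne'] using (n1 d hd).1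
  have c6 : ∀ d ∈ dec P, η d = 1 → μ.zH (D.cj (c d)) = ζ' d := fun d hd e =>
    mul_left_cancel₀ (z0 d hd) (by
      rw [h.det d hd, e, ← hc d hd, ← map_mul, (c1 d hd).cj, map_one]; simp)
  let W : GQ → M2 (Cp p) := fun g => (y * iC (V g) * y⁻¹).val
  have W1 : ∀ a ∈ dec P, ∀ b ∈ dec P, W (a * b) = W a * W b := fun a ha b hb => by
    simp only [W, hV.mul a ha b hb, map_mul, ← Units.val_mul]
    congr 1
    group
  have dg : ∀ g ∈ dec P, η g = 1 → W g = _ := h.dg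
  have an : ∀ g ∈ dec P, η g = -1 → W g = _ := h.an
  obtain ⟨s0, a1, a2, a3⟩ := inds gl ok ck hη hP r1 r2 (.inl w1) c (fun d hd _ => c1 d hd)
    (fun d hd d' hd' e e' => μ.zH.injective (by
      have := congrFun (congrFun (W1 d hd d' hd') 0) 0
      rw [dg _ (mul_mem hd hd') (by simp [e, e']), dg d hd e, dg d' hd' e'] at this
      simp only [mul_apply, Fin.sum_univ_two, of_apply, cons_val', cons_val_zero, cons_val_one,
        cons_val_fin_one, h.ur.mul d hd d' hd'] at this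
      rw [map_mul, hc _ (mul_mem hd hd'), hc d hd, hc d' hd']
      exact mul_right_cancel₀ (mul_ne_zero (u0 d hd) (u0 d' hd')) (by linear_combination this)))
    (h.opn.imp fun U hU => ⟨hU.1, fun d hd _ => μ.zH.injective (by
      rw [hc d hd.2, (hU.2 d hd).2.1, map_one])⟩)
    (fun k d e hf => μ.zH.injective (by
      have hd := CH.Weil.fb_dec hP hf
      have h5 := CH.Weil.fb_dec hP (fb_conj r3 hf)
      have := W1 _ h5 ρ r3
      rw [inv_mul_cancel_right, W1 ρ r3 d hd, dg _ h5 (by simp [e]), dg d hd e, an ρ r3 r2] at this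
      have := congrFun (congrFun this 0) 1
      simp only [mul_apply, Fin.sum_univ_two, of_apply, cons_val', cons_val_zero, cons_val_one,
        cons_val_fin_one, ← ue d hd, ← w3 hf, ← w3 (fb_conj r3 hf)] at this
      rw [map_mul D.cj, map_pow, w2, map_mul, map_mul, hc _ h5, c6 d hd e, map_pow]
      exact mul_right_cancel₀ (mul_ne_zero (z0 ρ r3) (u0 ρ r3)) (by linear_combination -this)))
    (μ.zH.injective (by
      have := W1 ρ r3 ρ r3
      rw [dg _ (mul_mem r3 r3) (by simp [r2]), an ρ r3 r2] at this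
      have := congrFun (congrFun this 0) 0
      have h5 := h.det ρ r3
      simp only [mul_apply, Fin.sum_univ_two, of_apply, cons_val', cons_val_zero, cons_val_one,
        cons_val_fin_one, ← ue ρ r3, ← w3 r1, ← w3 (fb_add hP r1 r1)] at this
      rw [map_mul, hc _ (mul_mem r3 r3), map_pow, this, map_neg, ← w1, ← pow_mul, map_pow, pow_mul']
      rw [r2] at h5
      simp only [Units.val_neg, Units.val_one, Int.cast_neg, Int.cast_one] at h5
      linear_combination (μ.zH w ^ m) ^ 2 * h5))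
  have kf := fun a => ok.kf hp μ (x := a)
  have b1 : ∀ {e : EE D η}, Nt e → sg e = ρ → Gr.Mo (-1) (re μ e) ∧ ‖re μ e 0 1‖ = 1 :=
    fun {e} a b => by
      have h5 := Gr.nt_mon μ a
      rw [b, r2] at h5
      have h6 := congrArg norm (re_eps μ e)
      have h7 := ok.le_int hp μ a.1
      rw [det_fin_two, (h5.2 rfl).1, zero_mul, zero_sub, norm_neg, norm_mul, norm_eps] at h6
      exact ⟨h5, by nlinarith [h7 0 1, h7 1 0, norm_nonneg (re μ e 0 1)]⟩
  have b2 := (b1 (a2 ⟨ρ, r3⟩) (a1.sec.sg _)).2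
  have b3 : ‖ζ ρ * u ρ‖ = 1 := by
    rw [norm_mul, h.ur.nrm ρ r3, Ti.norm_ru ⟨n, n0, (n1 ρ r3).1⟩, mul_one]
  have b4 : ζ ρ * u ρ ∈ μ.Kf := by
    rw [← hc ρ r3, ← w3 r1, ← map_pow, ← map_mul, kf, ← (val D η N p ok hp μ io).2.1]
    exact subset_closure ⟨_, rfl⟩
  obtain ⟨z, z1, z2⟩ := hT (ζ ρ * u ρ / re μ (s0 ⟨ρ, r3⟩) 0 1)
    ((kf _).1 (div_mem b4 (re_mem (ok.sp hp io) _ _ _))) (by rw [norm_div, b2, b3, div_one])
  have z3 := Ti.Pu.ru z1
  have k : (-1 : ℤˣ) ≠ 1 := by decide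
  obtain ⟨s, s1, s2⟩ := twist ok ck a1 a2 (c := fun d => if η d = 1 then 1 else z)
    (fun d => by split_ifs; exacts [⟨1, one_pos, one_pow 1⟩, z3]) (fun d d' => by
      rcases Int.units_eq_one_or (η d) with e | e <;>
        rcases Int.units_eq_one_or (η d') with e' | e' <;>
        simp [e, e', k, cs_one, cs_neg, z3.cj]) ⟨η.ker, hη, fun d hd => if_pos hd⟩
  have s3 : ∀ d : dec P, η d = 1 → s d = s0 d := fun d e =>
    ext_EE ((s1.sec.sg d).trans (a1.sec.sg d).symm) (by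
      rw [(s2 d).2, if_pos e, l0_one, am_one, one_mul])
  have s4 : ∀ d : dec P, η d = 1 → re μ (s d) = W d := fun d e => by
    let i := Subgroup.inclusion (inf_le_left : dec P ⊓ η.ker ≤ dec P)
    have i1 : Continuous i := continuous_subtype_val.subtype_mk _
    refine congrFun (Continuous.ext_on (weil_ext hP (V := η.ker) hη inf_le_left le_rfl)
      (f := fun d => re μ (s (i d))) (g := fun d => W d)
      (Units.continuous_val.comp ((s1.sec.cont μ).comp i1)) (Units.continuous_val.comp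
        ((continuous_const.mul (hV.cont.domRestrict.comp i1)).mul continuous_const))
      fun d ⟨k, hk⟩ => ?_) ⟨d, d.2, e⟩
    change re μ (s (i d)) = W d
    rw [s3 (i d) d.2.2, re_rat μ (a3 k (i d) d.2.2 hk) hl.symm, dg _ d.2.1 d.2.2, ← ue _ d.2.1,
      ← w3 hk, ← hc _ d.2.1, ← c6 _ d.2.1 d.2.2, map_mul D.cj, map_pow, w2]
    ext a b
    fin_cases a <;> fin_cases b <;> simp [← Em.zH_apply] <;> exact .inl rfl
  have s5 : re μ (s ⟨ρ, r3⟩) 0 1 = μ.z0 z * re μ (s0 ⟨ρ, r3⟩) 0 1 := by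
    rw [re_tw μ (s2 _).2, if_neg (r2 ▸ k), Em.dg, diagonal_mul]; rfl
  have s6 : W ρ 0 1 = ζ ρ * u ρ := by rw [an ρ r3 r2]; rfl
  have W2 : (W ρ).det = eps p ρ := by
    simp only [W, Units.val_mul, det_mul, hV.det ρ r3]
    rw [mul_right_comm, ← det_mul, ← Units.val_mul, mul_inv_cancel, Units.val_one, det_one, one_mul]
  refine ⟨s, re μ (s ⟨ρ, r3⟩) 0 1 / W ρ 0 1, s1,
    (kf _).1 (div_mem (re_mem (ok.sp hp io) _ _ _) (s6 ▸ b4)), ?_, fun d => ⟨(s2 d).1,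
    mono_match (η.comp (dec P).subtype) (a := fun d => re μ (s d)) (b := fun d => W d)
      (fun a b => by rw [map_mul, re_mul]) (fun a b => W1 a a.2 b b.2)
      (fun d e => ⟨s4 d e, by rw [dg d d.2 e]; simp [Gr.Mo]⟩) (ρ := ⟨ρ, r3⟩) r2
      (b1 (s2 _).1 (s1.sec.sg _)).1 (by rw [an ρ r3 r2]; simp [Gr.Mo])
      (by rw [re_eps, s1.sec.sg, W2]) (norm_ne_zero_iff.1 (by rw [W2, norm_eps]; simp)) d,
    fun h5 h6 h7 => ?_⟩⟩
  · rw [div_sub_one (norm_ne_zero_iff.1 (s6 ▸ b3 ▸ one_ne_zero)), norm_div, s6, b3, div_one, s5,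
      norm_sub_rev, ← div_mul_cancel₀ (ζ ρ * u ρ) (norm_ne_zero_iff.1 (b2 ▸ one_ne_zero)), ← sub_mul,
      norm_mul, b2, mul_one]
    exact z2
  · have := a3 0 d h6 (fb_zero.2 h5)
    rwa [pow_zero, mul_one, μ.zH.injective ((hc d d.2).trans (h7.trans (map_one _).symm)),
      ← s3 d h6] at this

end Lpn

open Lpn

/-- **LPN** -/
theorem lpn : LPN := fun p _ ι ρ _ l P V y et ζ ζ' u u' n hP hl hV hr h ex => by
  classical
  obtain ⟨m, m0, m1⟩ := h.fin
  obtain ⟨δ, hδ⟩ := IsAlgClosed.exists_pow_nat_eq y.val.det two_pos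
  refine ⟨insert δ (Finset.univ.image fun i : Fin 2 × Fin 2 => y.val i.1 i.2),
    (Polynomial.nthRoots m ((1 : ℚ) : Qb)).toFinset ∪
      (Polynomial.nthRoots 2 ((l : ℚ) : Qb)).toFinset, fun b hb => ?_,
    fun q _ ι' C ok has hq he => ?_⟩
  · simp only [Finset.mem_union, Multiset.mem_toFinset, Polynomial.mem_nthRoots m0,
      Polynomial.mem_nthRoots two_pos] at hb
    exact hb.elim (fun e => Fld.cmn_root m0.ne' (e.trans Rat.cast_one)) Fld.cmn_sqrt
  obtain ⟨θ, x, ck, gl⟩ := ok.gl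
  have h' : Ct0 P V y C.η ζ ζ' u u' := ⟨fun g _ k _ => map_mul _ g k,
    fun g a b => h.dg g a (he g a ▸ b), fun g a b => h.an g a (he g a ▸ b),
    h.opn.imp fun U b => ⟨b.1, fun g a => he g a.2 ▸ b.2 g a⟩, h.fin, fun g a => he g a ▸ h.det g a,
    h.ur, h.ur', h.uu, fun _ => h.eq ex⟩
  obtain ⟨s, t, s1, t1, t2, s2⟩ := core gl ok.lv.ok ok.lv.hp ck ok.lv.eta hP hl ok.lv.io ok.tei hV h'
    (ex.imp fun g a => ⟨a.1, (he g a.1).trans a.2⟩) (fun g hg => by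
      obtain ⟨b, b1, b2⟩ := ex_root ι m0 1 ((m1 g hg).1.trans Rat.cast_one.symm)
      exact (has.2 b (Finset.mem_union_left _ b1)).imp fun z e => by rw [z0_map, e, b2])
    fun a ha => by
      obtain ⟨b, b1, b2⟩ := ex_root ι two_pos l (ha.trans (Rat.cast_natCast l).symm)
      exact (has.2 b (Finset.mem_union_right _ b1)).imp fun z e => by rw [z0_map, e, b2]
  have kf := fun a => ok.lv.ok.kf ok.lv.hp (C.ν.map ι) (x := a)
  have d0 : δ ^ 2 ≠ 0 := hδ ▸ y.det_ne_zero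
  have t0 : t ≠ 0 := fun e => by simp [e] at t2
  have g1 : (diagonal ![t, 1] * y.val).det = t * δ ^ 2 := by simp [hδ, Fin.prod_univ_two]
  have g2 : ∀ d : dec P, (diagonal ![t, 1] * y.val)⁻¹ * re (C.ν.map ι) (s d) *
      (diagonal ![t, 1] * y.val) = (iC (V d)).val := fun d => by
    rw [mul_assoc, ← mul_assoc (re _ _), (s2 d).2.1, mul_assoc, ← Units.val_mul,
      inv_mul_cancel_right, Units.val_mul, ← mul_assoc (diagonal _), ← mul_assoc,
      nonsing_inv_mul _ (g1 ▸ mul_ne_zero t0 d0).isUnit, one_mul]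
  obtain ⟨x', s', z, a1, a2, a3⟩ := frame ok.lv s1
    (fun d => s1.sec.sg d ▸ (Gr.nt_mon _ (s2 d).1).mon) (g := diagonal ![t, 1] * y.val)
    (fun i k => (kf _).1 (by
      rw [diagonal_mul]
      refine mul_mem ?_ ((kf _).2 (has.1 _ (Finset.mem_insert_of_mem
        (Finset.mem_image.2 ⟨(i, k), Finset.mem_univ _, rfl⟩))))
      fin_cases i
      exacts [(kf _).2 t1, one_mem _])) (has.1 δ (Finset.mem_insert_self _ _))
    (by rwa [g1, mul_div_cancel_right₀ _ d0])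
    (fun d i k => by rw [g2]; exact CH.mem_op.1 ((V d).val i k).2) fun d => by
      rw [g2, ← hr d d.2]
      exact Matrix.ext fun i k => CH.red_coe _
  refine ⟨x', s', ⟨a1, fun d => (a3 d).1⟩, ⟨z, a2, fun d i k => ?_⟩, fun d b1 b2 b3 => ?_⟩
  · rw [map_inv, show (iC z)⁻¹.val * _ * (iC z).val = _ from (a3 d).2.1.trans (g2 d), sub_self]
    simp
  · rw [re, (a3 d).2.2 (pp q) ok.lv.ne.symm, ← re,
      re_rat _ ((s2 d).2.2 b1 ((he d d.2).trans b2) b3) hq.symm]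
    simp [← Em.zH_apply, one_add_one_eq_two]

end Vale.Agent.P022K.PM
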