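import Vale.Agent.P022K.PM.Frame2

/-!
# P022K / PM: the point at `p`, triangular case: lemmas (helper22)
-/

open NumberField Matrix

noncomputable section

namespace Vale.Agent.P022K.PM.Lrr

open Vale.Agent.P022
open Vale.Agent.P022K.CH (Cp Kp Op red eps red_eq_iff red_add red_mul red_one red_zero)
open Gr Ti

/-- unipotent matrices of finite order -/
theorem uni {K : Type} [Field K] [CharZero K] {a : M2 K} (h1 : a.trace = 2) (h2 : a.det = 1) {m : ℕ}
    (hm : 0 < m) (h : a ^ m = 1) : a = 1 := by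
  have e : (a - 1) * (a - 1) = 0 := by
    rw [trace_fin_two] at h1
    rw [det_fin_two] at h2
    ext i k
    fin_cases i <;> fin_cases k <;> simp [mul_apply]
    · linear_combination (a 0 0) * h1 - h2
    · linear_combination (a 0 1) * h1
    · linear_combination (a 1 0) * h1
    · linear_combination (a 1 1) * h1 - h2
  have e2 : ∀ n : ℕ, a ^ n = 1 + (n : K) • (a - 1) := fun n => by
    induction n with
    | zero => simp
    | succ n ih =>
      rw [pow_succ, ih, add_mul, smul_mul_assoc, show (a - 1) * a = (a - 1) * (a - 1) + (a - 1) by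
        noncomm_ring, e, one_mul]
      push_cast
      module
  rw [e2, add_eq_left, smul_eq_zero] at h
  exact sub_eq_zero.1 (h.resolve_left (Nat.cast_ne_zero.2 hm.ne'))

variable {p : ℕ} [Fact p.Prime]

theorem norm_comb {a b u v : Cp p} (ha : ‖a‖ ≤ 1) (h : ‖a‖ * ‖b‖ < 1)
    (h1 : ‖a + b‖ = 1) (hu : ‖u‖ = 1) (hv : ‖v‖ = 1) : ‖u * a + v * b‖ = 1 := by
  have h2 : ‖a‖ ≠ ‖b‖ := fun e => by
    have := IsUltrametricDist.norm_add_le_max a b
    rw [← e, max_self, h1] at this
    rw [← e, ha.antisymm this] at h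
    simp at h
  rw [IsUltrametricDist.norm_add_eq_max_of_norm_ne_norm h2] at h1
  rw [IsUltrametricDist.norm_add_eq_max_of_norm_ne_norm (by simpa [hu, hv] using h2)]
  simpa [hu, hv] using h1

theorem tri_conj {K : Type} [Field K] {w : M2 K} (h : w 1 0 = 0) (x : K) {t : K} (ht : t ≠ 0) :
    (!![1, -x; 0, t] : M2 K)⁻¹ * w * !![1, -x; 0, t] =
      !![w 0 0, t * w 0 1 + x * (w 1 1 - w 0 0); 0, w 1 1] := by
  rw [inv_eq_left_inv (B := !![1, x / t; 0, 1 / t]) (by
    ext i k
    fin_cases i <;> fin_cases k <;> simp [mul_apply, ht])]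
  ext i k
  fin_cases i <;> fin_cases k <;> simp [mul_apply, vecMul, dotProduct, h] <;> field_simp
  ring

/-- the lattice -/
theorem tri_red {w : M2 (Cp p)} {r : M2 (Kp p)} {b : Cp p} (h : w 1 0 = 0) (hr : r 1 0 = 0)
    (h1 : ‖w.det‖ = 1) (h2 : r.det = red w.det) (h3 : ‖b‖ ≤ 1) (h4 : red b = r 0 1)
    (h5 : red (w 1 1) = r 1 1) :
    Le !![w 0 0, b; 0, w 1 1] 1 ∧ (!![w 0 0, b; 0, w 1 1] : M2 (Cp p)).map red = r := by
  have a0 : red w.det ≠ 0 := fun e => by
    rw [← red_zero, red_eq_iff h1.le (by simp), sub_zero, h1] at e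
    exact e.false
  rw [det_fin_two, h, mul_zero, sub_zero] at h1 a0
  rw [det_fin_two, det_fin_two, h, hr, mul_zero, mul_zero, sub_zero, sub_zero] at h2
  have a1 : r 1 1 ≠ 0 := right_ne_zero_of_mul (h2 ▸ a0)
  have a2 : ‖w 1 1‖ ≤ 1 := by
    by_contra e
    exact a1 (h5.symm.trans (dif_neg fun e' => e (CH.mem_op.1 e')))
  have a3 := norm_red a2 (h5 ▸ a1)
  rw [norm_mul, a3, mul_one] at h1
  rw [red_mul h1.le a2, h5, mul_left_inj' a1] at h2
  refine ⟨fun i k => ?_, ?_⟩
  · fin_cases i <;> fin_cases k <;> simp [h1, a3, h3]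
  · ext i k
    fin_cases i <;> fin_cases k <;> simp [h2, h4, h5, hr, red_zero]

theorem le_gl (h : GL (Fin 2) (Op p)) : Le (GeneralLinearGroup.map (Op p).subtype h).val 1 :=
  fun i k => CH.mem_op.1 (h i k).2

theorem red_gl (h : GL (Fin 2) (Op p)) : (GeneralLinearGroup.map (Op p).subtype h).val.map red =
    (GeneralLinearGroup.map (IsLocalRing.residue (Op p)) h).val :=
  Matrix.ext fun _ _ => CH.red_coe _

theorem mem_inv {K : Type} [Field K] (F : Subfield K) {a : M2 K} (h : ∀ i k, a i k ∈ F) (i k) :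
    a⁻¹ i k ∈ F := by
  rw [Matrix.inv_def, Ring.inverse_eq_inv', Matrix.smul_apply, det_fin_two, adjugate_fin_two]
  refine mul_mem (inv_mem (sub_mem (mul_mem (h _ _) (h _ _)) (mul_mem (h _ _) (h _ _)))) ?_
  fin_cases i <;> fin_cases k <;> simp [h]

theorem mem_mul {K : Type} [Field K] (F : Subfield K) {a b : M2 K} (h : ∀ i k, a i k ∈ F)
    (h' : ∀ i k, b i k ∈ F) (i k) : (a * b) i k ∈ F := by
  rw [mul_apply]
  exact sum_mem fun l _ => mul_mem (h _ _) (h' _ _)

/-- a power lies in a given open subgroup -/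
theorem ex_pow {U : Subgroup GQ} (hU : IsOpen (U : Set GQ)) (g : GQ) : ∃ m, 0 < m ∧ g ^ m ∈ U := by
  have := Subgroup.quotient_finite_of_isOpen U hU
  obtain ⟨m, h1, -, h2⟩ := U.exists_pow_mem_of_index_ne_zero Subgroup.index_ne_zero_of_finite g
  exact ⟨m, h1, h2⟩

end Vale.Agent.P022K.PM.Lrr
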