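import Vale.Agent.P022K.PM.Lpl
import Vale.Agent.P022K.PM.Lpq

/-!
# P022K / PM: the base point at `p` in the triangular case (helper44)
-/

set_option autoImplicit false

open NumberField Matrix

noncomputable section

namespace Vale.Agent.P022K.PM.Lr

open Vale.Agent.P022
open Vale.Agent.P022.H443 (inP)
open Vale.Agent.P022D.W (dec)
open Vale.Agent.P022E.GW (Ov Fb)
open Vale.Agent.P022K.CH (Cp Kp Id red eps)
open Vale.Agent.P022K.CH.Weil (fb_zero)
open Vale.Agent.P022K.Top (UU)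
open QD Lpl Lpq

/-- a matrix of finite order is killed by the order of its eigenvalues -/
theorem fin2 {K : Type} [Field K] [CharZero K] {M : M2 K} {a b : K} (ht : M.trace = a + b)
    (hd : M.det = a * b) {m n : ℕ} (m0 : 0 < m) (hm : M ^ m = 1) (ha : a ^ n = 1)
    (hb : b ^ n = 1) : M ^ n = 1 := by
  have ch : M * M = (a + b) • M - (a * b) • (1 : M2 K) := by
    rw [← ht, ← hd]
    ext i k
    fin_cases i <;> fin_cases k <;> simp [mul_apply, trace_fin_two, det_fin_two] <;> ring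
  have H : ∀ k : ℕ, ∃ g : K, M ^ k = a ^ k • (1 : M2 K) + g • (M - a • 1) ∧
      (b - a) * g = b ^ k - a ^ k ∧ (a = b → a * g = k * a ^ k) := fun k => by
    induction k with
    | zero => exact ⟨0, by simp⟩
    | succ k ih =>
      obtain ⟨g, h1, h2, h3⟩ := ih
      refine ⟨a ^ k + g * b, ?_, by linear_combination b * h2, fun e => by
        push_cast; linear_combination b * h3 e - k * a ^ k * e⟩
      rw [pow_succ, h1, add_mul, smul_mul_assoc, smul_mul_assoc, sub_mul, ch, smul_mul_assoc]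
      simp only [one_mul]
      module
  obtain ⟨g, h1, h2, -⟩ := H n
  rw [h1, ha, one_smul, add_eq_left, smul_eq_zero]
  by_cases e : a = b
  · obtain ⟨g', h4, -, h5⟩ := H m
    have h6 := congrArg trace h4
    simp only [hm, trace_add, trace_smul, trace_sub, ht, ← e, trace_one, Fintype.card_fin,
      smul_eq_mul, Nat.cast_ofNat] at h6
    have h7 : a ^ m = 1 := by linear_combination -h6 / 2
    rw [hm, h7, one_smul, left_eq_add, smul_eq_zero] at h4
    refine .inr (h4.resolve_left fun e' => m0.ne' ?_)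
    simpa [e', h7] using (h5 e).symm
  · exact .inl ((mul_eq_zero.1 (h2.trans (by rw [ha, hb, sub_self]))).resolve_left
      (sub_ne_zero.2 (Ne.symm e)))

variable {p : ℕ} [hp : Fact p.Prime] {ι : Qb →+* Cp p} {ρ : GQ →* GL (Fin 2) (Kp p)} {P : Id}
  {ξ : GQ → Cp p} {α : Qb}

/-- the base point -/
structure Bp {q : ℕ} [Fact q.Prime] (C : Cx) (ι : Qb →+* Cp p) (ι' : Qb →+* Cp q)
    (ρ : GQ →* GL (Fin 2) (Kp p)) (P : Id) (ξ : GQ → Cp p) (α : Cp p) (x : MP C.D C.η)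
    (θ y : C.D.L0) (s : dec P →* EE C.D C.η) : Prop where
  ck : x.Ck θ
  lp : Lp C.j x s
  ta : ∀ d, uu (s d) ∈ TA C.D
  int : IsIntegral ℤ y
  nrm : y * C.D.cj y = p
  ty : ∀ φ, φ ∈ Ty C.j θ ↔ InP P (φ y)
  frb : ∀ d : dec P, Fb p P d → ∃ a : C.D.L0, Rat p (s d) (C.D.l0 a) ∧
    (C.ν.map ι).z0 (C.D.cj a) = ξ d * α ∧ ∀ f : C.D.L0 →+* Cp p, ‖f (a + C.D.cj a)‖ = 1
  atp : ∀ (x' : MP C.D C.η) (s' : dec P →* EE C.D C.η), Lp C.j x' s' →
    (∀ d : dec P, d.1 ∈ inP P ∨ Fb p P d →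
      (re (C.ν.map ι') (s' d)).trace = (re (C.ν.map ι') (s d)).trace) →
    (UU P ρ → ∀ g ∈ inP P, ξ g = 1) → Atp ι ι' (C.ν.map ι') ρ P s'

theorem ord_mul {D : QD} {y z : D.L0} (hy : IsIntegral ℤ y) (hn : y * D.cj y = p) (hz : Ru z)
    (h : ∀ f : D.L0 →+* Cp p, ‖f (y + D.cj y)‖ = 1) (f : D.L0 →+* Cp p) :
    ‖f (z * y + D.cj (z * y))‖ = 1 := by
  have n1 := Ti.norm_ru (ru_map hz f)
  have n2 := Ti.norm_ru (ru_map (ru_map hz D.cj) f)
  have e : ‖f y‖ * ‖f (D.cj y)‖ < 1 := by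
    rw [← norm_mul, ← map_mul, hn, map_natCast]; exact CH.norm_p_lt
  have h4 := IsUltrametricDist.norm_add_le_max (f y) (f (D.cj y))
  rw [← map_add, h, le_max_iff] at h4
  rw [map_add, map_mul D.cj, map_mul, map_mul]
  rcases h4.imp (Dat.norm_int f hy).antisymm (Dat.norm_int f (Sc.cj_int hy)).antisymm with a | a
  · exact norm_add1 (by rw [norm_mul, n1, a, one_mul])
      (by rw [norm_mul, n2, one_mul]; rwa [a, one_mul] at e)
  · rw [add_comm]
    exact norm_add1 (by rw [norm_mul, n2, a, one_mul])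
      (by rw [norm_mul, n1, one_mul]; rwa [a, mul_one] at e)

/-- **the base point** -/
theorem base (hC : CMET) (hP : Ov p P) (hξ : Fc P ξ) (hα : Wn p α) :
    Ev ι ρ fun _ _ ι' C => (∀ g ∈ dec P, C.η g = 1) →
      ∃ x θ y s, Bp C ι ι' ρ P ξ (ι α) x θ y s := by
  classical
  obtain ⟨m, m0, hm⟩ := hξ.fin
  refine (Ev.has ∅ (B := insert α (Polynomial.nthRootsFinset m 1)) fun b hb => ?_).mono
    fun q hq ι' C ok has h1 => ?_
  · simp only [Finset.mem_insert, Polynomial.mem_nthRootsFinset m0] at hb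
    rcases hb with rfl | hb
    exacts [hα.cm, Fld.cmn_root m0.ne' hb]
  have L := ok.lv
  let f : C.D.L0 →+* Cp p := (C.ν.map ι).zH.comp C.D.cj.toRingEquiv.toRingHom
  have ex : ∀ g : dec P, ∃ z, f z = ξ g := fun g => by
    obtain ⟨t, t1, t2⟩ := ex_root ι m0 (hm g g.2)
    obtain ⟨z, rfl⟩ := has.2 t (by simp [t1])
    refine ⟨C.D.cj z, ?_⟩
    change (C.ν.map ι).zH (C.D.cj (C.D.cj z)) = _
    rw [Sc.cj_cj]
    exact (z0_map _ _ _).trans t2
  choose c hc using ex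
  have c0 : ∀ d, c d ^ m = 1 := fun d => f.injective (by rw [map_pow, hc, hm d d.2, map_one])
  have c1 : ∀ d, Ru (c d) := fun d => ⟨m, m0, c0 d⟩
  obtain ⟨a, rfl⟩ := has.2 α (by simp)
  obtain ⟨b1, b2, b3⟩ := wn_l0 ok.cj hα
  have y1 := Sc.cj_int b1
  have y2 : C.D.cj a * C.D.cj (C.D.cj a) = p := by rw [Sc.cj_cj, mul_comm, b2]
  have y3 : ∀ f : C.D.L0 →+* Cp p, ‖f (C.D.cj a + C.D.cj (C.D.cj a))‖ = 1 := fun f => by
    rw [Sc.cj_cj, add_comm, b3]
  obtain ⟨θ, x, s0, ck, ty, a1, a2, a3⟩ := pss hC L.ok L.eta C.j hP h1 y1 y2 y3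
  obtain ⟨s, s1, s2⟩ := twist L.ok ck a1 (fun d => ⟨a1.int d, .inl ⟨by
    rw [a1.sec.sg, h1 d d.2], a2 d⟩⟩) c1 (fun d d' => by
      rw [h1 d d.2, cs_one]
      exact f.injective (by rw [map_mul, hc, hc, hc]; exact hξ.mul _ d.2 _ d'.2))
    (hξ.opn.imp fun U e => ⟨e.1, fun d hd => f.injective (by
      rw [hc, map_one]; exact e.2 d ⟨hd, d.2⟩)⟩)
  have r0 : ∀ k (d : dec P), Fb (p ^ k) P d → Rat p (s d) (C.D.l0 (c d * C.D.cj a ^ k)) :=
    fun k d h => C.D.l0_mul (c d) _ ▸ rat_tw (s2 d).2 (a3 k d h).1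
  have r1 : ∀ d : dec P, Fb p P d → Rat p (s d) (C.D.l0 (c d * C.D.cj a)) := fun d h => by
    simpa using r0 1 d ((pow_one p).symm ▸ h)
  have tr : ∀ {d z}, Rat p (s d) (C.D.l0 z) →
      (re (C.ν.map ι') (s d)).trace = (C.ν.map ι').zH (z + C.D.cj z) := fun h => by
    rw [h.re L.ne.symm, trace_diagonal, Fin.sum_univ_two, map_add]; rfl
  refine ⟨x, θ, _, s, ck, s1, fun d => by rw [(s2 d).2]; exact ta_mul (ta_l0 _) (a2 d),
    y1, y2, ty, fun d h => ⟨_, r1 d h, ?_, ord_mul y1 y2 (c1 d) y3⟩, fun x' s' l1 l2 l3 => ?_⟩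
  · rw [map_mul, Sc.cj_cj, ← Em.zH_apply, map_mul, ← hc, ← z0_map]; rfl
  have i0 : ∀ d : dec P, d.1 ∈ inP P →
      (re (C.ν.map ι') (s' d)).trace = (C.ν.map ι').zH (c d + C.D.cj (c d)) := fun d h => by
    rw [l2 d (.inl h), tr (r0 0 d (fb_zero.2 h)), pow_zero, mul_one]
  have p0 : (0 : ℝ) ≤ p := Nat.cast_nonneg p
  refine ⟨?_, .inr ?_, fun u d => ⟨fun h => ?_, fun h => ⟨_, (l2 d (.inr h)).trans
    ((tr (r1 d h)).trans (z0_map _ _ _)), z0_map C.ν ι _ ▸
      ord_mul y1 y2 (c1 d) y3 (C.ν.map ι).zH⟩⟩⟩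
  · obtain ⟨k, n, n1, rfl⟩ := Nat.exists_eq_pow_mul_and_not_dvd m0.ne' q hq.out.ne_one
    obtain ⟨U, hU, h4⟩ := iner C.D C.η C.j x' _ s' p P hP
      (by rw [Subgroup.subgroupOf_self]; simp) l1
    have c2 : ∀ d, c d ^ n = 1 := fun d => by_contra fun e => by
      have z1 : Ru (c d ^ n) := ⟨_, m0, by rw [← pow_mul, mul_comm, pow_mul, c0, one_pow]⟩
      have z2 := (Ti.norm_ru (ru_map z1 (C.ν.map ι').zH)).le
      have : ExpChar (Kp q) q := ExpChar.prime hq.out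
      refine ((CH.red_eq_iff z2 norm_one.le).1 ?_).ne ?_
      · rw [CH.red_one, ← pow_one (red _), ← ExpChar.pow_prime_pow_mul_eq_one_iff q k, mul_one,
          ← Sc.red_pow z2, ← map_pow, ← pow_mul, mul_comm, c0, map_one, CH.red_one]
      rw [← map_one (C.ν.map ι').zH, ← map_sub]
      refine ok.bq _ (z1.int.sub isIntegral_one) (sub_ne_zero.2 e) fun φ => ?_
      have h5 := norm_sub_le (φ (c d ^ n)) 1
      rw [Sc.norm_one z1.cj, NormOneClass.norm_one] at h5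
      rw [map_sub, map_one]
      nlinarith
    refine ⟨n, n1, fun d h => ?_⟩
    have := U.quotient_finite_of_isOpen hU
    obtain ⟨t, t0, -, t1⟩ := U.exists_pow_mem_of_index_ne_zero U.index_ne_zero_of_finite d.1
    refine fin2 ((i0 d h).trans (map_add _ _ _)) ?_ t0 ?_ (by rw [← map_pow, c2, map_one])
      (by rw [← map_pow, ← map_pow, c2, map_one, map_one])
    · rw [re_eps, l1.sec.sg, CH.eps_inert hP L.ne h, ← map_mul, (c1 d).cj, map_one]
    · refine (map_pow ((reH (C.ν.map ι')).comp s') d t).symm.trans ?_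
      exact (Rat.re L.ne.symm (C.ν.map ι') (a := 1)
        (C.D.l0_one ▸ h4 (d ^ t) ⟨t1, pow_mem h t⟩)).trans (Ti.dg_one _)
  · obtain ⟨φ, hφ⟩ := P022D.W.exists_phi hP.1 hP.2.1 hP.2.2
    let d : dec P := ⟨φ, fbd hP (k := 1) ((pow_one p).symm ▸ hφ)⟩
    have z1 := (c1 d).int.mul y1
    have z2 : ∀ ψ : C.D.L0 →+* ℂ, ‖ψ ((c d * C.D.cj a + C.D.cj (c d * C.D.cj a)) ^ 2)‖ ≤ 4 * p :=
      fun ψ => by
      have e := congrArg (fun a => ‖ψ a‖) y2
      simp only [map_mul, C.D.conj_cj ψ (C.D.cj a), norm_mul, Complex.norm_conj, map_natCast,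
        Complex.norm_natCast] at e
      have e' := norm_add_le (ψ (c d * C.D.cj a)) (ψ (C.D.cj (c d * C.D.cj a)))
      rw [← map_add, C.D.conj_cj ψ (_ * _), Complex.norm_conj, map_mul ψ, norm_mul,
        Sc.norm_one (c1 d).cj, one_mul] at e'
      rw [map_pow, norm_pow]
      nlinarith [norm_nonneg (ψ (c d * C.D.cj a + C.D.cj (c d * C.D.cj a)))]
    refine ⟨d, hφ, ?_⟩
    rw [l2 d (.inr hφ), tr (r1 d hφ), ← Nat.cast_add_one, ← map_natCast (C.ν.map ι').zH, ← map_pow,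
      ← map_pow, ← map_sub]
    refine ok.bq _ (((z1.add (Sc.cj_int z1)).pow 2).sub ((isIntegral_natCast _).pow 2))
      (sub_ne_zero.2 fun e => ?_) fun ψ => ?_
    · have := z2 (Classical.arbitrary _)
      rw [e, map_pow, norm_pow, map_natCast, Complex.norm_natCast, Nat.cast_add_one] at this
      have h2 : (2 : ℝ) ≤ p := by exact_mod_cast hp.out.two_le
      nlinarith
    · rw [map_sub]
      refine (norm_sub_le _ _).trans ?_
      have := z2 ψ
      rw [map_pow ψ ((p + 1 : ℕ) : C.D.L0), norm_pow (ψ _) 2, map_natCast, Complex.norm_natCast,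
        Nat.cast_add_one]
      nlinarith [sq_nonneg ((p : ℝ) - 1)]
  · rw [i0 d h, show c d = 1 from f.injective (by rw [hc, l3 u d h, map_one]), map_one,
      one_add_one_eq_two, map_ofNat]

end Vale.Agent.P022K.PM.Lr
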