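import Vale.Agent.P022K.PM.Cmp
import Vale.Agent.P022K.PM.Gtw
import Vale.Agent.P022K.PM.Kill
import Vale.Agent.P022K.PM.OutSt
import Vale.Agent.P022E.GW.Hyp

/-!
# P022K / PM: tools for the row `OUT`
-/

set_option autoImplicit false

open NumberField Matrix Pointwise

noncomputable section

namespace Vale.Agent.P022K.PM.Out

open Vale.Agent.P022
open Vale.Agent.P022.H443 (inP)
open Vale.Agent.P022D.W (dec inP_le_dec)
open Vale.Agent.P022E.GW (Ov Fb)
open Vale.Agent.P022K.CH (Cp Kp Op Id red eps mem_op red_coe red_eq_iff)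
open Vale.Agent.P022K.TP (Mn)
open Vale.Agent.P022K.Top (GI iC tc Rp)

variable {D : QD} {η : GQ →* ℤˣ} {j : Qb →+* ℂ} {p : ℕ} [Fact p.Prime] {M : ℕ}

section rig

variable {H : Subgroup GQ} {r : H →* EE D η} {y : MP D η} {l : ℕ} {Q : Id}

theorem mt_one (hy : Lp j y r) (hH : IsOpen (H : Set GQ)) (hQ : Ov l Q) {h : H}
    (hh : h.1 ∈ inP Q) (hp : p ≠ l) {μ : Em D (Cp p)} (ht : (re μ (r h)).trace = 2)
    {q : ℕ} [Fact q.Prime] (hq : q ≠ l) (ν : Em D (Cp q)) : re ν (r h) = 1 := by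
  have : Fact l.Prime := ⟨hQ.1⟩
  obtain ⟨v, hv, -, -, -, h1⟩ := exists_wl hQ
  exact Rh.eq (locg_one hv y (H.isClosed_of_isOpen hH) hy.sec hy.fx ((h1 0 _).2 (fb_one.2 hh)) hp
    μ ht (pp q) hq ▸ rh_one')

theorem fin_ord (hy : Lp j y r) (hH : IsOpen (H : Set GQ)) (hQ : Ov l Q) (hp : p ≠ l)
    (μ : Em D (Cp p)) : ∃ n, 0 < n ∧ ∀ h : H, h.1 ∈ inP Q → re μ (r h) ^ n = 1 := by
  have : Fact l.Prime := ⟨hQ.1⟩
  obtain ⟨v, hv, -, -, -, h1⟩ := exists_wl hQ
  obtain ⟨n, h0, hn⟩ := locg_ord hv y (H.isClosed_of_isOpen hH) hy.sec hy.fx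
  exact ⟨n, Nat.pos_of_ne_zero h0, fun h hh => ((re_rh μ (r h)).pow n).unq
    (hn h ((h1 0 _).2 (fb_one.2 hh)) (pp p) hp ▸ rh_one')⟩

/-- a deep level kills the inertia groups at all primes -/
theorem deep (hy : Lp j y r) (hH : IsOpen (H : Set GQ)) (μ : Em D (Cp p)) :
    ∃ V : Subgroup GQ, V.Normal ∧ IsOpen (V : Set GQ) ∧ ∀ l Q, Ov l Q → p ≠ l → ∀ h : H,
      h.1 ∈ V ⊓ inP Q → re μ (r h) = 1 := by
  obtain ⟨ε, h0, h⟩ := rig1 D p 1
  obtain ⟨N, h1, h2⟩ := hy.sec.near μ (half_pos h0)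
  have : Finite (GQ ⧸ N) := N.quotient_finite_of_isOpen h1
  have : N.FiniteIndex := N.finiteIndex_of_finite_quotient
  refine ⟨N.normalCore, inferInstance, Subgroup.isOpen_of_isClosed_of_finiteIndex _
    (N.normalCore_isClosed (N.isClosed_of_isOpen h1)), fun l Q hQ hp d hd => ?_⟩
  have : Fact l.Prime := ⟨hQ.1⟩
  obtain ⟨v, hv, -, -, -, h3⟩ := exists_wl hQ
  refine mt_one hy hH hQ hd.2 hp (μ := μ) (((h η j l 0 v y (r d) μ 2 hp (by simp) hv
    ((hy.sec.sg d).symm ▸ (h3 0 _).2 (fb_one.2 hd.2)) (hy.fx d) (hy.int d)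
    (isIntegral_natCast 2) (fun φ => by rw [map_ofNat]; norm_num) ?_).2 p hp μ).trans
    (map_ofNat _ 2)) hp μ
  have := (h2 d (N.normalCore_le hd.1)).trace
  rw [trace_sub, trace_one] at this
  rw [map_ofNat]
  exact (by simpa using this : _ ≤ ε / 2).trans_lt (half_lt_self h0)

end rig

/-- congruent Frobenius elements have the same traces -/
theorem tr_eq (D : QD) {q : ℕ} [Fact q.Prime] (ne : p ≠ q) (μ : Em D (Cp p)) (μ' : Em D (Cp q)) :
    ∃ m : ℕ, ∀ (η : GQ →* ℤˣ) (j : Qb →+* ℂ) (l k n : ℕ) (P : Id) (x x' : MP D η)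
      (c e e' : EE D η), Ov l P → l ^ k ≤ p + q → (p * q) ^ m ∣ n → Fb (l ^ k) P (sg e') →
      sg c * sg e * (sg c)⁻¹ = sg e' → x.Fx j e → x'.Fx j e' → Int e → Int e' →
      Mn n (uu (c * e * c⁻¹) - uu e') →
      ∀ (r : ℕ) [Fact r.Prime], r ≠ l → ∀ ν : Em D (Cp r), (re ν e).trace = (re ν e').trace := by
  obtain ⟨a, ha⟩ := rig_mn D p μ (p + q : ℕ)
  obtain ⟨b, hb⟩ := rig_mn D q μ' (p + q : ℕ)
  refine ⟨a + b, fun η j l k n P x x' c e e' hP hk hn hf => ?_⟩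
  have : Fact l.Prime := ⟨hP.1⟩
  obtain ⟨v, hv, -, -, -, h3⟩ := exists_wl hP
  rcases eq_or_ne p l with rfl | hp
  · exact hb η j p k n v x x' c e e' ne.symm (by exact_mod_cast hk)
      ((pow_dvd_pow_of_dvd_of_le (dvd_mul_left q p) le_add_self).trans hn) hv ((h3 _ _).2 hf)
  · exact ha η j l k n v x x' c e e' hp (by exact_mod_cast hk)
      ((pow_dvd_pow_of_dvd_of_le (dvd_mul_right p q) le_self_add).trans hn) hv ((h3 _ _).2 hf)

theorem mn_le (H : D.Ok M) (hp : p ∣ M) (μ : Em D (Cp p)) {e e' : EE D η} {n k : ℕ}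
    (hk : p ^ k ∣ n) (h : Mn n (uu e - uu e')) : Le (re μ e - re μ e') (‖(p : Cp p)‖ ^ k) := by
  refine H.le hp ((re_rh μ e).sub (re_rh μ e')) (by positivity) fun a b => ?_
  rw [mt_eq, mt_eq, ← map_sub]
  refine (h.anti hk a b (pp p)).trans_eq ?_
  rw [Nat.cast_pow, norm_pow, ← map_natCast (algebraMap ℚ_[p] (Cp p)), norm_algebraMap']

/-! ### integral matrices -/

theorem iC_inj : Function.Injective (iC (p := p)) := fun _ _ h =>
  Units.ext (Matrix.ext fun i k => Subtype.ext (congrArg (fun a : GL (Fin 2) (Cp p) => a i k) h))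

theorem le_iC (z : GI p) : Le (iC z).val 1 := fun i k => mem_op.1 (z.val i k).2

theorem rd_val (z : GI p) : (Top.rd z).val = (iC z).val.map red :=
  Matrix.ext fun _ _ => (red_coe _).symm

open Classical in
/-- the integral matrix -/
def gi (μ : Em D (Cp p)) (e : EE D η) : GI p :=
  if h : ∃ z : GI p, iC z = reU μ e then h.choose else 1

theorem iC_gi (H : D.Ok M) (hp : p ∣ M) (μ : Em D (Cp p)) {e : EE D η} (h : Int e) :
    iC (gi μ e) = reU μ e := by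
  let f : ∀ e : EE D η, Int e → M2 (Op p) := fun e h =>
    Matrix.of fun i k => ⟨re μ e i k, mem_op.2 (H.le_int hp μ h i k)⟩
  have f1 : ∀ e e' h h', e * e' = 1 → f e h * f e' h' = 1 := fun e e' h h' E =>
    Matrix.map_injective (Op p).subtype_injective (by
      change (Op p).subtype.mapMatrix _ = (Op p).subtype.mapMatrix _
      rw [map_mul, map_one, ← re_one (η := η) μ, ← E, re_mul]; rfl)
  have : ∃ z : GI p, iC z = reU μ e :=
    ⟨⟨f e h, f e⁻¹ h.inv, f1 _ _ h h.inv (mul_inv_cancel e),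
      f1 _ _ h.inv h (inv_mul_cancel e)⟩, Units.ext rfl⟩
  rw [gi, dif_pos this, this.choose_spec]

open Classical in
/-- the representation as a function on the Galois group -/
def rp (μ : Em D (Cp p)) {H : Subgroup GQ} (r : H →* EE D η) (g : GQ) : GI p :=
  if h : g ∈ H then gi μ (r ⟨g, h⟩) else 1

variable {H : Subgroup GQ} {r : H →* EE D η} {y : MP D η}

theorem iC_rp (ok : D.Ok M) (hp : p ∣ M) (μ : Em D (Cp p)) (hy : Lp j y r) {g : GQ} (h : g ∈ H) :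
    iC (rp μ r g) = reU μ (r ⟨g, h⟩) := by rw [rp, dif_pos h, iC_gi ok hp μ (hy.int _)]

theorem rp_rp (ok : D.Ok M) (hp : p ∣ M) (μ : Em D (Cp p)) (hy : Lp j y r) {H' : Subgroup GQ}
    (le : H' ≤ H) : Rp H' (rp μ r) where
  mul g hg h hh := iC_inj (by
    rw [map_mul, iC_rp ok hp μ hy (le hg), iC_rp ok hp μ hy (le hh),
      iC_rp ok hp μ hy (le (mul_mem hg hh)), ← map_mul, ← map_mul]; rfl)
  cont := ContinuousOn.mono (continuousOn_iff_continuous_domRestrict.2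
    ((hy.sec.cont μ).congr fun g => (iC_rp ok hp μ hy g.2).symm)) le
  det g hg := by rw [iC_rp ok hp μ hy (le hg)]; exact hy.sec.dt μ ⟨g, le hg⟩

end Vale.Agent.P022K.PM.Out
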