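import Vale.Agent.P022K.TP.Cx

/-!
# P022K / PM: the linear algebra of ordinary complex multiplication
-/

set_option autoImplicit false
set_option linter.all false

open Matrix Filter Topology

noncomputable section

namespace Vale.Agent.P022K.PM.Qa

open P010MR P010M71 P010MT8 TP

theorem inv_eig {n C : Type} [Fintype n] [DecidableEq n] [Field C] [IsAlgClosed C]
    (A : Matrix n n C) (S : Submodule C (n → C)) (hS : ∀ y ∈ S, A *ᵥ y ∈ S) {y0 : n → C}
    (h : y0 ∈ S) (h0 : y0 ≠ 0) : ∃ (z : C) (y : n → C), y ∈ S ∧ y ≠ 0 ∧ A *ᵥ y = z • y := by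
  have : Nontrivial S := ⟨⟨y0, h⟩, 0, fun e => h0 (congrArg Subtype.val e)⟩
  obtain ⟨z, hz⟩ := Module.End.exists_eigenvalue (A.mulVecLin.restrict hS)
  obtain ⟨y, h1, h2⟩ := hz.exists_hasEigenvector
  exact ⟨z, y, y.2, fun e => h2 (Subtype.ext e),
    congrArg Subtype.val (Module.End.mem_eigenspace_iff.1 h1)⟩

variable {g : ℕ} {C : Type} [NormedField C]

theorem lin0 [IsAlgClosed C] {q ε : C} (hq : ‖q‖ < 1) (q0 : q ≠ 0) {t A : Matrix (Fin g) (Fin g) C}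
    (ht : tᵀ = t) {F F' U L : Mi g C} (mul : F' * F = q • 1)
    (sim : Fᵀ * J (Fin g) C * F = q • J (Fin g) C) {P : Matrix (Ix g) (Fin g) C}
    (hP : P = fromRows t 1) (hA : F * P = P * A)
    (eig : ∀ (z : C) (y : Fin g → C), y ≠ 0 → Aᵀ *ᵥ y = z • y → ‖z‖ = 1)
    (hU : Tendsto (fun n => (U - 1) * F ^ n) atTop (𝓝 0))
    (hJ : Uᵀ * J (Fin g) C * U = ε • J (Fin g) C) (hε : ε ≠ 1) (hc : L * F = F * L)
    (hL : ∀ w, ∃ c, L *ᵥ w = P *ᵥ c) (hL' : ∀ c, ∃ w, L *ᵥ w = P *ᵥ c)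
    {v : Ix g → C} (hv : U *ᵥ v = v) (h0 : L *ᵥ v = 0) : v = 0 := by
  obtain ⟨Z, hZ⟩ : ∃ Z : Matrix (Fin g) (Ix g) C, Z = fromCols 1 (-t) := ⟨_, rfl⟩
  obtain ⟨W, hW⟩ : ∃ W : Mi g C, W = J (Fin g) C := ⟨_, rfl⟩
  rw [← hW] at sim hJ
  have PZ : Pᵀ * W = Z := by
    rw [hP, hW, hZ, transpose_fromRows, J]
    refine (fromCols_mul_fromBlocks _ _ _ _ _ _).trans ?_
    simp [ht]
  have Pi : ∀ c, (P *ᵥ c) ∘ Sum.inr = c := fun c => by
    rw [hP, fromRows_mulVec, Sum.elim_comp_inr, one_mulVec]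
  have mul' : F * F' = q • 1 := by
    have h1 : (q⁻¹ • F') * F = 1 := by rw [smul_mul_assoc, mul, smul_smul, inv_mul_cancel₀ q0, one_smul]
    have h2 := congrArg (q • ·) (mul_eq_one_comm.1 h1)
    simpa only [mul_smul_comm, smul_smul, mul_inv_cancel₀ q0, one_smul] using h2
  have adj : Fᵀ * W = W * F' := smul_right_injective _ q0 (by
    have := congrArg (· * F') sim
    simpa only [Matrix.mul_assoc _ F, mul', mul_smul_comm, mul_one, smul_mul_assoc] using this)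
  have ZF : Z * F' = Aᵀ * Z := by
    rw [← PZ, Matrix.mul_assoc, ← adj, ← Matrix.mul_assoc, ← transpose_mul, hA, transpose_mul,
      Matrix.mul_assoc]
  have h1 : (U - 1) * P = 0 := by
    have hn : ∀ n, F ^ n * P = P * A ^ n := fun n => by
      induction n with
      | zero => simp
      | succ n ih => rw [pow_succ, Matrix.mul_assoc, hA, ← Matrix.mul_assoc, ih, pow_succ,
          Matrix.mul_assoc]
    let S : Submodule C (Fin g → C) :=
      { carrier := {y | Tendsto (fun n => Aᵀ ^ n *ᵥ y) atTop (𝓝 0)}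
        add_mem' := fun h h' => by simpa [mulVec_add] using h.add h'
        zero_mem' := by simp
        smul_mem' := fun c _ h => by simpa [mulVec_smul] using h.const_smul c }
    ext i k
    by_contra hne
    obtain ⟨z, y, h2, h3, h4⟩ := inv_eig Aᵀ S (fun y hy => by
      have := (tendsto_add_atTop_iff_nat 1).2 hy
      simp only [pow_succ, ← mulVec_mulVec] at this
      exact this) (y0 := (U - 1) i ᵥ* P) (by
        have h5 := (((continuous_apply i).matrix_vecMul (continuous_const (y := P))).tendsto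
          (0 : Mi g C)).comp hU
        rw [show (0 : Mi g C) i ᵥ* P = 0 from zero_vecMul _] at h5
        refine h5.congr fun n => ?_
        change ((U - 1) i ᵥ* F ^ n) ᵥ* P = _
        rw [vecMul_vecMul, hn, ← vecMul_vecMul, ← transpose_pow, mulVec_transpose])
      fun e => hne (congrFun e k)
    have h5 : ∀ n, Aᵀ ^ n *ᵥ y = z ^ n • y := fun n => by
      induction n with
      | zero => simp
      | succ n ih => rw [pow_succ, ← mulVec_mulVec, h4, mulVec_smul, ih, smul_smul, pow_succ']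
    have h6 := Tendsto.norm h2
    simp only [h5, norm_smul, norm_pow, eig z y h3 h4, one_pow, one_mul, norm_zero] at h6
    exact h3 (norm_eq_zero.1 (tendsto_nhds_unique tendsto_const_nhds h6))
  rw [Matrix.sub_mul, Matrix.one_mul, sub_eq_zero] at h1
  have h2 : Z *ᵥ v = 0 := by
    have h3 : (Pᵀ * (Uᵀ * W * U)) *ᵥ v = (Pᵀ * W) *ᵥ v := by
      rw [← Matrix.mul_assoc, ← Matrix.mul_assoc, ← transpose_mul, h1, ← mulVec_mulVec, hv]
    rw [hJ, Matrix.mul_smul, smul_mulVec, PZ, ← sub_eq_zero] at h3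
    exact (smul_eq_zero.1 ((sub_smul _ _ _).trans (by rwa [one_smul]))).resolve_left
      (sub_ne_zero.2 hε)
  have h3 : P *ᵥ (v ∘ Sum.inr) = v := by
    rw [hZ, fromCols_mulVec, one_mulVec, neg_mulVec, add_neg_eq_zero] at h2
    rw [hP, fromRows_mulVec, one_mulVec, ← h2, Sum.elim_comp_inl_inr]
  let B : Matrix (Fin g) (Ix g) C := L.toRows₂
  have hB : ∀ w, B *ᵥ w = (L *ᵥ w) ∘ Sum.inr := fun _ => rfl
  have h4 : ∀ w, P *ᵥ B *ᵥ w = L *ᵥ w := fun w => by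
    obtain ⟨c, h⟩ := hL w
    rw [hB, h, Pi]
  have h5 : B * F = A * B := toLin'.injective (LinearMap.ext fun w => by
    rw [toLin'_apply, toLin'_apply, ← mulVec_mulVec, ← mulVec_mulVec, hB, mulVec_mulVec, hc,
      ← mulVec_mulVec, ← h4, mulVec_mulVec, hA, ← mulVec_mulVec, Pi])
  by_contra v0
  obtain ⟨r0, a1, a2⟩ := exists_vecMul_eq_zero_iff.2 (exists_mulVec_eq_zero_iff.1
    ⟨v ∘ Sum.inr, fun e => v0 (by rw [← h3, e, mulVec_zero]), show (B * P) *ᵥ _ = 0 by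
      rw [← mulVec_mulVec, h3, hB, h0]; rfl⟩)
  obtain ⟨z, r, b1, b2, b3⟩ := inv_eig Aᵀ (LinearMap.ker (B * P).vecMulLinear) (fun y hy => by
    change (Aᵀ *ᵥ y) ᵥ* (B * P) = 0
    rw [mulVec_transpose, vecMul_vecMul, ← Matrix.mul_assoc, ← h5, Matrix.mul_assoc, hA,
      ← Matrix.mul_assoc, ← vecMul_vecMul, show y ᵥ* (B * P) = 0 from hy, zero_vecMul]) a2 a1
  have b4 := eig z r b2 b3
  have z0 : z ≠ 0 := norm_ne_zero_iff.1 (b4 ▸ one_ne_zero)
  have b5 : ((r ᵥ* B) ∘ Sum.inl) ᵥ* Z = r ᵥ* B := by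
    have : (r ᵥ* B) ᵥ* P = 0 := (vecMul_vecMul _ _ _).trans b1
    rw [hP, vecMul_fromRows, vecMul_one, add_eq_zero_iff_neg_eq] at this
    rw [hZ, vecMul_fromCols, vecMul_one, vecMul_neg, this, Sum.elim_comp_inl_inr]
  have b6 : (r ᵥ* B) ∘ Sum.inl ≠ 0 := fun e => b2 (by
    rw [e, zero_vecMul] at b5
    refine dotProduct_eq_zero_iff.1 fun c => ?_
    obtain ⟨w, hw⟩ := hL' c
    rw [← Pi c, ← hw, ← hB, dotProduct_mulVec, ← b5, zero_dotProduct])
  have b7 : (r ᵥ* B) ᵥ* F' = (q / z) • r ᵥ* B := by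
    have : (r ᵥ* B) ᵥ* F = z • r ᵥ* B := by
      rw [vecMul_vecMul, h5, ← vecMul_vecMul, ← mulVec_transpose A, b3, smul_vecMul]
    have h6 := congrArg (fun x => z⁻¹ • x ᵥ* F') this
    simp only [vecMul_vecMul _ F, mul', vecMul_smul, vecMul_one, smul_vecMul, smul_smul,
      inv_mul_cancel₀ z0, one_smul] at h6
    rw [← h6, div_eq_inv_mul]
  have b8 : ((r ᵥ* B) ∘ Sum.inl) ᵥ* (Aᵀ - (q / z) • 1) = 0 := by
    rw [← b5, vecMul_vecMul, ZF, ← vecMul_vecMul, hZ, vecMul_fromCols, vecMul_fromCols, vecMul_one,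
      vecMul_one] at b7
    rw [vecMul_sub, vecMul_smul, vecMul_one, sub_eq_zero]
    exact congrArg (· ∘ Sum.inl) b7
  obtain ⟨y, y0, hy⟩ := exists_mulVec_eq_zero_iff.2 (exists_vecMul_eq_zero_iff.1 ⟨_, b6, b8⟩)
  rw [sub_mulVec, smul_mulVec, one_mulVec, sub_eq_zero] at hy
  have := eig _ y y0 hy
  rw [norm_div, b4, div_one] at this
  exact hq.ne this

/-- **the linear algebra of INJ** -/
theorem lin (j : ℂ ≃+* C) {p : ℕ} (hp : ‖(p : C)‖ < 1) (p0 : p ≠ 0) {τ : Mc g} (hτ : τ ∈ Hg g)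
    {f f' : Mi g ℚ} (mul : f' * f = (p : ℚ) • 1)
    (sim : fᵀ * J (Fin g) ℚ * f = (p : ℚ) • J (Fin g) ℚ) (hm : Hm τ τ f)
    (eig : ∀ a, La τ τ f' a → ∀ (z : ℂ) (y : Fin g → ℂ), y ≠ 0 → a *ᵥ y = z • y → ‖j z‖ = 1)
    {U L : Mi g C} {ε : C} (hU : Tendsto (fun n => (U - 1) * (cm f).map j ^ n) atTop (𝓝 0))
    (hJ : Uᵀ * J (Fin g) C * U = ε • J (Fin g) C) (hε : ε ≠ 1)
    (hc : L * (cm f).map j = (cm f).map j * L) (hL : ∀ w, ∃ c, L *ᵥ w = (per τ).map j *ᵥ c)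
    (hL' : ∀ c, ∃ w, L *ᵥ w = (per τ).map j *ᵥ c) {v : Ix g → C} (hv : U *ᵥ v = v)
    (h0 : L *ᵥ v = 0) : v = 0 := by
  have : IsAlgClosed C := IsAlgClosed.of_ringEquiv ℂ C j
  obtain ⟨A, hA⟩ := hm_iff.1 hm
  have mm : ∀ {l m n : Type} [Fintype m] (a : Matrix l m ℂ) (b : Matrix m n ℂ),
      (a * b).map j = a.map j * b.map j := fun a b => Matrix.map_mul (f := (j : ℂ →+* C))
  have cs : ∀ a : Mi g ℚ, (cm ((p : ℚ) • a)).map j = (p : C) • (cm a).map j := fun a => by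
    ext; simp [cm]
  have eJ : (cm (J (Fin g) ℚ)).map j = J (Fin g) C := by
    rw [cm_J]; exact Matrix.map_J _ (j : ℂ →+* C)
  have adj : fᵀ * J (Fin g) ℚ = J (Fin g) ℚ * f' := by
    have q0 : (p : ℚ) ≠ 0 := Nat.cast_ne_zero.2 p0
    have h1 : ((p : ℚ)⁻¹ • f') * f = 1 := by
      rw [smul_mul_assoc, mul, smul_smul, inv_mul_cancel₀ q0, one_smul]
    have := congrArg (· * ((p : ℚ)⁻¹ • f')) sim
    simpa only [Matrix.mul_assoc _ f, mul_eq_one_comm.1 h1, mul_one, smul_mul_assoc, mul_smul_comm,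
      smul_smul, mul_inv_cancel₀ q0, inv_mul_cancel₀ q0, one_smul] using this
  have hz : ∀ w, zc τ w = ((per τ)ᵀ * cm (J (Fin g) ℚ)) *ᵥ w := fun w => by
    rw [cm_J, per, transpose_fromRows, J]
    refine Eq.trans ?_ (congrArg (· *ᵥ w) (fromCols_mul_fromBlocks _ _ _ _ _ _).symm)
    simp [zc, fromCols_mulVec, hτ.1.eq, neg_mulVec, sub_eq_add_neg]
  have hl : La τ τ f' Aᵀ := fun w => by
    rw [hz, hz, mulVec_mulVec, mulVec_mulVec, Matrix.mul_assoc, ← cm_mul, ← adj, cm_mul,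
      ← Matrix.mul_assoc, ← Matrix.mul_assoc, ← transpose_mul, ← hA, transpose_mul]
    rfl
  refine lin0 (t := τ.map j) (A := A.map j) (F' := (cm f').map j) hp
    (by rw [← map_natCast j]; exact (_root_.map_ne_zero j).2 (Nat.cast_ne_zero.2 p0))
    (congrArg (·.map j) hτ.1.eq) ?_ ?_ ?_ (by rw [← mm, ← mm, hA]) (fun z y y0 hy => ?_) hU hJ hε hc
    hL hL' hv h0
  · rw [← mm, ← cm_mul, mul, cs, cm_one, Matrix.map_one _ (map_zero j) (map_one j)]
  · rw [← eJ, ← cs, ← sim, cm_mul, cm_mul, mm, mm]; rfl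
  · ext (i | i) k <;> simp [per, one_apply, apply_ite j]
  · obtain ⟨z, rfl⟩ := j.surjective z
    refine eig _ hl z (j.symm ∘ y) (fun e => y0 (funext fun i => j.symm.injective
      ((congrFun e i).trans (map_zero _).symm))) (funext fun i => j.injective ?_)
    simpa [mulVec, dotProduct] using congrFun hy i

end Vale.Agent.P022K.PM.Qa
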