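import Vale.Agent.P022K.PM.StQ0
import Vale.Agent.P022K.PM.StQa
import Vale.Agent.P022K.PM.StQb
import Vale.Agent.P022K.PM.StL0

/-!
# P022K / PM: row INJ
-/

set_option autoImplicit false
set_option linter.all false

open Matrix Filter Topology

noncomputable section

namespace Vale.Agent.P022K.PM.Stl

open Vale.Agent.P022 P010M P010MBas P010MUQ P010MR P010M71 P010MG0 P010MP P010M61 P010MT8 Sq
open Vale.Agent.P022K.TP (Af am av Mn Vn cA cm chi)

variable {p : ℕ} [Fact p.Prime] {g : ℕ}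

namespace Qc

theorem sur {C m n : Type} [Field C] [Fintype m] [Fintype n] [DecidableEq m] [DecidableEq n]
    {B : Matrix m n C} (h : ∀ a, a ᵥ* B = 0 → a = 0) (c : m → C) : ∃ w, B *ᵥ w = c := by
  have h1 : Function.Injective B.vecMul := fun a b e =>
    sub_eq_zero.1 (h _ (by rw [sub_vecMul]; exact sub_eq_zero.2 e))
  have h2 := (vecMul_injective_iff.1 h1).rank_matrix
  have h3 : LinearMap.range B.mulVecLin = ⊤ :=
    Submodule.eq_top_of_finrank_eq (h2.trans (Module.finrank_fintype_fun_eq_card C).symm)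
  exact LinearMap.range_eq_top.1 h3 c

variable {K : Type} [NormedField K] [Fact (Pp p K)] {Y : Fld K} (X : Th g Y)

theorem bd {x : ℤ → Po X} (hx : x ∈ Uc p X) (h0 : x 0 = 0) : ‖X.ql p (.id Y) x‖ ≤ 1 := by
  have H := kit X.tn X.cb (fr p Y.C) (oi Y)
  refine (pi_norm_le_iff_of_nonneg zero_le_one).2 fun i => ?_
  rcases i with i | i
  · rw [Lct.ql_top X (m := 0) (by simpa using h0), norm_zero]; exact zero_le_one
  have h1 := (((H.ql.2 x hx).2.1 i).sub ((H.ql.2 0 (zero_mem _)).2.1 i)).tsum_eq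
  rw [show qlog X.tn X.cb (fr p Y.C) (0 : ℤ → Po X) = 0 from H.Q.map_zero, Prod.snd_zero,
    Pi.zero_apply, sub_zero] at h1
  refine (congrArg norm h1).symm.trans_le (IsUltrametricDist.norm_tsum_le_of_forall_le_of_nonneg
    zero_le_one fun n => ?_)
  rcases le_or_gt n 0 with h | h
  · have h2 := uc_pow hx n (-n).toNat
    rw [show n + ((-n).toNat : ℤ) = 0 by omega, h0, smul_zero] at h2
    rw [← h2, Pi.zero_apply, sub_self, norm_zero]
    exact zero_le_one
  · rw [← mul_sub, ← map_sub, show (1 - n).toNat = 0 by omega, pow_zero, mul_one, norm_mul, norm_pow]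
    exact mul_le_one₀ (pow_le_one₀ (norm_nonneg _) (Fact.out : Pp p Y.C).2.le) (norm_nonneg _)
      ((fr p Y.C).le _)

theorem tq : TPt p (pt X) where
  int v h := P010MB.Th.pt_int X _ h
  ker v h i := by
    obtain ⟨z, hz⟩ := (P010MB.Th.pt_ker X (f := oi Y) (fun _ _ e => e) v).1 h i
    rw [hz, Rat.cast_intCast]
    exact Padic.norm_int_le_one z
  onto k t h := ((P010MB.tors X p Y (.id Y) (P010M32.sm_of_th X)).2.2.1 t _
    (pow_ne_zero k (Fact.out : p.Prime).ne_zero) h).imp fun _ => Eq.symm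

theorem rz {b : Po X →+ Po X} {u : Mi g Af} (h : Gd.Ac (pt X) (pt X) b u) :
    (tq (p := p) X).tm.Rz (tq X).tm b (u.map (TP.pr (pp p))) := (tq X).rz _ fun v _ _ =>
  (TP.exists_vn (u *ᵥ av v) one_pos).imp fun a ha => ⟨fun i => by
    simpa [mulVec, dotProduct, av, TP.pr_cA] using TP.mem_Z1.1 (ha i) (pp p), h v a ha⟩

theorem xv_uc (v : Ix g → ℚ_[p]) : xv (tq X).tm v ∈ Uc p X :=
  ⟨xv_cmp _ v, ((tq X).tm.tor _).imp fun m h => by
    rw [show p ^ m • xv (tq X).tm v 0 = 0 from h]; exact zero_mem _⟩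

theorem ex_v {x : ℤ → Po X} (hx : x ∈ Uc p X) {m : ℕ} (h : p ^ m • x 0 = 0) :
    ∃ v, xv (tq (p := p) X).tm v = p ^ m • x := xv_sur _ (p ^ m • (⟨x, hx⟩ : Uc p X)).2.1 h

end Qc

open Qc

/-- **INJ** -/
theorem inj2 [Fact (Pp p ℚ_[p])] {Y : Fld ℚ_[p]} (X : Th g Y) : INJ p X := by
  intro hX f f' w w' o σ s u b ie hg hc hε x hx ⟨n, hn⟩ hb h0
  have H := kit X.tn X.cb (fr p Y.C) (oi Y)
  have qn : ∀ x ∈ Uc p X, ∀ m : ℕ, X.ql p (.id Y) (m • x) = m • X.ql p (.id Y) x := fun x hx m => by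
    rw [Th.ql, H.qlog_nsmul hx]
    funext i; cases i <;> rfl
  let Φ : (Ix g → ℚ_[p]) →+ (Ix g → Y.C) :=
    AddMonoidHom.mk' (fun v => X.ql p (.id Y) (xv (tq X).tm v)) fun a c => by
      simp only [map_add, Th.ql, H.qlog_add (xv_uc X a) (xv_uc X c)]
      funext i; cases i <;> rfl
  let Λ : Mi g Y.C := of fun i k => Φ (Pi.single k 1) i
  have hΛ : ∀ v, Φ v = Λ *ᵥ (Y.ι ∘ v) := fun v => (Sq.lin Y.ι Y.iso Φ (c := 1) (fun v hv =>
    bd X (xv_uc X v) (((tq X).tm.ker _).2 (by simpa using hv))) v).trans (funext fun i => by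
      simp [Λ, mulVec, dotProduct, mul_comm])
  have top : ∀ w i, (Λ *ᵥ w) (.inl i) = 0 := fun w i => by
    refine Finset.sum_eq_zero (s := Finset.univ) (f := fun k => Λ (.inl i) k * w k) fun k _ => ?_
    obtain ⟨m, hm⟩ := (tq (p := p) X).tm.tor (((p : ℚ_[p]) ^ (0 : ℤ))⁻¹ • Pi.single k 1)
    exact mul_eq_zero_of_left (Lct.ql_top X (x := xv (tq X).tm (Pi.single k 1)) hm i) _
  have hP := X.per.unit
  have eF : (cm f).map X.j = f.map (↑) := by ext; simp [cm]
  have per0 : ∀ c i, ((X.Pm * (per X.τ).map X.j) *ᵥ c) (.inl i) = 0 := fun c i =>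
    Finset.sum_eq_zero (s := Finset.univ) (f := fun k => (X.Pm * (per X.τ).map X.j) (.inl i) k * c k)
      fun k _ => mul_eq_zero_of_left ((P010MP73.psy X).2 i k) _
  have inv : ∀ {a c : Ix g → Y.C}, a = X.Pm *ᵥ c → X.Pm⁻¹ *ᵥ a = c := fun h => by
    rw [h, mulVec_mulVec, nonsing_inv_mul _ hP, one_mulVec]
  obtain ⟨m, hm⟩ : ∃ m : ℕ, p ^ m • x 0 = 0 := ⟨n.natAbs, by
    have h1 := uc_pow hx (-n.natAbs) n.natAbs
    have h2 := uc_pow hx (-n.natAbs) (n + n.natAbs).toNat
    rw [neg_add_cancel] at h1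
    rw [show -(n.natAbs : ℤ) + (n + n.natAbs).toNat = n by omega, hn, smul_zero] at h2
    exact h1.trans h2.symm⟩
  obtain ⟨v, hv⟩ := ex_v X hx hm
  let φ : Af →+* Y.C := Y.ι.comp (TP.pr (pp p)).toRingHom
  have key := Qa.lin X.j (Fact.out : Pp p Y.C).2 (Fact.out : p.Prime).ne_zero X.hτ o.mul o.e.en.sim
    o.e.en.hm o.eig (L := X.Pm⁻¹ * Λ) (ε := φ (chi ℂ s)) (v := Y.ι ∘ v) (hu X hX o hg hc)
    (by
      have := congrArg φ.mapMatrix ie.rel.sim
      rw [map_mul, map_mul] at this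
      refine Eq.trans ?_ (this.trans ?_)
      · exact congrArg (_ * · * _) (Matrix.map_J _ φ).symm
      · rw [← Matrix.map_J _ φ]
        exact Matrix.ext fun i k => map_mul φ _ _)
    (fun e => hε (Y.ι.injective (e.trans (map_one _).symm)))
    (by
      have h1 : Λ * f.map (↑) = Lm X f * Λ := Matrix.ext_of_mulVec_single fun k => by
        have e : Y.ι ∘ (Pi.single k 1 : Ix g → ℚ_[p]) = Pi.single k 1 :=
          funext fun i => by simp [Pi.single_apply, apply_ite Y.ι]
        have h2 := o.e.ql (p := p) hX (xv_uc X (Pi.single k 1))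
        rw [xv_rz _ (rz X (u := am f) fun q a ha => (o.e.pt _ (oi Y) q).trans
          (sub_eq_zero.1 ((map_sub _ _ _).symm.trans (P010MB.Th.pt_int X _ fun i =>
            TP.rat_int1 (by simpa [TP.am_mulVec, av] using ha i)))))] at h2
        rw [← mulVec_mulVec, ← mulVec_mulVec, ← e, ← hΛ]
        refine Eq.trans ?_ h2
        refine (congrArg _ (funext fun i => ?_)).trans (hΛ _).symm
        simp [mulVec, dotProduct, am, TP.pr_cA, Pi.single_apply, apply_ite Y.ι, -Fintype.sum_sum_type]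
      rw [eF, mul_assoc, h1, Lm, ← mul_assoc, ← mul_assoc, ← mul_assoc, nonsing_inv_mul _ hP, one_mul,
        mul_assoc])
    (fun w => by
      obtain ⟨c, h⟩ := mulVec_surjective_iff_isUnit.2 (mulVec_injective_iff_isUnit.1
        (show Function.Injective (X.Pm * (per X.τ).map X.j).toRows₂.mulVec from
          (injective_iff_map_eq_zero (mulVecLin _)).2 fun c h => by
            have h1 := inv (a := 0) (c := (per X.τ).map X.j *ᵥ c) (funext fun i => by
              rw [mulVec_mulVec]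
              cases i
              exacts [(per0 _ _).symm, (congrFun h _).symm])
            funext i
            simpa [per, mulVec, dotProduct, one_apply, apply_ite X.j] using
              (congrFun h1 (.inr i)).symm)) ((Λ *ᵥ w) ∘ .inr)
      refine ⟨c, (mulVec_mulVec _ _ _).symm.trans (inv (funext fun i => ?_))⟩
      rw [mulVec_mulVec c]
      cases i
      exacts [(top _ _).trans (per0 _ _).symm, (congrFun h _).symm])
    (fun c => by
      obtain ⟨w, h⟩ := sur (B := Λ.toRows₂) (fun a ha =>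
        (P010M32.span_ql (p := p) X (P010M32.sm_of_th X) (.id Y)).1 a fun y => by
          obtain ⟨k, hk⟩ := y.2
          obtain ⟨z, hz⟩ := ex_v X y.1.2 hk
          have h1 : a ⬝ᵥ (Φ z ∘ .inr) = 0 := by
            rw [hΛ]
            exact (dotProduct_mulVec a Λ.toRows₂ _).trans (by rw [ha, zero_dotProduct])
          change a ⬝ᵥ (X.ql p (.id Y) (xv _ z) ∘ .inr) = 0 at h1
          rw [hz, qn _ y.1.2, ← Nat.cast_smul_eq_nsmul Y.C] at h1
          have h2 := (dotProduct_smul _ a _).symm.trans h1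
          rw [dotProduct_comm, Nat.cast_pow] at h2
          exact (smul_eq_zero.1 h2).resolve_left (pow_ne_zero _ (Fact.out : Pp p Y.C).1))
        (((X.Pm * (per X.τ).map X.j) *ᵥ c) ∘ .inr)
      refine ⟨w, (mulVec_mulVec _ _ _).symm.trans (inv (funext fun i => ?_))⟩
      rw [mulVec_mulVec c]
      cases i
      exacts [(top _ _).trans (per0 _ _).symm, congrFun h _])
    (by
      have h1 := xv_rz _ (rz X hg.pt) v
      rw [hv, show b ∘ (p ^ m • x) = p ^ m • x from funext fun k => by simp [hb], ← hv,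
        eq_comm, ← sub_eq_zero, ← map_sub] at h1
      funext i
      exact (RingHom.map_mulVec Y.ι _ v i).symm.trans
        (congrArg Y.ι (congrFun (sub_eq_zero.1 (xv_inj _ h1)) i)))
    (by
      rw [← mulVec_mulVec, ← hΛ]
      exact inv (by rw [mulVec_zero]; exact (congrArg _ hv).trans ((qn x hx _).trans
        (by rw [h0, smul_zero]))))
  rw [show v = 0 from funext fun i => Y.ι.injective ((congrFun key i).trans (map_zero _).symm),
    map_zero] at hv
  exact funext fun k => (uc_pow hx k m).symm.trans (congrFun hv _).symm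

end Vale.Agent.P022K.PM.Stl
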