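import Vale.Agent.P022K.PM.StZ2
import Vale.Agent.P022K.PM.StQc

/-!
# P022K / PM: the row ST
-/

set_option autoImplicit false

namespace Vale.Agent.P022K.PM

/-- **ST** -/
theorem st : ST := Stz.st1 fun _ _ _ X => Stl.inj2 X

end Vale.Agent.P022K.PM
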