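import Vale.Agent.P022K.PM.All2
import Vale.Agent.P022K.PM.StZ

/-!
# P022K / PM: potential modularity
-/

set_option autoImplicit false

namespace Vale.Agent.P022K.PM

/-- **PMX** -/
theorem pmx : Top.Pm.PMX := pmx_st st

end Vale.Agent.P022K.PM
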