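import Vale.Agent.P022K.PM.StlSt

/-!
# P022K / PM, row ST: the action of the inertia group on the points of the good model
-/

set_option autoImplicit false

open Matrix MvPolynomial IsLocalRing

noncomputable section

namespace Vale.Agent.P022K.PM.Stl

open P010M P010MBas P010MUQ P010MR P010M71 P010MG0 P010MP P010M61
open Vale.Agent.P022K.TP (av ui exists_vn am_mulVec)

variable {K : Type} [NormedField K] {g : ℕ} {Y : Fld K} (X : Th g Y)

/-- **ACT** -/
theorem act : ACT X := fun _ σ s u b hi hc ha => by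
  refine ⟨hc, ha, fun x => ?_, fun f c w hw hu x => ?_⟩
  · obtain ⟨t, ht⟩ := hc x
    have e : ∀ y : Po X, pmap (residue _) rfl y = pmk (Cone.map (residue _) rfl (out y)) :=
      fun y => congrArg _ (mk_out y).symm
    rw [Fg, X0, AddMonoidHom.mem_ker, map_sub, sub_eq_zero, mapHom_apply, mapHom_apply, e, e]
    refine (mk_eq.2 ⟨Units.map (residue (OO Y.C) : OO Y.C →* _) t, funext fun i => ?_⟩).symm
    show residue _ ((b x).rep i) = residue _ _ * residue _ (x.rep i)
    rw [ht, map_mul]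
    congr 1
    rw [← sub_eq_zero, ← map_sub, Gd.res_zero]
    exact hi.res _ (x.rep i).2
  obtain ⟨P, hP, h⟩ := hw.dg
  have key : ∀ x, ∃ (t : (OO Y.C)ˣ) (z : Cone X.A.I (oi Y)),
      (∀ i, (b (ap X w x)).rep i = t * eval₂ (oi Y) (b x).rep (map (oh σ) (P i))) ∧
      (∀ i, z.1 i = eval₂ (oi Y) (b x).rep (P i)) ∧ ap X w (b x) = pmk z := fun x => by
    obtain ⟨z, h1, h2⟩ := h _ (oi Y) _ _ (oi Y).comp_id (oi Y).comp_id (out x)
    obtain ⟨z', h3, h4⟩ := h _ (oi Y) _ _ (oi Y).comp_id (oi Y).comp_id (out (b x))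
    obtain ⟨d, hd⟩ := rep_mk z
    obtain ⟨c1, e1⟩ := hc x
    obtain ⟨c2, e2⟩ := hc (ap X w x)
    refine ⟨c2 * Units.map (oh σ : OO Y.C →* OO Y.C) d * (c1 ^ c)⁻¹, z', fun i => ?_, h3,
      (congrArg _ (mk_out _).symm).trans h4⟩
    have e3 : (ap X w x).rep = (d : OO Y.C) • z.1 :=
      (congrArg Pt.rep ((congrArg _ (mk_out x).symm).trans h2)).trans hd
    rw [e2, e3, Pi.smul_apply, smul_eq_mul, map_mul, h1, eval₂_comp_left, eval₂_map,
      show (b x).rep = (c1 : OO Y.C) • (oh σ ∘ x.rep) from funext e1, eval₂_smul_hom _ (hP i),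
      Units.val_mul, Units.val_mul, mul_assoc, mul_assoc, ← Units.val_pow_eq_pow_val,
      Units.inv_mul_cancel_left]
    rfl
  have hJ : ∀ i j, map (oh σ) (P i) * P j - map (oh σ) (P j) * P i ∈ X.T.J := fun i j => by
    have hQ := (((hP i).map (oh σ)).mul (hP j)).sub (((hP j).map (oh σ)).mul (hP i))
    refine (P010M27.mem_J_hom _ hQ).2 fun q => ?_
    obtain ⟨v, hv⟩ := exists_vn (ui s u *ᵥ av q) one_pos
    have h0 := (hi.int.mulVec hv).neg
    rw [mulVec_sub, mulVec_mulVec, hi.rel.sim.mul_ui, one_mulVec, neg_sub] at h0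
    have e0 := ha v q h0
    obtain ⟨t, z, h1, h2, h3⟩ := key (pt X v)
    have e : b (ap X w (pt X v)) = ap X w (b (pt X v)) := by
      rw [e0, hw.pt, hw.pt]
      refine ha _ _ ?_
      rw [← am_mulVec, ← am_mulVec, mulVec_mulVec, hu, ← mulVec_mulVec, ← mulVec_sub]
      exact (hw.en.int.mulVec h0 :)
    have e4 : z.1 j * (b _).rep i = z.1 i * (b _).rep j :=
      P010M9.cross_of_mk_eq ((mk_out _).trans (e.trans h3)) j i
    rw [h1, h1, h2, h2, e0] at e4
    obtain ⟨r, hr⟩ := X.good.rep_ptHom (f := oi Y) q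
    have e5 := P010M27.eval₂_smul_hom (oi Y) r (fun i => oi Y (X.T.z q i)) hQ
    rw [← hr, eval₂_sub, eval₂_mul, eval₂_mul] at e5
    refine (r.isUnit.pow (c + c)).mul_left_eq_zero.1 (t.isUnit.mul_right_eq_zero.1 ?_)
    refine (congrArg (_ * ·) e5.symm).trans ?_
    linear_combination e4
  obtain ⟨t, z, h1, h2, h3⟩ := key x
  refine ((mk_out _).symm.trans (P010M9.mk_eq_of_cross _ z fun l m => ?_)).trans h3.symm
  have : eval₂ (oi Y) (b x).rep _ = 0 := TM.rep_Z (hG := X.good.gen) (b x) _ (hJ m l)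
  rw [eval₂_sub, eval₂_mul, eval₂_mul] at this
  show z.1 l * (b _).rep m = z.1 m * (b _).rep l
  rw [h1, h1, h2, h2]
  linear_combination (t : OO Y.C) * this

end Vale.Agent.P022K.PM.Stl
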