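import Vale.Agent.P022K.PM.Defs
import Vale.Agent.P022K.CH.Eps

/-!
# P022K / PM: the cyclotomic character on open subgroups of the inertia group
-/

set_option autoImplicit false

namespace Vale.Agent.P022K.PM.Stl

open Vale.Agent.P022
open Vale.Agent.P022.H443 (inP)
open Vale.Agent.P022E.GW (Ov)
open Vale.Agent.P022K.CH (Cp Id eps)

/-- **CYC** -/
theorem cyc_row (p : ℕ) [Fact p.Prime] (P : Id) (h : Ov p P) (U : Subgroup GQ)
    (hU : IsOpen (U : Set GQ)) : ∃ σ ∈ U ⊓ inP P, TP.pr (pp p) (cyc σ) ≠ 1 :=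
  (CH.eps_ram h U hU).imp fun _ k => ⟨k.1, fun e => k.2 1 one_ne_zero
    ((pow_one _).trans ((congrArg (algebraMap ℚ_[p] (Cp p)) e).trans (map_one _)))⟩

end Vale.Agent.P022K.PM.Stl
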