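import Vale.Agent.P022K.PM.StlSt
import Vale.Agent.P022K.PM.Co3
import Vale.Agent.P022K.PM.Ta1

/-!
# P022K / PM: row EXT (helper60)
-/

set_option autoImplicit false
set_option linter.all false

noncomputable section

namespace Vale.Agent.P022K.PM.Stl

open Vale.Agent.P022 P010M P010MBas P010MUQ P010MR P010M71 P010MG0 P010MP P010M61 P010MT8 P010MB

theorem ext0 {C : Type} [NormedField C] [IsUltrametricDist C] [IsAlgClosed C] {g N : ℕ}
    {j : ℂ ≃+* C} {τ : Mc g} {T : TM (OO C) (Ix g → ℚ)} (hτ : τ ∈ Hg g) (hN : 2 ≤ N)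
    (hT : IsB j τ N T) (h : T.Good) {k ι : Type} [CommRing k] [Finite ι] {B : AbSch k ι}
    (hB : P010M81.Cube (O1 B)) {a : OO C →+* ℂ} (ha : a = oc j) {b : k →+* ℂ}
    (d : RHom h.ab a B b) (hd : ∀ q, act0 d (h.ptHom a q) = 0) : d = 0 := by
  subst ha
  obtain ⟨F, M, h1⟩ := mdl_of hτ hN hT h
  obtain ⟨β, -, -, h3⟩ := rhom_form h.ab (oc j) b hB
  obtain ⟨m, hm⟩ := exists_nat_gt (β d d)
  refine h3 d (m + 1) (Nat.cast_ne_zero.2 m.succ_ne_zero) (fun t ht => ?_) (by
    push_cast; nlinarith [m.cast_nonneg (α := ℝ)])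
  obtain ⟨q, rfl⟩ := P_tors M h m.succ_ne_zero ht
  exact (congrArg _ (M.P_rho h h1 trivial)).trans (hd q)

variable {K : Type} [NormedField K] {g : ℕ} {Y : Fld K} (X : Th g Y)

/-- **EXT** -/
theorem ext : EXT X := fun hX w w' e => by
  have c : (oc X.j).comp (oi Y) = oc X.j := rfl
  have h := ext0 X.hτ X.two hX.isb X.good X.good.cube (a := (oc X.j).comp (RingHom.id _)) rfl
    ((w - w').bc (oc X.j) rfl rfl) fun q => by
      have h1 := congrArg (pmap (oc X.j) c) (e q)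
      rw [w.nat _ _ (RingHom.comp_id _) (RingHom.comp_id _) _ c c c,
        w'.nat _ _ (RingHom.comp_id _) (RingHom.comp_id _) _ c c c, X.good.pmap_ptHom] at h1
      exact (DFunLike.congr_fun (RHom.sub_app (oc X.j) (RingHom.comp_id _) (RingHom.comp_id _) w w')
        _).trans (sub_eq_zero.2 h1)
  refine P010M15.hom_ext (oc X.j) (oc_inj X.j) fun x => sub_eq_zero.1 ?_
  exact (DFunLike.congr_fun (RHom.sub_app (oc X.j) (RingHom.comp_id _) (RingHom.comp_id _) w w')
    x).symm.trans (congrArg (fun v : RHom _ _ _ _ => act0 v x) h)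

end Vale.Agent.P022K.PM.Stl
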