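import Vale.Agent.P022K.PM.StlSt
import Vale.Agent.P022K.PM.Co3
import Vale.Agent.P022K.Gd.Fri

/-!
# P022K / PM: the row `FRB` of ST
-/

set_option autoImplicit false

open Matrix IsLocalRing

noncomputable section

namespace Vale.Agent.P022K.PM.Stl

open P010M P010MBas P010MUQ P010MP P010M61
open Vale.Agent.P022K.TP

variable {K : Type} [NormedField K] (p : ℕ) [Fact p.Prime] [Fact (Pp p K)] {g : ℕ} {Y : Fld K}
  (X : Th g Y)

theorem mem_fg {x : Po X} : x ∈ Fg X ↔ pmap (f' := residue _) (residue (OO Y.C)) rfl x = 0 :=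
  Iff.rfl

/-- **FRB** -/
theorem frb : FRB p X := fun hB k s u r a f c m _ _ _ w H h hu hr e _ hc e' hw x hx => by
  have h1 : ‖(p : Y.C)‖ < 1 := (Fact.out : Pp p Y.C).2
  have := Gd.charP_res h1
  obtain ⟨w', -, hw'⟩ := Gd.hom_sim hB.isb hB.isb X.good X.good hc.int hc.hm hc.sim
  have h2 := Gd.dvd_inj H h hu (X.two.trans_lt' zero_lt_two) hB.isb X.good
    (tpt_res Fact.out h1 X.hτ X.two hB.isb X.good) r hr (m := m) (by
      rw [e, ← e', ← map_pow]
      exact congrArg _ (map_pow (cA.mapMatrix) a m).symm) (hw.pt _ _) (hw' _ _)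
  exact (mem_fg X).2 (h2 (((w.nat _ _ _ _ (residue _) rfl rfl rfl x).symm.trans
    ((mem_fg X).1 hx)).trans (map_zero _).symm))

end Vale.Agent.P022K.PM.Stl
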