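import Vale.Agent.P022K.PM.SpfA
import Vale.Agent.P022K.PM.Pss

/-!
# P022K / PM: split points near an ordinary point with complex multiplication
-/

set_option autoImplicit false
set_option linter.all false

open Matrix

noncomputable section

namespace Vale.Agent.P022K.PM

open Vale.Agent.P022 Vale.Agent.P010MR Vale.Agent.P010MT8
open Vale.Agent.P022.H443 (inP)
open Vale.Agent.P022D.W (dec)
open Vale.Agent.P022E.GW (Ov Fb)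
open Vale.Agent.P022K.CH (Cp Id)
open Vale.Agent.P022K.TP (Af Pr am Mn)
open QD Sc

variable {D : QD} {η : GQ →* ℤˣ} {j : Qb →+* ℂ} {x : MP D η} {θ : D.L0} {N p : ℕ} [Fact p.Prime]
  {P : Id} {s : dec P →* EE D η} {y : D.L0}

namespace Spf

theorem unit_or (ck : x.Ck θ) (hP : Ov p P) (hy : IsIntegral ℤ y)
    (ty : ∀ φ, φ ∈ Ty j θ ↔ InP P (φ y)) (μ : Em D (Cp p)) :
    ‖μ.z0 y‖ = 1 ∨ ‖μ.z0 (D.cj y)‖ = 1 := by
  obtain ⟨ι, hι⟩ := ex_emb (D := D) hP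
  obtain ⟨φ, hφ⟩ := emb_fac ι μ.zH
  have h2 := ty_cj (j := j) ck φ
  rw [ty, ty, hι _ _ hy, hι _ _ hy] at h2
  have h3 : ∀ z, ι (φ z) = μ.zH z := RingHom.congr_fun hφ
  by_cases h : ‖ι (φ y)‖ < 1
  · exact .inr ((Dat.norm_int μ.zH (cj_int hy)).antisymm (h3 _ ▸ not_lt.1 (h2.1 h)))
  · exact .inl ((Dat.norm_int μ.zH hy).antisymm (h3 _ ▸ not_lt.1 h))

theorem ex_tr (a : D.L0) : ∃ b : D.M × D.M, ∀ (r : ℕ) [Fact r.Prime] (μ : Em D (Cp r)),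
    μ.ev b = μ.z0 a + μ.z0 (D.cj a) :=
  ⟨(2 * (D.em a).re, 0), fun r _ μ => by
    simp [Em.ev, Em.z0, Em.la, em_cj, em_eq, map_ofNat]; ring⟩

end Spf

/-- the Frobenius endomorphism is a unit where `y` is a unit -/
theorem frob_unit (hC : CMET) (ok : D.Ok N) (ck : x.Ck θ) (hP : Ov p P) (h : Lp j x s)
    (ht : ∀ d, uu (s d) ∈ TA D) (hy : IsIntegral ℤ y) (ty : ∀ φ, φ ∈ Ty j θ ↔ InP P (φ y))
    (k : ℕ) (d : dec P) (hd : Fb (p ^ k) P d) : ∃ a : D.L0, Rat p (s d) (D.l0 a) ∧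
      a * D.cj a = (p : D.L0) ^ k ∧ IsIntegral ℤ a ∧
      ∀ μ : Em D (Cp p), ‖μ.z0 y‖ = 1 → re μ (s d) 0 0 = μ.z0 a ∧ ‖μ.z0 a‖ = 1 := by
  have hf : Fb (p ^ k) P (sg (s d)) := (h.sec.sg d).symm ▸ hd
  obtain ⟨a, a1, a2, a3⟩ := ratl D η j x θ (s d) p k P ck hP (h.fx d) hf (ht d)
  refine ⟨a, a1, a2, a3 (h.int d), fun μ hμ => ?_⟩
  have h1 := hC N D η j x θ (s d) p k P a y μ ok ck hP (h.fx d) hf (ht d) a1 hy hμ fun φ => (ty φ).1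
  refine ⟨h1, h1 ▸ ?_⟩
  have h2 := congrArg norm (re_eps μ (s d))
  rw [re_diag μ (ht d), det_diagonal, Fin.prod_univ_two, norm_eps, norm_mul] at h2
  simp only [cons_val_zero, cons_val_one] at h2
  have h3 : ∀ ν : Em D (Cp p), ‖re ν (s d) 0 0‖ ≤ 1 := fun ν => Sc.re_le ν ok (ht d) (h.int d)
  have h4 : ‖re μ (s d) 1 1‖ ≤ 1 := by simpa [re_bar] using h3 μ.bar
  nlinarith [h3 μ, norm_nonneg (re μ (s d) 0 0), norm_nonneg (re μ (s d) 1 1)]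

/-- **points near an ordinary point are ordinary** -/
theorem ordx (hC : CMET) (ok : D.Ok N) (ck : x.Ck θ) (hP : Ov p P) (h : Lp j x s)
    (ht : ∀ d, uu (s d) ∈ TA D) (hy : IsIntegral ℤ y) (ty : ∀ φ, φ ∈ Ty j θ ↔ InP P (φ y)) :
    ∃ m, 0 < m ∧ ∀ (x' : MP D η) (s' : dec P →* EE D η), Lp j x' s' →
      (∀ d, Mn m (uu (s' d) - uu (s d))) → Ory p P s' := by
  obtain ⟨φ, hφ⟩ := P022D.W.exists_phi hP.1 hP.2.1 hP.2.2
  have hf : Fb (p ^ 1) P φ := (pow_one p).symm ▸ hφ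
  let d : dec P := ⟨φ, CH.Weil.fb_dec hP hf⟩
  obtain ⟨a, a1, a2, -, a4⟩ := frob_unit hC ok ck hP h ht hy ty 1 d hf
  obtain ⟨b, hb⟩ := Spf.ex_tr a
  obtain ⟨r, hr⟩ := exists_pr_ne p
  obtain ⟨ν, -⟩ := emx D (Cp r.1) (IsAlgClosed.lift (R := ℚ)).toRingHom
  obtain ⟨m, hm⟩ := rig_mn D r.1 ν ((p : ℝ) ^ 1)
  obtain ⟨v, hv, -, -, -, hw⟩ := exists_wl hP
  refine ⟨r.1 ^ m, pow_pos r.2.pos m, fun x' s' h' hc => ⟨d, 1, b, one_pos, hf, fun q _ hq μ => ?_,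
    fun μ => ?_⟩⟩
  · rw [hm η j p 1 _ v x' x 1 (s' d) (s d) hr le_rfl dvd_rfl hv
      ((hw _ _).2 ((h.sec.sg d).symm ▸ hf)) (by simp [h.sec.sg, h'.sec.sg]) (h'.fx d) (h.fx d)
      (h'.int d) (h.int d) (by simpa using hc d) q hq μ, a1.re hq, hb]
    simp [trace_fin_two]
  have h1 : ‖μ.z0 a‖ * ‖μ.z0 (D.cj a)‖ < 1 := by
    have := congrArg (fun z => ‖μ.zH z‖) a2
    simp only [map_mul, norm_mul, pow_one, map_natCast, Em.zH_apply] at this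
    exact this ▸ CH.norm_p_lt
  rw [hb]
  rcases Spf.unit_or ck hP hy ty μ with e | e
  · have h2 := (a4 μ e).2
    rw [h2, one_mul] at h1
    rw [IsUltrametricDist.norm_add_eq_max_of_norm_ne_norm (h2 ▸ h1.ne'), h2, max_eq_left h1.le]
  · have h2 := (a4 μ.bar (by rwa [Em.z0_bar])).2
    rw [Em.z0_bar] at h2
    rw [h2, mul_one] at h1
    rw [IsUltrametricDist.norm_add_eq_max_of_norm_ne_norm (h2 ▸ h1.ne), h2, max_eq_right h1.le]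

/-- **SPF**: a split point near `x` has a vector fixed by an open part of the inertia group -/
theorem spf (ord : ORD) (hC : CMET) (ok : D.Ok N) (ck : x.Ck θ) (hP : Ov p P) (h : Lp j x s)
    (ht : ∀ d, uu (s d) ∈ TA D) (hy : IsIntegral ℤ y) (ty : ∀ φ, φ ∈ Ty j θ ↔ InP P (φ y)) :
    ∃ m, 0 < m ∧ ∀ (x' : MP D η) (s' : dec P →* EE D η), Lp j x' s' →
      (∀ d, Mn m (uu (s' d) - uu (s d))) → ∀ (μ : Em D (Cp p)) (g : GL (Fin 2) (Cp p)),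
      (∀ d, ((g⁻¹ : GL (Fin 2) (Cp p)) * re μ (s' d) * g : M2 (Cp p)) 0 1 = 0 ∧
        ((g⁻¹ : GL (Fin 2) (Cp p)) * re μ (s' d) * g : M2 (Cp p)) 1 0 = 0) →
      ∃ (U : Subgroup GQ) (v : Ix D.g → ℚ_[p]), IsOpen (U : Set GQ) ∧ v ≠ 0 ∧
        ∀ d : dec P, d.1 ∈ U ⊓ inP P → Rat p (x'.k * s' d * x'.k⁻¹) 1 ∧
          mt (x'.k * s' d * x'.k⁻¹) (pp p) *ᵥ v = v :=
  (ordx hC ok ck hP h ht hy ty).imp fun _ H => ⟨H.1, fun x' s' h' hc μ g hg =>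
    spf0 ord iner hP h' (H.2 x' s' h' hc) μ g hg⟩

end Vale.Agent.P022K.PM
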