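import Vale.Agent.P022K.PM.StlSt
import Vale.Agent.P022K.PM.Spf
import Vale.Agent.P022K.Gd.Tan

/-!
# P022K / PM: the ordinary complex multiplication of the good model (row ODX)
-/

set_option autoImplicit false
set_option linter.all false

open Matrix

noncomputable section

namespace Vale.Agent.P022K.PM.Stl

open Vale.Agent.P022 P010MR P010MP P010M61 P010MT8
open Vale.Agent.P022D.W (dec)
open Vale.Agent.P022K.CH (Cp Id)
open Vale.Agent.P022K.TP (Af am Mn Rel Hm La)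
open QD Sc

variable {D : QD} {η : GQ →* ℤˣ} {j : Qb →+* ℂ} {x : MP D η} {θ : D.L0} {N p : ℕ} [Fact p.Prime]
  {P : Id} {s : dec P →* EE D η} {y : D.L0} {b : D.Bˣ}

namespace Odx

theorem det_unit {C : Type} [NormedField C] (ι : ℂ →+* C) {g : ℕ} {a : Mc g}
    (h : ∀ (z : ℂ) (y : Fin g → ℂ), y ≠ 0 → a *ᵥ y = z • y → ‖ι z‖ = 1) : ‖ι a.det‖ = 1 := by
  rw [det_eq_prod_roots_charpoly, map_multiset_prod]
  refine Multiset.prod_induction (fun c => ‖c‖ = 1) _ (fun _ _ a b => by rw [norm_mul, a, b, mul_one])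
    norm_one fun c hc => ?_
  obtain ⟨z, hz, rfl⟩ := Multiset.mem_map.1 hc
  obtain ⟨v, hv⟩ := (Module.End.hasEigenvalue_iff_mem_spectrum.2 ((spectrum_toLin' a).symm ▸
    (mem_spectrum_of_isRoot_charpoly (Polynomial.isRoot_of_mem_roots hz)))).exists_hasEigenvector
  exact h z v hv.2 hv.apply_eq_smul

omit [Fact p.Prime] in
theorem en (hb : x.Mk b) (hk : Int x.k) {Φ} (hT : TP.Ty x.τ (D.lb b) Φ) {z : D.L0} {c : ℕ}
    (hz : Mn 1 (am (D.l0 z))) (hc : z * D.cj z = c) : En x.τ (D.lb b z) c where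
  int := hb.l0 z ▸ TP.Mn.mul (a := 1) (b := 1) (TP.Mn.mul (a := 1) (b := 1) hk hz) hk.inv
  hm := hT.hm z
  sim := by
    rw [lb_adj, mul_assoc, ← map_mul, mul_comm (D.cj z), hc, map_natCast, ← nsmul_one, mul_smul_comm,
      mul_one, Nat.cast_smul_eq_nsmul]

theorem int_q (ok : D.Ok N) {z : D.L0} (h : IsIntegral ℤ (p * z))
    (h1 : ∀ μ : Em D (Cp p), ‖μ.z0 z‖ ≤ 1) : Mn 1 (am (D.l0 z)) := fun i k => TP.mem_Z1.2 fun r => by
  rcases eq_or_ne r.1 p with rfl | hr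
  · simpa using ((intt D N r.1 ok _ (ta_l0 z)).2.2 1).2 (fun μ => by
      have e : (am (D.l0 z)).map (TP.pr (pp r.1)) = ql r.1 (D.l0 z) := mp_cA (pp r.1) _
      rw [e, (rh_l0' μ z).eq]
      simpa using h1 μ) i k
  · have h2 := TP.mem_Z1.1 (ok.lz _ h i k) r
    rw [← D.l0A_apply, ← nsmul_eq_mul, map_nsmul, D.l0A_apply] at h2
    change ‖TP.pr r (TP.cA (p • D.l0 z i k))‖ ≤ _ at h2
    change ‖TP.pr r (TP.cA (D.l0 z i k))‖ ≤ _
    simp only [nsmul_eq_mul, map_mul, map_natCast, norm_mul] at h2 ⊢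
    rwa [Padic.norm_natCast_eq_one_iff.2 ((Nat.coprime_primes r.2 Fact.out).2 hr), one_mul] at h2

omit [Fact p.Prime] in
theorem com (hb : x.Mk b) {e : EE D η} (h : uu e ∈ TA D) (z : D.L0) :
    uu (x.k * e * x.k⁻¹) * am (D.lb b z) = am (D.lb b z) * uu (x.k * e * x.k⁻¹) := by
  rw [← hb.l0, map_mul, map_mul]
  simp only [mul_assoc]
  rw [← mul_assoc (uu x.k⁻¹), uu_inv_mul, one_mul, ← mul_assoc (uu x.k⁻¹), uu_inv_mul, one_mul,
    ← mul_assoc (uu e), ta_comm h (ta_l0 z), mul_assoc]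

end Odx

/-- **ODX** over any field -/
theorem odx0 (hC : CMET) (H : Hy N j x θ p P s y) (hk : Int x.k) {K : Type} [NormedField K]
    [Fact (Pp p K)] {Y : Fld K} (X : Th D.g Y) (frb : FRB p X) (hτ : X.τ = x.τ) (hB : Bx X)
    (hz : ∀ z : NumberField.RingOfIntegers Qb, ‖X.j (j z)‖ < 1 ↔ z ∈ P)
    (hf : ∀ k σ, P022E.GW.Fb (p ^ k) P σ → ∃ t, Ext j σ t ∧ Gd.Fb X.j p k t) :
    ∃ (f f' : Mi D.g ℚ) (w w' : Ed X), Od p X f f' w w' ∧ ∀ d,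
      uu (x.k * s d * x.k⁻¹) * am f = am f * uu (x.k * s d * x.k⁻¹) ∧
      uu (x.k * s d * x.k⁻¹) * am f' = am f' * uu (x.k * s d * x.k⁻¹) := by
  obtain ⟨b, m, -, hθ, hb, hT⟩ := H.ck.ty
  have hy' := cj_int H.int
  have n' : D.cj y * D.cj (D.cj y) = p := by rw [cj_cj, mul_comm, H.nrm]
  have e := Odx.en hb hk hT (H.ok.lz _ H.int) H.nrm
  have e' := Odx.en hb hk hT (H.ok.lz _ hy') n'
  rw [← hτ] at e e'
  obtain ⟨w, w1, w2⟩ := Gd.hom_sim hB.isb hB.isb X.good X.good e.int e.hm e.sim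
  obtain ⟨w', w1', w2'⟩ := Gd.hom_sim hB.isb hB.isb X.good X.good e'.int e'.hm e'.sim
  have eig : ∀ a, La X.τ X.τ (D.lb b (D.cj y)) a → ∀ (z : ℂ) (v : Fin D.g → ℂ), v ≠ 0 →
      a *ᵥ v = z • v → ‖X.j z‖ = 1 := fun a ha z v hv h => by
    obtain ⟨ψ, h1, rfl⟩ := hT.eig _ a (hτ ▸ ha) z v hv h
    rw [typ_eq j, ← hθ] at h1
    obtain ⟨φ, h2, rfl⟩ := h1
    refine (Dat.norm_int ((X.j : ℂ →+* Y.C).comp (j.comp φ)) hy').antisymm (not_lt.1 fun h3 => ?_)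
    exact (ty_cj H.ck φ).1 h2 ((H.ty _).2 ⟨⟨φ (D.cj y), hy'.map φ.toIntAlgHom⟩, (hz _).1 h3, rfl⟩)
  refine ⟨_, _, w, w', ⟨⟨e, w1, w2⟩, ⟨e', w1', w2'⟩, ?_, fun a ha =>
    Odx.det_unit (X.j : ℂ →+* Y.C) (eig a ha), eig, ?_⟩,
    fun d => ⟨Odx.com hb (H.ta d) _, Odx.com hb (H.ta d) _⟩⟩
  · rw [← map_mul, mul_comm, H.nrm, map_natCast, ← nsmul_one, Nat.cast_smul_eq_nsmul]
  obtain ⟨φ, hφ⟩ := P022D.W.exists_phi H.ov.1 H.ov.2.1 H.ov.2.2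
  have h1 : P022E.GW.Fb (p ^ 1) P φ := (pow_one p).symm ▸ hφ
  let d : dec P := ⟨φ, CH.Weil.fb_dec H.ov h1⟩
  obtain ⟨a, a1, a2, a3, a4⟩ := frob_unit hC H.ok H.ck H.ov H.lp H.ta H.int H.ty 1 d h1
  rw [pow_one] at a2
  obtain ⟨t, t1, t2⟩ := hf 1 φ h1
  obtain ⟨r, hr⟩ := exists_pr_ne p
  have p0 : (p : D.L0) ≠ 0 := Nat.cast_ne_zero.2 H.ov.1.ne_zero
  have y0 : y ≠ 0 := left_ne_zero_of_mul (H.nrm ▸ p0)
  have c1 : a / y * D.cj (a / y) = (1 : ℕ) := by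
    rw [map_div₀, div_mul_div_comm, a2, H.nrm, div_self p0, Nat.cast_one]
  have c2 : Mn 1 (am (D.l0 (a / y))) := Odx.int_q (p := p) H.ok
    (by rw [← H.nrm, mul_right_comm, mul_div_cancel₀ _ y0]; exact a3.mul hy') fun μ => by
      have h2 : ∀ ν : Em D (Cp p), ‖ν.z0 y‖ = 1 → ‖ν.z0 (a / y)‖ = 1 := fun ν h => by
        rw [← Em.zH_apply, map_div₀, norm_div, Em.zH_apply, Em.zH_apply, h, (a4 ν h).2, div_one]
      rcases Spf.unit_or H.ck H.ov H.int H.ty μ with h | h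
      · exact (h2 μ h).le
      have h3 := h2 μ.bar (by rwa [Em.z0_bar])
      have h4 := congrArg (fun z => ‖μ.zH z‖) c1
      simp only [map_mul, norm_mul, Em.zH_apply, ← Em.z0_bar, h3, mul_one] at h4
      rw [h4, ← Em.zH_apply, map_natCast, Nat.cast_one, NormOneClass.norm_one]
  refine frb hB 1 t (uu (x.k * s d * x.k⁻¹)) r (D.lb b a) _ (D.lb b (a / y)) 1 p 1 p w t2
    (hτ ▸ H.lp.fx d t (by rw [H.lp.sec.sg]; exact t1)) ((hk.mul (H.lp.int d)).mul hk.inv) hr ?_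
    (hτ ▸ Odx.en hb hk hT (H.ok.lz _ a3) a2) (hτ ▸ Odx.en hb hk hT c2 c1)
    (by rw [← map_mul, div_mul_cancel₀ _ y0, pow_one]) ⟨e, w1, w2⟩
  rw [← hb.l0, map_mul uu, map_mul uu, map_mul, map_mul, map_mul, map_mul, ← mt_eq (s d), a1 r hr]
  exact congrArg (fun z => _ * z * _) (mp_cA r _).symm

/-- **ODX** -/
theorem odx (hC : CMET)
    (frb : ∀ (g p : ℕ) [Fact p.Prime] (X : Th g (Yp p)), FRB p X) : ODX :=
  fun _ _ _ _ _ _ p _ _ _ _ H hk X hτ hB hz hf => odx0 hC H hk.int X (frb _ p X) hτ hB hz hf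

end Vale.Agent.P022K.PM.Stl
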