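import Vale.Agent.P022K.PM.St
import Vale.Agent.P022K.PM.Rh2

/-!
# P022K / PM: an ordinary split representation has a vector fixed by an open part of the inertia
-/

set_option autoImplicit false
set_option linter.all false

open Matrix

noncomputable section

namespace Vale.Agent.P022K.PM

open Vale.Agent.P022 Vale.Agent.P010MR Vale.Agent.P010MT8
open Vale.Agent.P022.H443 (inP)
open Vale.Agent.P022D.W (dec)
open Vale.Agent.P022E.GW (Ov Fb)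
open Vale.Agent.P022K.CH (Cp Id)
open Vale.Agent.P022K.TP (Af Pr am Mn)

namespace Spf

theorem desc {F K n ι : Type} [Field F] [Field K] [Algebra F K] [Fintype n] {u : ι → Matrix n n F}
    {x : n → K} (hx : x ≠ 0) (h : ∀ i, (u i).map (algebraMap F K) *ᵥ x = x) :
    ∃ v : n → F, v ≠ 0 ∧ ∀ i, u i *ᵥ v = v := by
  obtain ⟨k, hk⟩ := Function.ne_iff.1 hx
  obtain ⟨l, hl⟩ := not_forall.1 fun e => hk ((Module.forall_dual_apply_eq_zero_iff F (x k)).1 e)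
  refine ⟨l ∘ x, Function.ne_iff.2 ⟨k, hl⟩, fun i => funext fun a => ?_⟩
  have := congrArg l (congrFun (h i) a)
  simpa [mulVec, dotProduct, ← Algebra.smul_def] using this

theorem col {K ι : Type} [Field K] {ρ : ι → M2 K} (g : GL (Fin 2) K)
    (hg : ∀ i, ((g⁻¹ : GL (Fin 2) K) * ρ i * g : M2 K) 0 1 = 0 ∧
      ((g⁻¹ : GL (Fin 2) K) * ρ i * g : M2 K) 1 0 = 0) {w : Fin 2 → K} (hw : w ≠ 0)
    (h : ∀ i, w ᵥ* ρ i = w) : ∃ c : Fin 2 → K, c ≠ 0 ∧ ∀ i, ρ i *ᵥ c = c := by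
  have h1 : w ᵥ* (g : M2 K) ≠ 0 := fun e => hw (by
    rw [← vecMul_one w, ← g.mul_inv, ← vecMul_vecMul, e, zero_vecMul])
  obtain ⟨a, ha⟩ := Function.ne_iff.1 h1
  refine ⟨(g : M2 K) *ᵥ Pi.single a 1, fun e => ?_, fun i => ?_⟩
  · have := congrArg (((g⁻¹ : GL (Fin 2) K) : M2 K) *ᵥ ·) e
    simp only [mulVec_mulVec, Units.inv_mul, one_mulVec, mulVec_zero] at this
    simpa using congrFun this a
  have h2 : (w ᵥ* (g : M2 K)) ᵥ* ((g⁻¹ : GL (Fin 2) K) * ρ i * g : M2 K) = w ᵥ* (g : M2 K) := by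
    rw [vecMul_vecMul, ← mul_assoc, ← mul_assoc, g.mul_inv, one_mul, ← vecMul_vecMul, h]
  have h3 : ρ i * g = g * ((g⁻¹ : GL (Fin 2) K) * ρ i * g : M2 K) := by
    rw [← mul_assoc, ← mul_assoc, g.mul_inv, one_mul]
  obtain ⟨h4, h5⟩ := hg i
  rw [mulVec_mulVec, h3, ← mulVec_mulVec]
  generalize ((g⁻¹ : GL (Fin 2) K) * ρ i * g : M2 K) = δ at *
  generalize w ᵥ* (g : M2 K) = z at *
  have h6 := congrFun h2 a
  congr 1
  ext b
  fin_cases a <;> fin_cases b <;>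
    simp_all [vecMul, dotProduct, Fin.sum_univ_two]

variable {D : QD} {η : GQ →* ℤˣ} {p : ℕ} [Fact p.Prime]

theorem ex_P (μ : Em D (Cp p)) : ∃ P : Matrix (Ix D.g) (Fin 2) (Cp p), μ.Qm * P = 1 ∧
    ∀ u, Cf D u → cK p u * P = P * rh μ u := by
  obtain ⟨P, h1, -, h2⟩ := μ.fm.idem D.sy
  refine ⟨P, h1, fun u hu => ?_⟩
  have h3 : ∀ t ∈ Submodule.span (Cp p) (Set.range fun a => (D.rE a).map ((↑) : ℚ → Cp p)),
      cK p u * t = t * cK p u := fun t ht => by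
    induction ht using Submodule.span_induction with
    | mem _ e =>
      obtain ⟨a, rfl⟩ := e
      have := congrArg (cK p) (hu a)
      rw [map_mul, map_mul] at this
      beta_reduce
      exact cK_ql (p := p) (D.rE a) ▸ this
    | zero => simp
    | add a b _ _ ha hb => rw [mul_add, add_mul, ha, hb]
    | smul c a _ ha => rw [mul_smul_comm, smul_mul_assoc, ha]
  have h4 : μ.Qm * cK p u = rh μ u * μ.Qm := hu.rh μ
  rw [← Matrix.mul_one (_ * P), ← h1, ← Matrix.mul_assoc, Matrix.mul_assoc _ P, h3 _ h2,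
    Matrix.mul_assoc P, h4, Matrix.mul_assoc, Matrix.mul_assoc, h1, Matrix.mul_one]

theorem fixv (μ : Em D (Cp p)) {ι : Type} (e : ι → EE D η) {c : Fin 2 → Cp p} (hc : c ≠ 0)
    (h : ∀ i, re μ (e i) *ᵥ c = c) :
    ∃ v : Ix D.g → ℚ_[p], v ≠ 0 ∧ ∀ i, mt (e i) (pp p) *ᵥ v = v := by
  obtain ⟨P, h1, h2⟩ := ex_P μ
  refine desc (x := P *ᵥ c) (fun e => hc ?_) fun i => ?_
  · rw [← one_mulVec c, ← h1, ← mulVec_mulVec, e, mulVec_zero]
  · rw [mulVec_mulVec]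
    exact (congrArg (· *ᵥ c) (h2 _ (mt_cf (e i) (pp p)))).trans
      ((mulVec_mulVec _ _ _).symm.trans (congrArg _ (h i)))

omit [Fact p.Prime] in
theorem rat_cj (k : EE D η) {e : EE D η} (h : Rat p e 1) : Rat p (k * e * k⁻¹) 1 := fun r hr => by
  have h1 : ql r.1 (1 : Mi D.g ℚ) = 1 := Matrix.map_one _ (by simp) (by simp)
  rw [mt_eq, map_mul, map_mul, map_mul, map_mul, ← mt_eq e, h r hr, h1, mul_one, ← map_mul,
    ← map_mul, mul_inv_cancel, map_one, map_one]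

omit [Fact p.Prime] in
theorem trc_one {e : EE D η} (h : Rat p e 1) : Trc p e (2, 0) := fun r _ hr μ => by
  have h1 : ql r (1 : Mi D.g ℚ) = 1 := Matrix.map_one _ (by simp) (by simp)
  rw [re, h (pp r) hr, h1, rh_one'.eq]
  simp [Em.ev, map_ofNat]

end Spf

/-- the hypothesis of the row ORD -/
def Ory {D : QD} {η : GQ →* ℤˣ} (l : ℕ) [Fact l.Prime] (P : Id) {Γ : Subgroup GQ}
    (s : Γ →* EE D η) : Prop :=
  ∃ (d : Γ) (k : ℕ) (a : D.M × D.M), 0 < k ∧ Fb (l ^ k) P d ∧ Trc l (s d) a ∧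
    ∀ μ : Em D (Cp l), ‖μ.ev a‖ = 1

/-- **ordinary and split gives a fixed vector** -/
theorem spf0 (ord : ORD) (iner : INER) {D : QD} {η : GQ →* ℤˣ} {j : Qb →+* ℂ} {p : ℕ}
    [Fact p.Prime] {P : Id} (hP : Ov p P) {x : MP D η} {s : dec P →* EE D η} (h : Lp j x s)
    (ho : Ory p P s) (μ : Em D (Cp p)) (g : GL (Fin 2) (Cp p))
    (hg : ∀ d, ((g⁻¹ : GL (Fin 2) (Cp p)) * re μ (s d) * g : M2 (Cp p)) 0 1 = 0 ∧
      ((g⁻¹ : GL (Fin 2) (Cp p)) * re μ (s d) * g : M2 (Cp p)) 1 0 = 0) :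
    ∃ (U : Subgroup GQ) (v : Ix D.g → ℚ_[p]), IsOpen (U : Set GQ) ∧ v ≠ 0 ∧
      ∀ d : dec P, d.1 ∈ U ⊓ inP P → Rat p (x.k * s d * x.k⁻¹) 1 ∧
        mt (x.k * s d * x.k⁻¹) (pp p) *ᵥ v = v := by
  have h0 : IsOpen (((dec P).subgroupOf (dec P) : Subgroup (dec P)) : Set (dec P)) := by simp
  obtain ⟨w, u, hw, h1, h2⟩ := ord D η j x _ s p P hP le_rfl h0 h ho μ
  obtain ⟨U, hU, h3⟩ := iner D η j x _ s p P hP h0 h
  obtain ⟨c, hc, h4⟩ := Spf.col (ρ := fun d : {d : dec P // d.1 ∈ U ⊓ inP P} => re μ (s d.1)) g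
    (fun d => hg d.1) hw fun d => by
      have h5 := h2 d.1 0 _ (fun y => by simpa using d.2.2 y) (Spf.trc_one (h3 d.1 d.2))
      have h6 : (u d.1 - 1) ^ 2 = 0 := by
        simp only [Em.ev, map_ofNat, map_zero] at h5
        linear_combination h5
      rw [(h1 d.1).1, sub_eq_zero.1 (pow_eq_zero_iff two_ne_zero |>.1 h6), one_smul]
  obtain ⟨v, hv, h5⟩ := Spf.fixv μ
    (fun d : {d : dec P // d.1 ∈ U ⊓ inP P} => x.k * s d.1 * x.k⁻¹) (c := re μ x.k *ᵥ c)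
    (fun e => hc (by
      rw [← one_mulVec c, ← re_one μ (η := η), ← inv_mul_cancel x.k, re_mul, ← mulVec_mulVec, e,
        mulVec_zero]))
    fun d => by rw [mulVec_mulVec, ← re_mul, inv_mul_cancel_right, re_mul, ← mulVec_mulVec, h4]
  exact ⟨U, v, hU, hv, fun d hd => ⟨Spf.rat_cj _ (h3 d hd), h5 ⟨d, hd⟩⟩⟩

end Vale.Agent.P022K.PM
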