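import Vale.Agent.P022K.PM.StE1
import Vale.Agent.P022K.PM.MdSt

/-!
# P022K / PM, row ST: an invariant vector gives an invariant element of the universal cover
-/

set_option autoImplicit false
set_option linter.all false

open Matrix

noncomputable section

namespace Vale.Agent.P022K.PM.Eqv

open Vale.Agent.P022 P010M P010MBas P010MUQ P010MR P010M71 P010MG0 P010M61 P010MP P010MT8 TP Gd

variable {g : ℕ} {r : TP.Pr}

open Classical in
/-- the adele with one component -/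
def sg (r : TP.Pr) (a : ℚ_[r.1]) (h : ‖a‖ ≤ 1) : Af :=
  mkA (Pi.single r a) 1 one_pos fun t => by
    rw [Nat.cast_one, one_mul]
    rcases eq_or_ne t r with rfl | e
    · rwa [Pi.single_eq_same]
    · rw [Pi.single_eq_of_ne e, norm_zero]; exact zero_le_one

theorem sg_self (a : ℚ_[r.1]) (h : ‖a‖ ≤ 1) : pr r (sg r a h) = a := by
  classical
  exact (pr_mkA ..).trans (by convert Pi.single_eq_same (M := fun t : TP.Pr => ℚ_[t.1]) r a)

theorem sg_ne (a : ℚ_[r.1]) (h : ‖a‖ ≤ 1) {t : TP.Pr} (e : t ≠ r) : pr t (sg r a h) = 0 := by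
  classical
  exact (pr_mkA ..).trans (by convert Pi.single_eq_of_ne (M := fun t : TP.Pr => ℚ_[t.1]) e a)

theorem ex_vec {v : Ix g → ℚ_[r.1]} (hv : v ≠ 0) : ∃ V : Ix g → Af, Vn 1 V ∧
    (¬ ∀ n : ℤ, Vn 1 (cA ((r.1 : ℚ) ^ (-n)) • V)) ∧
    ∀ u : Mi g Af, u.map (pr r) *ᵥ v = v → u *ᵥ V = V := by
  have h0 : (r.1 : ℚ_[r.1]) ≠ 0 := Nat.cast_ne_zero.2 r.2.ne_zero
  have h1 : ‖(r.1 : ℚ_[r.1])‖ < 1 := Padic.norm_p_lt_one
  obtain ⟨k, hk⟩ := exists_pow_lt_of_lt_one (inv_pos.2 (norm_pos_iff.2 hv)) h1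
  have h2 : ∀ i, ‖(r.1 : ℚ_[r.1]) ^ k * v i‖ ≤ 1 := fun i => by
    rw [norm_mul, norm_pow, ← inv_mul_cancel₀ (norm_ne_zero_iff.2 hv)]
    exact mul_le_mul hk.le (norm_le_pi_norm v i) (norm_nonneg _) (by positivity)
  refine ⟨fun i => sg r _ (h2 i), fun i => mem_Z1.2 fun t => ?_, fun h => hv (funext fun i => ?_),
    fun u hu => funext fun i => ext_pr fun t => ?_⟩
  · rcases eq_or_ne t r with rfl | e
    · rw [sg_self]; exact h2 i
    · rw [sg_ne _ _ e, norm_zero]; exact zero_le_one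
  · by_contra e
    obtain ⟨n, hn⟩ := exists_pow_lt_of_lt_one (norm_pos_iff.2 (mul_ne_zero (pow_ne_zero k h0) e)) h1
    have := mem_Z1.1 (h n i) r
    rw [Pi.smul_apply, smul_eq_mul, map_mul, pr_cA, sg_self, norm_mul, _root_.zpow_neg, zpow_natCast,
      Rat.cast_inv, Rat.cast_pow, Rat.cast_natCast, norm_inv, norm_pow,
      inv_mul_le_iff₀ (pow_pos (norm_pos_iff.2 h0) n), mul_one] at this
    exact this.not_gt hn
  · simp only [mulVec, dotProduct, map_sum, map_mul]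
    rcases eq_or_ne t r with rfl | e
    · simp only [sg_self, mul_left_comm _ (_ ^ k), ← Finset.mul_sum]
      exact congrArg _ (congrFun hu i)
    · simp only [sg_ne _ _ e, mul_zero, Finset.sum_const_zero]

variable {K : Type} [NormedField K] {Y : Fld K} {X B : P010MP.Th g Y} {p : ℕ}

theorem close {σ : P010M61.Hom Y Y} {ϖ c : OO Y.C} (h0 : ϖ ≠ 0) {a : Y.C} (h : σ.j a = a)
    (hc : dist (c : Y.C) a < ‖(ϖ : Y.C)‖) : ϖ ∣ oh σ c - c := by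
  rw [dvd_iff h0, AddSubgroupClass.coe_sub, oh_val,
    show σ.j c - c = σ.j (c - a) + -(c - a) by rw [map_sub, h]; ring]
  refine (IsUltrametricDist.norm_add_le_max _ _).trans ?_
  rw [σ.iso, norm_neg, max_self, ← dist_eq_norm]
  exact hc.le

/-- `u d` tends to `1` -/
def To1 {Γ : Subgroup GQ} (u : Γ → Mi g Af) : Prop := ∀ n, 0 < n →
  ∃ N : Subgroup GQ, IsOpen (N : Set GQ) ∧ ∀ d : Γ, d.1 ∈ N → Mn n (u d - 1)

theorem fix_up0 [hp : Fact p.Prime] [Fact (Pp p K)] (hR : RHO p X)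
    (hk : ∀ q, ph B q = 0 → ∀ i, ∃ n : ℤ, q i = n) (H : Cgr p X (.id Y) B) {j : Qb →+* ℂ}
    {Γ : Subgroup GQ} (σ : Γ → P010M61.Hom Y Y) (s : Γ → ℂ ≃+* ℂ) (u u1 : Γ → Mi g Af)
    {v : Ix g → ℚ_[p]} (he : ∀ d : Γ, Ext j d (s d)) (hs : ∀ d z, (σ d).j (X.j z) = X.j (s d z))
    (hj : B.j = X.j) (hd : DenseRange fun a : Qb => X.j (j a)) (h : ∀ d, Rel (s d) X.τ X.τ (u d))
    (h1 : ∀ d, Rel (s d) B.τ B.τ (u1 d)) (hu : To1 u) (hu1 : To1 u1) (hv : v ≠ 0)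
    (hf : ∀ d, (u1 d).map (pr ⟨p, hp.out⟩) *ᵥ v = v) :
    ∃ x y, H.Rel x y ∧ x ≠ 0 ∧ y 0 = 0 ∧ ∃ N : Subgroup GQ, IsOpen (N : Set GQ) ∧
      ∀ d : Γ, d.1 ∈ N → ∃ a, Sa X (σ d) a ∧ (∀ z, a (ta X z) = ta X (u d *ᵥ z)) ∧
        ∀ n, a (x n) = x n := by
  obtain ⟨V, v1, v2, v3⟩ := ex_vec (r := ⟨p, hp.out⟩) hv
  have p0 : (p : ℚ) ≠ 0 := Nat.cast_ne_zero.2 hp.out.ne_zero
  have y0 : ta B (cA ((p : ℚ) ^ (-(0 : ℤ))) • V) = 0 := ta_int B (by simpa using v1)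
  obtain ⟨x, hx, x0⟩ := rel_sur hR H (y := fun n => ta B (cA ((p : ℚ) ^ (-n)) • V))
    ⟨fun n => by
      rw [← map_nsmul, ← Nat.cast_smul_eq_nsmul Af, smul_smul, ← map_natCast cA, ← map_mul,
        neg_add, zpow_add₀ p0, _root_.zpow_neg_one, mul_left_comm, mul_inv_cancel₀ p0, mul_one],
      0, by rw [pow_zero, one_smul]; beta_reduce; rw [y0]; exact zero_mem _⟩
    fun e => v2 fun n => ta_ker B hk (congrFun e n)
  obtain ⟨M, hM, k0⟩ := ex_ta X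
  obtain ⟨M1, hM1, k1⟩ := ex_ta B
  obtain ⟨N, o0, n0⟩ := hu M hM
  obtain ⟨N1, o1, n1⟩ := hu1 M1 hM1
  choose c hc using fun t : Σ i, (H.P i).support => hd.exists_dist_lt
    ((MvPolynomial.coeff t.2 (H.P t.1) : OO Y.C) : Y.C)
    (norm_pos_iff.2 fun e => H.ne (Subtype.ext e))
  refine ⟨x, _, hx, x0, y0, N ⊓ N1 ⊓ ⨅ t, MulAction.stabilizer GQ (c t), ?_, fun d ⟨⟨d0, d1⟩, d2⟩ => ?_⟩
  · rw [Subgroup.coe_inf, Subgroup.coe_inf, Subgroup.coe_iInf]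
    exact (o0.inter o1).inter
      (isOpen_iInter_of_finite fun t => stabilizer_isOpen_of_isIntegral _)
  obtain ⟨a, a1, a2⟩ := k0 _ _ _ (hs d) (h d) (n0 d d0)
  obtain ⟨b, b1, b2⟩ := k1 _ (σ d) _ (hj ▸ hs d) (h1 d) (n1 d d1)
  refine ⟨a, a1, a2, fun n => a1.fp.2 (near_fix hR H a1 b1 (fun i m => ?_) hx (fun n => ?_) n)⟩
  · by_cases hm : m ∈ (H.P i).support
    · refine close H.ne ?_ (hc ⟨i, m, hm⟩)
      exact (hs d _).trans (congrArg _ ((he d _).trans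
        (congrArg j (Subgroup.mem_iInf.1 d2 ⟨i, m, hm⟩))))
    · rw [MvPolynomial.notMem_support_iff.1 hm, map_zero, sub_zero]
      exact dvd_zero _
  · exact b1.fp.1 (by rw [b2, mulVec_smul, v3 _ (hf d)])

theorem tp_eq (h : ∀ q i, (X.T.z q i : Y.C) = X.j (X.F i (cq q))) : tp X = ph X :=
  AddMonoidHom.ext fun q => (exists_den_v q).elim fun M k => by
    have := tp_ph X (M := M) (δ := 1) ⟨fun a b => by simp, fun q _ i => by simpa using h q i⟩ k.2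
    simpa using this

end Vale.Agent.P022K.PM.Eqv
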