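import Mathlib

/-!
# P022K / PM: the first order step, analytic part
-/

set_option linter.all false

namespace Vale.Agent.P022K.PM.Gen

open Filter Topology Matrix

variable {K n I κ ι : Type} [Fintype n] [Fintype I] [Fintype κ] [Fintype ι] [DecidableEq ι]

/-- a determinant that does not vanish identically does not vanish at a rational point -/
theorem ex_rat [Field K] [CharZero K] (W : (κ → K) →ₗ[K] Matrix ι ι K) {ξ : κ → K}
    (h : (W ξ).det ≠ 0) : ∃ x : κ → ℚ, (W fun m => x m).det ≠ 0 := by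
  classical
  let P : MvPolynomial κ K :=
    (∑ m, (MvPolynomial.X m : MvPolynomial κ K) • (W (Pi.single m 1)).map MvPolynomial.C).det
  have e : ∀ z, MvPolynomial.eval z P = (W z).det := fun z => by
    rw [RingHom.map_det]
    congr 1
    conv_rhs => rw [pi_eq_sum_univ' z, map_sum]
    ext a b
    simp [Matrix.sum_apply]
  by_contra! k
  have : P = 0 := MvPolynomial.funext_set (fun _ => Set.range ((↑) : ℚ → K))
    (fun _ => Set.infinite_range_of_injective Rat.cast_injective) fun z hz => by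
      choose x hx using fun m => hz m trivial
      rw [e, ← funext hx, k, map_zero]
  exact h (by rw [← e, this, map_zero])

/-- the first order step -/
theorem fo [NontriviallyNormedField K] [CompleteSpace K] [CharZero K]
    (L : (n → K) →ₗ[K] (I → K)) (G : (I → K) →ₗ[K] (n → K)) (hG : ∀ t, G (L t) = t) (A : ℝ)
    (d : κ → I → K) (hd : ∀ t, ∃ c : κ → K, L t = ∑ m, c m • d m)
    (W : (n → K) →ₗ[K] Matrix ι ι K) (hW : ∃ t, (W t).det ≠ 0) :
    ∃ (x : κ → ℚ) (ρ : ℝ), 0 < ρ ∧ ∀ (c : ℕ → K) (Δ : ℕ → I → K) (t : ℕ → n → K),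
      (∀ k, c k ≠ 0) → Tendsto c atTop (𝓝 0) →
      Tendsto (fun k => (c k)⁻¹ • Δ k) atTop (𝓝 (∑ m, (x m : K) • d m)) →
      (∀ᶠ k in atTop, ‖t k‖ ≤ ρ ∧ ‖Δ k - L (t k)‖ ≤ A * ‖t k‖ ^ 2) →
      ∀ᶠ k in atTop, (W (t k)).det ≠ 0 := by
  obtain ⟨t0, h0⟩ := hW
  obtain ⟨c0, hc0⟩ := hd t0
  obtain ⟨x, hx⟩ := ex_rat (W ∘ₗ G ∘ₗ Fintype.linearCombination K d) (ξ := c0) (by
    rwa [LinearMap.comp_apply, LinearMap.comp_apply, Fintype.linearCombination_apply, ← hc0, hG])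
  rw [LinearMap.comp_apply, LinearMap.comp_apply, Fintype.linearCombination_apply] at hx
  let G' := LinearMap.toContinuousLinearMap G
  have hB : 0 ≤ ‖G'‖ * |A| := by positivity
  refine ⟨x, 1 / (2 * (‖G'‖ * |A| + 1)), by positivity, fun c Δ t h1 h2 h3 h4 => ?_⟩
  have h5 := (G'.continuous.tendsto _).comp h3
  have h6 : ∀ᶠ k in atTop, ‖G' ((c k)⁻¹ • Δ k) - (c k)⁻¹ • t k‖ ≤
      ‖G'‖ * |A| * ‖t k‖ * ‖(c k)⁻¹ • t k‖ := h4.mono fun k hk => by
    rw [show G' ((c k)⁻¹ • Δ k) - (c k)⁻¹ • t k = (c k)⁻¹ • G' (Δ k - L (t k)) by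
      rw [map_sub, map_smul, smul_sub]; exact congrArg _ (congrArg _ (hG _).symm), norm_smul,
      norm_smul]
    have := (G'.le_opNorm _).trans (mul_le_mul_of_nonneg_left (hk.2.trans
      (mul_le_mul_of_nonneg_right (le_abs_self A) (sq_nonneg _))) (norm_nonneg G'))
    exact (mul_le_mul_of_nonneg_left this (norm_nonneg _)).trans_eq (by ring)
  have h7 : ∀ᶠ k in atTop, ‖(c k)⁻¹ • t k‖ ≤ 2 * ‖G' ((c k)⁻¹ • Δ k)‖ := by
    filter_upwards [h4, h6] with k a b
    have e1 : ‖G'‖ * |A| * ‖t k‖ ≤ 1 / 2 := by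
      have := a.1
      rw [le_div_iff₀ (by positivity)] at this
      nlinarith [norm_nonneg (t k)]
    have e2 := norm_sub_norm_le ((c k)⁻¹ • t k) (G' ((c k)⁻¹ • Δ k))
    rw [norm_sub_rev] at e2
    nlinarith [norm_nonneg ((c k)⁻¹ • t k)]
  have h8 : Tendsto (fun k => ‖G'‖ * |A| * (‖c k‖ * (2 * ‖G' ((c k)⁻¹ • Δ k)‖)) *
      (2 * ‖G' ((c k)⁻¹ • Δ k)‖)) atTop (𝓝 0) := by
    simpa using (((h2.norm.mul (h5.norm.const_mul 2)).const_mul (‖G'‖ * |A|)).mul
      (h5.norm.const_mul 2))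
  have h9 : Tendsto (fun k => G' ((c k)⁻¹ • Δ k) - (c k)⁻¹ • t k) atTop (𝓝 0) := by
    refine squeeze_zero_norm' ?_ h8
    filter_upwards [h6, h7] with k a b
    have e : ‖t k‖ = ‖c k‖ * ‖(c k)⁻¹ • t k‖ := by rw [← norm_smul, smul_inv_smul₀ (h1 k)]
    refine a.trans ?_
    rw [e]
    gcongr
  have h10 : Tendsto (fun k => (c k)⁻¹ • t k) atTop (𝓝 (G' (∑ m, (x m : K) • d m))) := by
    simpa only [Function.comp, sub_sub_cancel, sub_zero] using h5.sub h9
  have h11 : Continuous fun u => (W u).det := W.continuous_on_pi.matrix_det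
  filter_upwards [((h11.tendsto _).comp h10).eventually_ne hx] with k hk e
  exact hk (by rw [Function.comp, map_smul, det_smul, e, mul_zero])

end Vale.Agent.P022K.PM.Gen
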