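import Vale.Agent.P022K.PM.StS
import Vale.Agent.P022K.PM.StlSt
import Vale.Agent.P022K.PM.Iso
import Vale.Agent.P022K.PM.Fld0
import Vale.Agent.P022K.PM.StgSt
import Vale.Agent.P022K.PM.StT

/-!
# P022K / PM: the first half of ST (helper4)
-/

set_option autoImplicit false

open Matrix

noncomputable section

namespace Vale.Agent.P022K.PM

open Vale.Agent.P022 P010MR P010MP P010M61 P010MT8 P010M71 P010MH P010MGa P010M45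
open Vale.Agent.P022D.W (dec)
open Vale.Agent.P022.H443 (inP)
open Vale.Agent.P022K.CH (Id Cp)
open Vale.Agent.P022K.TP
open Vale.Agent.P022K.TP.Uq
open Vale.Agent.P010M41 (dh)
open Vale.Agent.P010M14 (eH)
open Vale.Agent.P010M74 (Zs)

namespace Stg

variable {K : Type} [NormedField K] (p : ℕ) [Fact p.Prime] [Fact (Pp p K)] {g : ℕ} {Y : Fld K}

def Em (X : Th g Y) {n : Type} [Fintype n] (Z : n → Mi g ℂ) (t : n → Y.C) : Mi g Y.C :=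
  dh X (eH X.τ) + ∑ a, t a • dh X (Z a)

def LOCT (X : Th g Y) : Prop := 4 ≤ X.N → ∀ (ς : Type) (r : ς → ℕ) (γ : ∀ s, Tn g (r s)) (L0 : ℕ),
  0 < L0 → ∃ L, 0 < L ∧ L0 ∣ L ∧ 2 * X.N ∣ L ∧ ∃ x : Ia g X.N → Qv g, (∀ b, Box L (x b)) ∧
    pk X.N x X.τ ≠ 0 ∧ ∃ (ha : ∀ b q, AnalyticAt ℂ
      (fun y => Eb X.N x b (tx X.τ (Zs γ X.τ) y) (cq q)) 0) (C : ℝ) (hC : 0 ≤ C),
    (∀ b q, Box L q → ∃ A, ∀ k, (gTD (X.j : ℂ →+* Y.C) (Pi.single · 1) C hC).Bd k A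
      (ag _ (ha b q))) ∧ ∃ ρ > 0, ∀ t, ‖t‖ ≤ ρ → ‖t‖ * C < ‖(p : Y.C)‖ → ∀ τ' ∈ Hg g,
    pk X.N x τ' ≠ 0 → (∀ b q, Box L q → X.j (Eb X.N x b τ' (cq q)) =
      (gTD (X.j : ℂ →+* Y.C) (Pi.single · 1) C hC).tay t (ag _ (ha b q))) →
    ∃ (B : Th g Y) (H : Cgr p X (.id Y) B), B.j = X.j ∧ B.N = X.N ∧
      (∃ d : Sp g ℤ, d ∈ P010MH.Gm g L ∧ act (rl d) B.τ = τ') ∧
      ∀ x y, H.Rel x y → y 0 = 0 →
        Em X (Zs γ X.τ) t *ᵥ X.ql p (.id Y) x = X.ql p (.id Y) x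

def GEN : Prop := ∀ (g : ℕ) (ς : Type) [Fintype ς] (r : ς → ℕ) (γ : ∀ s, Tn g (r s)),
  (∀ s, IsInt (γ s)) → ∀ N, 4 ≤ N → ∃ M0, 0 < M0 ∧ ∀ M, 0 < M → M0 ∣ M → 2 * N ∣ M →
  (∀ τ ∈ Loc γ, ∀ τ' ∈ Loc γ,
      (∀ x x', Ph g N M x τ / Ph g N M x' τ = Ph g N M x τ' / Ph g N M x' τ') →
      ∃ δ ∈ Gm g M, Fix γ δ ∧ act (rl δ) τ' = τ) ∧
  ∀ τ ∈ Loc γ, ∀ x : Ia g N → Qv g, (∀ b, Box M (x b)) → pk N x τ ≠ 0 →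
  ∀ (K : Type) [NormedField K] [IsUltrametricDist K] [CompleteSpace K] (p : ℕ), (p : K) ≠ 0 →
    ‖(p : K)‖ < 1 → ∀ (J : ℂ →+* K) (j : Qb →+* ℂ) (v : AbsoluteValue Qb ℝ), IsPl p v →
    (∀ a, v a = ‖J (j a)‖) → ∀ D : Subgroup GQ, D ≤ stab v →
    ∀ κ : D →* Equiv.Perm (Xt g N (M * M)), Pm γ (Ph g N M) j D.subtype κ →
    (∃ U : Subgroup GQ, IsOpen (U : Set GQ) ∧ ∀ d : D, d.1 ∈ U → κ d = 1) →
    Fx (Ph g N M) j D.subtype κ τ →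
    ∀ (ha : ∀ b q, AnalyticAt ℂ (fun y => Eb N x b (tx τ (Zs γ τ) y) (cq q)) 0) (C : ℝ)
      (hC : 0 ≤ C), (∀ b q, Box M q → ∃ A, ∀ k, (gTD J (Pi.single · 1) C hC).Bd k A
        (ag _ (ha b q))) → ∀ (ι : Type) [Fintype ι] [DecidableEq ι]
      (W : (Fin (Module.finrank ℂ (Sl γ τ)) → K) →ₗ[K] Matrix ι ι K), (∃ t, (W t).det ≠ 0) →
    ∀ ρ > 0, ∃ τ' ∈ Loc γ, pk N x τ' ≠ 0 ∧ Fx (Ph g N M) j D.subtype κ τ' ∧ ∃ t, ‖t‖ ≤ ρ ∧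
      ‖t‖ * C < ‖(p : K)‖ ∧ (∀ b q, Box M q → J (Eb N x b τ' (cq q)) =
        (gTD J (Pi.single · 1) C hC).tay t (ag _ (ha b q))) ∧ (W t).det ≠ 0

def SPF (p : ℕ) [Fact p.Prime] {D : QD} {η : GQ →* ℤˣ} (j : Qb →+* ℂ) (P : Id)
    (s : dec P →* EE D η) : Prop :=
  ∃ m, 0 < m ∧ ∀ (x' : MP D η) (s' : dec P →* EE D η), Lp j x' s' →
    (∀ d, Mn m (uu (s' d) - uu (s d))) → ∀ (μ : PM.Em D (Cp p)) (g : GL (Fin 2) (Cp p)),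
    (∀ d, ((g⁻¹ : GL (Fin 2) (Cp p)) * re μ (s' d) * g : M2 (Cp p)) 0 1 = 0 ∧
      ((g⁻¹ : GL (Fin 2) (Cp p)) * re μ (s' d) * g : M2 (Cp p)) 1 0 = 0) →
    ∃ (U : Subgroup GQ) (v : Ix D.g → ℚ_[p]), IsOpen (U : Set GQ) ∧ v ≠ 0 ∧ ∀ d : dec P,
      d.1 ∈ U ⊓ inP P → Rat p (x'.k * s' d * x'.k⁻¹) 1 ∧
        mt (x'.k * s' d * x'.k⁻¹) (pp p) *ᵥ v = v

theorem zs_inv (d : Sp g ℤ) : am (zs d⁻¹).1 * am (zs d).1 = 1 := by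
  rw [← am_mul, ← am_one]
  refine congrArg am ((Matrix.map_mul (f := Int.castRingHom ℚ)).symm.trans ?_)
  rw [← Submonoid.coe_mul, inv_mul_cancel]
  exact Matrix.map_one _ rfl rfl

theorem back {σ : ℂ ≃+* ℂ} {τ τ' : Mc g} {u : Mi g Af} {d : Sp g ℤ} (hτ : τ ∈ Hg g)
    (e : act (rl d) τ = τ') (h : Rel σ τ' τ' u) :
    Rel σ τ τ (am (zs d⁻¹).1 * u * am (zs d).1) := by
  have h1 := rel_sp hτ (zs d)
  rw [qr_zs, e] at h1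
  simpa [mul_assoc] using (h1.inv (u' := am (zs d⁻¹).1) (mul_eq_one_comm.1 (zs_inv d))).mul
    (h.mul h1)

variable {p} {D : QD} {η : GQ →* ℤˣ} {j : Qb →+* ℂ} {P : Id}

/-- the first half -/
theorem half {x : MP D η} {s : dec P →* EE D η} {θ : D.L0} (ck : x.Ck θ) (h : Lp j x s)
    (hk : Int x.k) (X : Th D.g Y)
    (hτ : X.τ = x.τ) (h4 : 4 ≤ X.N) {v : AbsoluteValue Qb ℝ} (hv : IsPl p v)
    (h1 : dec P ≤ stab v) (h2 : ∀ a, v a = ‖X.j (j a)‖) (hG : GEN) (hL : LOCT p X)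
    {n : ℕ} (hn : 0 < n) :
    ∃ (x' : MP D η) (s' : dec P →* EE D η), Lp j x' s' ∧ (∀ d, Mn n (uu (s' d) - uu (s d))) ∧
      ((∃ (U : Subgroup GQ) (w : Ix D.g → ℚ_[p]), IsOpen (U : Set GQ) ∧ w ≠ 0 ∧ ∀ d : dec P,
        d.1 ∈ U ⊓ inP P → mt (x'.k * s' d * x'.k⁻¹) (pp p) *ᵥ w = w) → Spx p j P X) := by
  have hp : Pp p Y.C := Fact.out
  obtain ⟨ς, _, γ, a1, a2, a3⟩ := tens D.rm
  obtain ⟨M0, m0, hG⟩ := hG D.g ς (fun _ => 2) γ a1 X.N h4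
  obtain ⟨L, l0, l1, l2, y, c1, c2, ha, C, hC, c3, ρ, ρ0, hL⟩ :=
    hL h4 ς (fun _ => 2) γ (M0 * n) (Nat.mul_pos m0 hn)
  obtain ⟨hI, hG⟩ := hG L l0 ((dvd_mul_right _ _).trans l1) l2
  obtain ⟨κ, k1, k2, k3, k4⟩ := sect hk h a2 a3 (N := X.N) (by omega)
    (by have := Nat.le_of_dvd l0 l2; omega) hI
  obtain ⟨τ', d1, d2, d3, t, d4, d5, d6, d7⟩ := hG X.τ (by rw [hτ, a2]; exact x.loc) y c1 c2 Y.C p
    hp.1 hp.2 X.j j v hv h2 _ h1 κ k1 k2 (hτ ▸ k3) ha C hC c3 _ _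
    (Trv.ex_det ck a1 a2 _ hτ) ρ ρ0
  obtain ⟨x', s', rfl, e1, e2, e3⟩ := k4 τ' d1 d3
  obtain ⟨B, H, f1, -, ⟨δ, -, f2⟩, f3⟩ := hL t d4 d5 _ d1.1 d2 d6
  have i1 := zs_inv δ
  have i2 := congrArg (mp (pp p)) (mul_eq_one_comm.1 i1)
  rw [map_mul, map_one] at i2
  refine ⟨x', s', e2, fun d => (e3 d).anti ((dvd_mul_left _ _).trans l1), fun ⟨U, w, g1, g2, g3⟩ =>
    ⟨B, H, U, fun d => am (zs δ⁻¹).1 * uu (x'.k * s' d * x'.k⁻¹) * am (zs δ).1,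
      mp (pp p) (am (zs δ⁻¹).1) *ᵥ w, f1, g1, fun e => g2 ?_,
      fun d σ e => back B.hτ f2 (e2.fx d σ (by rw [e2.sec.sg]; exact e)),
      fun m hm => (e2.sec.cts m hm).imp fun W e => ⟨e.1, fun d hd => ?_⟩, fun d hd => ?_,
      fun a b r b0 => Trv.trv X γ d7 (f3 a b r b0)⟩⟩
  · rw [← one_mulVec w, ← i2, ← mulVec_mulVec, e, mulVec_zero]
  · have := Mn.mul (Mn.mul (mn_zs δ⁻¹) ((e.2 d hd).conj (k := x'.k) (e1 ▸ hk))) (mn_zs δ)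
    rwa [one_mul, mul_one, mul_sub, sub_mul, mul_one, i1] at this
  · rw [← mp_apply, map_mul, map_mul, mulVec_mulVec, mul_assoc, i2, mul_one, ← mulVec_mulVec,
      ← mt_eq, g3 d hd]

/-- **HALF1** -/
theorem half0 {N : ℕ} {x : MP D η} {θ y : D.L0} {s : dec P →* EE D η}
    (h : Stl.Hy N j x θ p P s y)
    (hk : Cn 1 x.k) (X : Th D.g Y) (hτ : X.τ = x.τ) (h4 : 4 ≤ X.N) {v : AbsoluteValue Qb ℝ}
    (hv : IsPl p v) (h1 : dec P ≤ stab v) (h2 : ∀ a, v a = ‖X.j (j a)‖) (hG : GEN) (hL : LOCT p X)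
    (hS : SPF p j P s) (μ : PM.Em D (Cp p)) {n : ℕ} (hn : 0 < n) :
    ∃ (x' : MP D η) (s' : dec P →* EE D η), Lp j x' s' ∧ (∀ d, Mn n (uu (s' d) - uu (s d))) ∧
      ((∃ g : GL (Fin 2) (Cp p), ∀ d,
        ((g⁻¹ : GL (Fin 2) (Cp p)) * re μ (s' d) * g : M2 (Cp p)) 0 1 = 0 ∧
        ((g⁻¹ : GL (Fin 2) (Cp p)) * re μ (s' d) * g : M2 (Cp p)) 1 0 = 0) → Spx p j P X) := by
  obtain ⟨m, m0, hS⟩ := hS
  obtain ⟨x', s', a1, a2, a3⟩ := half h.ck h.lp hk.int X hτ h4 hv h1 h2 hG hL (Nat.mul_pos hn m0)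
  refine ⟨x', s', a1, fun d => (a2 d).anti (dvd_mul_right _ _), fun ⟨g, e⟩ => a3 ?_⟩
  obtain ⟨U, w, b1, b2, b3⟩ := hS x' s' a1 (fun d => (a2 d).anti (dvd_mul_left _ _)) μ g e
  exact ⟨U, w, b1, b2, fun d hd => (b3 d hd).2⟩

end Stg

end Vale.Agent.P022K.PM
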