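import Vale.Agent.P022K.PM.StQ0
import Vale.Agent.P022K.PM.StQa
import Vale.Agent.P022K.PM.StQb

/-!
# P022K / PM: row INJ (helper47)
-/

set_option autoImplicit false
set_option linter.all false

open Matrix Filter Topology

noncomputable section

namespace Vale.Agent.P022K.PM.Stl

open Vale.Agent.P022 P010M P010MBas P010MUQ P010MR P010M71 P010MG0 P010MP P010M61 P010MT8
open Vale.Agent.P022K.TP (Af am av Mn Vn chi Rel Hm La Algp pr cm)
open Sq

variable {p : ℕ} [hp : Fact p.Prime] {g : ℕ} {Y : Fld ℚ_[p]} {X : Th g Y}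

namespace Sq1

theorem ql_le {x : ℤ → Po X} (hx : x ∈ Uc p X) (h0 : x 0 = 0) : ‖(qo p X x).2‖ ≤ 1 := by
  have H := P010MUQ.kit X.tn X.cb (fr p Y.C) (oi Y)
  have hn : ∀ n : ℕ, al X.tn X.cb (fr p Y.C) ((n + 1) • x) =
      (n + 1) • al X.tn X.cb (fr p Y.C) x := fun n => by
    induction n with
    | zero => simp
    | succ n ih =>
      rw [succ_nsmul, (H.ql.1 _ (nsmul_mem hx _).1).2.2.2 x hx.1, ih, Pi.smul_apply, h0, smul_zero,
        ((P010M34.dt X.tn X.cb (oi Y)).2.1 0 0).2, succ_nsmul _ (n + 1)]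
      exact add_eq_left.2 (funext fun _ => map_zero _)
  have h1 := ((H.ql.2 x hx).1).congr (f₂ := fun _ => al X.tn X.cb (fr p Y.C) x) fun m => by
    rw [Cmp.shf_neg hx.1, ← Nat.succ_pred_eq_of_pos (pow_pos hp.out.pos m), hn, ← Nat.succ_eq_add_one,
      Nat.succ_pred_eq_of_pos (pow_pos hp.out.pos m), ← Nat.cast_smul_eq_nsmul Y.C, smul_smul,
      Nat.cast_pow, ← mul_pow, mul_comm, (fr p Y.C).hq, one_pow, one_smul]
  obtain ⟨a, ha⟩ := (H.ql.1 x hx.1).1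
  rw [tendsto_nhds_unique h1 tendsto_const_nhds, ha]
  exact (pi_norm_le_iff_of_nonneg zero_le_one).2 fun i => (fr p Y.C).le _

theorem tpp (hX : Bx X) : TPt p (pt X) :=
  ⟨fun v hv => (pt_zero X.hτ X.two hX.isb X.good v).2 hv, fun v hv i => by
    obtain ⟨z, hz⟩ := (pt_zero X.hτ X.two hX.isb X.good v).1 hv i
    rw [hz, Rat.cast_intCast]
    exact Padic.norm_int_le_one z,
    fun k t ht => pt_tors X.hτ X.two hX.isb X.good (pow_ne_zero k hp.out.ne_zero) ht⟩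

variable (T : Tm p (Ix g) (Po X))

theorem xv_uc (v : Ix g → ℚ_[p]) : xv T v ∈ Uc p X :=
  ⟨xv_cmp T v, (T.tor _).imp fun _ h => by rw [xv_apply, h]; exact zero_mem _⟩

theorem xv_sur' {x : ℤ → Po X} (hx : Cmp p x) {n : ℤ} (h : x n = 0) : ∃ v, xv T v = x := by
  obtain ⟨v, hv⟩ := xv_sur T (hx.shf n) ((congrArg x (zero_add n)).trans h)
  refine ⟨(p : ℚ_[p]) ^ n • v, funext fun k => ?_⟩
  have := congrFun hv (k - n)
  rw [shf, sub_add_cancel] at this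
  rw [← this, xv_apply, xv_apply, smul_smul, zpow_sub₀ (Nat.cast_ne_zero.2 hp.out.ne_zero), inv_div,
    div_eq_inv_mul]

theorem ql_inl (v : Ix g → ℚ_[p]) : X.ql p (.id Y) (xv T v) ∘ .inl = 0 :=
  (P010MUQ.kit X.tn X.cb (fr p Y.C) (oi Y)).vp_iff (x := ⟨_, xv_uc T v⟩) |>.1 (T.tor _)

theorem exL : ∃ M : Mi g Y.C, ∀ v, X.ql p (.id Y) (xv T v) = M *ᵥ (Y.ι ∘ v) := by
  have H := P010MUQ.kit X.tn X.cb (fr p Y.C) (oi Y)
  let Φ : (Ix g → ℚ_[p]) →+ Ix g → Y.C := AddMonoidHom.mk' (fun v => X.ql p (.id Y) (xv T v))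
    fun a b => by
      rw [map_add, Th.ql, H.qlog_add (xv_uc T a) (xv_uc T b)]
      ext (i | i) <;> rfl
  refine ⟨(of fun i => Φ (Pi.single i 1))ᵀ, fun v => (lin Y.ι Y.iso Φ (c := 1) (fun v hv =>
    (pi_norm_le_iff_of_nonneg zero_le_one).2 ?_) v).trans (funext fun i => ?_)⟩
  · rintro (i | i)
    · exact (congrArg norm (congrFun (ql_inl T v) i)).trans_le (by simp)
    · exact (norm_le_pi_norm _ i).trans (ql_le (xv_uc T v) ((T.ker _).2 (by simpa using hv)))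
  · simp [mulVec, dotProduct, Finset.sum_apply, mul_comm]

theorem top1 (c) : (X.Pm *ᵥ (per X.τ).map X.j *ᵥ c) ∘ .inl = 0 := by
  rw [mulVec_mulVec]
  funext a
  show ∑ l, (X.Pm * (per X.τ).map X.j) (.inl a) l * c l = 0
  refine Finset.sum_eq_zero fun l _ => mul_eq_zero_of_left ?_ _
  exact (P010MP73.psy X).2 a l

theorem top0 {y : Ix g → Y.C} (h : y ∘ .inl = 0) : ∃ c, y = X.Pm *ᵥ (per X.τ).map X.j *ᵥ c := by
  have h1 := top1 (X := X)
  have h2 : ∀ c, (X.Pm *ᵥ (per X.τ).map X.j *ᵥ c) ∘ .inr =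
      (X.Pm * (per X.τ).map X.j).toRows₂ *ᵥ c := fun c => by rw [mulVec_mulVec]; rfl
  have h3 : (X.Pm * (per X.τ).map X.j).toRows₂.det ≠ 0 := fun e => by
    obtain ⟨c, c0, e⟩ := exists_mulVec_eq_zero_iff.2 e
    have h4 := eq_zero_of_mulVec_eq_zero (v := (per X.τ).map X.j *ᵥ c) X.per.unit.ne_zero (by
      rw [← Sum.elim_comp_inl_inr (X.Pm *ᵥ _), h1, h2, e, Sum.elim_zero_zero])
    refine c0 (funext fun i => ?_)
    simpa [per, mulVec, dotProduct, one_apply, apply_ite X.j] using congrFun h4 (.inr i)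
  refine ⟨(X.Pm * (per X.τ).map X.j).toRows₂⁻¹ *ᵥ y ∘ .inr, ?_⟩
  rw [← Sum.elim_comp_inl_inr (X.Pm *ᵥ _), h1, h2, mulVec_mulVec, mul_nonsing_inv _ h3.isUnit,
    one_mulVec, ← h, Sum.elim_comp_inl_inr]

end Sq1

open Sq1

/-- **INJ** -/
theorem inj (X : Th g Y) : INJ p X := by
  intro hX f f' w w' o σ s u b hi hg hc hε x hx ⟨n, hn⟩ hb h0
  have := Sh.ch0 X
  have hT : TPt p (pt X) := tpp hX
  obtain ⟨v, rfl⟩ := xv_sur' hT.tm hx.1 hn
  obtain ⟨M, hM⟩ := exL hT.tm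
  have rb : hT.tm.Rz hT.tm b (u.map (pr (pp p))) :=
    (hg.pt.ad 1).rz (r := pp p) (Nat.coprime_one_right _) hp.out.ne_one hT hT
  have rw' : hT.tm.Rz hT.tm (ap X w) (f.map (↑)) := mp_cA (pp p) f ▸
    (Ad.of_int (p := 1) (o.e.pt _ (oi Y))).rz (r := pp p) (Nat.coprime_one_right _) hp.out.ne_one
      hT hT
  have eF : (cm f).map X.j = f.map (↑) := by ext; simp [cm]
  have e1 : ∀ i : Ix g, Y.ι ∘ Pi.single i 1 = Pi.single i 1 := fun i => funext fun k => by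
    simp [Pi.single_apply, apply_ite Y.ι]
  have pm : ∀ y, X.Pm *ᵥ (X.Pm⁻¹ * M) *ᵥ y = M *ᵥ y := fun y => by
    rw [mulVec_mulVec, mul_nonsing_inv_cancel_left _ _ X.per.unit]
  have pi : ∀ {a b}, X.Pm *ᵥ a = X.Pm *ᵥ b → a = b := fun h => sub_eq_zero.1
    (eq_zero_of_mulVec_eq_zero X.per.unit.ne_zero (by rw [mulVec_sub, h, sub_self]))
  have m0 : ∀ y, (M *ᵥ y) ∘ .inl = 0 := fun y => funext fun a =>
    show ∑ l, M (.inl a) l * y l = 0 from Finset.sum_eq_zero fun l _ =>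
    mul_eq_zero_of_left (by simpa [hM, e1] using congrFun (ql_inl hT.tm (Pi.single l 1)) a) _
  have key := Qa.lin X.j (by simpa using (fr p Y.C).lt p (fr p Y.C).pn) hp.out.ne_zero X.hτ
    o.mul o.e.en.sim o.e.en.hm o.eig (hu X hX o hg hc) (L := X.Pm⁻¹ * M)
    (ε := Y.ι (pr (pp p) (chi ℂ s))) ?_ (fun e => hε (Y.ι.injective (e.trans (map_one _).symm)))
    (Matrix.ext_of_mulVec_single fun i => ?_) (fun y => (top0 (m0 y)).imp fun c h => pi ((pm y).trans h))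
    (fun c => ?_) (v := Y.ι ∘ v) ?_ (pi (by rw [pm, ← hM, h0, mulVec_zero]))
  · rw [show v = 0 from funext fun i => Y.ι.injective ((congrFun key i).trans (map_zero _).symm),
      map_zero]
  · let φ : Af →+* Y.C := Y.ι.comp (pr (pp p) : Af →+* ℚ_[p])
    have e := congrArg (·.map φ) hi.rel.sim
    simp only [Matrix.map_mul, Matrix.map_J, transpose_map] at e
    refine e.trans ?_
    rw [← Matrix.map_J _ φ]
    ext; simp [φ]
  · have e := o.e.ql hX (xv_uc hT.tm (Pi.single i 1))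
    rw [xv_rz _ rw', hM, hM, e1, Lm, ← mulVec_mulVec, ← mulVec_mulVec, mulVec_mulVec _ _ M] at e
    rw [eF, ← mulVec_mulVec, ← mulVec_mulVec _ (f.map _)]
    refine pi ?_
    rw [pm, ← e]
    refine congrArg _ (funext fun k => ?_)
    simp
  · have hs : LinearMap.range M.toRows₂.mulVecLin = ⊤ := by
      by_contra e
      obtain ⟨φ, h1, h2⟩ := Submodule.exists_le_ker_of_lt_top _ (lt_top_iff_ne_top.2 e)
      have h3 : ∀ y, φ y = y ⬝ᵥ fun i => φ (Pi.single i 1) := fun y => by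
        conv_lhs => rw [pi_eq_sum_univ' y]
        simp [dotProduct]
      have h4 := (P010M32.span_ql (p := p) X (P010M32.sm_of_th X) (.id Y)).1 _ fun y => by
        obtain ⟨m, hm⟩ := y.2
        obtain ⟨z, hz⟩ := xv_sur' hT.tm y.1.2.1 ((Cmp.neg_eq y.1.2.1 m).trans hm)
        rw [← h3, ← hz]
        exact h2 ⟨_, congrArg (· ∘ Sum.inr) (hM z).symm⟩
      exact h1 (LinearMap.ext fun y => by rw [h3, h4]; simp)
    obtain ⟨y, hy⟩ := LinearMap.range_eq_top.1 hs ((X.Pm *ᵥ (per X.τ).map X.j *ᵥ c) ∘ .inr)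
    refine ⟨y, pi ?_⟩
    rw [pm, ← Sum.elim_comp_inl_inr (M *ᵥ y), m0, ← Sum.elim_comp_inl_inr (X.Pm *ᵥ _), ← hy, top1]
    rfl
  · have e := xv_inj hT.tm (v := u.map (pr (pp p)) *ᵥ v - v) (by
      rw [map_sub, ← xv_rz _ rb, sub_eq_zero]; exact funext hb)
    rw [sub_eq_zero] at e
    funext i
    rw [← RingHom.map_mulVec, e]
    rfl

end Vale.Agent.P022K.PM.Stl
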