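import Vale.Agent.P022K.PM.Md
import Vale.Agent.P022K.PM.St
import Vale.Agent.P022K.TP.Gt
import Vale.Agent.P022K.TP.Cx

/-!
# P022K / PM: local sections at points with fixed Pluecker coordinates
-/

set_option autoImplicit false
set_option linter.all false

noncomputable section

namespace Vale.Agent.P022K.PM

open Vale.Agent.P022 Vale.Agent.P010MR Vale.Agent.P010MGa P010MH Vale.Agent.P022K.TP Matrix
  P010M71 TP.Uq P010MT8

namespace Ss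

variable {g : ℕ}

theorem sect0 {κ G : Type} [Group G] {f : κ → Mi g ℚ} {j : Qb →+* ℂ} {π : G →* GQ}
    {u : G →* Mi g Af} (int : ∀ e, Mn 1 (u e)) (inj : ∀ e, π e = 1 → u e = 1 → e = 1)
    (gam : ∀ δ : Sp g ℚ, Mn 1 (am δ.1 - 1) → (∀ k, δ.1 * f k = f k * δ.1) →
      ∃ e, π e = 1 ∧ u e = am δ.1)
    (trs : ∀ e s, Ext j (π e) s → ∀ τ ∈ LocF f, ∀ n, 0 < n → ∃ τ' ∈ LocF f, ∃ e',
      π e' = π e ∧ Mn n (u e' - u e) ∧ Rel s τ τ' (u e'))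
    {ς : Type} {r : ς → ℕ} {γ : ∀ s, Tn g (r s)} (hL : Loc γ = LocF f)
    (hF : ∀ δ : Sp g ℤ, Fix γ δ → ∀ k, (zs δ).1 * f k = f k * (zs δ).1) {N M : ℕ} (hN : 0 < N)
    (h3 : 3 ≤ M) (hI : ∀ τ ∈ Loc γ, ∀ τ' ∈ Loc γ,
      (∀ x x', Ph g N M x τ / Ph g N M x' τ = Ph g N M x τ' / Ph g N M x' τ') →
      ∃ δ ∈ Gm g M, Fix γ δ ∧ act (rl δ) τ' = τ)
    {Γ : Subgroup GQ} {s : Γ →* G} (hs : Sct π u s) :
    ∃ a : Γ →* Equiv.Perm (Xt g N (M * M)), Pm γ (Ph g N M) j Γ.subtype a ∧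
      (∃ U : Subgroup GQ, IsOpen (U : Set GQ) ∧ ∀ d : Γ, d.1 ∈ U → a d = 1) ∧
      (∀ t, Algp t → (∀ d : Γ, FxT j t d (u (s d))) → Fx (Ph g N M) j Γ.subtype a t) ∧
      ∀ τ ∈ Loc γ, Fx (Ph g N M) j Γ.subtype a τ → Algp τ ∧ ∃ ρ : Γ →* G, Sct π u ρ ∧
        (∀ d : Γ, FxT j τ d (u (ρ d))) ∧ ∀ d, Mn M (u (ρ d) - u (s d)) := by
  have hM : 0 < M := by omega
  have hK := Nat.mul_pos hM hM
  let k := kap hK int
  let k1 := kap hM int
  have tr : ∀ (d : Γ) s', Ext j d s' → ∀ τ ∈ Loc γ, ∃ τ' ∈ Loc γ, ∃ e', π e' = d ∧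
      k e' = k (s d) ∧ Rel s' τ τ' (u e') := fun d s' h τ hτ => by
    obtain ⟨τ', h1, e', h2, h4, h5⟩ := trs (s d) s' ((hs.sec d).symm ▸ h) τ (hL ▸ hτ) _ hK
    exact ⟨τ', hL ▸ h1, e', h2.trans (hs.sec d), (kap_iff hK int).2 h4, h5⟩
  refine ⟨(mu g N _).comp (k.comp s), fun d s' h τ hτ => ?_, (hs.cts _ hK).imp fun U h =>
    ⟨h.1, fun d hd => (congrArg (mu g N _) ((kap_one hK int).2 (h.2 d hd))).trans (map_one _)⟩,
    fun t ht hf => ?_, fun τ hτ ⟨w, hw, a7⟩ => ?_⟩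
  · obtain ⟨τ', h1, e', -, h2, h4⟩ := tr d s' h τ hτ
    exact ⟨τ', h1, (rel_ph hN hM int h4).imp fun c hc => ⟨hc.1, fun x =>
      (congrArg (fun z => Ph g N M (mu g N _ z x) τ') h2.symm).trans (hc.2 x)⟩⟩
  · choose w hw using fun x x' : Xt g N (M * M) => exists_j j
      (ht.ratio hN (fun b => rep M (x' b)) fun b => rep M (x b))
    refine ⟨w, hw, fun d x x' => j.injective ?_⟩
    obtain ⟨s', h⟩ := exists_ext j d
    obtain ⟨c, hc, h1⟩ := rel_ph hN hM int (hf d s' h)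
    refine (hw _ _).trans ((congrArg₂ (· / ·) (h1 x) (h1 x')).trans ?_)
    rw [mul_div_mul_left _ _ hc, ← map_div₀]
    exact (congrArg s' (hw x x')).symm.trans (h _)
  have ex : ∀ (d : Γ) s', Ext j d s' → ∃ e, π e = d ∧ k1 e = k1 (s d) ∧ Rel s' τ τ (u e) :=
    fun d s' h1 => by
    obtain ⟨τ', h4, e', h5, h8, h6⟩ := tr d s' h1 τ hτ
    obtain ⟨c, hc, h7⟩ := rel_ph hN hM int h6
    obtain ⟨δ, b1, b2, b3⟩ := hI τ hτ τ' h4 fun x x' => by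
      obtain ⟨x, rfl⟩ := (mu g N _ (k e')).surjective x
      obtain ⟨x', rfl⟩ := (mu g N _ (k e')).surjective x'
      rw [h7, h7, mul_div_mul_left _ _ hc, ← map_div₀, ← hw, ← hw, h8]
      exact (congrArg j (a7 d x x')).trans (h1 _).symm
    obtain ⟨e0, b4, b5⟩ := gam (zs δ) ((mn_gm b1).anti (one_dvd _)) (hF δ b2)
    refine ⟨e0 * e', by rw [map_mul, b4, one_mul, h5], by
      rw [map_mul, (kap_one hM int).2 (b5 ▸ mn_gm b1), one_mul]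
      exact (kap_iff hM int).2 (((kap_iff hK int).1 h8).anti (dvd_mul_left _ _)), ?_⟩
    have := h6.left (zs δ)
    rwa [qr_zs, b3, ← b5, ← map_mul] at this
  have hA : Algp τ := (alg g τ hτ.1 fun σ hσ =>
    (ex 1 σ fun a => hσ _ (alg_j j a)).elim fun e h => ⟨_, int e, h.2.2⟩).1
  choose s0 hs0 using exists_ext j
  choose ρ r1 r4 r3 using fun d : Γ => ex d _ (hs0 d)
  have r5 : ∀ d : Γ, FxT j τ d (u (ρ d)) := fun h s' h1 => (r3 h).congr hA ((hs0 h).eq h1)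
  have r6 : ∀ h h', ρ (h * h') = ρ h * ρ h' := fun h h' => by
    have h1 := rel_uniq h3 (int _) (map_mul u _ _ ▸ (r3 h).mul (r3 h'))
      (r5 (h * h') _ ((hs0 h).mul (hs0 h'))) ((kap_iff hM int).1 ((r4 _).trans
        (by rw [map_mul, map_mul, map_mul, ← r4, ← r4])))
    refine mul_inv_eq_one.1 (inj _ ?_ ?_)
    · rw [map_mul, map_inv, map_mul, r1, r1, r1, Subgroup.coe_mul, mul_inv_cancel]
    · rw [map_mul, h1, ← map_mul, mul_inv_cancel, map_one]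
  refine ⟨hA, MonoidHom.mk' ρ r6, ⟨r1, fun n' hn' => ?_⟩, r5, fun d => (kap_iff hM int).1 (r4 d)⟩
  obtain ⟨U, hU, h1⟩ := opn_ext j hA (Nat.mul_pos hn' hM)
  obtain ⟨U', hU', h2⟩ := hs.cts _ hM
  refine ⟨U ⊓ U', hU.inter hU', fun h hh => ?_⟩
  obtain ⟨u', h4, h5⟩ := h1 h hh.1 _ (hs0 h)
  have h6 := (kap_one hM int).1 ((r4 h).trans ((kap_one hM int).2 (h2 h hh.2)))
  have h7 := (h4.anti (dvd_mul_left _ _)).sub h6
  rw [sub_sub_sub_cancel_right] at h7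
  exact rel_uniq h3 (int _) (r3 h) h5 h7 ▸ h4.anti (dvd_mul_right _ _)

variable {D : QD} {η : GQ →* ℤˣ}

/-- the integral elements -/
def IG (D : QD) (η : GQ →* ℤˣ) : Subgroup (EE D η) where
  carrier := {e | Int e}
  one_mem' := Int.one
  mul_mem' := Int.mul
  inv_mem' := Int.inv

end Ss

open Ss

variable {D : QD} {η : GQ →* ℤˣ}

/-- **SECT** -/
theorem sect {j : Qb →+* ℂ} {x : MP D η} (hk : Int x.k) {Γ : Subgroup GQ} {s : Γ →* EE D η}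
    (hs : Lp j x s) {ς : Type} {r : ς → ℕ} {γ : ∀ s, Tn D.g (r s)} (hL : Loc γ = LocF D.rm)
    (hF : ∀ δ : Sp D.g ℤ, Fix γ δ → ∀ k, (zs δ).1 * D.rm k = D.rm k * (zs δ).1) {N M : ℕ}
    (hN : 0 < N) (h3 : 3 ≤ M) (hI : ∀ τ ∈ Loc γ, ∀ τ' ∈ Loc γ,
      (∀ x x', Ph D.g N M x τ / Ph D.g N M x' τ = Ph D.g N M x τ' / Ph D.g N M x' τ') →
      ∃ δ ∈ Gm D.g M, Fix γ δ ∧ act (rl δ) τ' = τ) :
    ∃ a : Γ →* Equiv.Perm (Xt D.g N (M * M)), Pm γ (Ph D.g N M) j Γ.subtype a ∧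
      (∃ U : Subgroup GQ, IsOpen (U : Set GQ) ∧ ∀ d : Γ, d.1 ∈ U → a d = 1) ∧
      Fx (Ph D.g N M) j Γ.subtype a x.τ ∧
      ∀ τ ∈ Loc γ, Fx (Ph D.g N M) j Γ.subtype a τ → ∃ (x' : MP D η) (s' : Γ →* EE D η),
        x'.τ = τ ∧ x'.k = x.k ∧ Lp j x' s' ∧ ∀ d, Mn M (uu (s' d) - uu (s d)) := by
  have sk : ∀ e : EE D η, sg (x.k * e * x.k⁻¹) = sg e := fun e => by
    rw [map_mul, map_mul, map_inv, x.one, one_mul, inv_one, mul_one]
  let s1 : Γ →* IG D η := ((MulAut.conj x.k).toMonoidHom.comp s).codRestrict _ fun d =>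
    (hk.mul (hs.int d)).mul hk.inv
  obtain ⟨a, a1, a2, a3, a4⟩ := sect0 (j := j) (π := sg.comp (IG D η).subtype)
    (u := uu.comp (IG D η).subtype) (fun e => e.2) (fun e h1 h2 =>
      Subtype.ext (ext_EE (h1.trans (map_one _).symm) (h2.trans (map_one _).symm)))
    (fun δ h1 h2 => by
      obtain ⟨e, h3, h4⟩ := exists_EE (η := η) 1 (u := am δ.1) (by
        rw [map_one, map_one]
        exact QD.at_one (sim_sp δ) fun b => by rw [← am_mul, ← am_mul, h2])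
      exact ⟨⟨e, Cn.int (n := 1) (by rwa [Cn, h4])⟩, h3, h4⟩)
    (fun e t ht τ hτ n hn => by
      obtain ⟨τ', h1, e', h2, h3, h4⟩ := trans e.1 ht hτ hn
      have h5 := (h3.anti (one_dvd _)).add e.2
      rw [sub_add_cancel] at h5
      exact ⟨τ', h1, ⟨e', h5⟩, h2, h3, h4⟩) hL hF hN h3 hI (s := s1)
    ⟨fun d => (sk _).trans (hs.sec.sg d), fun n hn => (hs.sec.cts n hn).imp fun U hU =>
      ⟨hU.1, fun d hd => (hU.2 d hd).conj hk⟩⟩
  refine ⟨a, a1, a2, a3 _ x.alg fun d t ht => hs.fx d t (by rw [hs.sec.sg]; exact ht),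
    fun τ hτ hf => ?_⟩
  obtain ⟨hA, ρ, b1, b2, b3⟩ := a4 τ hτ hf
  have e1 : ∀ e : EE D η, x.k * (x.k⁻¹ * e * x.k⁻¹⁻¹) * x.k⁻¹ = e := fun e => by group
  have e2 : ∀ d, sg (x.k⁻¹ * (ρ d).1 * x.k⁻¹⁻¹) = d := fun d =>
    (sk _).symm.trans ((congrArg sg (e1 _)).trans (b1.sec d))
  refine ⟨⟨τ, x.k, (hL ▸ hτ : τ ∈ LocF D.rm), hA, x.one⟩,
    (MulAut.conj x.k⁻¹).toMonoidHom.comp ((IG D η).subtype.comp ρ), rfl, rfl, ⟨⟨e2, fun n hn =>
      (b1.cts n hn).imp fun U hU => ⟨hU.1, fun d hd => Cn.conj (e := (ρ d).1) (hU.2 d hd) hk.inv⟩⟩,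
      fun d t ht => ?_, fun d => (hk.inv.mul (ρ d).2).mul hk.inv.inv⟩, fun d => ?_⟩
  · exact (congrArg uu (e1 (ρ d).1)).symm ▸ b2 d t (e2 d ▸ ht)
  · have := (Mn.mul hk.inv (b3 d)).mul hk
    rw [one_mul, mul_one, mul_sub, sub_mul] at this
    convert this using 2
    · exact (congrArg uu (by simp)).trans ((map_mul uu _ _).trans (congrArg (· * _) (map_mul uu _ _)))
    · exact (congrArg uu (by simp [s1, mul_assoc])).trans
        ((map_mul uu _ _).trans (congrArg (· * _) (map_mul uu _ _)))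

/-- the marking of a point with complex multiplication can be made small -/
theorem near_ck {x : MP D η} {θ : D.L0} (h : x.Ck θ) (j : Qb →+* ℂ) {n : ℕ} (hn : 0 < n) :
    ∃ y : MP D η, Cn n y.k ∧ y.Ck θ ∧ ∀ e, x.Fx j e → y.Fx j e := by
  obtain ⟨h0, hc, b0, ⟨m1, t, m2, m3, m4⟩, m5, m6⟩ := h
  have h1 := at_uu x.k
  rw [x.one, map_one, map_one] at h1
  obtain ⟨b, hb, h2⟩ := sad D (uu x.k) (by simpa [Sim] using h1.sim)
    (fun z => by rw [h1.comm, QD.al_one]) n hn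
  obtain ⟨c, h3, h4⟩ := exists_EE (η := η) 1 (u := am (D.lm b))
    (by rw [map_one, map_one]; exact QD.at_lm hb)
  have hR := rel_sp x.loc.1 (D.sp b hb)
  have e0 : star b * b = 1 := by rw [D.star_mul_self, hb, D.sc_one]
  let bu : D.Bˣ := ⟨b, star b, by rw [D.mul_star, hb, D.sc_one], e0⟩
  have e1 : D.lm (star b) * D.lm b = 1 := by rw [← D.lm_mul, e0, D.lm_one]
  have e2 : ∀ z : D.B, D.lm ((bu * b0 : D.Bˣ) * z * ((bu * b0)⁻¹ : D.Bˣ)) =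
      D.lm b * D.lm (b0 * z * (b0⁻¹ : D.Bˣ)) * D.lm (star b) := fun z => by
    rw [← D.lm_mul, ← D.lm_mul, _root_.mul_inv_rev, Units.val_mul, Units.val_mul]
    simp only [mul_assoc]
    rfl
  have H : Hm x.τ (act (qr (D.sp b hb).1) x.τ) (D.lm b) := hm_act (D.sp b hb) x.loc.1
  refine ⟨⟨_, c * x.k, QD.loc_sp x.loc hb, hR.algp x.alg, by rw [map_mul, h3, x.one, mul_one]⟩,
    by rwa [Cn, map_mul, h4], ⟨h0, hc, bu * b0, ⟨fun z hz => ?_, t, m2, m3, ?_⟩, ?_,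
      fun a ha z y y0 hy => ?_⟩, fun e he s hs => ?_⟩
  · rw [map_mul, h4, e2, mul_assoc, m1 z hz, ← mul_assoc, ← mul_assoc, ← am_mul, ← am_mul,
      mul_assoc _ (D.lm (star b)), e1, mul_one]
  · rw [map_mul, h4, mul_assoc, m4, ← mul_assoc, ← mul_assoc, ← am_mul, ← am_mul,
      _root_.mul_inv_rev, Units.val_mul, Units.val_mul, D.lm_mul, D.lm_mul]
    congr 2
    simp only [mul_assoc]
    rw [show D.lm (bu⁻¹ : D.Bˣ) * D.lm b = 1 from e1, mul_one]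
  · rw [e2]
    exact (H.mul m5).mul (H.inv e1)
  · obtain ⟨A, hA⟩ := exists_la H
    obtain ⟨A', hA'⟩ := exists_la (H.inv e1)
    obtain ⟨a0, h5⟩ := exists_la m5
    refine m6 a0 h5 z (A' *ᵥ y) (fun e => y0 ?_) ?_
    · have := hA (cm (D.lm (star b)) *ᵥ Sum.elim y 0)
      rwa [hA', zc_elim, e, mulVec_zero, mulVec_mulVec, ← cm_mul, mul_eq_one_comm.1 e1, cm_one,
        one_mulVec, zc_elim] at this
    · have := hA' (cm (D.lm ((bu * b0 : D.Bˣ) * D.em θ * ((bu * b0)⁻¹ : D.Bˣ))) *ᵥ Sum.elim y 0)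
      rw [ha, zc_elim, hy, mulVec_smul, mulVec_mulVec, ← cm_mul, e2, ← mul_assoc, ← mul_assoc, e1,
        one_mul, cm_mul, ← mulVec_mulVec, h5, hA', zc_elim] at this
      exact this
  · have h5 := hR.mul ((he s hs).mul (hR.inv (u' := uu c⁻¹) (h4 ▸ uu_mul_inv c)))
    rw [inv_one, mul_one, one_mul] at h5
    have e3 : am (D.sp b hb).1 * (uu (x.k * e * x.k⁻¹) * uu c⁻¹) =
        uu (c * x.k * e * (c * x.k)⁻¹) := by
      rw [show am (D.sp b hb).1 = uu c from h4.symm, ← map_mul, ← map_mul]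
      congr 1
      group
    rw [e3] at h5
    exact h5

end Vale.Agent.P022K.PM
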