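import Vale.Agent.P022K.PM.StZ0
import Vale.Agent.P022K.PM.StgSt
import Vale.Agent.P022K.PM.StA
import Vale.Agent.P022K.PM.StS

/-!
# P022K / PM: the second half of the row ST (helper63)
-/

set_option autoImplicit false
set_option linter.all false

open Matrix NumberField

noncomputable section

namespace Vale.Agent.P022K.PM.Stz

open Vale.Agent.P022 P010MR P010M71 P010MG0 P010MP P010M61 P010MT8 Stl
open Vale.Agent.P010M41 (dh)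
open Vale.Agent.P010M14 (eH)
open Vale.Agent.P022D.W (dec inP_le_dec)
open Vale.Agent.P022.H443 (inP)
open Vale.Agent.P022E.GW (Ov)
open Vale.Agent.P022K.CH (Cp Id)
open Vale.Agent.P022K.TP (Af am Mn Rel)

section rows

variable {K : Type} [NormedField K] (p : ℕ) [Fact p.Prime] [Fact (Pp p K)] {g : ℕ} {Y : Fld K}
  (X : Th g Y)

/-- the matrices tend to `1` -/
def To1 {Γ : Subgroup GQ} (u : Γ → Mi g Af) : Prop := ∀ n, 0 < n →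
  ∃ N : Subgroup GQ, IsOpen (N : Set GQ) ∧ ∀ d : Γ, d.1 ∈ N → Mn n (u d - 1)

/-- **FUP**: invariant vectors of a near point give invariant elements of the universal cover -/
def FUP : Prop := Bx X → ∀ (B : Th g Y) (H : Cgr p X (.id Y) B) (j : Qb →+* ℂ) (Γ : Subgroup GQ)
  (σ : Γ → P010M61.Hom Y Y) (s : Γ → ℂ ≃+* ℂ) (u u1 : Γ → Mi g Af) (v : Ix g → ℚ_[p]),
  (∀ d : Γ, Ext j d (s d)) → (∀ d z, (σ d).j (X.j z) = X.j (s d z)) → B.j = X.j →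
  (DenseRange fun a : Qb => X.j (j a)) → (∀ d, Rel (s d) X.τ X.τ (u d)) →
  (∀ d, Rel (s d) B.τ B.τ (u1 d)) → To1 u → To1 u1 → v ≠ 0 →
  (∀ d, (u1 d).map (TP.pr (pp p)) *ᵥ v = v) →
  ∃ x y, H.Rel x y ∧ x ≠ 0 ∧ y 0 = 0 ∧ ∃ N : Subgroup GQ, IsOpen (N : Set GQ) ∧ ∀ d : Γ, d.1 ∈ N →
    ∃ a, Co X (σ d) a ∧ Gd.Ac (pt X) (pt X) a (u d) ∧ ∀ n, a (x n) = x n

/-- **FX0**: the Tate module goes to the Hodge filtration -/
def FX0 : Prop := ∀ x ∈ Uc p X, (∃ n, x n = 0) →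
  dh X (eH X.τ) *ᵥ X.ql p (.id Y) x = X.ql p (.id Y) x

end rows

variable {D : QD} {η : GQ →* ℤˣ} {j : Qb →+* ℂ} {p N : ℕ} [Fact p.Prime] {P : Id} {x : MP D η}
  {θ y : D.L0} {s : dec P →* EE D η}

/-- **the second half** -/
theorem nofix (odx : ODX) (cyc : CYC) (h : Hy N j x θ p P s y) (hk : Cn 1 x.k) (S : Su j p P x)
    (act : ACT S.X) (key : KEY p S.X) (inj : INJ p S.X) (fup : FUP p S.X) (fx0 : FX0 p S.X) :
    ¬ Spx p j P S.X := by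
  rintro ⟨B, H, U, u, v, hj, hU, hv, h1, h2, h3, hE⟩
  let i : ↥(U ⊓ inP P) → dec P := fun d => ⟨d, inP_le_dec d.2.2⟩
  obtain ⟨a, b, hab, a0, b0, W, hW, H1⟩ := fup S.bx B H j (U ⊓ inP P) (fun d => S.σ (i d))
    (fun d => S.sc (i d)) (fun d => u0 x s (i d)) (fun d => u (i d)) v (fun d => S.ext (i d))
    (fun d => S.cmp (i d)) hj S.dns (fun d => S.rel h.lp (i d)) (fun d => h1 _ _ (S.ext (i d)))
    (fun n hn => (u0_cts h.lp.sec hk.int n hn).imp fun _ e => ⟨e.1, fun d => e.2 (i d)⟩)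
    (fun n hn => (h2 n hn).imp fun _ e => ⟨e.1, fun d => e.2 (i d)⟩) hv fun d => h3 (i d) d.2
  obtain ⟨f, f', w, w', od, hc⟩ := odx N D η j x θ p P s y h hk S.X S.τ S.bx S.pl fun k σ e =>
    ⟨_, S.ext ⟨σ, fb_dec h.ov.2.1 (pow_ne_zero k h.ov.1.ne_zero) e⟩, S.fb k _ e⟩
  let i' : ↥(inP P ⊓ (U ⊓ W)) → dec P := fun d => ⟨d, inP_le_dec d.2.1⟩
  choose c c1 c2 c3 using fun d : ↥(inP P ⊓ (U ⊓ W)) => H1 ⟨d, d.2.2.1, d.2.1⟩ d.2.2.2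
  have ie := fun d : ↥(inP P ⊓ (U ⊓ W)) => S.ie h.lp hk.int (d := i' d) d.2.1
  have ga := fun d => act S.bx _ _ _ _ (ie d) (c1 d) (c2 d)
  have h4 := key S.bx f f' w w' od _ (fun d => S.σ (i' d)) _ c (fun d => ⟨ga d, (hc _).2⟩)
    ((discr h.ov ((S.X.j : ℂ →+* ℂ_[p]).comp j) S.pl (hU.inter hW : IsOpen ((U ⊓ W :) : Set GQ))).imp
      fun r e => ⟨e.1, fun z hz => e.2 z fun d hd =>
        ⟨(S.σ (i' ⟨d, hd⟩)).j, (S.σ _).iso, S.act _, hz _⟩⟩) a hab.1 c3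
  obtain ⟨d, hd, h5⟩ := cyc p P h.ov (U ⊓ W) (hU.inter hW)
  exact a0 (inj S.bx f f' w w' od _ _ _ _ (ie ⟨d, hd.2, hd.1⟩) (ga _) (hc _).1
    (by rwa [chi_ext (S.ext _)]) a hab.1 h4 (c3 _) (hE a b hab b0 (fx0 a hab.1 h4)))

/-- a property of all models over `ℂ_p` -/
def AllX (A : ∀ (p : ℕ) [Fact p.Prime] {g : ℕ}, Th g (Yp p) → Prop) : Prop :=
  ∀ (p : ℕ) [Fact p.Prime] (g : ℕ) (X : Th g (Yp p)), A p X

/-- **HALF1**: the first half -/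
def HALF1 : Prop := ∀ N, AllD fun D η j => ∀ (x : MP D η) θ (p : ℕ) [Fact p.Prime] P s y,
  Hy N j x θ p P s y → Cn 1 x.k → ∀ X : Th D.g (Yp p), X.τ = x.τ → 4 ≤ X.N →
  ∀ v, IsPl p v → dec P ≤ stab v → (∀ a, v a = ‖X.j (j a)‖) → ∀ (μ : Em D (Cp p)) (n : ℕ), 0 < n →
  ∃ (x' : MP D η) (s' : dec P →* EE D η), Lp j x' s' ∧ (∀ d, Mn n (uu (s' d) - uu (s d))) ∧
    ((∃ g : GL (Fin 2) (Cp p), ∀ d,
      ((g⁻¹ : GL (Fin 2) (Cp p)) * re μ (s' d) * g : M2 (Cp p)) 0 1 = 0 ∧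
      ((g⁻¹ : GL (Fin 2) (Cp p)) * re μ (s' d) * g : M2 (Cp p)) 1 0 = 0) → Spx p j P X)

/-- **ST** from the rows -/
theorem st_of (h1 : HALF1) (odx : ODX) (cyc : CYC) (act : AllX fun _ _ _ X => ACT X)
    (key : AllX fun p _ _ X => KEY p X) (inj : AllX fun p _ _ X => INJ p X)
    (fup : AllX fun p _ _ X => FUP p X) (fx0 : AllX fun p _ _ X => FX0 p X) : ST :=
  fun N D η j x θ p _ P s y a1 a2 a3 a4 a5 a6 a7 a8 a9 μ n hn => by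
  obtain ⟨z, b1, b2, b3⟩ := near_ck a3 j one_pos
  have h : Hy N j z θ p P s y :=
    ⟨a1, a2, b2, a4, ⟨a5.sec, fun d => b3 _ (a5.fx d), a5.int⟩, a6, a7, a8, a9⟩
  obtain ⟨S⟩ := ex_su j a4 z
  obtain ⟨x', s', c1, c2, c3⟩ := h1 N D η j z θ p P s y h b1 S.X S.τ S.bx.four S.v S.hv S.stb.ge
    S.val μ n hn
  exact ⟨x', s', c1, c2, fun e => nofix odx cyc h b1 S (act p _ _) (key p _ _) (inj p _ _)
    (fup p _ _) (fx0 p _ _) (c3 e)⟩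

end Vale.Agent.P022K.PM.Stz
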