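import Vale.Agent.P022K.PM.Stg
import Vale.Agent.P022K.PM.Spf
import Vale.Agent.P022K.PM.Ord

/-!
# P022K / PM: the first half of ST, final form (helper4)
-/

set_option autoImplicit false

open Matrix

noncomputable section

namespace Vale.Agent.P022K.PM.Stg

open Vale.Agent.P022 P010MR P010MP P010M61 P010MT8 Stl
open Vale.Agent.P022D.W (dec)
open Vale.Agent.P022K.CH (Id Cp)
open Vale.Agent.P022K.TP (Mn)

/-- **HALF1** -/
theorem half1 (hC : CMET) (hG : GEN)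
    (hL : ∀ (p : ℕ) [Fact p.Prime] (g : ℕ) (X : Th g (Yp p)), LOCT p X) (N : ℕ) :
    AllD fun D η j => ∀ (x : MP D η) θ (p : ℕ) [Fact p.Prime] P s y,
    Hy N j x θ p P s y → Cn 1 x.k → ∀ X : Th D.g (Yp p), X.τ = x.τ → 4 ≤ X.N →
    ∀ v, IsPl p v → dec P ≤ stab v → (∀ a, v a = ‖X.j (j a)‖) → ∀ (μ : PM.Em D (Cp p)) (n : ℕ),
    0 < n → ∃ (x' : MP D η) (s' : dec P →* EE D η), Lp j x' s' ∧
      (∀ d, Mn n (uu (s' d) - uu (s d))) ∧ ((∃ g : GL (Fin 2) (Cp p), ∀ d,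
        ((g⁻¹ : GL (Fin 2) (Cp p)) * re μ (s' d) * g : M2 (Cp p)) 0 1 = 0 ∧
        ((g⁻¹ : GL (Fin 2) (Cp p)) * re μ (s' d) * g : M2 (Cp p)) 1 0 = 0) → Spx p j P X) :=
  fun _ _ _ _ _ p _ _ _ _ h hk X hτ h4 _ hv h1 h2 μ _ hn => half0 h hk X hτ h4 hv h1 h2 hG
    (hL p _ X) (spf ord hC h.ok h.ck h.ov h.lp h.ta h.int h.ty) μ hn

end Vale.Agent.P022K.PM.Stg
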