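import Vale.Agent.P022K.PM.Stg
import Vale.Agent.P022K.PM.StG

/-!
# P022K / PM: row GEN (helper4)
-/

set_option autoImplicit false

namespace Vale.Agent.P022K.PM.Stg

/-- **GEN** -/
theorem gen1 : GEN := fun _ _ _ _ γ hγ N hN => by
  obtain ⟨a, a0, h⟩ := chart_phN γ hγ hN
  obtain ⟨b, b0, h'⟩ := gen γ hγ hN
  refine ⟨a * b, Nat.mul_pos a0 b0, fun M m0 m1 m2 =>
    ⟨(h M m0 ((dvd_mul_right _ _).trans m1) m2).2,
      fun τ hτ x hx hk K _ _ _ p p0 p1 J j v hv hJ D hD κ k1 k2 k3 => ?_⟩⟩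
  obtain ⟨rfl, -⟩ | ⟨_, -⟩ := id hv
  · exact absurd Nat.cast_zero p0
  · exact h' M m0 ((dvd_mul_left _ _).trans m1) j K p p0 p1 J v hv hJ D hD κ k1 k2 τ hτ k3 x hx hk

end Vale.Agent.P022K.PM.Stg
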