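import Vale.Agent.P022K.PM.StZ1
import Vale.Agent.P022K.PM.StL
import Vale.Agent.P022K.PM.StgF
import Vale.Agent.P022K.PM.StgG
import Vale.Agent.P022K.PM.Cmet
import Vale.Agent.P022K.PM.StE
import Vale.Agent.P022K.PM.StH
import Vale.Agent.P022K.PM.SlAct
import Vale.Agent.P022K.PM.SlKey
import Vale.Agent.P022K.PM.SlExt
import Vale.Agent.P022K.PM.SlOdx
import Vale.Agent.P022K.PM.SlFrb
import Vale.Agent.P022K.PM.SlCyc

/-!
# P022K / PM: the row ST from the row INJ
-/

set_option autoImplicit false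

namespace Vale.Agent.P022K.PM.Stz

open Stl

theorem fx0 : AllX fun p _ _ X => FX0 p X := fun p _ _ X x hx ⟨n, h⟩ =>
  Lct.fix0 X (m := n.natAbs) (by
    have h1 := uc_pow hx (-n.natAbs) n.natAbs
    have h2 := uc_pow hx (-n.natAbs) (n + n.natAbs).toNat
    rw [neg_add_cancel] at h1
    rw [show -(n.natAbs : ℤ) + (n + n.natAbs).toNat = n by omega, h, smul_zero] at h2
    exact h1.trans h2.symm)

/-- **ST** from INJ -/
theorem st1 (inj : AllX fun p _ _ X => INJ p X) : ST :=
  st_of (Stg.half1 cmet Stg.gen1 fun p _ _ X => Lct.loct p X) (odx cmet fun _ p _ X => frb p X)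
    cyc_row (fun _ _ _ X => act X) (fun _ _ _ X => key (ext X) (tan X)) inj
    (fun p _ _ X bx => Eqv.fix_up p X bx.val) fx0

end Vale.Agent.P022K.PM.Stz
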