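import Vale.Agent.P022K.PM.Md
import Vale.Agent.P022K.PM.St
import Vale.Agent.P022K.TP.Gt

/-!
# P022K / PM: the action of a local section on the Pluecker coordinates (helper4)
-/

set_option autoImplicit false

open Matrix

noncomputable section

namespace Vale.Agent.P022K.PM

open Vale.Agent.P022 Vale.Agent.P010MR Vale.Agent.P010MGa P010MH Vale.Agent.P022K.TP P010M71
  P010MT8

variable {D : QD} {η : GQ →* ℤˣ} {j : Qb →+* ℂ} {Γ : Subgroup GQ} {s : Γ →* EE D η} {N M : ℕ}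

/-- the action on tuples of torsion points -/
def kp (s : Γ →* EE D η) (hs : ∀ d, Int (s d)) (N : ℕ) (hM : 0 < M) :
    Γ →* Equiv.Perm (Xt D.g N (M * M)) :=
  (mu D.g N _).comp (kap (u := uu.comp s) (Nat.mul_pos hM hM) hs)

namespace Stg

/-- the integral elements -/
def IG (D : QD) (η : GQ →* ℤˣ) : Subgroup (EE D η) where
  carrier := {e | Int e}
  one_mem' := Int.one
  mul_mem' := Int.mul
  inv_mem' := Int.inv

theorem rel_kp (hs : ∀ d, Int (s d)) (hN : 0 < N) (hM : 0 < M) {σ : ℂ ≃+* ℂ} {τ τ' : Mc D.g}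
    {e : EE D η} (h : Rel σ τ τ' (uu e)) {d : Γ} (h' : Mn (M * M) (uu e - uu (s d))) :
    ∃ c ≠ 0, ∀ x, Ph D.g N M (kp s hs N hM d x) τ' = c * σ (Ph D.g N M x τ) := by
  have he : Int e := by simpa [Int] using (h'.anti (one_dvd _)).add (hs d)
  have hK := Nat.mul_pos hM hM
  have h1 : kap (u := uu.comp (IG D η).subtype) hK (fun e => e.2) ⟨e, he⟩ =
      kap (u := uu.comp s) hK hs d :=
    Units.ext (Matrix.ext fun i k => (rd_iff hK (he i k) (hs d i k)).2 (h' i k))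
  have h2 := rel_ph (u := uu.comp (IG D η).subtype) hN hM (fun e => e.2) (e := ⟨e, he⟩) h
  rwa [h1] at h2

variable {ς : Type} {r : ς → ℕ} {γ : ∀ s, Tn D.g (r s)}

theorem pm_kp (h : Sec s) (hs : ∀ d, Int (s d)) (hN : 0 < N) (hM : 0 < M) (hL : Loc γ = D.Loc) :
    Pm γ (Ph D.g N M) j Γ.subtype (kp s hs N hM) := fun d σ h1 τ hτ => by
  obtain ⟨τ', h2, e, -, h3, h4⟩ := trans (j := j) (s d) (s := σ) (by rw [h.sg]; exact h1) (hL ▸ hτ)
    (Nat.mul_pos hM hM)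
  exact ⟨τ', hL ▸ h2, rel_kp hs hN hM h4 h3⟩

theorem opn_kp (h : Sec s) (hs : ∀ d, Int (s d)) (hM : 0 < M) : ∃ U : Subgroup GQ,
    IsOpen (U : Set GQ) ∧ ∀ d : Γ, d.1 ∈ U → kp s hs N hM d = 1 :=
  (h.cts _ (Nat.mul_pos hM hM)).imp fun _ e => ⟨e.1, fun d hd => (congrArg (mu D.g N _)
    ((kap_one (u := uu.comp s) _ hs).2 (e.2 d hd))).trans (map_one _)⟩

theorem fx_kp {x : MP D η} (h : Lp j x s) (hk : x.k = 1) (hN : 0 < N) (hM : 0 < M) :
    Fx (Ph D.g N M) j Γ.subtype (kp s h.int N hM) x.τ := by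
  choose w hw using fun y y' : Xt D.g N (M * M) => exists_j j
    (x.alg.ratio hN (fun b => rep M (y' b)) fun b => rep M (y b))
  refine ⟨w, hw, fun d y y' => j.injective ?_⟩
  obtain ⟨σ, h1⟩ := exists_ext j d
  obtain ⟨c, hc, h2⟩ := rel_kp h.int hN hM (σ := σ) (e := s d) (d := d) (by
    simpa [hk] using h.fx d σ (by rw [h.sec.sg]; exact h1)) (by
      rw [sub_self]; exact fun _ _ => zero_mem _)
  refine (hw _ _).trans ((congrArg₂ (· / ·) (h2 y) (h2 y')).trans ?_)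
  rw [mul_div_mul_left _ _ hc, ← map_div₀]
  exact (congrArg σ (hw y y')).symm.trans (h1 _)

end Stg

end Vale.Agent.P022K.PM
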