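import Mathlib

/-!
# P022K / PM / Ta0: discrete groups of endomorphisms stay independent `l`-adically (helper4)
-/

namespace Vale.Agent.P022K.PM

variable {l : ℕ} [hl : Fact l.Prime]

theorem pig {σ : Type*} [Fintype σ] (i0 : σ) (c : σ → ℤ_[l]) (hc : c i0 = 1) (t : ℕ) :
    ∃ m : σ → ℤ, m ≠ 0 ∧ (∀ i, |m i| ≤ l ^ ((Fintype.card σ - 1) * t)) ∧
      ∀ i, ‖(m i : ℤ_[l]) - m i0 * c i‖ * l ^ (Fintype.card σ * t) ≤ 1 := by
  classical
  obtain ⟨s, hs⟩ := Nat.exists_eq_succ_of_ne_zero (Fintype.card_pos_iff.2 ⟨i0⟩).ne'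
  have h0 := hl.out.pos
  have : NeZero (l ^ ((s + 1) * t)) := ⟨by positivity⟩
  rw [hs, Nat.succ_sub_one]
  let Φ : (σ → Fin (l ^ (s * t) + 1)) → {i // i ≠ i0} → ZMod (l ^ ((s + 1) * t)) := fun a i =>
    PadicInt.toZModPow _ (((a i : ℕ) : ℤ_[l]) - (a i0 : ℕ) * c i)
  obtain ⟨a, b, hab, e⟩ := Fintype.exists_ne_map_eq_of_card_lt Φ (by
    simp only [Fintype.card_fun, Fintype.card_fin, ZMod.card, Fintype.card_subtype_compl,
      Fintype.card_unique, hs, Nat.succ_sub_one]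
    calc _ = (l ^ (s * t)) ^ (s + 1) := by rw [← pow_mul, ← pow_mul]; congr 1; ring
      _ < _ := Nat.pow_lt_pow_left (Nat.lt_succ_self _) s.succ_ne_zero)
  refine ⟨fun i => (a i : ℕ) - (b i : ℕ), fun h0 => hab (funext fun i => Fin.ext ?_), fun i => ?_,
    fun i => ?_⟩
  · exact_mod_cast sub_eq_zero.1 (congrFun h0 i)
  · have h1 : ((a i : ℕ) : ℤ) ≤ l ^ (s * t) := by exact_mod_cast Nat.lt_succ_iff.1 (a i).2
    have h2 : ((b i : ℕ) : ℤ) ≤ l ^ (s * t) := by exact_mod_cast Nat.lt_succ_iff.1 (b i).2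
    beta_reduce
    rw [abs_le]; constructor <;> omega
  by_cases hi : i = i0
  · simp [hi, hc]
  have h1 := (RingHom.sub_mem_ker_iff _).2 (congrFun e ⟨i, hi⟩)
  rw [PadicInt.ker_toZModPow, ← PadicInt.norm_le_pow_iff_mem_span_pow, zpow_neg, zpow_natCast,
    ← one_mul _⁻¹, ← div_eq_mul_inv, le_div_iff₀ (by positivity)] at h1
  rw [show (((a i : ℕ) - (b i : ℕ) : ℤ) : ℤ_[l]) - ((a i0 : ℕ) - (b i0 : ℕ) : ℤ) * c i =
    (a i : ℕ) - (a i0 : ℕ) * c i - ((b i : ℕ) - (b i0 : ℕ) * c i) by push_cast; ring]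
  exact h1

theorem bil_le {M n : Type*} [AddCommGroup M] [Fintype n] (B : M →+ M →+ ℝ) (x : n → M) (m : n → ℤ)
    {r : ℝ} (h : ∀ i, |(m i : ℝ)| ≤ r) :
    B (∑ i, m i • x i) (∑ i, m i • x i) ≤ r ^ 2 * ∑ i, ∑ j, |B (x i) (x j)| := by
  simp only [map_sum, map_zsmul, AddMonoidHom.finsetSum_apply, AddMonoidHom.zsmul_apply,
    zsmul_eq_mul, Finset.mul_sum]
  rw [Finset.sum_comm]
  refine Finset.sum_le_sum fun i _ => Finset.sum_le_sum fun j _ => (le_abs_self _).trans ?_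
  rw [abs_mul, abs_mul, ← mul_assoc, sq]
  exact mul_le_mul_of_nonneg_right (mul_le_mul (h j) (h i) (abs_nonneg _)
    ((abs_nonneg _).trans (h i))) (abs_nonneg _)

variable {E V : Type*} [AddCommGroup E] [SeminormedAddCommGroup V] [NormedSpace ℚ_[l] V]

/-- `ρ` is an `l`-adic realisation: an element that is `l`-adically small and of small height is
zero -/
def Disc (l : ℕ) {E V : Type*} [AddCommGroup E] [SeminormedAddCommGroup V] (ρ : E →+ V) : Prop :=
  ∃ β : E →+ E →+ ℝ, ∀ (n : ℕ) (w : E), ‖ρ w‖ * l ^ n ≤ 1 → β w w < (l ^ n) ^ 2 → w = 0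

theorem Disc.indep {ρ : E →+ V} (h : Disc l ρ) {σ : Type*} {u : σ → E}
    (hu : LinearIndependent ℤ u) : LinearIndependent ℚ_[l] fun i => ρ (u i) := by
  obtain ⟨β, h⟩ := h
  rw [linearIndependent_iff_finset_linearIndependent]
  intro S
  replace hu : LinearIndependent ℤ fun i : S => u i := hu.comp _ Subtype.val_injective
  rw [Fintype.linearIndependent_iff] at hu ⊢
  intro c hc i
  by_contra hi
  have : Nonempty S := ⟨i⟩
  obtain ⟨i0, h0⟩ := Finite.exists_max fun j => ‖c j‖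
  have h1 : c i0 ≠ 0 := fun e => hi (norm_le_zero_iff.1 (by simpa [e] using h0 i))
  let d : S → ℤ_[l] := fun j => ⟨c j / c i0, by
    rw [norm_div]; exact div_le_one_of_le₀ (h0 j) (norm_nonneg _)⟩
  have h2 : (1 : ℝ) < l := by exact_mod_cast hl.out.one_lt
  obtain ⟨e, he⟩ := pow_unbounded_of_one_lt (∑ j : S, ‖ρ (u j)‖) h2
  obtain ⟨t, ht⟩ := pow_unbounded_of_one_lt (∑ j : S, ∑ j' : S, |β (u j) (u j')|) h2
  obtain ⟨m, h3, h4, h5⟩ := pig i0 d (Subtype.ext (div_self h1)) (t + e)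
  obtain ⟨s, hs⟩ := Nat.exists_eq_succ_of_ne_zero (Fintype.card_ne_zero (α := S))
  rw [hs, Nat.succ_sub_one] at h4
  rw [hs] at h5
  refine h3 (funext (hu m (h (s * (t + e) + t) _ ?_ ?_)))
  · have h6 : ρ (∑ j : S, m j • u j) =
        ∑ j : S, (((m j : ℤ_[l]) - m i0 * d j : ℤ_[l]) : ℚ_[l]) • ρ (u j) := by
      have h7 : ∑ j : S, ((m i0 : ℚ_[l]) * (d j : ℚ_[l])) • ρ (u j) = 0 := by
        have := congrArg (((m i0 : ℚ_[l]) / c i0) • ·) hc
        simp only [Finset.smul_sum, smul_smul, smul_zero, Function.comp_apply] at this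
        rw [← this]
        exact Finset.sum_congr rfl fun j _ => by congr 1; simp only [d]; ring
      simp only [map_sum, map_zsmul, PadicInt.coe_sub, PadicInt.coe_mul, PadicInt.coe_intCast,
        sub_smul, Finset.sum_sub_distrib, h7, sub_zero, Int.cast_smul_eq_zsmul]
    rw [h6]
    refine le_of_mul_le_mul_right ?_ (pow_pos (zero_lt_one.trans h2) e)
    rw [mul_assoc, ← pow_add, one_mul]
    refine (mul_le_mul_of_nonneg_right (norm_sum_le _ _) (by positivity)).trans (le_trans ?_ he.le)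
    rw [Finset.sum_mul]
    refine Finset.sum_le_sum fun j _ => ?_
    rw [norm_smul, mul_right_comm, show s * (t + e) + t + e = s.succ * (t + e) by
      rw [Nat.succ_eq_add_one]; ring]
    exact mul_le_of_le_one_left (norm_nonneg _) (h5 j)
  · refine (bil_le β _ m (r := l ^ (s * (t + e))) fun j => by exact_mod_cast h4 j).trans_lt ?_
    rw [pow_add, mul_pow]
    refine mul_lt_mul_of_pos_left (ht.trans_le ?_) (by positivity)
    exact le_self_pow₀ (one_le_pow₀ h2.le) two_ne_zero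

omit [NormedSpace ℚ_[l] V] in
theorem Disc.inj {ρ : E →+ V} (h : Disc l ρ) : Function.Injective ρ := by
  obtain ⟨β, h⟩ := h
  refine (injective_iff_map_eq_zero ρ).2 fun w hw => ?_
  have h2 : (1 : ℝ) < l := by exact_mod_cast hl.out.one_lt
  obtain ⟨t, ht⟩ := pow_unbounded_of_one_lt (β w w) h2
  exact h t w (by simp [hw]) (ht.trans_le (le_self_pow₀ (one_le_pow₀ h2.le) two_ne_zero))

/-- rationality: an element whose realisation is in the `l`-adic span is in the rational span -/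
theorem Disc.rat {ρ : E →+ V} (h : Disc l ρ) {σ : Type*} (u : σ → E) {f : E}
    (hf : ρ f ∈ Submodule.span ℚ_[l] (Set.range fun i => ρ (u i))) :
    ∃ n : ℤ, n ≠ 0 ∧ n • f ∈ Submodule.span ℤ (Set.range u) := by
  obtain ⟨I, h1, h2⟩ := exists_maximal_linearIndepOn ℤ u
  by_contra hn
  push Not at hn
  have h0 : ∀ n : ℤ, n • f ∈ Submodule.span ℤ (Set.range fun i : I => u i) → n = 0 := fun n e =>
    of_not_not fun h => hn n h (Submodule.span_mono (Set.range_comp_subset_range _ u) e)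
  have h3 : LinearIndependent ℤ (Sum.elim (fun i : I => u i) fun _ : Unit => f) :=
    LinearIndependent.sum_type h1 (Fintype.linearIndependent_iff.2 fun g hg _ => h0 _ (by
      rw [Fintype.sum_unique] at hg
      exact hg ▸ zero_mem _)) (Submodule.disjoint_def.2 fun x h4 h5 => by
      rw [Set.range_const, Submodule.mem_span_singleton] at h5
      obtain ⟨n, rfl⟩ := h5
      rw [h0 n h4, zero_smul])
  have h4 := linearIndependent_sum.1 (h.indep h3)
  refine h4.2.1.ne_zero () (Submodule.disjoint_def.1 h4.2.2 _ (Submodule.span_le.2 ?_ hf)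
    (Submodule.subset_span ⟨(), rfl⟩))
  rintro _ ⟨i, rfl⟩
  by_cases hi : i ∈ I
  · exact Submodule.subset_span ⟨⟨i, hi⟩, rfl⟩
  obtain ⟨a, ha, h5⟩ := h2 i hi
  refine (Submodule.smul_mem_iff _ (Int.cast_ne_zero (α := ℚ_[l]).2 ha)).1 ?_
  rw [Int.cast_smul_eq_zsmul, ← map_zsmul]
  refine Submodule.span_induction (p := fun x _ => ρ x ∈ _) ?_ (by simp)
    (fun x y _ _ hx hy => by rw [map_add]; exact add_mem hx hy)
    (fun a x _ hx => by rw [map_zsmul]; exact zsmul_mem hx a) h5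
  rintro _ ⟨j, hj, rfl⟩
  exact Submodule.subset_span ⟨⟨j, hj⟩, rfl⟩

/-- a group of finite rank with a definite integral form is finitely generated -/
theorem fg_of_form (β : E →+ E →+ ℝ) (h1 : ∀ u v, ∃ z : ℤ, β u v = z) (h2 : ∀ w, β w w = 0 → w = 0)
    {r : ℕ} (h3 : ∀ u : Fin r → E, ¬ LinearIndependent ℤ u) : Module.Finite ℤ E := by
  obtain ⟨I, h4, h5⟩ := exists_maximal_linearIndepOn ℤ (id : E → E)
  have : Finite I := not_infinite_iff_finite.1 fun _ =>
    h3 _ (LinearIndependent.comp h4 (Fin.valEmbedding.trans (Infinite.natEmbedding I))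
      (Function.Embedding.injective _))
  choose z hz using h1
  let φ : E →+ I → ℤ := AddMonoidHom.mk' (fun w i => z i w) fun a b => funext fun i =>
    Int.cast_injective (α := ℝ) (by rw [Pi.add_apply, Int.cast_add, ← hz, ← hz, ← hz, map_add])
  refine Module.Finite.of_injective φ.toIntLinearMap ((injective_iff_map_eq_zero φ).2 fun w hw => ?_)
  have h6 : ∀ x ∈ Submodule.span ℤ (id '' I), β x w = 0 := fun x hx =>
    Submodule.span_induction (p := fun x _ => β x w = 0) (by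
      rintro _ ⟨i, hi, rfl⟩
      exact (hz _ _).trans (Int.cast_eq_zero.2 (congrFun hw ⟨i, hi⟩))) (by simp)
      (fun x y _ _ hx hy => by simp [hx, hy]) (fun a x _ hx => by simp [hx]) hx
  by_cases hi : w ∈ I
  · exact h2 w (h6 w (Submodule.subset_span ⟨w, hi, rfl⟩))
  obtain ⟨a, ha, h7⟩ := h5 w hi
  exact h2 w (by simpa [ha] using h6 _ h7)

end Vale.Agent.P022K.PM
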