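import Vale.Agent.P022K.PM.TwB

/-!
# P022K / PM: twisted Moret-Bailly (helper22)
-/

namespace Vale.Agent.P022K.PM

open Polynomial Filter Topology Vale.Agent.P022 Vale.Agent.P022K.MB

variable {A E Eb J : Type} [CommRing A] [Algebra Qb A] [Group E] [MulSemiringAction E A] [Group Eb]
  {π : E →* GQ} {κ : E →* Eb} {a : J → A} {V : Eb → A}

theorem Dat.exists_frm [Finite Eb] [Finite J] (h : Dat π κ a)
    (hV : ∀ (e : E) x, e • V x = V (κ e * x))
    (hs : ∀ x x' c, V x - V x' = algebraMap Qb A c → x = x') (δ : A) :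
    ∃ (θ : Qb) (b : A) (E1 : Subgroup E) (T : Set A), Frm π κ a V θ b E1 T ∧ δ ∈ T ∧
      Finite (E ⧸ E1) := by
  obtain ⟨N0, hN0, h0⟩ := h.opn
  obtain ⟨N1, hN1, h1⟩ := h.cont δ
  obtain ⟨θ, hθ⟩ := exists_stab_le (N0 ⊓ N1) (hN0.inter hN1)
  let E1 := (MulAction.stabilizer GQ θ).comap π ⊓ κ.ker
  have hE : ∀ e, e ∈ E1 ↔ π e θ = θ ∧ κ e = 1 := fun e => Iff.rfl
  refine ⟨θ, algebraMap Qb A θ + V 1, E1, Set.range a ∪ Set.range V ∪
    {algebraMap Qb A θ, algebraMap Qb A θ + V 1, 1, δ}, ⟨h, hE, fun σ hσ => ?_, hV, hs, rfl,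
    ((Set.finite_range _).union (Set.finite_range _)).union (Set.toFinite _), ?_, by simp, by simp,
    by simp, by simp, by simp⟩, by simp, ?_⟩
  · obtain ⟨e, h2, h3, -⟩ := h0 σ (hθ σ hσ).1
    exact ⟨e, h2, h3⟩
  · rintro z hz e ⟨h2, h3⟩
    replace h2 : π e θ = θ := h2
    replace h3 : κ e = 1 := h3
    rcases hz with (⟨j, rfl⟩ | ⟨x, rfl⟩) | rfl | rfl | rfl | rfl
    · obtain ⟨e', h4, h5, h6⟩ := h0 _ (hθ _ h2).1
      rw [← h.eq h4 (h5.trans h3.symm), h6]
    · rw [hV, h3, one_mul]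
    · rw [h.semi, h2]
    · rw [smul_add, h.semi, h2, hV, h3, one_mul]
    · exact smul_one e
    · exact h1 e (hθ _ h2).2 h3
  · have := Subgroup.quotient_finite_of_isOpen _ (stabilizer_isOpen_of_isIntegral (K := ℚ) θ)
    have : ((MulAction.stabilizer GQ θ).comap π).FiniteIndex := ⟨by
      rw [Subgroup.index_comap_of_surjective _ h.sur]; exact Subgroup.index_ne_zero_of_finite⟩
    infer_instance

theorem twmb0 [IsDomain A] [Finite Eb] [Finite J] (h : Dat π κ a)
    (hV : ∀ (e : E) x, e • V x = V (κ e * x))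
    (hs : ∀ x x' c, V x - V x' = algebraMap Qb A c → x = x')
    {ι : Type} [Finite ι] {p : ι → ℕ} (hp : Function.Injective p)
    {v : ι → AbsoluteValue Qb ℝ} (hv : ∀ i, IsPl (p i) (v i))
    {D : ι → Subgroup GQ} (hD : ∀ i, Dec (v i) (D i))
    (s : ∀ i, D i →* E) (hπ : ∀ i d, π (s i d) = d)
    (hκ : ∀ i, ∃ N : Subgroup GQ, IsOpen (N : Set GQ) ∧ ∀ d : D i, (d : GQ) ∈ N → κ (s i d) = 1)
    (y : ι → (A →ₐ[Qb] Qb)) (hy : ∀ i, Sm (y i))
    (hf : ∀ i (d : D i) r, y i (s i d • r) = (d : GQ) (y i r))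
    {ε : ℝ} (hε : 0 < ε) {δ : A} (hδ : δ ≠ 0) (U : Subgroup GQ) (hU : IsOpen (U : Set GQ)) :
    ∃ (H : Subgroup GQ) (S : H →* E) (Y : A →ₐ[Qb] Qb), H.Normal ∧ IsOpen (H : Set GQ) ∧
      Glue.Dsj H U ∧ (∀ h, π (S h) = h) ∧
      (∃ N : Subgroup GQ, IsOpen (N : Set GQ) ∧ ∀ h : H, (h : GQ) ∈ N → κ (S h) = 1) ∧
      (∀ (h : H) r, Y (S h • r) = (h : GQ) (Y r)) ∧ (∀ e : E, Y (e • δ) ≠ 0) ∧
      ∀ (i : ι) (g : GQ), ∃ e : E, π e * g⁻¹ ∈ stab (v i) ∧ (D i = stab (v i) → π e = g) ∧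
        (∀ d : D i, ∃ h : H, e * S h * e⁻¹ = s i d) ∧
        ∀ j, v i (π e (Y (e⁻¹ • a j)) - y i (a j)) < ε := by
  classical
  obtain ⟨θ, b, E1, T, F, hδT, hfin⟩ := h.exists_frm hV hs δ
  have := Fintype.ofFinite (E ⧸ E1)
  have := Fintype.ofFinite ι
  let δ' := dsc (orb E1 b) * ∏ γ, orb E1 δ γ
  have hδ' : δ' ≠ 0 := mul_ne_zero F.dsc_ne (Finset.prod_ne_zero_iff.2 fun γ _ =>
    (smul_ne_zero_iff_ne _).2 hδ)
  have hs1 : ∀ i (d : D i) (c : Qb), s i d • algebraMap Qb A c = algebraMap Qb A ((d : GQ) c) :=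
    fun i d c => by rw [h.semi, hπ]
  have hc : ∀ i (z : A), ∃ N : Subgroup GQ, IsOpen (N : Set GQ) ∧
      ∀ d : D i, (d : GQ) ∈ N → s i d • z = z := fun i z => by
    obtain ⟨N, hN, h1⟩ := h.cont z
    obtain ⟨N', hN', h2⟩ := hκ i
    exact ⟨N ⊓ N', hN.inter hN', fun d hd => h1 _ (by rw [hπ]; exact hd.1) (h2 d hd.2)⟩
  -- better base points
  have h1 : ∀ i, ∃ y' : A →ₐ[Qb] Qb, Sm y' ∧ y' δ' ≠ 0 ∧
      (∀ (d : D i) r, y' (s i d • r) = (d : GQ) (y' r)) ∧
      ∀ j, v i (y' (a j) - y i (a j)) < ε / 2 := fun i => by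
    obtain ⟨Y, h1, h2⟩ := dens (hv i) (hD i).1 (s i) (hs1 i) (hc i) (hy i) (hf i) hδ'
    obtain ⟨k, h3, h4⟩ := (((hy i).eventually h2).and (eventually_all.2 fun j =>
      (h2 (a j)).eventually_lt_const (half_pos hε))).exists
    exact ⟨Y k, h3, (h1 k).1, (h1 k).2, h4⟩
  choose y' hy1 hy2 hy3 hy4 using h1
  have hd' : ∀ i, y' i (dsc (orb E1 b)) ≠ 0 := fun i =>
    left_ne_zero_of_mul (by rw [← map_mul]; exact hy2 i)
  choose η1 hη1 hsep using fun i => exists_sep (v i) fun x => y' i (V x)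
  choose η hη hcl using fun i => F.cls (hv i) (hd' i) (lt_min (half_pos hε) (half_pos (hη1 i)))
  obtain ⟨η0, hη0, hη2⟩ : ∃ η0 > 0, ∀ i, η0 ≤ η i := by
    obtain ⟨η0, h1, h2⟩ := ((eventually_all.2 fun i => (ge_mem_nhds (hη i)).filter_mono
      (nhdsWithin_le_nhds (s := Set.Ioi (0 : ℝ)))).and self_mem_nhdsWithin).exists
    exact ⟨η0, h2, h1⟩
  -- the ring of invariants
  let _ : Algebra ℚ A := ((algebraMap Qb A).comp (algebraMap ℚ Qb)).toAlgebra
  let Z := insert δ' (ZZ E1 b T)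
  have hZ : Z.Finite := F.finZ.insert _
  let R := Algebra.adjoin ℚ Z
  have hR : ∀ (e : E) (r : R), e • (r : A) = r := by
    rintro e ⟨r, hr⟩
    induction hr using Algebra.adjoin_induction with
    | mem x hx =>
      rcases hx with rfl | hx
      · exact (smul_mul' _ _ _).trans (by rw [smul_dsc (F.fix b F.bT), smul_nrm (F.fix δ hδT)])
      · exact F.invZ hx e
    | algebraMap q => exact (h.semi e _).trans (congrArg _ ((π e).commutes q))
    | add x y _ _ hx hy => exact (smul_add _ _ _).trans (congrArg₂ _ hx hy)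
    | mul x y _ _ hx hy => exact (smul_mul' _ _ _).trans (congrArg₂ _ hx hy)
  have := Algebra.FiniteType.adjoin_of_finite (R := ℚ) hZ
  have := hZ.to_subtype
  let res : (A →ₐ[Qb] Qb) → (R →ₐ[ℚ] Qb) := fun Y =>
    ⟨Y.toRingHom.comp R.val.toRingHom, fun q => Y.commutes _⟩
  obtain ⟨P, hP1, hP2, hP3⟩ := mbv ι p hp v hv D hD R
    (h.reg R.val.toRingHom Subtype.val_injective hR) Z (fun r => ⟨r, Algebra.subset_adjoin r.2⟩)
    (fun i r => y' i r) η0 (fun i r hr => by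
      obtain ⟨Y, h1, h2⟩ := dens (hv i) (hD i).1 (s i) (hs1 i) (hc i) (hy1 i) (hy3 i)
        (a := r) fun e => hr (Subtype.ext e)
      obtain ⟨k, h3⟩ := (eventually_all.2 fun r : Z => (h2 r).eventually_lt_const hη0).exists
      exact ⟨res (Y k), (h1 k).1, fun d hd r => ((h1 k).2 ⟨d, hd⟩ r).symm.trans
        (congrArg (Y k) (hR _ r)), h3⟩)
    ⟨δ', Algebra.subset_adjoin (Set.mem_insert _ _)⟩ (fun e => hδ' (congrArg Subtype.val e)) U hU
  obtain ⟨Y, hY⟩ := h.lift R.val.toRingHom Subtype.val_injective hR (fun j => by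
    obtain ⟨q, h1, -, h2⟩ := lifts_and_degree_eq_and_monic (f := R.val.toRingHom)
      (p := chi (orb E1 (a j))) ((lifts_iff_coeff_lifts _).2 fun k => ⟨⟨_, Algebra.subset_adjoin
        (Set.mem_insert_of_mem _ (chi_mem (F.aT j) k))⟩, rfl⟩) (chi_monic _)
    refine ⟨q, h2, ?_⟩
    rw [← eval_map, h1, ← eval₂_id, eval₂_chi]
    exact Finset.prod_eq_zero (Finset.mem_univ ((1 : E) : E ⧸ E1)) (by
      rw [orb_mk (F.fix _ (F.aT j)), one_smul]; exact sub_self _)) P
  replace hY : ∀ r : R, Y r = P r := hY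
  have hY1 : Y (dsc (orb E1 b)) * ∏ γ, Y (orb E1 δ γ) ≠ 0 := by
    rw [← map_prod, ← map_mul]; exact (hY _).trans_ne hP1
  obtain ⟨S, hS1, hS2, hS3⟩ := F.sect (left_ne_zero_of_mul hY1) (H := fixP P) fun g hg r hr => by
    have := hg 1 ⟨r, Algebra.subset_adjoin (Set.mem_insert_of_mem _ hr)⟩
    rwa [← hY] at this
  have hn : (fixP P).Normal := fixP_normal P
  refine ⟨fixP P, S, Y, hn, fixP_open P, hP2, hS1,
    ⟨_, stabilizer_isOpen_of_isIntegral (Y b), hS3⟩, hS2, fun e => ?_, fun i g => ?_⟩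
  · rw [← orb_mk (F.fix δ hδT)]
    exact Finset.prod_ne_zero_iff.1 (right_ne_zero_of_mul hY1) _ (Finset.mem_univ _)
  obtain ⟨d0, hd0, h1⟩ := (hP3 i g).2
  obtain ⟨e1, he1⟩ := h.sur (d0 * g)
  obtain ⟨e0, h2, h3⟩ := hcl i (h.st e1 Y) fun r hr => by
    rw [Dat.st_apply, F.invZ hr, he1]
    have := h1 ⟨r, Set.mem_insert_of_mem _ hr⟩
    rw [← hY] at this
    exact this.trans_le (hη2 i)
  set e := e0⁻¹ * e1 with he
  have h4 : π e = d0 * g := by rw [he, map_mul, map_inv, h2, he1, inv_one, one_mul]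
  replace h3 : ∀ z ∈ T, v i (h.st e Y z - y' i z) < min (ε / 2) (η1 i / 2) := fun z hz => by
    have := h3 z hz
    rwa [Dat.st_apply, he1, ← h4, ← mul_smul, show e1⁻¹ * e0 = e⁻¹ by rw [he]; group] at this
  have h5 : ∀ d : D i, (∃ h : fixP P, e * S h * e⁻¹ = s i d) ∧
      ∀ r, h.st e Y (s i d • r) = (d : GQ) (h.st e Y r) := fun d => by
    let g' : fixP P := ⟨(π e)⁻¹ * d * (π e)⁻¹⁻¹,
      hn.conj_mem _ (fun σ r => (hP3 i σ).1 d d.2 r) _⟩
    have h5 : π e * g' = d * π e := by simp only [g']; group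
    have h6 : π (e * S g' * e⁻¹) = d := by
      rw [map_mul, map_mul, hS1, h5, map_inv, mul_inv_cancel_right]
    have h7 : ∀ r, h.st e Y ((e * S g' * e⁻¹) • r) = (d : GQ) (h.st e Y r) := fun r => by
      rw [Dat.st_apply, Dat.st_apply, mul_smul, mul_smul, inv_smul_smul, hS2, ← AlgEquiv.mul_apply,
        h5, AlgEquiv.mul_apply]
    have h8 : y' i (V (κ (e * S g' * e⁻¹))) = y' i (V (κ (s i d))) := hsep i _ _ (by
      have h8 := (h3 _ (F.VT 1)).trans_le (min_le_right _ _)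
      have h9 := (h3 _ (F.VT (κ (e * S g' * e⁻¹)))).trans_le (min_le_right _ _)
      rw [← (hD i).1 d.2, map_sub, ← h7, ← hy3, hV, hV, mul_one, mul_one] at h8
      rw [(v i).map_sub] at h9
      exact ((v i).sub_le _ _ _).trans_lt ((add_lt_add h9 h8).trans_eq (add_halves _)))
    have h9 : e * S g' * e⁻¹ = s i d := h.eq (h6.trans (hπ i d).symm) (F.kap (hd' i) (by
      rw [F.smb, F.smb, map_add, map_add, h8, h6, hπ]))
    exact ⟨⟨g', h9⟩, h9 ▸ h7⟩
  have h6 : ∀ j, v i (h.st e Y (a j) - y i (a j)) < ε := fun j =>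
    ((v i).sub_le _ _ _).trans_lt ((add_lt_add ((h3 _ (F.aT j)).trans_le (min_le_left _ _))
      (hy4 i j)).trans_eq (add_halves _))
  by_cases hi : D i = stab (v i)
  · let d1 : D i := ⟨d0, hi ▸ hd0⟩
    have h7 : π ((s i d1)⁻¹ * e) = g := by
      rw [map_mul, map_inv, hπ, h4]; exact inv_mul_cancel_left _ _
    refine ⟨(s i d1)⁻¹ * e, by rw [h7, mul_inv_cancel]; exact one_mem _, fun _ => h7,
      fun d => ?_, fun j => ?_⟩
    · obtain ⟨g', hg'⟩ := (h5 (d1 * d * d1⁻¹)).1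
      refine ⟨g', ?_⟩
      rw [map_mul, map_mul, map_inv] at hg'
      rw [show (s i d1)⁻¹ * e * S g' * ((s i d1)⁻¹ * e)⁻¹ =
        (s i d1)⁻¹ * (e * S g' * e⁻¹) * s i d1 by group, hg']
      group
    · have := (h5 d1).2 (a j)
      rw [map_mul, map_inv, hπ, mul_inv_rev, inv_inv, mul_smul, AlgEquiv.mul_apply,
        ← Dat.st_apply h, this]
      exact (congrArg (fun x => v i (x - y i (a j))) (d0.symm_apply_apply _)).trans_lt (h6 j)
  · exact ⟨e, by rw [h4, mul_inv_cancel_right]; exact hd0, fun e => absurd e hi,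
      fun d => (h5 d).1, h6⟩

/-- the action on the product with the regular representation -/
noncomputable def frH (κ : E →* Eb) (A : Type) [CommRing A] [MulSemiringAction E A] (e : E) :
    MvPolynomial Eb A →+* MvPolynomial Eb A :=
  MvPolynomial.eval₂Hom (MvPolynomial.C.comp (MulSemiringAction.toRingHom E A e))
    fun x => MvPolynomial.X (κ e * x)

omit [Algebra Qb A] in
theorem frH_C (e : E) (r : A) : frH κ A e (MvPolynomial.C r) = MvPolynomial.C (e • r) :=
  MvPolynomial.eval₂Hom_C _ _ _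

omit [Algebra Qb A] in
theorem frH_X (e : E) (x : Eb) : frH κ A e (MvPolynomial.X x) = MvPolynomial.X (κ e * x) :=
  MvPolynomial.eval₂Hom_X' _ _ _

/-- the action on the product with the regular representation -/
@[reducible] noncomputable def frA (κ : E →* Eb) (A : Type) [CommRing A] [MulSemiringAction E A] :
    MulSemiringAction E (MvPolynomial Eb A) where
  smul e p := frH κ A e p
  one_smul p := DFunLike.congr_fun (show frH κ A 1 = RingHom.id _ from MvPolynomial.ringHom_ext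
    (fun r => by rw [frH_C, one_smul]; rfl) fun x => by rw [frH_X, map_one, one_mul]; rfl) p
  mul_smul e e' p := DFunLike.congr_fun (show frH κ A (e * e') = (frH κ A e).comp (frH κ A e') from
    MvPolynomial.ringHom_ext (fun r => by rw [RingHom.comp_apply, frH_C, frH_C, frH_C, mul_smul])
      fun x => by rw [RingHom.comp_apply, frH_X, frH_X, frH_X, map_mul, mul_assoc]) p
  smul_zero e := map_zero (frH κ A e)
  smul_add e := map_add (frH κ A e)
  smul_one e := map_one (frH κ A e)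
  smul_mul e := map_mul (frH κ A e)

theorem twmb : TWMB := by
  intro A _ _ _ E _ _ π h1 h2 Eb _ _ κ h3 J _ a h4 h5 ι _ p hp v hv D hD s hπ hκ y hy hf ε hε δ hδ
    U hU
  classical
  let _ := frA κ A
  let a' : J ⊕ Eb → MvPolynomial Eb A := Sum.elim (fun j => MvPolynomial.C (a j)) MvPolynomial.X
  have h : Dat π κ a' := ⟨h1, fun e c => (frH_C e _).trans (congrArg MvPolynomial.C (h2 e c)), h3,
    eq_top_iff.2 fun r _ => by
      induction r using MvPolynomial.induction_on with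
      | C r =>
        have hr : r ∈ Algebra.adjoin Qb (Set.range a) := h4 ▸ trivial
        induction hr using Algebra.adjoin_induction with
        | mem x hx => obtain ⟨j, rfl⟩ := hx; exact Algebra.subset_adjoin ⟨.inl j, rfl⟩
        | algebraMap c => exact Subalgebra.algebraMap_mem _ c
        | add x y _ _ hx hy => rw [map_add]; exact add_mem (hx trivial) (hy trivial)
        | mul x y _ _ hx hy => rw [map_mul]; exact mul_mem (hx trivial) (hy trivial)
      | add p q hp hq => exact add_mem (hp trivial) (hq trivial)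
      | mul_X p x hp => exact mul_mem (hp trivial) (Algebra.subset_adjoin ⟨.inr x, rfl⟩), by
    obtain ⟨N, hN, h5⟩ := h5
    refine ⟨N, hN, fun σ hσ => ?_⟩
    obtain ⟨e, h6, h7, h8⟩ := h5 σ hσ
    refine ⟨e, h6, h7, ?_⟩
    rintro (j | x)
    · exact (frH_C e _).trans (congrArg MvPolynomial.C (h8 j))
    · exact (frH_X e x).trans (by rw [h7, one_mul]; rfl)⟩
  let y' : ι → (MvPolynomial Eb A →ₐ[Qb] Qb) := fun i => MvPolynomial.aevalTower (y i) 0
  have hy' : ∀ i r, y' i (MvPolynomial.C r) = y i r := fun i r => MvPolynomial.aevalTower_C _ _ _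
  obtain ⟨H, S, Y, a1, a2, a3, a4, a5, a6, a7, a8⟩ := twmb0 h (V := MvPolynomial.X) frH_X
    (fun x x' c e => by
      by_contra hx
      have := congrArg (MvPolynomial.eval (Pi.single (M := fun _ => A) x 1)) e
      have h0 := congrArg (MvPolynomial.eval (0 : Eb → A)) e
      simp [Ne.symm hx] at this h0
      rw [← h0] at this
      exact one_ne_zero this)
    hp hv hD s hπ hκ y' (fun i => (hy i).mv _ (hy' i)) (fun i d r =>
      DFunLike.congr_fun (show (y' i).toRingHom.comp (frH κ A (s i d)) =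
        (d : GQ).toRingEquiv.toRingHom.comp (y' i).toRingHom from MvPolynomial.ringHom_ext
          (fun r => by simpa [frH_C, hy'] using hf i d r) fun x => by simp [frH_X, y']) r)
    hε (MvPolynomial.C_ne_zero.2 hδ) U hU
  refine ⟨H, S, Y.comp (IsScalarTower.toAlgHom Qb A _), a1, a2, a3, a4, a5,
    fun g r => (congrArg Y (frH_C _ r)).symm.trans (a6 g _),
    fun e => (congrArg Y (frH_C e δ)).symm.trans_ne (a7 e), fun i g => ?_⟩
  obtain ⟨e, b1, b2, b3, b4⟩ := a8 i g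
  refine ⟨e, b1, b2, b3, fun j => ?_⟩
  have := b4 (.inl j)
  change v i (π e (Y (frH κ A e⁻¹ (MvPolynomial.C (a j)))) - y' i (MvPolynomial.C (a j))) < ε at this
  rwa [frH_C, hy'] at this

end Vale.Agent.P022K.PM
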