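import Vale.Agent.P022K.PM.TwI
import Vale.Agent.P022K.PM.Mbv

/-!
# P022K / PM: descent data and invariants (helper22)
-/

namespace Vale.Agent.P022K.PM

open Polynomial Filter Topology Vale.Agent.P022 Vale.Agent.P022K.MB

section orb
variable {A E : Type} [CommRing A] [Group E] [MulSemiringAction E A] {E1 : Subgroup E}

/-- the orbit of an element fixed by `E1` -/
noncomputable def orb (E1 : Subgroup E) (z : A) (γ : E ⧸ E1) : A := γ.out • z

theorem orb_mk {z : A} (hz : ∀ e ∈ E1, e • z = z) (e : E) : orb E1 z (e : E ⧸ E1) = e • z := by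
  obtain ⟨h, hh⟩ := QuotientGroup.mk_out_eq_mul E1 e
  rw [orb, hh, mul_smul, hz h h.2]

theorem smul_orb {z : A} (hz : ∀ e ∈ E1, e • z = z) (e : E) (γ : E ⧸ E1) :
    e • orb E1 z γ = orb E1 z (e • γ) := by
  rw [← MulAction.Quotient.mk_smul_out, orb_mk hz, orb, smul_eq_mul, mul_smul]

theorem orb_one : orb E1 (1 : A) = 1 := funext fun _ => smul_one _

variable [Fintype (E ⧸ E1)] [DecidableEq (E ⧸ E1)]

omit [DecidableEq (E ⧸ E1)] in
theorem smul_chi {z : A} (hz : ∀ e ∈ E1, e • z = z) (e : E) (k : ℕ) :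
    e • (chi (orb E1 z)).coeff k = (chi (orb E1 z)).coeff k := by
  have := map_chi (MulSemiringAction.toRingHom E A e) (MulAction.toPerm e) (smul_orb hz e)
  conv_rhs => rw [← this, coeff_map]
  rfl

theorem smul_itp {b z : A} (hb : ∀ e ∈ E1, e • b = b) (hz : ∀ e ∈ E1, e • z = z) (e : E) (k : ℕ) :
    e • (itp (orb E1 b) (orb E1 z)).coeff k = (itp (orb E1 b) (orb E1 z)).coeff k := by
  have := map_itp (MulSemiringAction.toRingHom E A e) (MulAction.toPerm e) (smul_orb hb e)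
    (smul_orb hz e)
  conv_rhs => rw [← this, coeff_map]
  rfl

theorem smul_dsc {b : A} (hb : ∀ e ∈ E1, e • b = b) (e : E) :
    e • dsc (orb E1 b) = dsc (orb E1 b) :=
  map_dsc (MulSemiringAction.toRingHom E A e) (MulAction.toPerm e) (smul_orb hb e)

omit [DecidableEq (E ⧸ E1)] in
theorem smul_nrm {z : A} (hz : ∀ e ∈ E1, e • z = z) (e : E) :
    e • ∏ γ, orb E1 z γ = ∏ γ, orb E1 z γ := by
  rw [Finset.smul_prod']
  exact Fintype.prod_equiv (MulAction.toPerm e) _ _ (smul_orb hz e)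

end orb

theorem exists_sep {X : Type} [Finite X] (v : AbsoluteValue Qb ℝ) (f : X → Qb) :
    ∃ η > 0, ∀ x x', v (f x - f x') < η → f x = f x' := by
  have h : ∀ p : X × X, ∀ᶠ η in 𝓝[>] (0 : ℝ), v (f p.1 - f p.2) < η → f p.1 = f p.2 := fun p => by
    by_cases e : f p.1 = f p.2
    · exact Eventually.of_forall fun _ _ => e
    · exact mem_nhdsWithin_of_mem_nhds ((gt_mem_nhds (v.pos (sub_ne_zero.2 e))).mono
        fun η h1 h2 => absurd h1 h2.not_gt)
  obtain ⟨η, h1, h2⟩ := ((eventually_all.2 h).and self_mem_nhdsWithin).exists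
  exact ⟨η, h2, fun x x' => h1 (x, x')⟩

variable {A E Eb J : Type} [CommRing A] [Algebra Qb A] [Group E] [MulSemiringAction E A] [Group Eb]

/-- a descent datum with a finite group of automorphisms -/
structure Dat (π : E →* GQ) (κ : E →* Eb) (a : J → A) : Prop where
  sur : Function.Surjective π
  semi : ∀ (e : E) (c : Qb), e • algebraMap Qb A c = algebraMap Qb A (π e c)
  inj : ∀ e, π e = 1 → κ e = 1 → e = 1
  gen : Algebra.adjoin Qb (Set.range a) = ⊤
  opn : ∃ N : Subgroup GQ, IsOpen (N : Set GQ) ∧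
    ∀ σ ∈ N, ∃ e, π e = σ ∧ κ e = 1 ∧ ∀ j, e • a j = a j

variable {π : E →* GQ} {κ : E →* Eb} {a : J → A}

theorem Dat.eq (h : Dat π κ a) {e e' : E} (h1 : π e = π e') (h2 : κ e = κ e') : e = e' :=
  inv_mul_eq_one.1 (h.inj _ (by rw [map_mul, map_inv, h1, inv_mul_cancel])
    (by rw [map_mul, map_inv, h2, inv_mul_cancel]))

theorem Dat.cont (h : Dat π κ a) (z : A) :
    ∃ N : Subgroup GQ, IsOpen (N : Set GQ) ∧ ∀ e, π e ∈ N → κ e = 1 → e • z = z := by
  have hz : z ∈ Algebra.adjoin Qb (Set.range a) := h.gen ▸ trivial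
  induction hz using Algebra.adjoin_induction with
  | mem x hx =>
    obtain ⟨j, rfl⟩ := hx
    obtain ⟨N, hN, h1⟩ := h.opn
    refine ⟨N, hN, fun e he h2 => ?_⟩
    obtain ⟨e', h3, h4, h5⟩ := h1 _ he
    rw [← h.eq h3 (h4.trans h2.symm), h5]
  | algebraMap c =>
    exact ⟨_, stabilizer_isOpen_of_isIntegral c, fun e he _ => by
      rw [h.semi]; exact congrArg _ he⟩
  | add x y _ _ hx hy =>
    obtain ⟨N, hN, h1⟩ := hx
    obtain ⟨N', hN', h2⟩ := hy
    exact ⟨N ⊓ N', hN.inter hN', fun e he h3 => by rw [smul_add, h1 e he.1 h3, h2 e he.2 h3]⟩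
  | mul x y _ _ hx hy =>
    obtain ⟨N, hN, h1⟩ := hx
    obtain ⟨N', hN', h2⟩ := hy
    exact ⟨N ⊓ N', hN.inter hN', fun e he h3 => by rw [smul_mul', h1 e he.1 h3, h2 e he.2 h3]⟩

/-- the translate of a point -/
noncomputable def Dat.st (h : Dat π κ a) (e : E) (Y : A →ₐ[Qb] Qb) : A →ₐ[Qb] Qb :=
  tw e (π e) (h.semi e) Y

theorem Dat.st_apply (h : Dat π κ a) (e : E) (Y : A →ₐ[Qb] Qb) (r : A) :
    h.st e Y r = π e (Y (e⁻¹ • r)) := rfl

variable {R : Type} [CommRing R] [Algebra ℚ R]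

theorem map_rat (f : R →+* A) (q : ℚ) : f (algebraMap ℚ R q) = algebraMap Qb A q :=
  (DFunLike.congr_fun (RingHom.ext_rat (f.comp (algebraMap ℚ R))
    ((algebraMap Qb A).comp (algebraMap ℚ Qb))) q)

/-- the field of fractions of a ring of invariants is regular over `ℚ` -/
theorem Dat.reg [IsDomain A] [IsDomain R] (h : Dat π κ a) (f : R →+* A)
    (hf : Function.Injective f) (hR : ∀ (e : E) r, e • f r = f r) (z : FractionRing R)
    (hz : IsAlgebraic ℚ z) : ∃ c : ℚ, algebraMap ℚ (FractionRing R) c = z := by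
  have h1 : Function.Injective ((algebraMap A (FractionRing A)).comp f) :=
    (IsFractionRing.injective A _).comp hf
  let φ : FractionRing R →+* FractionRing A := IsFractionRing.lift h1
  obtain ⟨p, hp, h2⟩ := hz
  have h3 : IsIntegral Qb (φ z) := by
    refine IsAlgebraic.isIntegral ⟨p.map (algebraMap ℚ Qb), Polynomial.map_ne_zero hp, ?_⟩
    rw [aeval_def, eval₂_map, RingHom.ext_rat ((algebraMap Qb _).comp (algebraMap ℚ Qb))
      (φ.comp (algebraMap ℚ _)), ← hom_eval₂, ← aeval_def, h2, map_zero]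
  obtain ⟨c, hc⟩ := minpoly.mem_range_of_degree_eq_one Qb _
    (IsAlgClosed.degree_eq_one_of_irreducible Qb (minpoly.irreducible h3))
  obtain ⟨x, y, hy, rfl⟩ := IsFractionRing.div_surjective R z
  have hy0 : y ≠ 0 := nonZeroDivisors.ne_zero hy
  have hy1 : f y ≠ 0 := (map_ne_zero_iff f hf).2 hy0
  have h4 : f x = algebraMap Qb A c * f y := by
    refine IsFractionRing.injective A (FractionRing A) ?_
    rw [map_div₀, IsFractionRing.lift_algebraMap, IsFractionRing.lift_algebraMap,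
      eq_div_iff ((map_ne_zero_iff _ h1).2 hy0)] at hc
    rw [map_mul, ← IsScalarTower.algebraMap_apply]
    exact hc.symm
  obtain ⟨q, hq⟩ := (InfiniteGalois.mem_range_algebraMap_iff_fixed (k := ℚ) c).2 fun σ => by
    obtain ⟨e, rfl⟩ := h.sur σ
    have := hR e x
    rw [h4, smul_mul', h.semi, hR] at this
    exact (algebraMap Qb A).injective (mul_right_cancel₀ hy1 this)
  refine ⟨q, eq_div_of_mul_eq ((map_ne_zero_iff _ (IsFractionRing.injective R _)).2 hy0) ?_⟩
  rw [IsScalarTower.algebraMap_apply ℚ R, ← map_mul]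
  refine congrArg _ (hf ?_)
  rw [map_mul, map_rat, h4, ← hq]
  rfl

/-- points of a ring of invariants lift -/
theorem Dat.lift (h : Dat π κ a) (f : R →+* A) (hf : Function.Injective f)
    (hR : ∀ (e : E) r, e • f r = f r) (hi : ∀ j, f.IsIntegralElem (a j)) (P : R →ₐ[ℚ] Qb) :
    ∃ Y : A →ₐ[Qb] Qb, ∀ r, Y (f r) = P r := by
  have h1 : f.IsIntegral := fun z => by
    have hz : z ∈ Algebra.adjoin Qb (Set.range a) := h.gen ▸ trivial
    induction hz using Algebra.adjoin_induction with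
    | mem x hx => obtain ⟨j, rfl⟩ := hx; exact hi j
    | algebraMap c =>
      obtain ⟨p, hp, h2⟩ : IsIntegral ℚ c := Algebra.IsIntegral.isIntegral c
      refine ⟨p.map (algebraMap ℚ R), hp.map _, ?_⟩
      rw [eval₂_map, RingHom.ext_rat (f.comp _) ((algebraMap Qb A).comp (algebraMap ℚ Qb)),
        ← hom_eval₂, h2, map_zero]
    | add x y _ _ hx hy => exact hx.add f hy
    | mul x y _ _ hx hy => exact hx.mul f hy
  obtain ⟨φ, hφ⟩ := P010MK.extend f h1 P.toRingHom (by
    rw [(RingHom.injective_iff_ker_eq_bot f).1 hf]; exact bot_le)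
  let τ : GQ := AlgEquiv.ofBijective (φ.comp (algebraMap Qb A)).toRatAlgHom
    (Algebra.IsAlgebraic.algHom_bijective _)
  obtain ⟨e, he⟩ := h.sur τ⁻¹
  refine ⟨⟨φ.comp (MulSemiringAction.toRingHom E A e), fun c => ?_⟩, fun r => ?_⟩
  · change φ (e • algebraMap Qb A c) = c
    rw [h.semi, he]
    exact τ.apply_symm_apply c
  · change φ (e • f r) = _
    rw [hR]
    exact DFunLike.congr_fun hφ r

end Vale.Agent.P022K.PM
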