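import Vale.Agent.P022K.PM.TwA

/-!
# P022K / PM: fibres of the quotient by a free action (helper22)
-/

namespace Vale.Agent.P022K.PM

open Polynomial Filter Topology Vale.Agent.P022 Vale.Agent.P022K.MB

variable {A E Eb J : Type} [CommRing A] [Algebra Qb A] [Group E] [MulSemiringAction E A] [Group Eb]

/-- a descent datum with a rigidification `V` and a separating element `b` -/
structure Frm (π : E →* GQ) (κ : E →* Eb) (a : J → A) (V : Eb → A) (θ : Qb) (b : A)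
    (E1 : Subgroup E) (T : Set A) : Prop extends Dat π κ a where
  mem : ∀ e, e ∈ E1 ↔ π e θ = θ ∧ κ e = 1
  lif : ∀ σ : GQ, σ θ = θ → ∃ e, π e = σ ∧ κ e = 1
  smV : ∀ (e : E) x, e • V x = V (κ e * x)
  sep : ∀ x x' c, V x - V x' = algebraMap Qb A c → x = x'
  hb : b = algebraMap Qb A θ + V 1
  fin : T.Finite
  fix : ∀ z ∈ T, ∀ e ∈ E1, e • z = z
  aT : ∀ j, a j ∈ T
  VT : ∀ x, V x ∈ T
  θT : algebraMap Qb A θ ∈ T
  bT : b ∈ T
  oT : 1 ∈ T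

variable {π : E →* GQ} {κ : E →* Eb} {a : J → A} {V : Eb → A} {θ : Qb} {b : A} {E1 : Subgroup E}
  {T : Set A}

theorem Frm.smb (h : Frm π κ a V θ b E1 T) (e : E) :
    e • b = algebraMap Qb A (π e θ) + V (κ e) := by
  rw [h.hb, smul_add, h.semi, h.smV, mul_one]

theorem Frm.geo (h : Frm π κ a V θ b E1 T) {g : E} (hg : π g θ = θ) :
    ∃ e, π e = 1 ∧ ∀ z ∈ T, e • z = g • z := by
  obtain ⟨e, h1, h2⟩ := h.lif _ hg
  refine ⟨g * e⁻¹, by rw [map_mul, map_inv, h1, mul_inv_cancel], fun z hz => ?_⟩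
  rw [mul_smul, h.fix z hz _ (inv_mem ((h.mem e).2 ⟨h1 ▸ hg, h2⟩))]

variable [Fintype (E ⧸ E1)] [DecidableEq (E ⧸ E1)]

theorem Frm.kap (h : Frm π κ a V θ b E1 T) {Y : A →ₐ[Qb] Qb} (hd : Y (dsc (orb E1 b)) ≠ 0)
    {e e' : E} (he : Y (e • b) = Y (e' • b)) : κ e = κ e' := by
  rw [← orb_mk (h.fix b h.bT), ← orb_mk (h.fix b h.bT)] at he
  have := ((h.mem _).1 (QuotientGroup.eq.1 (eq_of_dsc (Y := Y.toRingHom) hd he))).2
  rwa [map_mul, map_inv, inv_mul_eq_one] at this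

theorem Frm.dsc_ne [IsDomain A] (h : Frm π κ a V θ b E1 T) : dsc (orb E1 b) ≠ 0 := by
  refine Finset.prod_ne_zero_iff.2 fun γ _ => Finset.prod_ne_zero_iff.2 fun γ' hγ e => ?_
  refine (Finset.mem_erase.1 hγ).1 ?_
  rw [sub_eq_zero, orb, orb, h.smb, h.smb] at e
  have h1 := h.sep (κ γ.out) (κ γ'.out) (π γ'.out θ - π γ.out θ) (by
    rw [map_sub]; linear_combination e)
  rw [h1] at e
  have h2 := (algebraMap Qb A).injective (add_right_cancel e)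
  rw [← QuotientGroup.out_eq' γ', ← QuotientGroup.out_eq' γ, QuotientGroup.eq, h.mem, map_mul,
    map_mul, map_inv, map_inv, h1, inv_mul_cancel, AlgEquiv.mul_apply, h2]
  exact ⟨(π γ'.out).symm_apply_apply θ, rfl⟩

/-- the invariants -/
def ZZ (E1 : Subgroup E) [Fintype (E ⧸ E1)] [DecidableEq (E ⧸ E1)] (b : A) (T : Set A) : Set A :=
  ⋃ z ∈ T, Set.range (chi (orb E1 z)).coeff ∪ Set.range (itp (orb E1 b) (orb E1 z)).coeff

omit [Algebra Qb A] in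
theorem chi_mem {z : A} (hz : z ∈ T) (k : ℕ) : (chi (orb E1 z)).coeff k ∈ ZZ E1 b T :=
  Set.mem_biUnion hz (.inl ⟨k, rfl⟩)

omit [Algebra Qb A] in
theorem itp_mem {z : A} (hz : z ∈ T) (k : ℕ) :
    (itp (orb E1 b) (orb E1 z)).coeff k ∈ ZZ E1 b T :=
  Set.mem_biUnion hz (.inr ⟨k, rfl⟩)

theorem Frm.finZ (h : Frm π κ a V θ b E1 T) : (ZZ E1 b T).Finite :=
  h.fin.biUnion fun _ _ => (finite_range_coeff _).union (finite_range_coeff _)

theorem Frm.invZ (h : Frm π κ a V θ b E1 T) {r : A} (hr : r ∈ ZZ E1 b T) (e : E) : e • r = r := by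
  obtain ⟨z, hz, ⟨k, rfl⟩ | ⟨k, rfl⟩⟩ := Set.mem_iUnion₂.1 hr
  · exact smul_chi (h.fix z hz) e k
  · exact smul_itp (h.fix b h.bT) (h.fix z hz) e k

theorem Frm.fib (h : Frm π κ a V θ b E1 T) {Y Y' : A →ₐ[Qb] Qb} (hd : Y (dsc (orb E1 b)) ≠ 0)
    (hZ : ∀ r ∈ ZZ E1 b T, Y' r = Y r) : ∃ e, π e = 1 ∧ ∀ r, Y' r = Y (e • r) := by
  have h0 : ∀ z ∈ T, (itp (orb E1 b) (orb E1 z)).map Y'.toRingHom =
      (itp (orb E1 b) (orb E1 z)).map Y.toRingHom := fun z hz => Polynomial.ext fun k => by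
    rw [coeff_map, coeff_map]; exact hZ _ (itp_mem hz k)
  obtain ⟨γ, hγ⟩ := fibre Y.toRingHom Y'.toRingHom hd ((1 : E) : E ⧸ E1)
    (Polynomial.ext fun k => by rw [coeff_map, coeff_map]; exact hZ _ (chi_mem h.bT k))
    (by rw [← orb_one]; exact h0 1 h.oT)
  have h1 : ∀ z ∈ T, Y' z = Y (γ.out • z) := fun z hz => by
    have := hγ _ (h0 z hz)
    rwa [orb_mk (h.fix z hz), one_smul] at this
  have h2 := h1 _ h.θT
  rw [h.semi, AlgHom.commutes, AlgHom.commutes] at h2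
  obtain ⟨e, h3, h4⟩ := h.geo h2.symm
  refine ⟨e, h3, fun r => ?_⟩
  have h5 : ∀ r, h.toDat.st e⁻¹ Y r = Y (e • r) := fun r => by
    rw [Dat.st_apply, map_inv, h3, inv_one, inv_inv]; rfl
  rw [← h5]
  refine DFunLike.congr_fun (AlgHom.ext_of_adjoin_eq_top h.gen ?_) r
  rintro _ ⟨j, rfl⟩
  rw [h5, h4 _ (h.aT j), h1 _ (h.aT j)]

theorem Frm.cls (h : Frm π κ a V θ b E1 T) {p : ℕ} {v : AbsoluteValue Qb ℝ} (hv : IsPl p v)
    {y : A →ₐ[Qb] Qb} (hd : y (dsc (orb E1 b)) ≠ 0) {ε : ℝ} (hε : 0 < ε) :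
    ∃ η > 0, ∀ Y : A →ₐ[Qb] Qb, (∀ r ∈ ZZ E1 b T, v (Y r - y r) < η) →
      ∃ e, π e = 1 ∧ ∀ z ∈ T, v (Y (e • z) - y z) < ε := by
  obtain ⟨Ω, _, _, _, hΩ, -⟩ := hv.exists_model
  have := h.finZ.fintype
  let j := algebraMap Qb Ω
  let Φ : (A →ₐ[Qb] Qb) → (ZZ E1 b T → Ω) := fun Y r => j (Y r)
  have h0 : ∀ r ∈ ZZ E1 b T, Tendsto (fun Y : A →ₐ[Qb] Qb => j.comp Y.toRingHom r)
      (comap Φ (𝓝 (Φ y))) (𝓝 (j.comp y.toRingHom r)) := fun r hr =>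
    ((continuous_apply (⟨r, hr⟩ : ZZ E1 b T)).tendsto (Φ y)).comp (tendsto_comap (f := Φ))
  obtain ⟨γ, hγ⟩ := close (Y := fun Y : A →ₐ[Qb] Qb => j.comp Y.toRingHom)
    (Y0 := j.comp y.toRingHom) ((_root_.map_ne_zero j).2 hd) ((1 : E) : E ⧸ E1)
    (fun k => h0 _ (chi_mem h.bT k)) (fun k => by rw [← orb_one]; exact h0 _ (itp_mem h.oT k))
  obtain ⟨η, hη, hs⟩ := exists_sep v fun γ : E ⧸ E1 => y (orb E1 (algebraMap Qb A θ) γ)
  have h1 : ∀ᶠ Y in comap Φ (𝓝 (Φ y)), ∀ z ∈ T, v (Y ((γ Y).out • z) - y z) < min ε η :=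
    (eventually_all_finite h.fin).2 fun z hz => by
      have := tendsto_iff_norm_sub_tendsto_zero.1 (hγ _ fun k => h0 _ (itp_mem hz k))
      rw [orb_mk (h.fix z hz), one_smul] at this
      refine (this.eventually_lt_const (lt_min hε hη)).mono fun Y hY => ?_
      rw [hΩ, map_sub]
      exact hY
  obtain ⟨η', h2, h3⟩ := Metric.eventually_nhds_iff.1 (eventually_comap.1 h1)
  refine ⟨η', h2, fun Y hY => ?_⟩
  have h4 := h3 (y := Φ Y) ((dist_pi_lt_iff h2).2 fun r => by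
    rw [dist_eq_norm, ← map_sub, ← hΩ]; exact hY r r.2) Y rfl
  have h5 := hs (γ Y) ((1 : E) : E ⧸ E1)
  have h6 := (h4 _ h.θT).trans_le (min_le_right _ _)
  rw [orb_mk (h.fix _ h.θT), one_smul, orb, h.semi, AlgHom.commutes, AlgHom.commutes] at h5
  rw [h.semi, AlgHom.commutes, AlgHom.commutes] at h6
  obtain ⟨e, h7, h8⟩ := h.geo (h5 h6)
  exact ⟨e, h7, fun z hz => by rw [h8 z hz]; exact (h4 z hz).trans_le (min_le_left _ _)⟩

/-- the stabiliser of a point -/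
theorem Frm.sect (h : Frm π κ a V θ b E1 T) {Y : A →ₐ[Qb] Qb} (hd : Y (dsc (orb E1 b)) ≠ 0)
    {H : Subgroup GQ} (hH : ∀ g ∈ H, ∀ r ∈ ZZ E1 b T, g (Y r) = Y r) :
    ∃ S : H →* E, (∀ g, π (S g) = g) ∧ (∀ (g : H) r, Y (S g • r) = (g : GQ) (Y r)) ∧
      ∀ g : H, (g : GQ) (Y b) = Y b → κ (S g) = 1 := by
  have h1 : ∀ g : H, ∃ e, π e = g ∧ ∀ r, Y (e • r) = (g : GQ) (Y r) := fun g => by
    obtain ⟨e0, h0⟩ := h.sur g
    obtain ⟨e, h2, h3⟩ := h.fib (Y' := h.toDat.st e0 Y) hd fun r hr => by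
      rw [Dat.st_apply, h.invZ hr, h0, hH _ g.2 r hr]
    refine ⟨e * e0, by rw [map_mul, h2, h0, one_mul], fun r => ?_⟩
    rw [mul_smul, ← h3, Dat.st_apply, inv_smul_smul, h0]
  choose S h2 h3 using h1
  refine ⟨MonoidHom.mk' S fun g g' => h.eq (by rw [map_mul, h2, h2, h2]; rfl) (h.kap hd ?_),
    h2, h3, fun g hg => ?_⟩
  · rw [mul_smul, h3, h3, h3]; rfl
  · rw [← map_one κ]
    exact h.kap hd (by rw [one_smul]; exact (h3 g b).trans hg)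

end Vale.Agent.P022K.PM
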