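import Vale.Agent.P022K.PM.TwSt
import Vale.Agent.P022K.MB.Pts
import Vale.Agent.P011LD.Desc

/-!
# P022K / PM: fixed points near a smooth fixed point are Zariski dense (helper22)
-/

namespace Vale.Agent.P022K.PM

open Polynomial Filter Topology Vale.Agent.P022 Vale.Agent.P022K.MB

theorem exists_ext' {K B A Ω : Type*} [CommRing K] [CommRing B] [CommRing A] [Field Ω] [Algebra K B]
    [Algebra K A] [Algebra K Ω] (ψ : B →ₐ[K] A) (χ : B →ₐ[K] Ω) (hk : ∀ p, ψ p = 0 → χ p = 0)
    (D : B) (hD : χ D ≠ 0) (h : ∀ a, ∃ (m : ℕ) (p : B), ψ D ^ m * a = ψ p) :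
    ∃ P : A →ₐ[K] Ω, ∀ p, P (ψ p) = χ p := by
  have wd : ∀ p q, ψ p = ψ q → χ p = χ q := fun p q e => by
    rw [← sub_eq_zero, ← map_sub]; exact hk _ (by rw [map_sub, e, sub_self])
  choose m r hr using h
  have key : ∀ (z : A) (n : ℕ) (p : B), ψ D ^ n * z = ψ p →
      χ (r z) / χ D ^ m z = χ p / χ D ^ n := fun z n p hp => by
    have := wd (r z * D ^ n) (p * D ^ m z) (by
      rw [map_mul, map_mul, map_pow, map_pow, ← hr, ← hp]; ring)
    rw [map_mul, map_mul, map_pow, map_pow] at this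
    exact (div_eq_div_iff (pow_ne_zero _ hD) (pow_ne_zero _ hD)).2 this
  refine ⟨{ toFun := fun z => χ (r z) / χ D ^ m z
            map_one' := ?_, map_mul' := ?_, map_zero' := ?_, map_add' := ?_, commutes' := ?_ }, ?_⟩
  · rw [key 1 0 1 (by simp)]; simp
  · intro z w
    rw [key (z * w) (m z + m w) (r z * r w) (by rw [map_mul, ← hr, ← hr]; ring), map_mul, pow_add,
      mul_div_mul_comm]
  · rw [key 0 0 0 (by simp), map_zero, zero_div]
  · intro z w
    rw [key (z + w) (m z + m w) (r z * D ^ m w + D ^ m z * r w) (by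
      rw [map_add, map_mul, map_mul, map_pow, map_pow, ← hr, ← hr]; ring), map_add, map_mul,
      map_mul, map_pow, map_pow, div_add_div _ _ (pow_ne_zero _ hD) (pow_ne_zero _ hD), pow_add]
  · intro c
    rw [key (algebraMap K _ c) 0 (algebraMap K B c) (by simp)]; simp
  · intro p
    change χ (r (ψ p)) / χ D ^ m (ψ p) = _
    rw [key _ 0 p (by simp)]; simp

section par
variable {K Ω A : Type*} [Field K] [NontriviallyNormedField Ω] [Algebra K Ω] [CommRing A]
  [Algebra K A] {n : ℕ}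

theorem hasDerivAt_evl (f : (MvPolynomial (Fin n) K)[X]) (a : Fin n → Ω) (b : Ω) :
    HasDerivAt (fun y => evl K a y f) (evl K a b (derivative f)) b := by
  have := (f.map (MvPolynomial.aeval a).toRingHom).hasDerivAt b
  simpa only [derivative_map, eval_map, evl_apply] using this

/-- parametrisation of the points near a point of a standard etale chart -/
theorem exists_par [CompleteSpace Ω] {t : Fin n → A} {u : A} {f h : (MvPolynomial (Fin n) K)[X]}
    (hk : ∀ q, evl K t u q = 0 ↔ f ∣ q)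
    (hd : ∀ r, ∃ (m : ℕ) (q : _), evl K t u h ^ m * r = evl K t u q) (y : A →ₐ[K] Ω)
    (h1 : y (evl K t u h) ≠ 0) (h2 : y (evl K t u (derivative f)) ≠ 0) :
    ∃ ev : (Fin n → Ω) → (A →ₐ[K] Ω), ev (fun k => y (t k)) = y ∧
      (∀ᶠ τ in 𝓝 fun k => y (t k), ∀ k, ev τ (t k) = τ k) ∧
      (∀ r, ∃ D, HasStrictFDerivAt (𝕜 := Ω) (fun τ => ev τ r) D fun k => y (t k)) ∧
      ∀ᶠ p in 𝓝 ((fun k => y (t k)), y u), ∀ y' : A →ₐ[K] Ω,
        (fun k => y' (t k)) = p.1 → y' u = p.2 → y' = ev p.1 := by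
  classical
  set t0 : Fin n → Ω := fun k => y (t k) with ht0
  rw [map_evl] at h1 h2
  have h0 : evl K t0 (y u) f = 0 := by rw [← map_evl, (hk f).2 dvd_rfl, map_zero]
  have hA : ∀ q p, AnalyticAt Ω (fun x : (Fin n → Ω) × Ω => evl K x.1 x.2 q) p :=
    fun q p => analyticAt_eval₂ q p
  have hG := (hA f (t0, y u)).hasStrictFDerivAt
  set G' := fderiv Ω (fun x : (Fin n → Ω) × Ω => evl K x.1 x.2 f) (t0, y u)
  have hinv : (G' ∘L .inr Ω (Fin n → Ω) Ω).IsInvertible := by
    have h3 : HasDerivAt (fun y : Ω => (t0, y)) ((0 : Fin n → Ω), (1 : Ω)) (y u) :=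
      (hasDerivAt_const _ t0).prodMk (hasDerivAt_id _)
    have h4 := (hG.hasFDerivAt.comp_hasDerivAt _ h3).unique (hasDerivAt_evl f t0 (y u))
    refine ⟨ContinuousLinearEquiv.unitsEquivAut Ω (Units.mk0 _ h2), ?_⟩
    ext
    simpa using h4.symm
  set η := hG.implicitFunctionOfProdDomain hinv
  have e1 := hG.eventually_apply_eq_iff_implicitFunctionOfProdDomain hinv
  have e2 := hG.hasStrictFDerivAt_implicitFunctionOfProdDomain hinv
  have e3 := hG.eventually_apply_implicitFunctionOfProdDomain hinv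
  have e0 : η t0 = y u := e1.self_of_nhds.1 rfl
  have hc : ContinuousAt (fun τ => (τ, η τ)) t0 := continuousAt_id.prodMk e2.continuousAt
  have e4 : ∀ᶠ τ in 𝓝 t0, evl K τ (η τ) h ≠ 0 :=
    ((hA h (t0, η t0)).continuousAt.comp_of_eq hc rfl).eventually_ne
      (by simpa only [Function.comp, e0] using h1)
  have key : ∀ τ, ∃ P : A →ₐ[K] Ω, evl K τ (η τ) f = 0 → evl K τ (η τ) h ≠ 0 →
      ∀ q, P (evl K t u q) = evl K τ (η τ) q := by
    intro τ
    by_cases hτ : evl K τ (η τ) f = 0 ∧ evl K τ (η τ) h ≠ 0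
    · obtain ⟨P, hP⟩ := exists_ext' (evl K t u) (evl K τ (η τ)) (fun p hp => by
        obtain ⟨c, rfl⟩ := (hk p).1 hp
        rw [map_mul, hτ.1, zero_mul]) h hτ.2 hd
      exact ⟨P, fun _ _ => hP⟩
    · exact ⟨y, fun a b => absurd ⟨a, b⟩ hτ⟩
  choose ev hev using key
  have e5 : ∀ᶠ τ in 𝓝 t0, evl K τ (η τ) h ≠ 0 ∧ ∀ q, ev τ (evl K t u q) = evl K τ (η τ) q := by
    filter_upwards [e3, e4] with τ a b using ⟨b, hev τ (a.trans h0) b⟩
  have e6 : ∀ᶠ p in 𝓝 (t0, y u), ∀ y' : A →ₐ[K] Ω,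
      (fun k => y' (t k)) = p.1 → y' u = p.2 → y' = ev p.1 := by
    filter_upwards [e1, (continuous_fst.tendsto (t0, y u)).eventually e5] with p a b y' c d
    have h3 : ∀ q, y' (evl K t u q) = evl K p.1 p.2 q := fun q => by rw [map_evl, c, d]
    have h4 : η p.1 = p.2 := a.1 (by rw [← h3, (hk f).2 dvd_rfl, map_zero]; exact h0.symm)
    rw [h4] at b
    ext r
    obtain ⟨m, q, hq⟩ := hd r
    refine mul_left_cancel₀ (pow_ne_zero m b.1) ?_
    conv_lhs => rw [← h3, ← map_pow, ← map_mul, hq, h3]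
    rw [← b.2, ← b.2, ← map_pow, ← map_mul, hq]
  refine ⟨ev, (e6.self_of_nhds y rfl rfl).symm, e5.mono fun τ hτ k => ?_, fun r => ?_, e6⟩
  · simpa [evl_C] using hτ.2 (C (MvPolynomial.X k))
  · obtain ⟨m, q, hq⟩ := hd r
    have h3 : AnalyticAt Ω (fun x : (Fin n → Ω) × Ω => evl K x.1 x.2 q / evl K x.1 x.2 h ^ m)
        (t0, η t0) := (hA q _).fun_div ((hA h _).fun_pow m)
          (pow_ne_zero m (by simpa only [e0] using h1))
    refine ⟨_, (h3.hasStrictFDerivAt.comp t0
      ((hasStrictFDerivAt_id t0).prodMk e2)).congr_of_eventuallyEq ?_⟩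
    filter_upwards [e5] with τ hτ
    refine (eq_div_of_mul_eq (pow_ne_zero m hτ.1) ?_).symm
    change _ = evl K τ (η τ) q
    rw [← hτ.2, ← hτ.2, ← map_pow, ← map_mul, mul_comm, hq]

/-- a spanning family of differentials contains local coordinates -/
theorem exists_coords [CompleteSpace Ω] {J : Type} (D : J → ((Fin n → Ω) →L[Ω] Ω))
    (h : ∀ k, (LinearMap.proj k : (Fin n → Ω) →ₗ[Ω] Ω) ∈
      Submodule.span Ω (Set.range fun j => (D j).toLinearMap)) :
    ∃ (κ : Type) (_ : Fintype κ) (a : κ → J) (i : (Fin n → Ω) ≃L[Ω] (κ → Ω)),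
      Fintype.card κ = n ∧ (i : (Fin n → Ω) →L[Ω] (κ → Ω)) = ContinuousLinearMap.pi fun x => D (a x) := by
  obtain ⟨κ, a, -, hs, hi⟩ := exists_linearIndependent' Ω fun j => (D j).toLinearMap
  have := hi.finite
  have := Fintype.ofFinite κ
  have htop : ⊤ ≤ Submodule.span Ω (Set.range ((fun j => (D j).toLinearMap) ∘ a)) := by
    rw [hs]
    intro φ _
    have : φ = ∑ k, φ (Pi.single k 1) • (LinearMap.proj k : (Fin n → Ω) →ₗ[Ω] Ω) := by
      ext k
      simp [Pi.single_apply]
    rw [this]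
    exact Submodule.sum_mem _ fun k _ => Submodule.smul_mem _ _ (h k)
  have hc : Fintype.card κ = n := by
    have := Module.finrank_eq_card_basis (Module.Basis.mk hi htop)
    rw [← this, Module.finrank_linearMap_self, Module.finrank_fin_fun]
  let L : (Fin n → Ω) →L[Ω] (κ → Ω) := ContinuousLinearMap.pi fun x => D (a x)
  have hL : Function.Injective L := by
    rw [injective_iff_map_eq_zero]
    intro w hw
    funext k
    have h1 : ∀ φ ∈ Submodule.span Ω (Set.range ((fun j => (D j).toLinearMap) ∘ a)), φ w = 0 := by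
      intro φ hφ
      induction hφ using Submodule.span_induction with
      | mem φ hφ => obtain ⟨x, rfl⟩ := hφ; exact congrFun hw x
      | zero => rfl
      | add a b _ _ ha hb => rw [LinearMap.add_apply, ha, hb, add_zero]
      | smul c a _ ha => rw [LinearMap.smul_apply, ha, smul_zero]
    exact h1 (LinearMap.proj k) (htop trivial)
  exact ⟨κ, inferInstance, a, (LinearMap.linearEquivOfInjective L.toLinearMap hL (by
    rw [Module.finrank_fin_fun, Module.finrank_fintype_fun_eq_card, hc])).toContinuousLinearEquiv,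
    hc, rfl⟩

theorem eq_zero_of_nhds {κ : Type*} [Finite κ] {p : MvPolynomial κ Ω} {w : κ → Ω}
    (h : ∀ᶠ x in 𝓝 w, MvPolynomial.eval x p = 0) : p = 0 := by
  rw [nhds_pi] at h
  obtain ⟨I, -, s, hs, h1⟩ := mem_pi.1 h
  exact MvPolynomial.funext_set s (fun i => infinite_of_mem_nhds _ (hs i)) fun x hx => by
    rw [map_zero]; exact h1 fun i _ => hx i trivial

end par

theorem IsPl.exists_model {p : ℕ} {v : AbsoluteValue Qb ℝ} (h : IsPl p v) :
    ∃ (Ω : Type) (_ : NontriviallyNormedField Ω) (_ : CompleteSpace Ω) (_ : Algebra Qb Ω),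
      (∀ x, v x = ‖algebraMap Qb Ω x‖) ∧ ∃ q : ℚ, q ≠ 0 ∧ v q < 1 := by
  rcases h with ⟨-, φ, hφ⟩ | ⟨hp, j, hj⟩
  · refine ⟨ℂ, inferInstance, inferInstance, φ.toAlgebra, hφ, 1 / 2, by norm_num, ?_⟩
    rw [hφ, map_ratCast]
    norm_num
  · refine ⟨ℂ_[p], inferInstance, inferInstance,
      ((algebraMap (PadicAlgCl p) ℂ_[p]).comp j).toAlgebra,
      fun x => (hj x).trans (PadicComplex.norm_extends _ _).symm, p,
      Nat.cast_ne_zero.2 hp.out.ne_zero, ?_⟩
    rw [hj, Rat.cast_natCast, map_natCast, ← map_natCast (algebraMap ℚ_[p] (PadicAlgCl p)),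
      norm_algebraMap']
    exact Padic.norm_p_lt_one

/-- small rational perturbations avoid a hypersurface -/
theorem exists_small {v : AbsoluteValue Qb ℝ} {q : ℚ} (hq : q ≠ 0) (h1 : v q < 1) {κ : Type*}
    [Finite κ] {c : MvPolynomial κ Qb} (hc : c ≠ 0) (w : κ → Qb) :
    ∃ x : ℕ → κ → ℚ, (∀ k, MvPolynomial.eval (fun i => w i + x k i) c ≠ 0) ∧
      ∀ i, Tendsto (fun k => v (x k i)) atTop (𝓝 0) := by
  have h0 : 0 < v q := v.pos (Rat.cast_ne_zero.2 hq)
  have key : ∀ k : ℕ, ∃ x : κ → ℚ, MvPolynomial.eval (fun i => w i + x i) c ≠ 0 ∧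
      ∀ i, v (x i) ≤ v q ^ k := by
    intro k
    by_contra hn
    refine hc (MvPolynomial.funext_set (fun i => Set.range fun m : ℕ => w i + (q ^ (k + m) : ℚ))
      (fun i => Set.infinite_range_of_injective fun m m' e => ?_) fun x hx => ?_)
    · have := congrArg v (add_left_cancel e)
      simp only [Rat.cast_pow, map_pow] at this
      exact add_left_cancel (pow_right_injective₀ h0 h1.ne this)
    · choose m hm using fun i => hx i trivial
      by_contra h2
      refine hn ⟨fun i => q ^ (k + m i), by rwa [funext hm, ← map_zero (MvPolynomial.eval x)],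
        fun i => ?_⟩
      rw [Rat.cast_pow, map_pow]
      exact pow_le_pow_of_le_one h0.le h1.le (Nat.le_add_right _ _)
  choose x hx1 hx2 using key
  exact ⟨x, hx1, fun i => squeeze_zero (fun _ => v.nonneg _) (fun k => hx2 k i)
    (tendsto_pow_atTop_nhds_zero_of_lt_one h0.le h1)⟩

/-- Speiser's lemma -/
theorem exists_inv {V : Type} [AddCommGroup V] [Module Qb V] {D : Subgroup GQ} (a : D → V → V)
    (h1 : ∀ d v w, a d (v + w) = a d v + a d w)
    (h2 : ∀ d (c : Qb) v, a d (c • v) = (d : GQ) c • a d v)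
    (h3 : ∀ d d' v, a (d * d') v = a d (a d' v))
    (h4 : ∀ v, ∃ N : Subgroup GQ, IsOpen (N : Set GQ) ∧ ∀ d : D, (d : GQ) ∈ N → a d v = v) :
    Submodule.span Qb {v | ∀ d, a d v = v} = ⊤ := by
  classical
  let a' : GQ → V → V := fun σ v => if h : σ ∈ D then a ⟨σ, h⟩ v else v
  have ha : ∀ σ (h : σ ∈ D) v, a' σ v = a ⟨σ, h⟩ v := fun σ h v => dif_pos h
  have hs : P011LD.Sl D a' := ⟨fun σ h v w => by rw [ha σ h, ha σ h, ha σ h, h1],
    fun σ h c v => by rw [ha σ h, ha σ h, h2], fun σ h τ h' v => by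
      rw [ha _ (mul_mem h h'), ha σ h, ha τ h', ← h3]; rfl, fun v => by
      obtain ⟨N, hN, h⟩ := h4 v
      obtain ⟨θ, hθ⟩ := exists_stab_le N hN
      exact ⟨{θ}, fun σ hσ e => by
        rw [ha σ hσ]; exact h _ (hθ σ (e θ (Finset.mem_singleton_self θ)))⟩⟩
  rw [eq_top_iff, ← hs.span]
  exact Submodule.span_mono fun v hv d => (ha d d.2 v).symm.trans (hv d d.2)

theorem exists_family {K V I : Type} [Field K] [AddCommGroup V] [Module K V] [Finite I] {S : Set V}
    (hS : Submodule.span K S = ⊤) (x : I → V) : ∃ (J : Type) (_ : Fintype J) (z : J → V)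
      (c : I → J → K), (∀ j, z j ∈ S) ∧ ∀ i, x i = ∑ j, c i j • z j := by
  classical
  have := Fintype.ofFinite I
  choose T hT hx using fun i => Submodule.mem_span_finite_of_mem_span
    (show x i ∈ Submodule.span K S from hS ▸ trivial)
  have h : ∀ i, ∃ c : Finset.univ.biUnion T → K, ∑ j, c j • j.1 = x i := fun i =>
    (Submodule.mem_span_range_iff_exists_fun K).1 (Submodule.span_mono (fun w hw =>
      Set.mem_range.2 ⟨⟨w, Finset.mem_biUnion.2 ⟨i, Finset.mem_univ i, hw⟩⟩, rfl⟩) (hx i))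
  choose c hc using h
  refine ⟨Finset.univ.biUnion T, inferInstance, Subtype.val, c, fun j => ?_, fun i => (hc i).symm⟩
  obtain ⟨i, -, hi⟩ := Finset.mem_biUnion.1 j.2
  exact hT i hi

/-- the translate of a point -/
noncomputable def tw {A E : Type*} [CommRing A] [Algebra Qb A] [Group E] [MulSemiringAction E A] (e : E) (σ : GQ)
    (h : ∀ c : Qb, e • algebraMap Qb A c = algebraMap Qb A (σ c)) (y : A →ₐ[Qb] Qb) :
    A →ₐ[Qb] Qb where
  toFun r := σ (y (e⁻¹ • r))
  map_one' := by rw [smul_one, map_one, map_one]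
  map_mul' a b := by rw [smul_mul', map_mul, map_mul]
  map_zero' := by rw [smul_zero, map_zero, map_zero]
  map_add' a b := by rw [smul_add, map_add, map_add]
  commutes' c := by
    conv_lhs => rw [← σ.apply_symm_apply c, ← h, inv_smul_smul, AlgHom.commutes]
    exact σ.apply_symm_apply c

theorem dens {A E : Type} [CommRing A] [IsDomain A] [Algebra Qb A] [Group E] [MulSemiringAction E A]
    {p : ℕ} {v : AbsoluteValue Qb ℝ} (hv : IsPl p v) {D : Subgroup GQ} (hD : D ≤ stab v)
    (s : D →* E) (hs : ∀ (d : D) (c : Qb), s d • algebraMap Qb A c = algebraMap Qb A ((d : GQ) c))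
    (hc : ∀ z : A, ∃ N : Subgroup GQ, IsOpen (N : Set GQ) ∧ ∀ d : D, (d : GQ) ∈ N → s d • z = z)
    {y : A →ₐ[Qb] Qb} (hy : Sm y) (hf : ∀ (d : D) r, y (s d • r) = (d : GQ) (y r)) {a : A}
    (ha : a ≠ 0) : ∃ Y : ℕ → (A →ₐ[Qb] Qb), (∀ k, Y k a ≠ 0 ∧
      ∀ (d : D) r, Y k (s d • r) = (d : GQ) (Y k r)) ∧
      ∀ r, Tendsto (fun k => v (Y k r - y r)) atTop (𝓝 0) := by
  classical
  obtain ⟨Ω, _, _, _, hΩ, q0, hq0, hq1⟩ := hv.exists_model
  obtain ⟨n, t, u, f, h, hk, hd, h1, h2⟩ := hy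
  let j : Qb →ₐ[Qb] Ω := Algebra.ofId Qb Ω
  obtain ⟨ev, e0, e1, e2, e3⟩ := exists_par hk hd (j.comp y) ((_root_.map_ne_zero j).2 h1)
    ((_root_.map_ne_zero j).2 h2)
  set t0 : Fin n → Ω := fun k => (j.comp y) (t k) with ht0
  obtain ⟨J, _, z, c, hz, hcz⟩ := exists_family (exists_inv (fun d r => s d • r)
    (fun d => smul_add _) (fun d c r => by
      rw [Algebra.smul_def, smul_mul', hs, ← Algebra.smul_def])
    (fun d d' r => by rw [map_mul, mul_smul]) hc) (fun o : Option (Fin n) => o.elim u t)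
  choose Dr hDr using e2
  obtain ⟨κ, _, m, i, hcard, hi⟩ := exists_coords (fun x => Dr (z x)) fun k => by
    have h3 : HasStrictFDerivAt (fun τ => ev τ (t k)) (∑ x, j (c (some k) x) • Dr (z x)) t0 := by
      have := HasStrictFDerivAt.fun_sum (u := Finset.univ) fun x _ =>
        (hDr (z x)).fun_const_smul (j (c (some k) x))
      refine this.congr_of_eventuallyEq (Eventually.of_forall fun τ => Eq.symm ?_)
      change ev τ (t k) = _
      rw [show t k = _ from hcz (some k), map_sum]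
      exact Finset.sum_congr rfl fun x _ => by rw [map_smul, Algebra.smul_def]; rfl
    have h4 : HasStrictFDerivAt (fun τ => ev τ (t k))
        (ContinuousLinearMap.proj k : (Fin n → Ω) →L[Ω] Ω) t0 :=
      (ContinuousLinearMap.proj k : (Fin n → Ω) →L[Ω] Ω).hasStrictFDerivAt.congr_of_eventuallyEq
        (e1.mono fun τ hτ => (hτ k).symm)
    have h5 := congrArg ContinuousLinearMap.toLinearMap (h4.hasFDerivAt.unique h3.hasFDerivAt)
    refine (Submodule.mem_span_range_iff_exists_fun Ω).2 ⟨fun x => j (c (some k) x), ?_⟩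
    rw [ContinuousLinearMap.coe_proj] at h5
    rw [h5]
    simp
  have hΦ : HasStrictFDerivAt (fun τ x => ev τ (z (m x))) (i : (Fin n → Ω) →L[Ω] (κ → Ω)) t0 := by
    rw [hi]; exact hasStrictFDerivAt_pi.2 fun x => hDr _
  have hw0 : (fun x => ev t0 (z (m x))) = fun x => j (y (z (m x))) := by rw [e0]; rfl
  have hind : AlgebraicIndependent Qb fun x => z (m x) := by
    rw [algebraicIndependent_iff]
    intro P hP
    refine MvPolynomial.map_injective (algebraMap Qb Ω) (algebraMap Qb Ω).injective ?_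
    rw [map_zero]
    refine eq_zero_of_nhds (w := fun x => ev t0 (z (m x))) ?_
    rw [← hΦ.map_nhds_eq_of_equiv, eventually_map]
    refine Eventually.of_forall fun τ => ?_
    rw [MvPolynomial.eval_map, ← MvPolynomial.aeval_def, ← MvPolynomial.comp_aeval_apply, hP,
      map_zero]
  have halg : Algebra.IsAlgebraic (Algebra.adjoin Qb (Set.range t)) A := by
    let ρ : MvPolynomial (Fin n) Qb →+* Algebra.adjoin Qb (Set.range t) :=
      (MvPolynomial.aeval fun k => ⟨t k, Algebra.subset_adjoin ⟨k, rfl⟩⟩).toRingHom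
    have h3 : ∀ q, aeval u (q.map ρ) = evl Qb t u q := fun q => by
      rw [aeval_def, eval₂_map, evl_apply]
      congr 1
      ext <;> simp [ρ]
    have hu : IsAlgebraic (Algebra.adjoin Qb (Set.range t)) u :=
      ⟨f.map ρ, fun e => h2 (by rw [← h3, ← derivative_map, e, derivative_zero, map_zero, map_zero]),
        by rw [h3, (hk f).2 dvd_rfl]⟩
    have h5 : ∀ q, IsAlgebraic (Algebra.adjoin Qb (Set.range t)) (aeval u q) := fun q =>
      Algebra.adjoin_le (S := Subalgebra.algebraicClosure (Algebra.adjoin Qb (Set.range t)) A)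
        (Set.singleton_subset_iff.2 hu) (aeval_mem_adjoin_singleton _ u)
    refine ⟨fun r => ?_⟩
    obtain ⟨l, q, hq⟩ := hd r
    have h4 : evl Qb t u h ^ l ≠ 0 := pow_ne_zero _ fun e => h1 (by rw [e, map_zero])
    refine IsAlgebraic.of_mul (mem_nonZeroDivisors_of_ne_zero h4) ?_ ?_
    · rw [← h3]; exact (h5 _).pow _
    · rw [hq, ← h3]; exact h5 _
  have hb : IsTranscendenceBasis Qb fun x => z (m x) :=
    hind.isTranscendenceBasis_of_trdeg_le_of_finite ((Algebra.IsAlgebraic.trdeg_le_cardinalMk Qb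
      (Set.range t)).trans (Cardinal.mk_range_le.trans (by simp [hcard])))
  have hal := hb.isAlgebraic
  have hsur : ∀ r : Algebra.adjoin Qb (Set.range fun x => z (m x)), ∃ P : MvPolynomial κ Qb,
      MvPolynomial.aeval (fun x => z (m x)) P = r := fun r =>
    (Algebra.adjoin_range_eq_range_aeval Qb _).le r.2
  obtain ⟨c0, hc0, hc1⟩ := (hal.1 a).exists_nonzero_dvd (mem_nonZeroDivisors_of_ne_zero ha)
  obtain ⟨P0, hP0⟩ := hsur c0
  choose c1 hc2 hc3 using fun o : Option (Fin n) => (hal.1 (o.elim u t)).exists_integral_multiple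
  choose P1 hP1 using fun o => hsur (c1 o)
  have hne : ∀ (P : MvPolynomial κ Qb) (r : Algebra.adjoin Qb (Set.range fun x => z (m x))),
      r ≠ 0 → MvPolynomial.aeval (fun x => z (m x)) P = r → P ≠ 0 := fun P r hr e e' =>
    hr (Subtype.ext (by rw [← e, e', map_zero]; rfl))
  obtain ⟨x, hx1, hx2⟩ := exists_small hq0 hq1 (mul_ne_zero (hne _ _ hc0 hP0)
    (Finset.prod_ne_zero_iff.2 fun o (_ : o ∈ Finset.univ) => hne _ _ (hc2 o) (hP1 o)))
    fun x => y (z (m x))
  let F := hΦ.toOpenPartialHomeomorph _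
  have hF : ∀ τ, F τ = fun x => ev τ (z (m x)) := fun _ => rfl
  have hs0 : t0 ∈ F.source := hΦ.mem_toOpenPartialHomeomorph_source
  let w : ℕ → κ → Ω := fun k b => j (y (z (m b)) + x k b)
  have hw : Tendsto w atTop (𝓝 (F t0)) := by
    rw [hF, hw0]
    refine tendsto_pi_nhds.2 fun b => tendsto_iff_norm_sub_tendsto_zero.2 ?_
    refine (hx2 b).congr fun k => ?_
    rw [hΩ, ← map_sub, add_sub_cancel_left]; rfl
  have hτ : Tendsto (fun k => F.symm (w k)) atTop (𝓝 t0) := (F.tendsto_symm hs0).comp hw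
  have hev : ∀ r, Tendsto (fun k => ‖ev (F.symm (w k)) r - j (y r)‖) atTop (𝓝 0) := fun r => by
    have := ((hDr r).continuousAt.tendsto).comp hτ
    rw [e0] at this
    exact tendsto_iff_norm_sub_tendsto_zero.1 this
  -- a radius of uniqueness
  obtain ⟨ε, hε, hU⟩ : ∃ ε > 0, ∀ y' : A →ₐ[Qb] Ω, (∀ b, ‖y' (z b) - j (y (z b))‖ < ε) →
      ∃ τ ∈ F.source, y' = ev τ := by
    let L : (J → Ω) → (Fin n → Ω) × Ω := fun ξ =>
      (fun k => ∑ b, j (c (some k) b) * ξ b, ∑ b, j (c none b) * ξ b)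
    have hL : ∀ y' : A →ₐ[Qb] Ω, L (fun b => y' (z b)) = (fun k => y' (t k), y' u) := fun y' => by
      have h3 : ∀ o, y' (o.elim u t) = ∑ b, j (c o b) * y' (z b) := fun o => by
        rw [hcz o, map_sum]
        exact Finset.sum_congr rfl fun x _ => by rw [map_smul, Algebra.smul_def]; rfl
      exact Prod.ext (funext fun k => (h3 (some k)).symm) (h3 none).symm
    have hLc : Continuous L := by fun_prop
    have h3 := (hLc.tendsto' _ _ (hL (j.comp y))).eventually
      (e3.and ((continuous_fst.tendsto _).eventually (F.open_source.mem_nhds hs0)))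
    obtain ⟨ε, hε, h4⟩ := Metric.eventually_nhds_iff.1 h3
    refine ⟨ε, hε, fun y' hy' => ?_⟩
    have h5 := h4 (y := fun b => y' (z b)) ((dist_pi_lt_iff hε).2 fun b => by
      rw [dist_eq_norm]; exact hy' b)
    rw [hL] at h5
    exact ⟨_, h5.2, h5.1 y' rfl rfl⟩
  have hgood : ∀ᶠ k in atTop, ∃ Y : A →ₐ[Qb] Qb, j.comp Y = ev (F.symm (w k)) ∧ Y a ≠ 0 ∧
      ∀ (d : D) r, Y (s d • r) = (d : GQ) (Y r) := by
    filter_upwards [hw.eventually (F.open_target.mem_nhds (F.map_source hs0)),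
      hτ.eventually (((hDr (evl Qb t u h)).continuousAt.eventually_ne (by
        rw [e0]; exact (_root_.map_ne_zero j).2 h1))),
      eventually_all.2 fun b => (hev (z b)).eventually_lt_const hε] with k k1 k2 k3
    set y' := ev (F.symm (w k)) with hy'
    have k4 : (fun b => y' (z (m b))) = w k := F.right_inv k1
    have k5 : ∀ P : MvPolynomial κ Qb, y' (MvPolynomial.aeval (fun x => z (m x)) P) =
        j (MvPolynomial.eval (fun b => y (z (m b)) + x k b) P) := fun P => by
      rw [MvPolynomial.comp_aeval_apply, k4, ← MvPolynomial.aeval_eq_eval,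
        MvPolynomial.comp_aeval_apply]
    have k6 := hx1 k
    rw [map_mul, map_prod] at k6
    have k7 : ∀ o : Option (Fin n), y' (o.elim u t) ∈ j.range := fun o => by
      obtain ⟨Q, hQ, hQ0⟩ := hc3 o
      choose g hg using hsur
      let χ : Algebra.adjoin Qb (Set.range fun x => z (m x)) →+* j.range :=
        (y'.toRingHom.comp (algebraMap _ A)).codRestrict j.range fun r =>
          ⟨_, (k5 (g r)).symm.trans (congrArg y' (hg r))⟩
      have : Algebra.IsIntegral Qb j.range := ⟨fun r => by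
        obtain ⟨_, b, rfl⟩ := r
        exact (isIntegral_algHom_iff j.range.val Subtype.val_injective).1 isIntegral_algebraMap⟩
      have k8 : IsIntegral Qb (y' (c1 o • o.elim u t)) := by
        refine isIntegral_trans (A := j.range) _ ⟨Q.map χ, hQ.map _, ?_⟩
        rw [eval₂_map]
        exact (hom_eval₂ Q _ y'.toRingHom _).symm.trans (by rw [hQ0, map_zero])
      obtain ⟨b, hb⟩ := minpoly.mem_range_of_degree_eq_one Qb _
        (IsAlgClosed.degree_eq_one_of_irreducible Qb (minpoly.irreducible k8))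
      have k9 : y' (c1 o) ≠ 0 := by
        rw [← hP1, k5, _root_.map_ne_zero]
        exact Finset.prod_ne_zero_iff.1 (right_ne_zero_of_mul k6) o (Finset.mem_univ o)
      refine ⟨b / MvPolynomial.eval (fun b => y (z (m b)) + x k b) (P1 o), ?_⟩
      rw [Algebra.smul_def, map_mul] at hb
      change j _ = _
      rw [map_div₀, ← k5, hP1, div_eq_iff k9, mul_comm]
      exact hb
    choose b hb using k7
    have k8 : ∀ q, y' (evl Qb t u q) = j (evl Qb (fun k => b (some k)) (b none) q) := fun q => by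
      rw [map_evl, map_evl]
      congr 2
      · exact funext fun k => (hb (some k)).symm
      · exact (hb none).symm
    have k9 : ∀ r, y' r ∈ j.range := fun r => by
      obtain ⟨l, q, hq⟩ := hd r
      refine ⟨evl Qb (fun k => b (some k)) (b none) q /
        evl Qb (fun k => b (some k)) (b none) h ^ l, ?_⟩
      change j _ = _
      rw [map_div₀, map_pow, ← k8, ← k8, ← hq, map_mul, map_pow,
        mul_div_cancel_left₀ _ (pow_ne_zero l k2)]
    let Y : A →ₐ[Qb] Qb := (AlgEquiv.ofInjective j j.injective).symm.toAlgHom.comp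
      (y'.codRestrict j.range k9)
    have hY : ∀ r, j (Y r) = y' r := fun r => congrArg Subtype.val
      ((AlgEquiv.ofInjective j j.injective).apply_symm_apply ⟨y' r, k9 r⟩)
    refine ⟨Y, AlgHom.ext hY, fun e => left_ne_zero_of_mul k6 (j.injective ?_), fun d r => ?_⟩
    · obtain ⟨a', ha'⟩ := hc1
      change j _ = j 0
      rw [← k5, hP0, show (c0 : A) = a * a' from ha', map_mul, ← hY, e, map_zero, zero_mul]
    · have k10 : ∀ b, tw (s d) d (hs d) Y (z b) = (d : GQ) (Y (z b)) := fun b => by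
        change (d : GQ) (Y ((s d)⁻¹ • z b)) = _
        rw [← map_inv, hz b]
      obtain ⟨τ, k11, k12⟩ := hU (j.comp (tw (s d) d (hs d) Y)) fun b => by
        rw [AlgHom.comp_apply, k10, ← hz b d, hf, hz b d, ← map_sub, ← map_sub]
        change ‖algebraMap Qb Ω _‖ < ε
        rw [← hΩ, hD d.2, hΩ, map_sub]
        change ‖j _ - j _‖ < ε
        rw [hY]
        exact k3 b
      have k13 : τ = F.symm (w k) := by
        refine F.injOn k11 (F.map_target k1) ?_
        rw [F.right_inv k1, hF, ← k12]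
        funext b
        have k14 : Y (z (m b)) = y (z (m b)) + x k b := j.injective ((hY _).trans (congrFun k4 b))
        rw [AlgHom.comp_apply, k10, k14, map_add, map_ratCast, ← hf, hz]
      rw [k13] at k12
      have k15 : tw (s d) d (hs d) Y (s d • r) = Y (s d • r) :=
        j.injective ((congrArg (fun P : A →ₐ[Qb] Ω => P (s d • r)) k12).trans (hY _).symm)
      rw [← k15]
      change (d : GQ) (Y ((s d)⁻¹ • s d • r)) = _
      rw [inv_smul_smul]
  obtain ⟨k0, hk0⟩ := eventually_atTop.1 hgood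
  choose Y hY1 hY2 using fun k => hk0 (k + k0) (Nat.le_add_left _ _)
  refine ⟨Y, hY2, fun r => ((hev r).comp (tendsto_add_atTop_nat k0)).congr fun k => ?_⟩
  rw [Function.comp, ← hY1, hΩ, map_sub]
  rfl

end Vale.Agent.P022K.PM
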