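import Vale.Agent.P022K.PM.Mbv

/-!
# P022K / PM: totally real algebraic integers in `(-2√q, 2√q)` with local conditions (helper99)
-/

namespace Vale.Agent.P022K.PM

open Polynomial NumberField Vale.Agent.P022 Real

namespace Weil

/-- the polynomial with `T (α + β) = α ^ n + β ^ n` for `α β = q` -/
noncomputable abbrev T (q n : ℕ) : ℤ[X] := dickson 1 (q : ℤ) n

theorem T_add {R : Type*} [CommRing R] {q : ℕ} {α β : R} (h : α * β = q) :
    ∀ n, aeval (α + β) (T q n) = α ^ n + β ^ n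
  | 0 => by simp [T, map_ofNat]; norm_num
  | 1 => by simp [T]
  | n + 2 => by
    rw [T, dickson_add_two, map_sub, map_mul, map_mul, aeval_X, aeval_C, T_add h (n + 1), T_add h n]
    simp only [eq_intCast, Int.cast_natCast, ← h]
    ring

theorem T_cos (q : ℕ) (θ : ℝ) : ∀ n : ℕ, aeval (2 * √q * cos θ) (T q n) = 2 * √q ^ n * cos (n * θ)
  | 0 => by simp [T, map_ofNat]; norm_num
  | 1 => by simp [T]
  | n + 2 => by
    rw [T, dickson_add_two, map_sub, map_mul, map_mul, aeval_X, aeval_C, T_cos q θ (n + 1),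
      T_cos q θ n]
    have h1 : ((n + 2 : ℕ) : ℝ) * θ = ((n + 1 : ℕ) : ℝ) * θ + θ := by push_cast; ring
    have h2 : (n : ℝ) * θ = ((n + 1 : ℕ) : ℝ) * θ - θ := by push_cast; ring
    have h3 : algebraMap ℤ ℝ (q : ℤ) = √q ^ 2 := by simp
    rw [h1, h2, h3, cos_add, cos_sub]
    ring

theorem T_monic (q : ℕ) : ∀ n, IsMonicOfDegree (T q (n + 1)) (n + 1) ∧ (T q n).natDegree ≤ n
  | 0 => ⟨by simpa [T] using isMonicOfDegree_X ℤ, by
      rw [T, dickson_zero]
      exact (natDegree_sub_le _ _).trans (by simp)⟩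
  | n + 1 => by
    obtain ⟨h1, h2⟩ := T_monic q n
    refine ⟨?_, h1.1.le⟩
    rw [T, dickson_add_two]
    refine IsMonicOfDegree.sub (add_comm 1 (n + 1) ▸ (isMonicOfDegree_X ℤ).mul h1) ?_
    exact ((natDegree_C_mul_le _ _).trans h2).trans_lt (by omega)

theorem T_dvd (q r t : ℕ) [Fact r.Prime] {i : ℕ} (hi : i < r ^ t) :
    (r : ℤ) ∣ (T q (r ^ t)).coeff i := by
  let K := AlgebraicClosure (ZMod r)
  have h : (T q (r ^ t)).map (Int.castRingHom K) = X ^ r ^ t := by
    refine Polynomial.funext fun x => ?_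
    obtain ⟨α, hα⟩ := IsAlgClosed.exists_root (X ^ 2 - C x * X + C (q : K))
      (by rw [degree_eq_natDegree (isMonicOfDegree_sub_add_two _ _).ne_zero,
        (isMonicOfDegree_sub_add_two _ _).1]; norm_num)
    have h1 : α * (x - α) = q := by
      simp only [IsRoot, eval_add, eval_sub, eval_pow, eval_X, eval_mul, eval_C] at hα
      linear_combination -hα
    have h2 := T_add h1 (r ^ t)
    rw [← add_pow_char_pow, add_sub_cancel, aeval_def, algebraMap_int_eq] at h2
    rw [eval_map, h2, eval_pow, eval_X]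
  have h2 := congrArg (coeff · i) h
  simp only [coeff_map, coeff_X_pow, if_neg hi.ne, eq_intCast] at h2
  exact (CharP.intCast_eq_zero_iff K r _).1 h2

/-- a small perturbation of `T` has all its roots in the open interval -/
theorem real_roots {q n : ℕ} (hq : q ≠ 0) (hn : n ≠ 0) {e : ℤ[X]} (hd : e.natDegree < n)
    (he : ∀ θ, |aeval (2 * √q * cos θ) e| < 2 * √q ^ n) {z : ℂ} (hz : aeval z (T q n + e) = 0) :
    ∃ x : ℝ, (x : ℂ) = z ∧ |x| < 2 * √q := by
  classical
  obtain ⟨n, rfl⟩ := Nat.exists_eq_succ_of_ne_zero hn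
  have hm := (T_monic q n).1.add_right hd
  set f := T q (n + 1) + e with hf
  have hs : 0 < √(q : ℝ) := by positivity
  have hN : (0 : ℝ) < (n + 1 : ℕ) := by positivity
  let F : ℝ → ℝ := fun θ => aeval (2 * √q * cos θ) f
  have hF : Continuous F := f.continuous_aeval.comp (by fun_prop)
  let b : ℕ → ℝ := fun k => k * π / (n + 1 : ℕ)
  have hb : StrictMono b := fun k l h => by
    have : (k : ℝ) < l := by exact_mod_cast h
    simp only [b]
    gcongr
  have h1 : ∀ k : ℕ, 0 < (-1) ^ k * F (b k) := by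
    intro k
    have h2 : ((n + 1 : ℕ) : ℝ) * b k = k * π := by simp only [b]; field_simp
    simp only [F, hf, map_add, T_cos, h2, cos_nat_mul_pi]
    have h3 := abs_lt.1 (he (b k))
    rcases neg_one_pow_eq_or ℝ k with h | h <;> rw [h] <;> simp only [Nat.succ_eq_add_one] at * <;>
      linarith [h3.1, h3.2]
  have h2 : ∀ k : ℕ, ∃ θ ∈ Set.Ioo (b k) (b (k + 1)), F θ = 0 := by
    intro k
    have h3 := intermediate_value_Ioo' (hb.monotone k.le_succ)
      (f := fun θ => (-1) ^ k * F θ) (by fun_prop) (a := b k) (b := b (k + 1))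
      (show (0 : ℝ) ∈ _ from ⟨by have := h1 (k + 1); rw [pow_succ] at this; linarith, h1 k⟩)
    obtain ⟨θ, h4, h5⟩ := h3
    exact ⟨θ, h4, (mul_eq_zero.1 h5).resolve_left (pow_ne_zero _ (by norm_num))⟩
  choose θ hθ hθ0 using h2
  have h3 : StrictMono θ := strictMono_nat_of_lt_succ fun k => (hθ k).2.trans (hθ (k + 1)).1
  have h4 : ∀ k < n + 1, θ k ∈ Set.Ioo 0 π := fun k hk =>
    ⟨lt_of_le_of_lt (by positivity) (hθ k).1, (hθ k).2.trans_le ((hb.monotone hk).trans_eq (by
      simp only [b]; field_simp))⟩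
  let y : ℕ → ℂ := fun k => ((2 * √q * cos (θ k) : ℝ) : ℂ)
  have h5 : Set.InjOn y (Finset.range (n + 1)) := fun k hk l hl h => by
    have h6 := mul_left_cancel₀ (by positivity) (Complex.ofReal_injective h)
    exact h3.injective (injOn_cos (Set.Ioo_subset_Icc_self (h4 k (by simpa using hk)))
      (Set.Ioo_subset_Icc_self (h4 l (by simpa using hl))) h6)
  by_contra hc
  have h6 : z ∉ (Finset.range (n + 1)).image y := by
    intro h
    obtain ⟨k, hk, rfl⟩ := Finset.mem_image.1 h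
    refine hc ⟨_, rfl, ?_⟩
    obtain ⟨h7, h8⟩ := h4 k (by simpa using hk)
    have h9 : |cos (θ k)| < 1 := abs_lt.2
      ⟨by simpa using cos_lt_cos_of_nonneg_of_le_pi h7.le le_rfl h8,
        by simpa using cos_lt_cos_of_nonneg_of_le_pi le_rfl h8.le h7⟩
    rw [abs_mul, abs_of_pos (by positivity)]
    exact mul_lt_of_lt_one_right (by positivity) h9
  have h7 := card_le_degree_of_subset_roots (p := f.map (algebraMap ℤ ℂ))
    (Z := insert z ((Finset.range (n + 1)).image y)) fun w hw => by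
      rw [mem_roots (hm.2.map _).ne_zero, IsRoot, eval_map_algebraMap]
      rcases Finset.mem_insert.1 (Finset.mem_def.2 hw) with rfl | hw
      · exact hz
      obtain ⟨k, -, rfl⟩ := Finset.mem_image.1 hw
      exact (aeval_algebraMap_apply ℂ (2 * √q * cos (θ k)) f).trans
        ((congrArg _ (hθ0 k)).trans (map_zero _))
  rw [Finset.card_insert_of_notMem h6, Finset.card_image_of_injOn h5, Finset.card_range,
    hm.2.natDegree_map, hm.1] at h7
  omega

/-- Chinese remainder theorem with bounded coefficients -/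
theorem exists_red (P : Finset ℕ) (hP : ∀ l ∈ P, l.Prime) (m D : ℕ) (c : ℝ) :
    ∃ B : ℝ, ∀ h : ℕ → ℤ[X], (∀ l ∈ P, (h l).natDegree ≤ D) → ∃ e : ℤ[X], e.natDegree ≤ D ∧
      (∀ l ∈ P, C ((l : ℤ) ^ m) ∣ e - h l) ∧ ∀ x : ℝ, |x| ≤ c → |aeval x e| ≤ B := by
  let N : ℤ := ∏ l ∈ P, (l : ℤ) ^ m
  have hN : 0 < N := Finset.prod_pos fun l hl => pow_pos (by exact_mod_cast (hP l hl).pos) _
  refine ⟨∑ i ∈ Finset.range (D + 1), N * c ^ i, fun h hD => ?_⟩
  choose k hk using fun i => Ideal.exists_forall_sub_mem_ideal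
    (I := fun l : P => Ideal.span {((l : ℕ) : ℤ) ^ m}) (fun l l' e =>
      (Ideal.isCoprime_span_singleton_iff _ _).2 (IsCoprime.pow (Nat.isCoprime_iff_coprime.2
        ((Nat.coprime_primes (hP l l.2) (hP l' l'.2)).2 fun e' => e (Subtype.ext e')))))
    fun l => (h l).coeff i
  refine ⟨∑ i ∈ Finset.range (D + 1), monomial i (k i % N), ?_, fun l hl => ?_, fun x hx => ?_⟩
  · exact natDegree_sum_le_of_forall_le _ _ fun i hi =>
      (natDegree_monomial_le _).trans (by simpa [Nat.lt_succ_iff] using hi)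
  · conv => enter [2, 2]; rw [(h l).as_sum_range' (D + 1) (Nat.lt_succ_of_le (hD l hl))]
    rw [← Finset.sum_sub_distrib]
    refine Finset.dvd_sum fun i _ => ?_
    rw [← map_sub, ← C_mul_X_pow_eq_monomial]
    refine (_root_.map_dvd C ?_).mul_right _
    rw [← sub_add_sub_cancel _ (k i)]
    exact ((Finset.dvd_prod_of_mem _ hl).trans Int.dvd_emod_sub_self).add
      (Ideal.mem_span_singleton.1 (hk i ⟨l, hl⟩))
  · rw [map_sum]
    refine (Finset.abs_sum_le_sum_abs _ _).trans (Finset.sum_le_sum fun i _ => ?_)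
    rw [aeval_monomial, abs_mul, abs_pow, eq_intCast, ← Int.cast_abs,
      abs_of_nonneg (Int.emod_nonneg _ hN.ne')]
    have : ((k i % N : ℤ) : ℝ) ≤ N := by exact_mod_cast (Int.emod_lt_of_pos _ hN).le
    gcongr

/-- the polynomial -/
theorem exists_f {q : ℕ} (hq : 2 ≤ q) (P : Finset ℕ) (hP : ∀ l ∈ P, l.Prime) (g : ℕ → ℤ[X])
    (hg : ∀ l, (g l).Monic) (r : ℕ) [hr : Fact r.Prime] (hrP : r ∉ P) (m t0 : ℕ) :
    ∃ t, t0 ≤ t ∧ ∃ f : ℤ[X], IsMonicOfDegree f (r ^ t) ∧
      (∀ z : ℂ, aeval z f = 0 → ∃ x : ℝ, (x : ℂ) = z ∧ |x| < 2 * √q) ∧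
      Irreducible (f.map (Int.castRingHom ℚ_[r])) ∧
      ∀ l ∈ P, ∃ Q w : ℤ[X], f = g l + X * g l ^ 2 * Q + (l : ℤ[X]) ^ m * w := by
  classical
  let D := P.sup fun l => (X * g l ^ 2).natDegree
  obtain ⟨B, hB⟩ := exists_red (insert r P) (by simpa [hr.out] using hP) (m + 2) D (2 * √q)
  have h1 : 1 < √(q : ℝ) := by rw [lt_sqrt zero_le_one]; exact_mod_cast hq
  have h2 := tendsto_pow_atTop_atTop_of_one_lt hr.out.one_lt
  obtain ⟨t, h3, h4, h5⟩ := ((Filter.eventually_ge_atTop t0).and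
    ((h2.eventually_gt_atTop D).and
      (((tendsto_pow_atTop_atTop_of_one_lt h1).comp h2).eventually_gt_atTop B))).exists
  have hm : ∀ l, (X * g l ^ 2).Monic := fun l => monic_X.mul ((hg l).pow 2)
  obtain ⟨e, he, he1, he2⟩ := hB (fun l => if l = r then C (r - (T q (r ^ t)).coeff 0) else
      g l - T q (r ^ t) %ₘ (X * g l ^ 2)) fun l hl => by
    split_ifs with h
    · rw [natDegree_C]; exact D.zero_le
    refine le_trans ?_ (Finset.le_sup (f := fun l => (X * g l ^ 2).natDegree)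
      ((Finset.mem_insert.1 hl).resolve_left h))
    refine (natDegree_sub_le _ _).trans (max_le ?_
      (natDegree_le_natDegree (degree_modByMonic_lt _ (hm l)).le))
    exact natDegree_le_of_dvd ((dvd_pow_self _ two_ne_zero).mul_left _) (hm l).ne_zero
  have hn : r ^ t ≠ 0 := pow_ne_zero _ hr.out.ne_zero
  have h6 : IsMonicOfDegree (T q (r ^ t) + e) (r ^ t) := by
    obtain ⟨n, hn⟩ := Nat.exists_eq_succ_of_ne_zero hn
    rw [hn] at h4 ⊢
    exact (T_monic q n).1.add_right (he.trans_lt h4)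
  refine ⟨t, h3, T q (r ^ t) + e, h6, fun z => real_roots (by omega) hn (he.trans_lt h4) fun θ => ?_,
    ?_, fun l hl => ?_⟩
  · refine ((he2 _ ?_).trans_lt h5).trans (lt_mul_of_one_lt_left (pow_pos (one_pos.trans h1) _) one_lt_two)
    rw [abs_mul, abs_of_pos (by positivity)]
    exact mul_le_of_le_one_right (by positivity) (abs_cos_le_one θ)
  · have h7 := (C_dvd_iff_dvd_coeff _ _).1 (he1 r (Finset.mem_insert_self _ _))
    simp only [if_true, coeff_sub, coeff_C] at h7
    have h8 := fun i => (pow_dvd_pow (r : ℤ) (Nat.le_add_left 2 m)).trans (h7 i)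
    have h9 := h6.2.map (Int.castRingHom ℤ_[r])
    have hp : (Ideal.span {(r : ℤ_[r])}).IsPrime :=
      (Ideal.span_singleton_prime PadicInt.prime_p.ne_zero).2 PadicInt.prime_p
    have := (Monic.irreducible_iff_irreducible_map_fraction_map (K := ℚ_[r]) h9).1
      (IsEisensteinAt.irreducible ⟨h9.leadingCoeff_notMem hp.ne_top, fun {i} hi => ?_, ?_⟩ hp
        h9.isPrimitive (by rw [h6.2.natDegree_map, h6.1]; omega))
    · rwa [Polynomial.map_map, RingHom.ext_int (RingHom.comp _ _) (Int.castRingHom _)] at this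
    · rw [h6.2.natDegree_map, h6.1] at hi
      rw [Ideal.mem_span_singleton, coeff_map, eq_intCast, ← pow_one (r : ℤ_[r]),
        PadicInt.pow_p_dvd_int_iff, pow_one, coeff_add]
      have h10 := (dvd_pow_self _ two_ne_zero).trans (h8 i)
      refine (T_dvd q r t hi).add ((dvd_sub_left ?_).1 h10)
      split_ifs
      · exact dvd_rfl.sub (T_dvd q r t hn.bot_lt)
      · exact dvd_zero _
    · rw [Ideal.span_singleton_pow, Ideal.mem_span_singleton, coeff_map, eq_intCast,
        PadicInt.pow_p_dvd_int_iff, coeff_add]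
      intro h
      have h10 := h.sub (h8 0)
      simp only [if_true] at h10
      have h11 := Int.le_of_dvd (by have := hr.out.pos; omega) h10
      have := hr.out.two_le
      nlinarith
  · obtain ⟨w, hw⟩ := (_root_.map_dvd C (pow_dvd_pow (l : ℤ) (m.le_add_right 2))).trans
      (he1 l (Finset.mem_insert_of_mem hl))
    rw [if_neg fun h : l = r => hrP (h ▸ hl), map_pow, eq_intCast, Int.cast_natCast] at hw
    exact ⟨T q (r ^ t) /ₘ (X * g l ^ 2), w, by
      linear_combination hw - modByMonic_add_div (T q (r ^ t)) (X * g l ^ 2)⟩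

section loc

variable {O : Type*} [CommRing O] [IsDomain O] {w : AbsoluteValue O ℝ} (hw : IsNonarchimedean w)
include hw

theorem close_aux (s : Multiset O) (x : O) {δ : ℝ} (h0 : 0 ≤ δ) (hδ : ∀ a ∈ s, δ ≤ w (x - a)) :
    w ((derivative (s.map (X - C ·)).prod).eval x) * δ ≤ w ((s.map (X - C ·)).prod.eval x) := by
  induction s using Multiset.induction_on with
  | empty => simp
  | cons a s ih =>
    have h1 := ih fun b hb => hδ b (Multiset.mem_cons_of_mem hb)
    have h2 := hδ a (Multiset.mem_cons_self _ _)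
    simp only [Multiset.map_cons, Multiset.prod_cons, derivative_mul, derivative_X_sub_C, one_mul,
      eval_add, eval_mul, eval_sub, eval_X, eval_C, map_mul]
    refine (mul_le_mul_of_nonneg_right (hw _ _) h0).trans ?_
    rw [max_mul_of_nonneg _ _ h0, map_mul, mul_assoc]
    exact max_le (by rw [mul_comm]; gcongr) (by gcongr)

theorem exists_close {f : O[X]} (hf : f.Splits) (hm : f.Monic) (x : O) {δ : ℝ} (h0 : 0 ≤ δ)
    (h : w (f.eval x) < w ((derivative f).eval x) * δ) : ∃ a, f.eval a = 0 ∧ w (a - x) < δ := by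
  by_contra hc
  push Not at hc
  have := close_aux hw f.roots x h0 fun a ha => by
    rw [w.map_sub]; exact hc a (isRoot_of_mem_roots ha)
  rw [← hf.eq_prod_roots_of_monic hm] at this
  exact h.not_ge this

theorem close_uniq (h1 : ∀ z, w z ≤ 1) (f : O[X]) {a b x : O} (ha : f.eval a = 0)
    (hb : f.eval b = 0) (h : w (a - x) < w ((derivative f).eval x))
    (h' : w (b - x) < w ((derivative f).eval x)) : a = b := by
  by_contra hc
  obtain ⟨k, hk⟩ := binomExpansion f a (b - a)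
  obtain ⟨k', hk'⟩ := sub_dvd_eval_sub a x (derivative f)
  rw [add_sub_cancel, ha, hb] at hk
  have h2 : (derivative f).eval x = -k * (b - x) + (k - k') * (a - x) :=
    mul_left_cancel₀ (sub_ne_zero.2 (Ne.symm hc)) (by linear_combination -hk - (b - a) * hk')
  have h3 := hw (-k * (b - x)) ((k - k') * (a - x))
  rw [← h2, map_mul, map_mul] at h3
  exact h3.not_gt (max_lt ((mul_le_of_le_one_left (w.nonneg _) (h1 _)).trans_lt h')
    ((mul_le_of_le_one_left (w.nonneg _) (h1 _)).trans_lt h))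

end loc

theorem aeval_act (σ : GQ) (a : 𝓞 Qb) (g : ℤ[X]) : aeval (σ • a) g = σ • aeval a g :=
  aeval_algHom_apply (MulSemiringAction.toRingHom GQ (𝓞 Qb) σ).toIntAlgHom a g

theorem aeval_coe (a : 𝓞 Qb) (g : ℤ[X]) :
    aeval (a : Qb) (g.map (Int.castRingHom ℚ)) = (aeval a g : 𝓞 Qb) :=
  (aeval_map_algebraMap ℚ _ g).trans (aeval_algebraMap_apply Qb a g)

theorem splits {f : (𝓞 Qb)[X]} (hm : f.Monic) : f.Splits :=
  Splits.of_splits_map_of_injective RingOfIntegers.coe_injective (IsAlgClosed.splits _)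
    fun a ha => IsIntegrallyClosedIn.algebraMap_eq_of_integral
      ⟨f, hm, by rw [← eval_map]; exact isRoot_of_mem_roots ha⟩

/-- a monic integer polynomial with given simple roots -/
theorem exists_g (A : Finset (𝓞 Qb)) : ∃ g : ℤ[X], g.Monic ∧
    (∀ a ∈ A, aeval a g = 0 ∧ aeval a (derivative g) ≠ 0) ∧
    ∀ b : 𝓞 Qb, aeval b g = 0 → ∃ a ∈ A, ∃ σ : GQ, σ • a = b := by
  classical
  induction A using Finset.induction_on with
  | empty => exact ⟨1, monic_one, by simp, by simp⟩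
  | insert a A _ ih =>
    obtain ⟨g, hm, h1, h2⟩ := ih
    by_cases h : aeval a g = 0
    · refine ⟨g, hm, Finset.forall_mem_insert _ _ _ |>.2 ⟨⟨h, ?_⟩, h1⟩, fun b hb => ?_⟩
      · obtain ⟨a', ha', σ, rfl⟩ := h2 a h
        rw [aeval_act]
        exact fun e => (h1 a' ha').2 ((smul_eq_zero_iff_eq σ).1 e)
      · obtain ⟨a', ha', e⟩ := h2 b hb
        exact ⟨a', Finset.mem_insert_of_mem ha', e⟩
    have hi := RingOfIntegers.isIntegral a
    have h3 : minpoly ℚ (a : Qb) = (minpoly ℤ a).map (Int.castRingHom ℚ) :=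
      minpoly.isIntegrallyClosed_eq_field_fractions ℚ Qb hi
    have h4 : ∀ b : 𝓞 Qb, aeval b (minpoly ℤ a) = 0 → ∃ σ : GQ, σ • a = b := fun b hb => by
      obtain ⟨σ, hσ⟩ := minpoly.exists_algEquiv_of_root' (x := (b : Qb))
        (Algebra.IsAlgebraic.isAlgebraic (R := ℚ) (a : Qb)) (by rw [h3, aeval_coe, hb]; rfl)
      exact ⟨σ, RingOfIntegers.ext hσ⟩
    refine ⟨g * minpoly ℤ a, hm.mul (minpoly.monic hi), Finset.forall_mem_insert _ _ _ |>.2
      ⟨⟨by simp, ?_⟩, fun a' ha' => ⟨by simp [h1 a' ha'], ?_⟩⟩, fun b hb => ?_⟩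
    · have h5 := (Algebra.IsSeparable.isSeparable ℚ (a : Qb)).aeval_derivative_ne_zero
        (minpoly.aeval ℚ (a : Qb))
      rw [h3, derivative_map, aeval_coe] at h5
      simpa [h] using h5
    · simp only [derivative_mul, map_add, map_mul, (h1 a' ha').1, zero_mul, add_zero]
      refine mul_ne_zero (h1 a' ha').2 fun e => h ?_
      obtain ⟨σ, rfl⟩ := h4 a' e
      exact (smul_eq_zero_iff_eq σ).1 ((aeval_act σ a g).symm.trans (h1 _ ha').1)
    · rcases mul_eq_zero.1 ((map_mul _ _ _).symm.trans hb) with e | e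
      · obtain ⟨a', ha', e⟩ := h2 b e
        exact ⟨a', Finset.mem_insert_of_mem ha', e⟩
      · exact ⟨a, Finset.mem_insert_self _ _, h4 b e⟩

/-- a prime at which the local Galois group lands in `U` -/
theorem exists_split (U : Subgroup GQ) (hU : IsOpen (U : Set GQ)) (S : Finset ℕ) :
    ∃ (r : ℕ) (_ : Fact r.Prime), r ∉ S ∧ ∀ f : ℤ[X], f.Monic →
      Irreducible (f.map (Int.castRingHom ℚ_[r])) →
      ∀ a b : Qb, aeval a f = 0 → aeval b f = 0 → ∃ s ∈ U, s a = b := by
  classical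
  obtain ⟨θ, hθ⟩ := MB.exists_stab_le U hU
  obtain ⟨S', hS'⟩ := MB.exists_padic_root _ θ (minpoly.aeval ℚ θ)
  obtain ⟨r, φ, hr, h1, h2, h3⟩ := Cheb.exists_fr (stabilizer_isOpen_of_isIntegral (K := ℚ) θ)
    (one_mem _) (S ∪ S')
  have : Fact r.Prime := ⟨hr⟩
  rw [Finset.mem_union, not_or] at h1
  obtain ⟨c, hc⟩ := hS' r φ h1.2 h2 h3
  obtain ⟨j, hj⟩ := IntermediateField.exists_algHom_of_splits_of_aeval (F := ℚ) (E := Qb)
    (K := PadicAlgCl r) (fun s => ⟨Algebra.IsIntegral.isIntegral s, IsAlgClosed.splits _⟩)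
    (x := θ) (y := algebraMap ℚ_[r] _ c) (by rw [aeval_algebraMap_apply, hc, map_zero])
  refine ⟨r, this, h1.1, fun f hm hf a b ha hb => ?_⟩
  have h4 : ∀ x : Qb, aeval x f = 0 → aeval (j x) (f.map (Int.castRingHom ℚ_[r])) = 0 :=
    fun x hx => (aeval_map_algebraMap ℚ_[r] _ f).trans
      ((aeval_algHom_apply (j : Qb →+* PadicAlgCl r).toIntAlgHom x f).trans (by rw [hx, map_zero]))
  obtain ⟨γ, hγ⟩ := minpoly.exists_algEquiv_of_root' (x := j b)
    (Algebra.IsAlgebraic.isAlgebraic (R := ℚ_[r]) (j a))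
    (by rw [← minpoly.eq_of_irreducible_of_monic hf (h4 a ha) (hm.map _)]; exact h4 b hb)
  obtain ⟨d, hd⟩ := MB.exists_res j γ
  exact ⟨d, hθ d (j.toRingHom.injective ((hd θ).trans (by
    rw [hj, AlgEquiv.commutes]; exact hj.symm))), j.toRingHom.injective ((hd a).trans hγ)⟩

theorem coprime_g {g : ℤ[X]} (hm : g.Monic) {l : 𝓞 Qb}
    (h : ∀ b : 𝓞 Qb, aeval b g = 0 → IsCoprime b l) : IsCoprime (aeval (0 : 𝓞 Qb) g) l := by
  rw [(splits (hm.map _)).aeval_eq_prod_aroots_of_monic hm]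
  refine Multiset.prod_induction (IsCoprime · l) _ (fun _ _ => IsCoprime.mul_left)
    isCoprime_one_left fun x hx => ?_
  obtain ⟨b, hb, rfl⟩ := Multiset.mem_map.1 hx
  rw [zero_sub]
  exact (h b (mem_aroots.1 hb).2).neg_left

theorem pl {p : ℕ} (hp : p ≠ 0) {v : AbsoluteValue Qb ℝ} (h : IsPl p v) :
    p.Prime ∧ IsNonarchimedean v ∧ v p < 1 ∧ ∀ z : 𝓞 Qb, v z ≤ 1 := by
  rcases h with ⟨h, -⟩ | ⟨hl, j, hj⟩
  · exact absurd h hp
  obtain ⟨P, hP⟩ := MB.exists_emb' j.toRatAlgHom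
  refine ⟨hl.out, fun x y => ?_, ?_, fun z => (hj z).trans_le (MB.norm_int' j.toRatAlgHom z)⟩
  · rw [hj, hj, hj, map_add]
    exact IsUltrametricDist.norm_add_le_max _ _
  · rw [hj]
    simpa using (hP p).1 hP.ov.2.2

end Weil

open Weil in
/-- WEIL: a totally real algebraic integer with all conjugates in `(-2√q, 2√q)`, prime to the
primes in `L`, some `U`-conjugate of which is close to `a0 i` at the place `v i` and generates no
bigger completion. -/
theorem weil {q : ℕ} (hq : 2 ≤ q) (U : Subgroup GQ) (hU : IsOpen (U : Set GQ))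
    {ι : Type*} [Finite ι] (p : ι → ℕ) (hp : ∀ i, p i ≠ 0) (v : ι → AbsoluteValue Qb ℝ)
    (hv : ∀ i, IsPl (p i) (v i)) (a0 : ι → 𝓞 Qb) {ε : ℝ} (hε : 0 < ε) (L : Finset ℕ)
    (hL : ∀ l ∈ L, l.Prime) (hc : ∀ i, p i ∈ L → IsCoprime (a0 i) (p i)) (S : Finset ℕ) (t0 : ℕ) :
    ∃ a : 𝓞 Qb, (∀ φ : Qb →+* ℂ, ∃ x : ℝ, (x : ℂ) = φ a ∧ |x| < 2 * √q) ∧
      (∀ l ∈ L, IsCoprime a l) ∧
      (∀ i, ∃ s ∈ U, v i (s a - a0 i) < ε ∧
        ∀ d ∈ stab (v i), d (a0 i) = a0 i → d (s a) = s a) ∧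
      (∀ g : GQ, ∃ s ∈ U, s a = g a) ∧
      ∃ r t : ℕ, r.Prime ∧ r ∉ S ∧ t0 ≤ t ∧ (minpoly ℚ (a : Qb)).natDegree = r ^ t := by
  classical
  have := Fintype.ofFinite ι
  have hv' := fun i => pl (hp i) (hv i)
  let w : ι → AbsoluteValue (𝓞 Qb) ℝ := fun i => (v i).comp RingOfIntegers.coe_injective
  have hw : ∀ i, IsNonarchimedean (w i) := fun i x y => (hv' i).2.1 x y
  have hw1 : ∀ i z, w i z ≤ 1 := fun i => (hv' i).2.2.2
  choose g hg h1 h2 using fun l => exists_g ((Finset.univ.filter fun i => p i = l).image a0)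
  have h3 := fun i => h1 (p i) (a0 i) (Finset.mem_image_of_mem _ (by simp))
  let γ : ι → ℝ := fun i => w i (aeval (a0 i) (derivative (g (p i))))
  have hγ : ∀ i, 0 < γ i := fun i => (w i).pos (h3 i).2
  obtain ⟨m, hm0, hm⟩ := ((Filter.eventually_ge_atTop 1).and (Filter.eventually_all.2 fun i =>
    (tendsto_pow_atTop_nhds_zero_of_lt_one ((v i).nonneg _) (hv' i).2.2.1).eventually_lt_const
      (mul_pos (hγ i) (lt_min hε (hγ i))))).exists
  obtain ⟨r, hr, hrS, hrU⟩ := exists_split U hU (S ∪ (L ∪ Finset.univ.image p))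
  rw [Finset.mem_union, not_or] at hrS
  obtain ⟨t, ht, f, hf, hf1, hf2, hf3⟩ := exists_f hq (L ∪ Finset.univ.image p) (by
    simpa [or_imp, forall_and] using ⟨hL, fun i => (hv' i).1⟩) g hg r hrS.2 m t0
  have hF := hf.2.map (algebraMap ℤ (𝓞 Qb))
  have hc' : ∀ {a : 𝓞 Qb}, aeval a f = 0 → aeval (a : Qb) f = 0 := fun {a} h =>
    (aeval_algebraMap_apply Qb a f).trans (by rw [h, map_zero])
  obtain ⟨a, ha⟩ := (splits hF).exists_eval_eq_zero (by
    rw [degree_eq_natDegree hF.ne_zero, hf.2.natDegree_map, hf.1]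
    exact_mod_cast pow_ne_zero _ hr.out.ne_zero)
  rw [eval_map_algebraMap] at ha
  refine ⟨a, fun φ => hf1 _ ((aeval_algHom_apply φ.toIntAlgHom _ f).trans
      ((congrArg _ (hc' ha)).trans (map_zero _))),
    fun l hl => ?_, fun i => ?_, fun σ => hrU f hf.2 hf2 _ _ (hc' ha) (hc' (a := σ • a) (by
      rw [aeval_act, ha, smul_zero])), r, t, hr.out, hrS.1, ht, ?_⟩
  · obtain ⟨Q, u, e⟩ := hf3 l (Finset.mem_union_left _ hl)
    have h4 := coprime_g (hg l) (l := l) fun b hb => by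
      obtain ⟨a', ha', σ, rfl⟩ := h2 l b hb
      obtain ⟨i, hi, rfl⟩ := Finset.mem_image.1 ha'
      obtain rfl : p i = l := by simpa using hi
      simpa using (hc i hl).map (MulSemiringAction.toRingHom GQ (𝓞 Qb) σ)
    have h5 := sub_dvd_eval_sub 0 a (f.map (algebraMap ℤ (𝓞 Qb)))
    rw [eval_map_algebraMap, eval_map_algebraMap, ha, zero_sub, sub_zero, neg_dvd] at h5
    refine IsCoprime.of_isCoprime_of_dvd_left ?_ h5
    obtain ⟨m, rfl⟩ := Nat.exists_eq_add_of_le' hm0
    simpa [e, pow_succ', mul_assoc] using h4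
  · obtain ⟨Q, u, e⟩ := hf3 (p i) (Finset.mem_union_right _ (by simp))
    have h4 : ∀ z, w i ((p i : 𝓞 Qb) ^ m * z) < γ i * min ε (γ i) := fun z => by
      rw [map_mul, map_pow]
      exact (mul_le_of_le_one_right (by positivity) (hw1 i z)).trans_lt (hm i)
    have h5 : w i ((derivative (f.map (algebraMap ℤ (𝓞 Qb)))).eval (a0 i)) = γ i := by
      have : aeval (a0 i) (derivative f) = aeval (a0 i) (derivative (g (p i))) +
          (p i : 𝓞 Qb) ^ m * aeval (a0 i) (derivative u) := by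
        simp [e, derivative_mul, derivative_pow, (h3 i).1]
      rw [derivative_map, eval_map_algebraMap, this]
      exact (hw i).add_eq_left_of_lt ((h4 _).trans_le
        (mul_le_of_le_one_right (hγ i).le ((min_le_right _ _).trans (hw1 i _))))
    obtain ⟨b, hb, hb1⟩ := exists_close (hw i) (splits hF) hF (a0 i) (lt_min hε (hγ i)).le (by
      rw [h5, eval_map_algebraMap]
      simpa [e, (h3 i).1] using h4 (aeval (a0 i) u))
    obtain ⟨s, hs, hs1⟩ := hrU f hf.2 hf2 _ _ (hc' ha) (hc' ((eval_map_algebraMap f b).symm.trans hb))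
    rw [lt_min_iff, ← h5] at hb1
    refine ⟨s, hs, hs1 ▸ hb1.1, fun d hd e' => hs1 ▸ ?_⟩
    refine congrArg (algebraMap _ Qb) (close_uniq (hw i) (hw1 i) _ (a := d • b) ?_ hb ?_ hb1.2)
    · rw [eval_map_algebraMap] at hb ⊢
      rw [aeval_act, hb, smul_zero]
    · refine lt_of_eq_of_lt ?_ hb1.2
      change v i (d b - a0 i) = v i (b - a0 i)
      rw [← hd (b - a0 i), map_sub d, e']
  · have h4 : Irreducible (f.map (Int.castRingHom ℚ)) :=
      (hf.2.map _).irreducible_of_irreducible_map (algebraMap ℚ ℚ_[r]) _ (by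
        rwa [Polynomial.map_map, RingHom.ext_int (RingHom.comp _ _) (Int.castRingHom _)])
    rw [← minpoly.eq_of_irreducible_of_monic h4 (by rw [aeval_coe, ha]; rfl) (hf.2.map _),
      hf.2.natDegree_map, hf.1]

end Vale.Agent.P022K.PM
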